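import Crest.Agent.R335.S05

set_option autoImplicit false

open MeasureTheory Set Filter Topology Metric
open scoped Gradient ContDiff RealInnerProductSpace ENNReal

namespace Crest.Agent.R335

noncomputable section

variable {V : Type*} [NormedAddCommGroup V] [InnerProductSpace ℝ V] [FiniteDimensional ℝ V]
  [MeasurableSpace V] [BorelSpace V]

/-! integration by parts, closedness, lower semicontinuity -/
section aux

variable {F : Type*} [NormedAddCommGroup F] [InnerProductSpace ℝ F]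

theorem S06_inner {f g : V → F} (hf : MemLp f 2 volume) (hg : MemLp g 2 volume) :
    ⟪hf.toLp f, hg.toLp g⟫ = ∫ x, ⟪f x, g x⟫ := by
  rw [L2.inner_def]
  refine integral_congr_ae ?_
  filter_upwards [hf.coeFn_toLp, hg.coeFn_toLp] with x h1 h2
  rw [h1, h2]

theorem S06_norm {f : V → F} (hf : MemLp f 2 volume) : ‖hf.toLp f‖ ^ 2 = ∫ x, ‖f x‖ ^ 2 := by
  rw [← real_inner_self_eq_norm_sq, S06_inner]
  simp only [real_inner_self_eq_norm_sq]

theorem S06_norm_sub {f g : V → F} (hf : MemLp f 2 volume) (hg : MemLp g 2 volume) :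
    ‖hf.toLp f - hg.toLp g‖ ^ 2 = ∫ x, ‖f x - g x‖ ^ 2 := by
  rw [← MemLp.toLp_sub, S06_norm]
  rfl

theorem S06_tendsto {f : V → F} {g : ℕ → V → F} (hf : MemLp f 2 volume)
    (hg : ∀ n, MemLp (g n) 2 volume)
    (h : Tendsto (fun n => ∫ x, ‖f x - g n x‖ ^ 2) atTop (𝓝 0)) :
    Tendsto (fun n => (hg n).toLp (g n)) atTop (𝓝 (hf.toLp f)) := by
  rw [tendsto_iff_norm_sub_tendsto_zero]
  have h1 := (Real.continuous_sqrt.tendsto 0).comp h
  rw [Real.sqrt_zero] at h1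
  refine h1.congr fun n => ?_
  rw [Function.comp_apply, ← S06_norm_sub hf (hg n), Real.sqrt_sq (norm_nonneg _), norm_sub_rev]

theorem S06_lim {f X : V → F} {g : ℕ → V → F} (hf : MemLp f 2 volume)
    (hg : ∀ n, MemLp (g n) 2 volume) (hX : MemLp X 2 volume)
    (h : Tendsto (fun n => ∫ x, ‖f x - g n x‖ ^ 2) atTop (𝓝 0)) :
    Tendsto (fun n => ∫ x, ⟪g n x, X x⟫) atTop (𝓝 (∫ x, ⟪f x, X x⟫)) := by
  have h1 := (S06_tendsto hf hg h).inner (𝕜 := ℝ) (tendsto_const_nhds (x := hX.toLp X))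
  rw [S06_inner] at h1
  exact h1.congr fun n => S06_inner _ _

end aux

theorem S06_lim_mul {f X : V → ℝ} {g : ℕ → V → ℝ} (hf : MemLp f 2 volume)
    (hg : ∀ n, MemLp (g n) 2 volume) (hX : MemLp X 2 volume)
    (h : Tendsto (fun n => ∫ x, (f x - g n x) ^ 2) atTop (𝓝 0)) :
    Tendsto (fun n => ∫ x, X x * g n x) atTop (𝓝 (∫ x, X x * f x)) := by
  have h1 := S06_lim hf hg hX (by simpa only [Real.norm_eq_abs, sq_abs] using h)
  exact h1

theorem S06_smul_mem {u : V → ℝ} (hu : MemLp u 2 volume) (v : V) :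
    MemLp (fun x => u x • v) 2 volume :=
  (ContinuousLinearMap.toSpanSingleton ℝ v).comp_memLp' hu

theorem S06_inner_mem {g : V → V} (hg : MemLp g 2 volume) (v : V) :
    MemLp (fun x => ⟪g x, v⟫) 2 volume :=
  hg.inner_const v

theorem S06_tst {φ : V → ℝ} (h1 : ContDiff ℝ ∞ φ) (h2 : HasCompactSupport φ) : Tst φ :=
  ⟨h1.of_le (by simp), h2⟩

theorem S06_grad_mem {φ : V → ℝ} (h : Tst φ) : MemLp (∇ φ) 2 volume :=
  h.h1.dl2.ae_eq (D_c1 h.1)

theorem S06_quarter : Tendsto (fun n : ℕ => (1 / 4 : ℝ) ^ n) atTop (𝓝 0) :=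
  tendsto_pow_atTop_nhds_zero_of_lt_one (by norm_num) (by norm_num)

theorem H1.ibp {u w : V → ℝ} (a : H1 u) (b : H1 w) (v : V) :
    ∫ x, u x * ⟪D w x, v⟫ = -∫ x, ⟪D u x, v⟫ * w x := by
  obtain ⟨φ, h1, h2, h3, -, -⟩ := b.approx_seq
  have ht : ∀ n, Tst (φ n) := fun n => S06_tst (h1 n).1 (h1 n).2
  have h4 := S06_lim b.dl2 (fun n => S06_grad_mem (ht n)) (S06_smul_mem a.l2 v)
    (squeeze_zero (fun n => integral_nonneg fun x => sq_nonneg _) h3 S06_quarter)
  have h5 := (S06_lim_mul b.l2 (fun n => (ht n).h1.l2) (S06_inner_mem a.dl2 v)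
    (squeeze_zero (fun n => integral_nonneg fun x => sq_nonneg _) h2 S06_quarter)).neg
  simp only [real_inner_smul_right] at h4
  exact tendsto_nhds_unique (h4.congr fun n => a.isW.ibp _ (ht n) v) h5
theorem S06_cut {K U : Set V} (hK : IsCompact K) (hU : IsOpen U) (hKU : K ⊆ U) :
    ∃ j : V → ℝ, ContDiff ℝ ∞ j ∧ HasCompactSupport j ∧ tsupport j ⊆ U ∧
      (∀ x, j x ∈ Icc (0 : ℝ) 1) ∧ ∀ x ∈ K, ∀ᶠ y in 𝓝 x, j y = 1 := by
  obtain ⟨L, hL, h1, h2⟩ := exists_compact_between hK hU hKU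
  obtain ⟨f, h3, h4, h5⟩ := exists_contMDiffMap_one_nhds_of_subset_interior (n := ⊤)
    (modelWithCornersSelf ℝ V) hK.isClosed h1
  have h6 : tsupport f ⊆ L :=
    closure_minimal (fun x hx => by_contra fun hn => hx (h4 x hn)) hL.isClosed
  exact ⟨f, f.contMDiff.contDiff, hL.of_isClosed_subset (isClosed_tsupport _) h6, h6.trans h2, h5,
    fun x hx => h3.filter_mono (nhds_le_nhdsSet hx)⟩

theorem S06_core {χ d : V → ℝ} {Y : V → V} {K : Set V} (h : H1 χ) (h0 : ∀ᵐ x, x ∉ K → χ x = 0)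
    {u : Fin (Module.finrank ℝ V) → V → ℝ} (hu : ∀ i, H1 (u i))
    (h1 : ∀ᵐ x, x ∈ K → ∀ i, u i x = ⟪Y x, stdOrthonormalBasis ℝ V i⟫)
    (h2 : ∀ᵐ x, x ∈ K → ∑ i, ⟪D (u i) x, stdOrthonormalBasis ℝ V i⟫ = d x) :
    ∫ x, ⟪Y x, D χ x⟫ = -∫ x, d x * χ x := by
  have e1 : ∫ x, ⟪Y x, D χ x⟫ = ∫ x, ∑ i, u i x * ⟪D χ x, stdOrthonormalBasis ℝ V i⟫ := by
    refine integral_congr_ae ?_
    filter_upwards [CS.D_zero h.hl h0, h1] with x h3 h4
    by_cases hx : x ∈ K
    · rw [← (stdOrthonormalBasis ℝ V).sum_inner_mul_inner]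
      exact Finset.sum_congr rfl fun i _ => by rw [h4 hx i, real_inner_comm (D χ x)]
    · simp only [h3 hx, inner_zero_right, inner_zero_left, mul_zero, Finset.sum_const_zero]
  have e2 : ∫ x, d x * χ x = ∫ x, ∑ i, ⟪D (u i) x, stdOrthonormalBasis ℝ V i⟫ * χ x := by
    refine integral_congr_ae ?_
    filter_upwards [h0, h2] with x h3 h4
    by_cases hx : x ∈ K
    · rw [← h4 hx, Finset.sum_mul]
    · simp only [h3 hx, mul_zero, Finset.sum_const_zero]
  rw [e1, e2, integral_finsetSum, integral_finsetSum, ← Finset.sum_neg_distrib]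
  · exact Finset.sum_congr rfl fun i _ => (hu i).ibp h _
  · exact fun i _ => (S06_inner_mem (hu i).dl2 _).integrable_mul h.l2
  · exact fun i _ => (hu i).l2.integrable_mul (S06_inner_mem h.dl2 _)

theorem S06_grad_inner (f : V → ℝ) (x v : V) : ⟪∇ f x, v⟫ = fderiv ℝ f x v :=
  InnerProductSpace.toDual_symm_apply

theorem S06_dvg {X : V → V} {x : V} (hX : DifferentiableAt ℝ X x) :
    ∑ i, ⟪∇ (fun y => ⟪X y, stdOrthonormalBasis ℝ V i⟫) x, stdOrthonormalBasis ℝ V i⟫ =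
      dvg X x := by
  show _ = LinearMap.trace ℝ V (fderiv ℝ X x : V →ₗ[ℝ] V)
  rw [LinearMap.trace_eq_sum_inner _ (stdOrthonormalBasis ℝ V)]
  refine Finset.sum_congr rfl fun i _ => ?_
  have h1 := (innerSL ℝ (stdOrthonormalBasis ℝ V i)).hasFDerivAt.comp x hX.hasFDerivAt
  have h2 : (fun y => ⟪X y, stdOrthonormalBasis ℝ V i⟫) =
      (innerSL ℝ (stdOrthonormalBasis ℝ V i)) ∘ X := funext fun y => real_inner_comm _ _
  rw [S06_grad_inner, h2, h1.fderiv]
  rfl

theorem S06_mul {χ a : V → ℝ} {X : V → V} {U : Set V} (hU : IsOpen U)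
    (hX : ContDiffOn ℝ 1 X U) (ha : Hl a) (h : H1 χ) (hs : CS χ U) :
    ∫ x, ⟪a x • X x, D χ x⟫ = -∫ x, (a x * dvg X x + ⟪D a x, X x⟫) * χ x := by
  obtain ⟨K, hK, hKU, h0⟩ := hs
  obtain ⟨j, hj, hjc, hjU, -, hj1⟩ := S06_cut hK hU hKU
  have ht : ∀ v : V, Tst fun y => j y * ⟪X y, v⟫ := fun v => by
    refine ⟨contDiff_iff_contDiffAt.2 fun x => ?_, hjc.mul_right⟩
    by_cases hx : x ∈ U
    · exact (hj.of_le (by simp)).contDiffAt.mul
        ((hX.contDiffAt (hU.mem_nhds hx)).inner ℝ contDiffAt_const)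
    · have h1 : (fun y => j y * ⟪X y, v⟫) =ᶠ[𝓝 x] fun _ => 0 := by
        filter_upwards [notMem_tsupport_iff_eventuallyEq.1 fun hm => hx (hjU hm)] with y hy
        rw [hy, Pi.zero_apply, zero_mul]
      exact contDiffAt_const.congr_of_eventuallyEq h1
  refine S06_core h h0 (u := fun i y => (j y * ⟪X y, stdOrthonormalBasis ℝ V i⟫) * a y)
    (fun i => ha.mul_tst (ht _)) (Eventually.of_forall fun x hx i => ?_) ?_
  · rw [(hj1 x hx).self_of_nhds, real_inner_smul_left, one_mul, mul_comm]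
  · filter_upwards [ae_all_iff.2 fun i => D_mul_c1 ha (ht (stdOrthonormalBasis ℝ V i)).1]
      with x h1 hx
    have hd : DifferentiableAt ℝ X x :=
      (hX.contDiffAt (hU.mem_nhds (hKU hx))).differentiableAt (by simp)
    have h2 : ∀ v : V, ∇ (fun y => j y * ⟪X y, v⟫) x = ∇ (fun y => ⟪X y, v⟫) x := fun v => by
      refine EventuallyEq.gradient_eq ?_
      filter_upwards [hj1 x hx] with y hy
      rw [hy, one_mul]
    rw [← S06_dvg hd, Finset.mul_sum, real_inner_comm,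
      ← (stdOrthonormalBasis ℝ V).sum_inner_mul_inner (X x), ← Finset.sum_add_distrib]
    refine Finset.sum_congr rfl fun i _ => ?_
    rw [h1 i, inner_add_left, real_inner_smul_left, real_inner_smul_left, h2,
      (hj1 x hx).self_of_nhds, one_mul, add_comm, real_inner_comm (D a x)]

/-- `C¹` vector fields on an open set containing the support -/
theorem ibp_field {χ : V → ℝ} {X : V → V} {U : Set V} (hU : IsOpen U) (hX : ContDiffOn ℝ 1 X U)
    (h : H1 χ) (hs : CS χ U) : ∫ x, ⟪X x, D χ x⟫ = -∫ x, dvg X x * χ x := by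
  have h1 := S06_mul hU hX (bl_c1 (φ := fun _ => (1 : ℝ)) contDiff_const).hl h hs
  simp only [one_smul, one_mul] at h1
  rw [h1]
  congr 1
  refine integral_congr_ae ?_
  filter_upwards [D_const (V := V) 1] with x hx
  rw [hx, inner_zero_left, add_zero]
theorem ibp_lap {χ q : V → ℝ} {U : Set V} (hU : IsOpen U) (hq : ContDiffOn ℝ 2 q U)
    (h : H1 χ) (hs : CS χ U) : ∫ x, ⟪∇ q x, D χ x⟫ = -∫ x, lap q x * χ x := by
  refine ibp_field hU ?_ h hs
  exact (InnerProductSpace.toDual ℝ V).symm.toContinuousLinearEquiv.contDiff.comp_contDiffOn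
    (hq.fderiv_of_isOpen hU (by norm_num))
/-- Lipschitz vector fields, pointwise a.e. divergence -/
theorem ibp_field_lip {χ : V → ℝ} {X : V → V} (hX : LocallyLipschitz X) (h : H1 χ)
    (hs : CS χ univ) : ∫ x, ⟪X x, D χ x⟫ = -∫ x, dvg X x * χ x := by
  obtain ⟨K, hK, -, h0⟩ := hs
  obtain ⟨j, hj, hjc, -, -, hj1⟩ := S06_cut hK isOpen_univ (subset_univ K)
  have ht : Tst j := S06_tst hj hjc
  have hl : ∀ v : V, LocallyLipschitz fun y => ⟪X y, v⟫ := fun v => by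
    have h2 : (fun y => ⟪X y, v⟫) = (innerSL ℝ v) ∘ X := funext fun y => real_inner_comm _ _
    rw [h2]
    exact (innerSL ℝ v).lipschitz.locallyLipschitz.comp hX
  obtain ⟨L, hL, h3, -⟩ := exists_compact_between hK isOpen_univ (subset_univ K)
  obtain ⟨C, hC⟩ := hX.locallyLipschitzOn.exists_lipschitzOnWith_of_compact hL
  refine S06_core h h0 (u := fun i y => j y * ⟪X y, stdOrthonormalBasis ℝ V i⟫)
    (fun i => (bl_lip (hl _)).1.hl.mul_tst ht) (Eventually.of_forall fun x hx i => ?_) ?_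
  · rw [(hj1 x hx).self_of_nhds, one_mul]
  · filter_upwards [ae_all_iff.2 fun i =>
        D_mul_c1 (bl_lip (hl (stdOrthonormalBasis ℝ V i))).1.hl ht.1,
      ae_all_iff.2 fun i => (bl_lip (hl (stdOrthonormalBasis ℝ V i))).2,
      hC.ae_differentiableWithinAt_of_mem (μ := volume)] with x h1 h2 h4 hx
    have hd : DifferentiableAt ℝ X x :=
      (h4 (interior_subset (h3 hx))).differentiableAt (mem_interior_iff_mem_nhds.1 (h3 hx))
    have h5 : ∇ j x = 0 := by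
      have h6 : j =ᶠ[𝓝 x] fun _ => 1 := hj1 x hx
      rw [h6.gradient_eq, gradient_fun_const]
    rw [← S06_dvg hd]
    refine Finset.sum_congr rfl fun i _ => ?_
    rw [h1 i, h2 i, h5, (hj1 x hx).self_of_nhds, one_smul, smul_zero, add_zero]
/-- `div (a X)` tested: `a ∈ Bl`, `X` of class `C¹` -/
theorem ibp_mul_field {χ a : V → ℝ} {X : V → V} {U : Set V} (hU : IsOpen U)
    (hX : ContDiffOn ℝ 1 X U) (ha : Bl a) (h : TF U χ) :
    ∫ x, a x * ⟪X x, D χ x⟫ = -∫ x, (a x * dvg X x + ⟪D a x, X x⟫) * χ x := by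
  have h1 := S06_mul hU hX ha.hl h.h1 h.cs
  simpa only [real_inner_smul_left] using h1
theorem S06_weak {W ι : Type*} [NormedAddCommGroup W] [InnerProductSpace ℝ W]
    [CompleteSpace W] (x : ι → W) {K : ℝ} (hK : ∀ n, ‖x n‖ ≤ K) (𝒰 : Ultrafilter ι) :
    ∃ z : W, ∀ y, Tendsto (fun n => ⟪x n, y⟫) 𝒰 (𝓝 ⟪z, y⟫) := by
  obtain ⟨ℓ, -, hℓ⟩ := (WeakDual.isCompact_closedBall (𝕜 := ℝ) (E := W) 0 K).ultrafilter_le_nhds
    (𝒰.map fun n => StrongDual.toWeakDual (InnerProductSpace.toDual ℝ W (x n)))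
    (le_principal_iff.2 (mem_map.2 (Eventually.of_forall fun n => by simpa using hK n)))
  refine ⟨(InnerProductSpace.toDual ℝ W).symm (WeakDual.toStrongDual ℓ), fun y => ?_⟩
  rw [InnerProductSpace.toDual_symm_apply]
  exact ((WeakDual.eval_continuous y).tendsto ℓ).comp hℓ

theorem h1_of_limit {u : V → ℝ} {w : ℕ → V → ℝ} {M : ℝ} (hu : MemLp u 2 volume) (hw : ∀ n, H1 (w n))
    (hc : Tendsto (fun n => ∫ x, (u x - w n x) ^ 2) atTop (𝓝 0)) (hM : ∀ n, dir (w n) ≤ M) :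
    H1 u ∧ dir u ≤ M ∧ ∀ X : V → V, MemLp X 2 volume →
      Tendsto (fun n => ∫ x, ⟪D (w n) x, X x⟫) atTop (𝓝 (∫ x, ⟪D u x, X x⟫)) := by
  have := FiniteDimensional.complete ℝ V
  have hb : ∀ n, ‖(hw n).dl2.toLp (D (w n))‖ ≤ √M := fun n =>
    Real.le_sqrt_of_sq_le (by rw [S06_norm]; exact hM n)
  have key : ∀ 𝒰 : Ultrafilter ℕ, (𝒰 : Filter ℕ) ≤ atTop → ∃ z : Lp V 2 (volume : Measure V),
      IsW u z ∧ ∀ y, Tendsto (fun n => ⟪(hw n).dl2.toLp (D (w n)), y⟫) 𝒰 (𝓝 ⟪z, y⟫) := by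
    intro 𝒰 h𝒰
    obtain ⟨z, hz⟩ := S06_weak _ hb 𝒰
    refine ⟨z, ⟨hu.locallyIntegrable (by norm_num), (Lp.memLp z).locallyIntegrable (by norm_num),
      fun φ hφ v => ?_⟩, hz⟩
    have h1 := (S06_lim_mul hu (fun n => (hw n).l2) (S06_inner_mem (S06_grad_mem hφ) v)
      hc).mono_left h𝒰
    have h2 := (hz ((S06_smul_mem hφ.h1.l2 v).toLp _)).neg
    have h3 : ⟪z, (S06_smul_mem hφ.h1.l2 v).toLp _⟫ = ∫ x, ⟪z x, v⟫ * φ x := by
      conv_lhs => rw [← Lp.toLp_coeFn z (Lp.memLp z), S06_inner]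
      simp only [real_inner_smul_right, mul_comm]
    rw [h3] at h2
    have h4 : ∫ x, u x * ⟪∇ φ x, v⟫ = ∫ x, ⟪∇ φ x, v⟫ * u x := by simp only [mul_comm]
    rw [h4]
    refine tendsto_nhds_unique h1 (h2.congr fun n => ?_)
    rw [S06_inner]
    have h5 := (hw n).isW.ibp φ hφ v
    simp only [real_inner_smul_right, mul_comm] at h5 ⊢
    exact h5.symm
  obtain ⟨z, hz, hz'⟩ := key (Filter.hyperfilter ℕ) Nat.hyperfilter_le_atTop
  have hH : H1 u := hz.h1 hu (Lp.memLp z)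
  have hweak : ∀ y, Tendsto (fun n => ⟪(hw n).dl2.toLp (D (w n)), y⟫) atTop
      (𝓝 ⟪hH.dl2.toLp (D u), y⟫) := fun y => by
    refine (tendsto_iff_ultrafilter _ _ _).2 fun 𝒰 h𝒰 => ?_
    obtain ⟨z', h1, h2⟩ := key 𝒰 h𝒰
    have h3 : hH.dl2.toLp (D u) = z' :=
      Lp.ext (hH.dl2.coeFn_toLp.trans h1.D_eq)
    rw [h3]
    exact h2 y
  refine ⟨hH, ?_, fun X hX => ?_⟩
  · have hM0 : 0 ≤ M := le_trans (integral_nonneg fun x => sq_nonneg _) (hM 0)
    have h1 : ⟪hH.dl2.toLp (D u), hH.dl2.toLp (D u)⟫ ≤ √M * ‖hH.dl2.toLp (D u)‖ :=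
      le_of_tendsto' (hweak _) fun n => (real_inner_le_norm _ _).trans
        (mul_le_mul_of_nonneg_right (hb n) (norm_nonneg _))
    rw [real_inner_self_eq_norm_sq] at h1
    show ∫ x, ‖D u x‖ ^ 2 ≤ M
    rw [← S06_norm hH.dl2]
    nlinarith [Real.sq_sqrt hM0, sq_nonneg (√M - ‖hH.dl2.toLp (D u)‖)]
  · have h1 := hweak (hX.toLp X)
    rw [S06_inner] at h1
    exact h1.congr fun n => S06_inner _ _
theorem S06_dir_sub {u w : V → ℝ} (a : H1 u) (b : H1 w) :
    dir (fun x => u x - w x) = ‖a.dl2.toLp (D u) - b.dl2.toLp (D w)‖ ^ 2 := by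
  rw [S06_norm_sub]
  refine integral_congr_ae ?_
  filter_upwards [D_sub a.hl b.hl] with x hx
  rw [hx]

theorem S06_nsq_sub {u w : V → ℝ} (a : MemLp u 2 volume) (b : MemLp w 2 volume) :
    nsq (fun x => u x - w x) = ‖a.toLp u - b.toLp w‖ ^ 2 := by
  rw [S06_norm_sub]
  simp only [Real.norm_eq_abs, sq_abs]
  rfl

theorem S06_cauchy {W : Type*} [NormedAddCommGroup W] {x : ℕ → W}
    (h : ∀ ε > 0, ∃ N, ∀ m ≥ N, ∀ n ≥ N, ‖x m - x n‖ ^ 2 ≤ ε) : CauchySeq x := by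
  refine Metric.cauchySeq_iff.2 fun ε hε => ?_
  obtain ⟨N, hN⟩ := h ((ε / 2) ^ 2) (by positivity)
  refine ⟨N, fun m hm n hn => ?_⟩
  rw [dist_eq_norm]
  exact (le_of_sq_le_sq (hN m hm n hn) (half_pos hε).le).trans_lt (half_lt_self hε)

theorem S06_sq_tendsto {W : Type*} [NormedAddCommGroup W] {x : ℕ → W} {z : W}
    (h : Tendsto x atTop (𝓝 z)) : Tendsto (fun n => ‖z - x n‖ ^ 2) atTop (𝓝 0) := by
  have h1 := ((tendsto_const_nhds (x := z)).sub h).norm.pow 2
  simpa using h1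

theorem h1_of_cauchy {w : ℕ → V → ℝ} (hw : ∀ n, H1 (w n))
    (hc : ∀ ε > 0, ∃ N, ∀ m ≥ N, ∀ n ≥ N,
      nsq (fun x => w m x - w n x) + dir (fun x => w m x - w n x) ≤ ε) :
    ∃ u, H1 u ∧ Tendsto (fun n => nsq (fun x => u x - w n x) + dir (fun x => u x - w n x))
      atTop (𝓝 0) := by
  have := FiniteDimensional.complete ℝ V
  have c1 : CauchySeq fun n => (hw n).l2.toLp (w n) := S06_cauchy fun ε hε => by
    obtain ⟨N, hN⟩ := hc ε hε
    refine ⟨N, fun m hm n hn => ?_⟩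
    have h1 := hN m hm n hn
    rw [S06_nsq_sub (hw m).l2 (hw n).l2, S06_dir_sub (hw m) (hw n)] at h1
    nlinarith [sq_nonneg ‖(hw m).dl2.toLp (D (w m)) - (hw n).dl2.toLp (D (w n))‖]
  have c2 : CauchySeq fun n => (hw n).dl2.toLp (D (w n)) := S06_cauchy fun ε hε => by
    obtain ⟨N, hN⟩ := hc ε hε
    refine ⟨N, fun m hm n hn => ?_⟩
    have h1 := hN m hm n hn
    rw [S06_nsq_sub (hw m).l2 (hw n).l2, S06_dir_sub (hw m) (hw n)] at h1
    nlinarith [sq_nonneg ‖(hw m).l2.toLp (w m) - (hw n).l2.toLp (w n)‖]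
  obtain ⟨u, hu⟩ := cauchySeq_tendsto_of_complete c1
  obtain ⟨G, hG⟩ := cauchySeq_tendsto_of_complete c2
  obtain ⟨M, hM⟩ := (hG.norm.pow 2).bddAbove_range
  have h1 : Tendsto (fun n => nsq fun x => u x - w n x) atTop (𝓝 0) :=
    (S06_sq_tendsto hu).congr fun n => by
      rw [S06_nsq_sub (Lp.memLp u) (hw n).l2, Lp.toLp_coeFn]
  obtain ⟨hH, -, hweak⟩ := h1_of_limit (M := M) (Lp.memLp u) hw h1 fun n => by
    show ∫ x, ‖D (w n) x‖ ^ 2 ≤ M
    rw [← S06_norm (hw n).dl2]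
    exact hM (mem_range_self n)
  have h2 : hH.dl2.toLp (D u) = G := by
    refine ext_inner_right ℝ fun y => ?_
    have h3 := hG.inner (𝕜 := ℝ) (tendsto_const_nhds (x := y))
    have h4 := hweak y (Lp.memLp y)
    rw [← S06_inner hH.dl2 (Lp.memLp y), Lp.toLp_coeFn] at h4
    refine tendsto_nhds_unique (h4.congr fun n => ?_) h3
    rw [← S06_inner (hw n).dl2 (Lp.memLp y), Lp.toLp_coeFn]
  refine ⟨u, hH, ?_⟩
  have h5 : Tendsto (fun n => dir fun x => u x - w n x) atTop (𝓝 0) :=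
    (S06_sq_tendsto hG).congr fun n => by rw [S06_dir_sub hH (hw n), h2]
  simpa using h1.add h5
theorem S06_compact {f : V → ℝ} {U : Set V} (hU : IsOpen U)
    (hf : ∀ K, IsCompact K → K ⊆ U → IntegrableOn f K volume)
    (h : ∀ χ, Tst χ → tsupport χ ⊆ U → (∀ x, 0 ≤ χ x) → 0 ≤ ∫ x, f x * χ x)
    {s : Set V} (hs : IsCompact s) (hsU : s ⊆ U) : 0 ≤ ∫ x in s, f x := by
  obtain ⟨K, hK, h1, h2⟩ := exists_compact_between hs hU hsU
  have h3 : ∀ n : ℕ, ∃ j : V → ℝ, ContDiff ℝ ∞ j ∧ HasCompactSupport j ∧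
      tsupport j ⊆ interior K ∩ thickening (1 / ((n : ℝ) + 1)) s ∧
      (∀ x, j x ∈ Icc (0 : ℝ) 1) ∧ ∀ x ∈ s, ∀ᶠ y in 𝓝 x, j y = 1 := fun n =>
    S06_cut hs (isOpen_interior.inter isOpen_thickening)
      (subset_inter h1 (self_subset_thickening Nat.one_div_pos_of_nat s))
  choose g g1 g2 g3 g4 g5 using h3
  have hz : ∀ n x, x ∉ K → g n x = 0 := fun n x hx =>
    image_eq_zero_of_notMem_tsupport fun hm => hx (interior_subset (g3 n hm).1)
  have hi := hf K hK h2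
  have L : Tendsto (fun n => ∫ x in K, f x * g n x) atTop (𝓝 (∫ x in K, s.indicator f x)) := by
    refine tendsto_integral_of_dominated_convergence (fun x => ‖f x‖)
      (fun n => hi.1.mul (g1 n).continuous.aestronglyMeasurable) hi.norm
      (fun n => Eventually.of_forall fun x => ?_) (Eventually.of_forall fun x => ?_)
    · rw [norm_mul]
      refine mul_le_of_le_one_right (norm_nonneg _) ?_
      rw [Real.norm_of_nonneg (g4 n x).1]
      exact (g4 n x).2
    · by_cases hx : x ∈ s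
      · rw [indicator_of_mem hx]
        exact tendsto_const_nhds.congr fun n => by rw [(g5 n x hx).self_of_nhds, mul_one]
      · rw [indicator_of_notMem hx]
        obtain ⟨ε, εpos, hε⟩ : ∃ ε, 0 < ε ∧ x ∉ thickening ε s := by
          rw [← hs.isClosed.closure_eq, closure_eq_iInter_thickening s] at hx
          simpa using hx
        refine tendsto_const_nhds.congr' ?_
        filter_upwards [(tendsto_order.1 tendsto_one_div_add_atTop_nhds_zero_nat).2 _ εpos]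
          with n hn
        rw [image_eq_zero_of_notMem_tsupport
          fun hm => hε (thickening_mono hn.le s (g3 n hm).2), mul_zero]
  rw [integral_indicator hs.measurableSet, Measure.restrict_restrict hs.measurableSet,
    inter_eq_left.2 (h1.trans interior_subset)] at L
  refine ge_of_tendsto' L fun n => ?_
  rw [setIntegral_eq_integral_of_forall_compl_eq_zero fun x hx => by rw [hz n x hx, mul_zero]]
  exact h _ (S06_tst (g1 n) (g2 n)) (fun x hx => h2 (interior_subset (g3 n hx).1))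
    fun x => (g4 n x).1

theorem S06_ae {f : V → ℝ} {K : Set V} (hK : IsCompact K) (hf : IntegrableOn f K volume)
    (h : ∀ s, IsCompact s → s ⊆ K → 0 ≤ ∫ x in s, f x) : ∀ᵐ x, x ∈ K → 0 ≤ f x := by
  have hm := hf.1.stronglyMeasurable_mk.measurable
  have he : ∀ᵐ x, x ∈ K → f x = hf.1.mk f x := (ae_restrict_iff' hK.measurableSet).1 hf.1.ae_eq_mk
  have hN : MeasurableSet (K ∩ {x | hf.1.mk f x < 0}) :=
    hK.measurableSet.inter (measurableSet_lt hm measurable_const)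
  have h0 : volume (K ∩ {x | hf.1.mk f x < 0}) = 0 := by
    by_contra hn
    obtain ⟨s, hs1, hs2, hs3⟩ := hN.exists_lt_isCompact_of_ne_top
      ((measure_mono inter_subset_left).trans_lt hK.measure_lt_top).ne (pos_iff_ne_zero.2 hn)
    have hsK : s ⊆ K := hs1.trans inter_subset_left
    have h1 : ∀ᵐ x ∂volume.restrict s, f x < 0 := by
      refine (ae_restrict_iff' hs2.measurableSet).2 ?_
      filter_upwards [he] with x hx hxs
      rw [hx (hsK hxs)]
      exact (hs1 hxs).2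
    have h2 : ∫ x in s, -f x = 0 := by
      refine le_antisymm ?_ (integral_nonneg_of_ae (h1.mono fun x hx => neg_nonneg.2 hx.le))
      rw [integral_neg]
      exact neg_nonpos.2 (h s hs2 hsK)
    rw [integral_eq_zero_iff_of_nonneg_ae (h1.mono fun x hx => neg_nonneg.2 hx.le)
      (hf.mono_set hsK).neg] at h2
    have h3 : ∀ᵐ x ∂volume.restrict s, False := by
      filter_upwards [h1, h2] with x hx hy
      exact hx.ne (neg_eq_zero.1 hy)
    rw [eventually_false_iff_eq_bot, ae_eq_bot, Measure.restrict_eq_zero] at h3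
    exact hs3.ne' h3
  filter_upwards [he, measure_eq_zero_iff_ae_notMem.1 h0] with x h1 h2 hx
  rw [h1 hx]
  exact not_lt.1 fun hl => h2 ⟨hx, hl⟩

/-- an inequality between test integrals is an a.e. inequality -/
theorem ae_le_of_tests {A B : V → ℝ} {U : Set V} (hU : IsOpen U)
    (hA : ∀ K, IsCompact K → K ⊆ U → IntegrableOn A K volume)
    (hB : ∀ K, IsCompact K → K ⊆ U → IntegrableOn B K volume)
    (h : ∀ χ, Tst χ → tsupport χ ⊆ U → (∀ x, 0 ≤ χ x) → ∫ x, A x * χ x ≤ ∫ x, B x * χ x) :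
    ∀ᵐ x, x ∈ U → A x ≤ B x := by
  have hf : ∀ K, IsCompact K → K ⊆ U → IntegrableOn (fun x => B x - A x) K volume :=
    fun K hK hKU => (hB K hK hKU).sub (hA K hK hKU)
  have hi : ∀ {C χ : V → ℝ}, (∀ K, IsCompact K → K ⊆ U → IntegrableOn C K volume) → Tst χ →
      tsupport χ ⊆ U → Integrable (fun x => C x * χ x) volume := fun {C χ} hC ht hs => by
    refine (integrableOn_iff_integrable_of_support_subset (f := fun x => C x * χ x)
      (s := tsupport χ) fun x hx => subset_tsupport _ (right_ne_zero_of_mul hx)).1 ?_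
    exact (hC _ ht.2 hs).mul_continuousOn ht.1.continuous.continuousOn ht.2
  have h1 : ∀ χ, Tst χ → tsupport χ ⊆ U → (∀ x, 0 ≤ χ x) → 0 ≤ ∫ x, (B x - A x) * χ x := by
    intro χ ht hs h0
    simp only [sub_mul]
    rw [integral_sub (hi hB ht hs) (hi hA ht hs)]
    exact sub_nonneg.2 (h χ ht hs h0)
  have h2 : volume {x | x ∈ U ∧ B x < A x} = 0 := by
    refine measure_null_of_locally_null _ fun x hx => ?_
    obtain ⟨K, hK, h3, h4⟩ := exists_compact_between isCompact_singleton hU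
      (singleton_subset_iff.2 hx.1)
    refine ⟨{x | x ∈ U ∧ B x < A x} ∩ K,
      inter_mem_nhdsWithin _ (mem_interior_iff_mem_nhds.1 (h3 rfl)), ?_⟩
    refine measure_eq_zero_iff_ae_notMem.2 ?_
    filter_upwards [S06_ae hK (hf K hK h4) fun s hs hsK =>
      S06_compact hU hf h1 hs (hsK.trans h4)] with y hy hm
    exact absurd (sub_nonneg.1 (hy hm.2)) (not_le.2 hm.1.2)
  filter_upwards [measure_eq_zero_iff_ae_notMem.1 h2] with x hx hxU
  exact not_lt.1 fun hl => hx ⟨hxU, hl⟩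

end

end Crest.Agent.R335
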