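import Crest.Agent.R335.BDefs
import Crest.Agent.R335.S06

set_option autoImplicit false
set_option linter.unusedSectionVars false

open MeasureTheory Set Filter Topology Metric
open scoped Gradient ContDiff RealInnerProductSpace ENNReal

namespace Crest.Agent.R335

noncomputable section

open Crest.MathPhysics.ThreeBody

namespace B1a

open scoped SchwartzMap FourierTransform LineDeriv

variable {V : Type*} [NormedAddCommGroup V] [InnerProductSpace ℝ V] [FiniteDimensional ℝ V]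
  [MeasurableSpace V] [BorelSpace V]

theorem cd (φ : 𝓢(V, ℂ)) (L : ℂ →L[ℝ] ℝ) : ContDiff ℝ 1 (fun x => L (φ x)) :=
  L.contDiff.comp (φ.smooth 1)

theorem fd (φ : 𝓢(V, ℂ)) (L : ℂ →L[ℝ] ℝ) (x : V) :
    fderiv ℝ (fun x => L (φ x)) x = L.comp (fderiv ℝ φ x) :=
  (L.hasFDerivAt.comp x φ.differentiableAt.hasFDerivAt).fderiv

theorem h1_schwartz (φ : 𝓢(V, ℂ)) (L : ℂ →L[ℝ] ℝ) : H1 (fun x => L (φ x)) := by
  refine (isW_c1 (cd φ L)).h1 (L.comp_memLp' (φ.memLp 2 volume)) ?_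
  have h0 : MemLp (fun x => ‖L‖ * ‖SchwartzMap.fderivCLM ℝ V ℂ φ x‖) 2 volume :=
    ((SchwartzMap.fderivCLM ℝ V ℂ φ).memLp 2 volume).norm.const_mul _
  refine h0.mono' (s01_cont_grad (cd φ L)).aestronglyMeasurable (Eventually.of_forall fun x => ?_)
  have : ‖∇ (fun x => L (φ x)) x‖ = ‖fderiv ℝ (fun x => L (φ x)) x‖ := by
    unfold gradient
    exact LinearIsometryEquiv.norm_map _ _
  rw [this, fd]
  exact ContinuousLinearMap.opNorm_comp_le _ _

theorem ibp_part {u : V → ℝ} (hu : H1 u) (φ : 𝓢(V, ℂ)) (L : ℂ →L[ℝ] ℝ) (v : V) :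
    ∫ x, u x * L ((∂_{v} φ) x) = -∫ x, ⟪D u x, v⟫ * L (φ x) := by
  rw [← hu.ibp (h1_schwartz φ L) v]
  refine integral_congr_ae ?_
  filter_upwards [D_c1 (cd φ L)] with x hx
  rw [hx, S06_grad_inner, fd, SchwartzMap.lineDerivOp_apply_eq_fderiv]
  rfl

theorem int_mul {u : V → ℝ} (hu : MemLp u 2 volume) (φ : 𝓢(V, ℂ)) :
    Integrable (fun x => (u x : ℂ) * φ x) volume :=
  (Complex.ofRealCLM.comp_memLp' hu).integrable_mul (φ.memLp 2 volume)

theorem ibp_cx {u : V → ℝ} (hu : H1 u) (φ : 𝓢(V, ℂ)) (v : V) :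
    ∫ x, (u x : ℂ) * (∂_{v} φ) x = -∫ x, ((⟪D u x, v⟫ : ℝ) : ℂ) * φ x := by
  have i1 := int_mul hu.l2 (∂_{v} φ)
  have i2 := int_mul (S06_inner_mem hu.dl2 v) φ
  have key : ∀ L : ℂ →L[ℝ] ℝ, L (∫ x, (u x : ℂ) * (∂_{v} φ) x) =
      L (-∫ x, ((⟪D u x, v⟫ : ℝ) : ℂ) * φ x) := by
    intro L
    have hL : ∀ (a : ℝ) (z : ℂ), L ((a : ℂ) * z) = a * L z := by
      intro a z
      rw [← Complex.real_smul, map_smul, smul_eq_mul]
    rw [map_neg, ← L.integral_comp_comm i1, ← L.integral_comp_comm i2]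
    simp only [hL]
    exact ibp_part hu φ L v
  exact Complex.ext (key Complex.reCLM) (key Complex.imCLM)

/-- the complex function with given real and imaginary parts -/
def cx (a b : V → ℝ) (x : V) : ℂ := (a x : ℂ) + Complex.I * (b x : ℂ)

theorem cx_mem {a b : V → ℝ} (ha : MemLp a 2 volume) (hb : MemLp b 2 volume) :
    MemLp (cx a b) 2 volume :=
  (Complex.ofRealCLM.comp_memLp' ha).add ((Complex.ofRealCLM.comp_memLp' hb).const_mul Complex.I)

theorem inner_toLp {g : V → ℂ} (hg : MemLp g 2 volume) (φ : 𝓢(V, ℂ)) :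
    inner ℂ (hg.toLp g) (φ.toLp 2 volume) = ∫ x, (starRingEnd ℂ) (g x) * φ x := by
  rw [L2.inner_def]
  refine integral_congr_ae ?_
  filter_upwards [hg.coeFn_toLp, φ.coeFn_toLp 2 volume] with x h1 h2
  rw [h1, h2, RCLike.inner_apply, mul_comm]

theorem inner_cx {a b : V → ℝ} (ha : MemLp a 2 volume) (hb : MemLp b 2 volume) (φ : 𝓢(V, ℂ)) :
    inner ℂ ((cx_mem ha hb).toLp (cx a b)) (φ.toLp 2 volume) =
      (∫ x, (a x : ℂ) * φ x) - Complex.I * ∫ x, (b x : ℂ) * φ x := by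
  rw [inner_toLp, ← integral_const_mul, ← integral_sub (int_mul ha φ) ((int_mul hb φ).const_mul _)]
  refine integral_congr_ae (Eventually.of_forall fun x => ?_)
  simp only [cx, map_add, map_mul, Complex.conj_ofReal, Complex.conj_I]
  ring

theorem weak {a b : V → ℝ} (ha : H1 a) (hb : H1 b) (v : V) (φ : 𝓢(V, ℂ)) :
    inner ℂ ((cx_mem (S06_inner_mem ha.dl2 v) (S06_inner_mem hb.dl2 v)).toLp _)
        (φ.toLp 2 volume) =
      -inner ℂ ((cx_mem ha.l2 hb.l2).toLp _) ((∂_{v} φ).toLp 2 volume) := by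
  rw [inner_cx (S06_inner_mem ha.dl2 v) (S06_inner_mem hb.dl2 v), inner_cx ha.l2 hb.l2,
    ibp_cx ha, ibp_cx hb]
  ring

theorem inner_Lp (X : Lp ℂ 2 (volume : Measure V)) (φ : 𝓢(V, ℂ)) :
    inner ℂ X (φ.toLp 2 volume) = ∫ x, (starRingEnd ℂ) (X x) * φ x := by
  rw [← inner_toLp (Lp.memLp X) φ, Lp.toLp_coeFn]

theorem li_conj (X : Lp ℂ 2 (volume : Measure V)) :
    LocallyIntegrable (fun x => (starRingEnd ℂ) (X x)) volume :=
  (Complex.conjCLE.toContinuousLinearMap.comp_memLp' (Lp.memLp X)).locallyIntegrable (by norm_num)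

theorem mult {F G : Lp ℂ 2 (volume : Measure V)} {v : V}
    (h : ∀ φ : 𝓢(V, ℂ), inner ℂ G (φ.toLp 2 volume) = -inner ℂ F ((∂_{v} φ).toLp 2 volume)) :
    ∀ᵐ ξ, ‖(𝓕 G : Lp ℂ 2 (volume : Measure V)) ξ‖ ^ 2 =
      (2 * Real.pi) ^ 2 * ⟪ξ, v⟫ ^ 2 * ‖(𝓕 F : Lp ℂ 2 (volume : Measure V)) ξ‖ ^ 2 := by
  have hc : Continuous fun ξ : V => -((2 * Real.pi * Complex.I) * ((⟪ξ, v⟫ : ℝ) : ℂ)) := by
    fun_prop
  have := ae_eq_of_integral_contDiff_smul_eq (li_conj (𝓕 G : Lp ℂ 2 (volume : Measure V)))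
    ((li_conj (𝓕 F : Lp ℂ 2 (volume : Measure V))).mul_continuous hc) ?_
  · filter_upwards [this] with ξ hξ
    have h2 := congrArg (fun z : ℂ => ‖z‖ ^ 2) hξ
    simp only [RCLike.norm_conj, norm_mul, norm_neg, Complex.norm_I, Complex.norm_real,
      Complex.norm_ofNat, Real.norm_eq_abs, mul_pow, sq_abs] at h2
    rw [h2]
    ring
  intro g hg hgs
  have hs : HasCompactSupport (fun x => (g x : ℂ)) := hgs.comp_left (g := fun t : ℝ => (t : ℂ)) rfl
  have hd : ContDiff ℝ ∞ (fun x => (g x : ℂ)) := Complex.ofRealCLM.contDiff.comp hg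
  set Ψ : 𝓢(V, ℂ) := hs.toSchwartzMap hd with hΨ
  have hΨx : ∀ x, Ψ x = (g x : ℂ) := fun x => rfl
  have ht : (fun ξ : V => (⟪ξ, v⟫ : ℝ)).HasTemperateGrowth := ((innerSL ℝ).flip v).hasTemperateGrowth
  have e := h (𝓕⁻ Ψ)
  rw [← Lp.inner_fourier_eq G, ← Lp.inner_fourier_eq F, SchwartzMap.toLp_fourier_eq,
    SchwartzMap.toLp_fourier_eq, SchwartzMap.fourier_lineDerivOp_eq,
    FourierTransform.fourier_fourierInv_eq, inner_Lp, inner_Lp, ← integral_neg] at e
  convert e using 2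
  · ext x
    rw [hΨx, Complex.real_smul, mul_comm]
  · ext x
    rw [SchwartzMap.smul_apply, SchwartzMap.smulLeftCLM_apply_apply ht, hΨx]
    simp only [Complex.real_smul, smul_eq_mul]
    ring

theorem lint (X : Lp ℂ 2 (volume : Measure V)) :
    ∫⁻ ξ, ENNReal.ofReal (‖X ξ‖ ^ 2) = ENNReal.ofReal (‖X‖ ^ 2) := by
  have h1 := S06_norm (Lp.memLp X)
  rw [Lp.toLp_coeFn] at h1
  rw [h1, ofReal_integral_eq_lintegral_ofReal]
  · exact (memLp_two_iff_integrable_sq_norm (Lp.aestronglyMeasurable X)).1 (Lp.memLp X)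
  · exact Eventually.of_forall fun x => by positivity

theorem cx_norm {a b : V → ℝ} (ha : MemLp a 2 volume) (hb : MemLp b 2 volume) :
    ‖(cx_mem ha hb).toLp (cx a b)‖ ^ 2 = (∫ x, a x ^ 2) + ∫ x, b x ^ 2 := by
  rw [S06_norm, ← integral_add ha.integrable_sq hb.integrable_sq]
  refine integral_congr_ae (Eventually.of_forall fun x => ?_)
  simp only [cx]
  rw [Complex.sq_norm, Complex.normSq_apply]
  simp
  ring

theorem dir_sum {a : V → ℝ} (ha : H1 a) :
    ∑ i, ∫ x, ⟪D a x, stdOrthonormalBasis ℝ V i⟫ ^ 2 = dir a := by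
  rw [dir, ← integral_finsetSum _ fun i _ => (S06_inner_mem ha.dl2 _).integrable_sq]
  refine integral_congr_ae (Eventually.of_forall fun x => ?_)
  exact (stdOrthonormalBasis ℝ V).sum_sq_inner_left _

theorem main {a b : V → ℝ} (ha : H1 a) (hb : H1 b) :
    ∫⁻ ξ, ENNReal.ofReal ((2 * Real.pi * ‖ξ‖) ^ 2) *
      ‖(𝓕 ((cx_mem ha.l2 hb.l2).toLp (cx a b)) : Lp ℂ 2 (volume : Measure V)) ξ‖ₑ ^ 2 =
      ENNReal.ofReal (dir a + dir b) := by
  set e := stdOrthonormalBasis ℝ V with he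
  set F := (cx_mem ha.l2 hb.l2).toLp (cx a b) with hF
  set G := fun i => (cx_mem (S06_inner_mem ha.dl2 (e i)) (S06_inner_mem hb.dl2 (e i))).toLp _
    with hG
  have hm : ∀ᵐ ξ, ∀ i, ‖(𝓕 (G i) : Lp ℂ 2 (volume : Measure V)) ξ‖ ^ 2 =
      (2 * Real.pi) ^ 2 * ⟪ξ, e i⟫ ^ 2 * ‖(𝓕 F : Lp ℂ 2 (volume : Measure V)) ξ‖ ^ 2 :=
    ae_all_iff.2 fun i => mult (weak ha hb (e i))
  calc _ = ∫⁻ ξ, ∑ i, ENNReal.ofReal (‖(𝓕 (G i) : Lp ℂ 2 (volume : Measure V)) ξ‖ ^ 2) := by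
        refine lintegral_congr_ae ?_
        filter_upwards [hm] with ξ hξ
        rw [← ENNReal.ofReal_sum_of_nonneg fun i _ => by positivity, ← ofReal_norm,
          ← ENNReal.ofReal_pow (norm_nonneg _), ← ENNReal.ofReal_mul (by positivity)]
        congr 1
        simp only [hξ]
        rw [← Finset.sum_mul, ← Finset.mul_sum, e.sum_sq_inner_left]
        ring
    _ = ∑ i, ENNReal.ofReal (‖G i‖ ^ 2) := by
        rw [lintegral_finsetSum']
        · refine Finset.sum_congr rfl fun i _ => ?_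
          rw [lint, Lp.norm_fourier_eq]
        · intro i _
          exact ((Lp.aestronglyMeasurable _).norm.aemeasurable.pow_const 2).ennreal_ofReal
    _ = _ := by
        rw [← ENNReal.ofReal_sum_of_nonneg fun i _ => by positivity]
        congr 1
        rw [← dir_sum ha, ← dir_sum hb, ← Finset.sum_add_distrib]
        exact Finset.sum_congr rfl fun i _ =>
          cx_norm (S06_inner_mem ha.dl2 (e i)) (S06_inner_mem hb.dl2 (e i))

end B1a

/-- the Fourier-side kinetic energy of an `H¹` amplitude -/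
theorem kin_eq {f : Config3 → ℂ} (h1 : H1 fun x => (f x).re) (h2 : H1 fun x => (f x).im) :
    kineticOne f =
      ENNReal.ofReal ((1 / 2) * dir (fun x => (f x).re) + (1 / 2) * dir (fun x => (f x).im)) := by
  have hf : B1a.cx (fun x => (f x).re) (fun x => (f x).im) = f := by
    funext x
    simp only [B1a.cx]
    rw [mul_comm]
    exact Complex.re_add_im _
  have hm : MemLp f 2 volume := hf ▸ B1a.cx_mem h1.l2 h2.l2
  have key := B1a.main h1 h2
  have e : (B1a.cx_mem h1.l2 h2.l2).toLp _ = hm.toLp f := by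
    congr 1
  rw [e] at key
  rw [kineticOne, dif_pos hm, key, ← mul_add, ENNReal.ofReal_mul (by norm_num)]
  congr 1
  rw [ENNReal.ofReal_div_of_pos (by norm_num)]
  simp

end

end Crest.Agent.R335
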