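import Crest.Agent.R335.BDefs

set_option autoImplicit false

open MeasureTheory Set Filter Topology Metric
open scoped Gradient ContDiff RealInnerProductSpace ENNReal

namespace Crest.Agent.R335

noncomputable section

open Crest.MathPhysics.ThreeBody

namespace B1b

open FourierTransform SchwartzMap LineDeriv

variable {V : Type*} [NormedAddCommGroup V] [InnerProductSpace ℝ V] [FiniteDimensional ℝ V]
  [MeasurableSpace V] [BorelSpace V]

/-- the Fourier multiplier of the derivative in direction `m` -/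
def mult (F : V → ℂ) (m : V) (ξ : V) : ℂ := (2 * Real.pi * Complex.I) * ((⟪ξ, m⟫ : ℝ) : ℂ) * F ξ

theorem key (f : Lp ℂ 2 (volume : Measure V)) (m : V)
    (hG : MemLp (mult (𝓕 f : Lp ℂ 2 (volume : Measure V)) m) 2 volume) (ψ : 𝓢(V, ℂ)) :
    inner ℂ ((∂_{m} ψ).toLp 2 volume) f =
      -inner ℂ (ψ.toLp 2 volume) (𝓕⁻ (hG.toLp _) : Lp ℂ 2 (volume : Measure V)) := by
  have e1 : inner ℂ ((∂_{m} ψ).toLp 2 volume) f =
      inner ℂ ((𝓕 (∂_{m} ψ)).toLp 2 volume) (𝓕 f : Lp ℂ 2 (volume : Measure V)) := by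
    rw [← SchwartzMap.toLp_fourier_eq, Lp.inner_fourier_eq]
  have e2 : inner ℂ (ψ.toLp 2 volume) (𝓕⁻ (hG.toLp _) : Lp ℂ 2 (volume : Measure V)) =
      inner ℂ ((𝓕 ψ).toLp 2 volume) (hG.toLp _) := by
    rw [← SchwartzMap.toLp_fourier_eq, ← Lp.inner_fourier_eq, fourier_fourierInv_eq]
  rw [e1, e2, L2.inner_def, L2.inner_def, ← integral_neg]
  apply integral_congr_ae
  filter_upwards [(𝓕 (∂_{m} ψ)).coeFn_toLp 2 volume, (𝓕 ψ).coeFn_toLp 2 volume, hG.coeFn_toLp]
    with ξ h1 h2 h3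
  rw [h1, h2, h3, fourier_lineDerivOp_eq]
  have ht : (inner ℝ · m : V → ℝ).HasTemperateGrowth := ((innerSL ℝ).flip m).hasTemperateGrowth
  simp only [_root_.smul_apply, smulLeftCLM_apply_apply ht, mult, RCLike.inner_apply,
    smul_eq_mul, Complex.real_smul, map_mul, Complex.conj_ofReal, Complex.conj_I, map_ofNat]
  ring

theorem key2 (f : Lp ℂ 2 (volume : Measure V)) (m : V)
    (hG : MemLp (mult (𝓕 f : Lp ℂ 2 (volume : Measure V)) m) 2 volume) {φ : V → ℝ}
    (h1 : ContDiff ℝ ∞ φ) (h2 : HasCompactSupport φ) :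
    ∫ x, (fderiv ℝ φ x m) • f x =
      -∫ x, φ x • (𝓕⁻ (hG.toLp _) : Lp ℂ 2 (volume : Measure V)) x := by
  have c1 : ContDiff ℝ ∞ (fun x => (φ x : ℂ)) := Complex.ofRealCLM.contDiff.comp h1
  have c2 : HasCompactSupport (fun x => (φ x : ℂ)) :=
    h2.comp_left (g := fun t : ℝ => (t : ℂ)) (by simp)
  have k := key f m hG (c2.toSchwartzMap c1)
  rw [L2.inner_def, L2.inner_def] at k
  convert k using 1
  · apply integral_congr_ae
    filter_upwards [(∂_{m} (c2.toSchwartzMap c1)).coeFn_toLp 2 volume] with x hx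
    rw [hx, lineDerivOp_apply_eq_fderiv]
    have hd : HasFDerivAt (fun x => (φ x : ℂ)) (Complex.ofRealCLM.comp (fderiv ℝ φ x)) x :=
      Complex.ofRealCLM.hasFDerivAt.comp x ((h1.differentiable (by simp)) x).hasFDerivAt
    have : fderiv ℝ (c2.toSchwartzMap c1) x = Complex.ofRealCLM.comp (fderiv ℝ φ x) := hd.fderiv
    rw [this]
    simp [mul_comm]
  · congr 1
    apply integral_congr_ae
    filter_upwards [(c2.toSchwartzMap c1).coeFn_toLp 2 volume] with x hx
    rw [hx]
    have : (c2.toSchwartzMap c1) x = (φ x : ℂ) := rfl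
    rw [this]
    simp [mul_comm]

theorem key3 (f : Lp ℂ 2 (volume : Measure V)) (m : V)
    (hG : MemLp (mult (𝓕 f : Lp ℂ 2 (volume : Measure V)) m) 2 volume) {φ : V → ℝ}
    (h1 : ContDiff ℝ ∞ φ) (h2 : HasCompactSupport φ) (L : ℂ →L[ℝ] ℝ) :
    ∫ x, L (f x) * fderiv ℝ φ x m =
      -∫ x, L ((𝓕⁻ (hG.toLp _) : Lp ℂ 2 (volume : Measure V)) x) * φ x := by
  have k := congrArg L (key2 f m hG h1 h2)
  have i1 : Integrable (fun x => (fderiv ℝ φ x m) • f x) volume := by
    apply LocallyIntegrable.integrable_smul_left_of_hasCompactSupport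
    · exact (Lp.memLp f).locallyIntegrable (by norm_num)
    · exact ((h1.continuous_fderiv (by simp)).clm_apply continuous_const)
    · exact h2.fderiv_apply ℝ m
  have i2 : Integrable
      (fun x => φ x • (𝓕⁻ (hG.toLp _) : Lp ℂ 2 (volume : Measure V)) x) volume := by
    apply LocallyIntegrable.integrable_smul_left_of_hasCompactSupport
    · exact (Lp.memLp _).locallyIntegrable (by norm_num)
    · exact h1.continuous
    · exact h2
  rw [map_neg, ← L.integral_comp_comm i1, ← L.integral_comp_comm i2] at k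
  simp only [map_smul, smul_eq_mul] at k
  simpa only [mul_comm] using k

theorem mem_mult {F : V → ℂ} (hF : AEStronglyMeasurable F volume)
    (h : ∫⁻ ξ, ENNReal.ofReal ((2 * Real.pi * ‖ξ‖) ^ 2) * ‖F ξ‖ₑ ^ 2 < ⊤) {m : V} (hm : ‖m‖ = 1) :
    MemLp (mult F m) 2 volume := by
  have hm' : AEStronglyMeasurable (mult F m) volume := by
    unfold mult
    apply AEStronglyMeasurable.mul _ hF
    apply Continuous.aestronglyMeasurable
    fun_prop
  refine ⟨hm', ?_⟩
  rw [eLpNorm_lt_top_iff_lintegral_rpow_enorm_lt_top (by norm_num) (by norm_num)]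
  refine lt_of_le_of_lt (lintegral_mono fun ξ => ?_) h
  have hb : ‖mult F m ξ‖ ≤ (2 * Real.pi * ‖ξ‖) * ‖F ξ‖ := by
    have := abs_real_inner_le_norm ξ m
    rw [hm, mul_one] at this
    simp only [mult, norm_mul, Complex.norm_real, Complex.norm_I, Complex.norm_ofNat, mul_one,
      Real.norm_eq_abs, abs_of_pos Real.pi_pos]
    gcongr
  have h2 : ((2 : ℝ≥0∞).toReal) = ((2 : ℕ) : ℝ) := by norm_num
  rw [h2, ENNReal.rpow_natCast, ← ofReal_norm, ← ofReal_norm,
    ← ENNReal.ofReal_pow (norm_nonneg _), ← ENNReal.ofReal_pow (norm_nonneg _),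
    ← ENNReal.ofReal_mul (by positivity), ← mul_pow]
  apply ENNReal.ofReal_le_ofReal
  gcongr

theorem h1_gen {f : V → ℂ} (hf : MemLp f 2 volume)
    (h : ∫⁻ ξ, ENNReal.ofReal ((2 * Real.pi * ‖ξ‖) ^ 2) *
      ‖(𝓕 (hf.toLp f) : Lp ℂ 2 (volume : Measure V)) ξ‖ₑ ^ 2 < ⊤) (L : ℂ →L[ℝ] ℝ) :
    H1 (fun x => L (f x)) := by
  set b := stdOrthonormalBasis ℝ V
  have hG : ∀ i, MemLp (mult (𝓕 (hf.toLp f) : Lp ℂ 2 (volume : Measure V)) (b i)) 2 volume :=
    fun i => mem_mult (Lp.aestronglyMeasurable _) h (b.orthonormal.1 i)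
  set g : Fin (Module.finrank ℝ V) → V → ℂ :=
    fun i => (𝓕⁻ ((hG i).toLp _) : Lp ℂ 2 (volume : Measure V)) with hg
  have gL : ∀ i, MemLp (fun x => L (g i x)) 2 volume := fun i => L.comp_memLp' (Lp.memLp _)
  have fL : MemLp (fun x => L (f x)) 2 volume := L.comp_memLp' hf
  have GG : MemLp (fun x => ∑ i, L (g i x) • b i) 2 volume := by
    apply memLp_finsetSum
    intro i _
    exact ((ContinuousLinearMap.id ℝ ℝ).smulRight (b i)).comp_memLp' (gL i)
  refine IsW.h1 (g := fun x => ∑ i, L (g i x) • b i) ?_ fL GG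
  apply isW_of_smooth (fL.locallyIntegrable (by norm_num)) (GG.locallyIntegrable (by norm_num))
  intro φ h1 h2 v
  have k : ∀ i, ∫ x, L (f x) * fderiv ℝ φ x (b i) = -∫ x, L (g i x) * φ x := by
    intro i
    rw [← key3 (hf.toLp f) (b i) (hG i) h1 h2 L]
    apply integral_congr_ae
    filter_upwards [hf.coeFn_toLp] with x hx
    rw [hx]
  have i1 : ∀ i, Integrable (fun x => L (f x) * fderiv ℝ φ x (b i)) volume := by
    intro i
    apply LocallyIntegrable.integrable_smul_right_of_hasCompactSupport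
      (fL.locallyIntegrable (by norm_num))
    · exact ((h1.continuous_fderiv (by simp)).clm_apply continuous_const)
    · exact h2.fderiv_apply ℝ _
  have i2 : ∀ i, Integrable (fun x => L (g i x) * φ x) volume := by
    intro i
    exact LocallyIntegrable.integrable_smul_right_of_hasCompactSupport
      ((gL i).locallyIntegrable (by norm_num)) h1.continuous h2
  have e1 : ∀ x, L (f x) * ⟪∇ φ x, v⟫ = ∑ i, ⟪b i, v⟫ * (L (f x) * fderiv ℝ φ x (b i)) := by
    intro x
    have : ⟪∇ φ x, v⟫ = fderiv ℝ φ x v := by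
      simp [gradient]
    rw [this]
    conv_lhs => rw [← b.sum_repr' v]
    rw [map_sum, Finset.mul_sum]
    refine Finset.sum_congr rfl fun i _ => ?_
    rw [map_smul, smul_eq_mul]
    ring
  have e2 : ∀ x, ⟪∑ i, L (g i x) • b i, v⟫ * φ x = ∑ i, ⟪b i, v⟫ * (L (g i x) * φ x) := by
    intro x
    rw [sum_inner, Finset.sum_mul]
    refine Finset.sum_congr rfl fun i _ => ?_
    rw [real_inner_smul_left]
    ring
  simp only [e1, e2]
  rw [integral_finsetSum _ fun i _ => (i1 i).const_mul _,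
    integral_finsetSum _ fun i _ => (i2 i).const_mul _, ← Finset.sum_neg_distrib]
  refine Finset.sum_congr rfl fun i _ => ?_
  rw [integral_const_mul, integral_const_mul, k i]
  ring

end B1b

/-- finite kinetic energy means `H¹` -/
theorem h1_of_kin {f : Config3 → ℂ} (h : kineticOne f < ⊤) :
    H1 (fun x => (f x).re) ∧ H1 (fun x => (f x).im) := by
  unfold kineticOne at h
  split_ifs at h with hf
  · have h' := ENNReal.lt_top_of_mul_ne_top_right h.ne (by simp)
    exact ⟨B1b.h1_gen hf h' Complex.reCLM, B1b.h1_gen hf h' Complex.imCLM⟩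
  · exact absurd h (lt_irrefl _)

end

end Crest.Agent.R335
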