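import Crest.Agent.R335.BDefs

set_option autoImplicit false

open MeasureTheory Set Filter Topology Metric
open scoped Gradient ContDiff RealInnerProductSpace ENNReal

namespace Crest.Agent.R335

noncomputable section

open Crest.MathPhysics.ThreeBody

namespace B2

theorem lint_iso {V W : Type*} [NormedAddCommGroup V] [InnerProductSpace ℝ V]
    [FiniteDimensional ℝ V] [MeasurableSpace V] [BorelSpace V] [NormedAddCommGroup W]
    [InnerProductSpace ℝ W] [FiniteDimensional ℝ W] [MeasurableSpace W] [BorelSpace W]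
    (L : V ≃ₗᵢ[ℝ] W) (G : W → ℝ≥0∞) : ∫⁻ p, G (L p) = ∫⁻ p, G p :=
  L.measurePreserving.lintegral_comp_emb L.toHomeomorph.measurableEmbedding G

theorem meas_fst {A : Set E} (hA : MeasurableSet A) :
    Measurable fun p : E9 => A.indicator (fun _ => (1 : ℝ≥0∞)) p.fst :=
  (measurable_const.indicator hA).comp (WithLp.continuous_fst 2 E E6).measurable

theorem meas_snd_fst {A : Set E} (hA : MeasurableSet A) :
    Measurable fun p : E9 => A.indicator (fun _ => (1 : ℝ≥0∞)) p.snd.fst :=
  (measurable_const.indicator hA).comp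
    ((WithLp.continuous_fst 2 E E).comp (WithLp.continuous_snd 2 E E6)).measurable

theorem slice {F : E9 → ℝ} (hF : Integrable F) (h0 : ∀ p, 0 ≤ F p) {A : Set E}
    (hA : MeasurableSet A) :
    ∫⁻ x in A, ENNReal.ofReal (∫ y, F (pt x y)) =
      ∫⁻ p : E9, A.indicator (fun _ => (1 : ℝ≥0∞)) p.fst * ENNReal.ofReal (F p) := by
  have hm : AEMeasurable (fun p : E9 =>
      A.indicator (fun _ => (1 : ℝ≥0∞)) p.fst * ENNReal.ofReal (F p)) volume :=
    (meas_fst hA).aemeasurable.mul hF.aemeasurable.ennreal_ofReal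
  have hm' : AEMeasurable (fun z : E × E6 =>
      A.indicator (fun _ => (1 : ℝ≥0∞)) (pt z.1 z.2).fst * ENNReal.ofReal (F (pt z.1 z.2)))
      (volume.prod volume) := hm.comp_quasiMeasurePreserving S08_mp.quasiMeasurePreserving
  rw [← S08_mp.lintegral_comp_emb S08_emb, lintegral_prod _ hm', ← lintegral_indicator hA]
  refine lintegral_congr_ae ?_
  filter_upwards [(integrable_pt hF).1] with x hx
  by_cases hxA : x ∈ A
  · rw [indicator_of_mem hxA, ofReal_integral_eq_lintegral_ofReal hx (ae_of_all _ fun y => h0 _)]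
    refine lintegral_congr fun y => ?_
    change _ = A.indicator (fun _ => (1 : ℝ≥0∞)) x * ENNReal.ofReal (F (pt x y))
    rw [indicator_of_mem hxA, one_mul]
  · rw [indicator_of_notMem hxA]
    refine (lintegral_zero (μ := (volume : Measure E6))).symm.trans (lintegral_congr fun y => ?_)
    change _ = A.indicator (fun _ => (1 : ℝ≥0∞)) x * ENNReal.ofReal (F (pt x y))
    rw [indicator_of_notMem hxA, zero_mul]

theorem enorm_sq (c : ℝ) : ‖((c / √3 : ℝ) : ℂ)‖ₑ ^ 2 = 3⁻¹ * ENNReal.ofReal (c ^ 2) := by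
  rw [← ofReal_norm, Complex.norm_real, ← ENNReal.ofReal_pow (norm_nonneg _),
    Real.norm_eq_abs, sq_abs, div_pow, Real.sq_sqrt (by norm_num), div_eq_inv_mul,
    ENNReal.ofReal_mul (by norm_num), ENNReal.ofReal_inv_of_pos (by norm_num)]
  norm_num

theorem term (χ : E9 → ℝ) (A : Set E) (σ : Equiv.Perm (Fin 3)) (f : Config3 → ℂ)
    (hf : ∀ x, ‖f x‖ₑ ^ 2 = 3⁻¹ * ENNReal.ofReal (χ (tri (σ 0) (σ 1) (σ 2) x) ^ 2)) :
    ∫⁻ x, (∑ i : Fin 3, A.indicator (fun _ => (1 : ℝ≥0∞)) (elPos i x)) * ‖f x‖ₑ ^ 2 =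
      3⁻¹ * ∫⁻ p, cnt A p * ENNReal.ofReal (χ p ^ 2) := by
  rw [← lint_iso (triIso σ), ← lintegral_const_mul' _ _ (by norm_num)]
  refine lintegral_congr fun x => ?_
  rw [hf, triIso_apply, mul_left_comm, ← Equiv.sum_comp σ, Fin.sum_univ_three]
  rfl

end B2

/-- the density as the expected number of electrons -/
theorem dens_lint {χ : E9 → ℝ} (h : MemLp χ 2 volume) (ha : Anti χ) {A : Set E}
    (hA : MeasurableSet A) :
    ∫⁻ x in A, ENNReal.ofReal (dens χ x) = ∫⁻ p, cnt A p * ENNReal.ofReal (χ p ^ 2) := by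
  obtain ⟨L, hL⟩ := exists_sw12
  obtain ⟨M, hM⟩ := exists_cyc
  have i1 : Integrable fun p => χ p ^ 2 := h.integrable_sq
  have i2 : Integrable fun p => χ (cyc p) ^ 2 := by
    have := (M.measurePreserving.integrable_comp_emb M.toHomeomorph.measurableEmbedding).2 i1
    refine this.congr (ae_of_all _ fun p => ?_)
    simp only [Function.comp_apply, hM]
  have e1 : ∫⁻ x in A, ENNReal.ofReal (dens χ x) =
      ∫⁻ x in A, ENNReal.ofReal (∫ y, (χ (pt x y) ^ 2 + χ (pt x y) ^ 2 + χ (cyc (pt x y)) ^ 2)) := by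
    refine lintegral_congr_ae (ae_restrict_of_ae ?_)
    filter_upwards [(integrable_pt i1).1, (integrable_pt i2).1] with x h1 h2
    have h3 : Integrable fun y => χ (pt x y) ^ 2 + χ (pt x y) ^ 2 := h1.add h1
    rw [integral_add h3 h2, dens, Fin.sum_univ_two]
    congr 2
    refine integral_congr_ae (ae_of_all _ fun y => ?_)
    change (√2 * χ (pt x y)) ^ 2 = _
    rw [mul_pow, Real.sq_sqrt (by norm_num), two_mul]
  have m1 : AEMeasurable (fun p : E9 => A.indicator (fun _ => (1 : ℝ≥0∞)) p.fst *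
      ENNReal.ofReal (χ p ^ 2)) volume :=
    (B2.meas_fst hA).aemeasurable.mul i1.aemeasurable.ennreal_ofReal
  have m2 : AEMeasurable (fun p : E9 => A.indicator (fun _ => (1 : ℝ≥0∞)) p.snd.fst *
      ENNReal.ofReal (χ p ^ 2)) volume :=
    (B2.meas_snd_fst hA).aemeasurable.mul i1.aemeasurable.ennreal_ofReal
  rw [e1, B2.slice (F := fun p => χ p ^ 2 + χ p ^ 2 + χ (cyc p) ^ 2) ((i1.add i1).add i2)
    (fun p => by positivity) hA]
  simp only [cnt, add_mul, ENNReal.ofReal_add (add_nonneg (sq_nonneg _) (sq_nonneg _)) (sq_nonneg _),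
    ENNReal.ofReal_add (sq_nonneg _) (sq_nonneg _), mul_add]
  rw [lintegral_add_left' (m1.fun_add m1), lintegral_add_left' m1,
    lintegral_add_left' (m1.fun_add m2), lintegral_add_left' m1]
  congr 1
  · congr 1
    rw [← B2.lint_iso L fun p => A.indicator (fun _ => (1 : ℝ≥0∞)) p.snd.fst *
      ENNReal.ofReal (χ p ^ 2)]
    refine lintegral_congr fun p => ?_
    rw [hL, ha p, neg_sq]
    rfl
  · rw [← B2.lint_iso M fun p => A.indicator (fun _ => (1 : ℝ≥0∞)) p.snd.snd *
      ENNReal.ofReal (χ p ^ 2)]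
    refine lintegral_congr fun p => ?_
    rw [hM]
    rfl

theorem wave_dens {χ : E9 → ℝ} (h : MemLp χ 2 volume) (ha : Anti χ) {A : Set E}
    (hA : MeasurableSet A) : densityOn (wave χ) A = ∫⁻ x in A, ENNReal.ofReal (dens χ x) := by
  rw [dens_lint h ha hA, densityOn, ← Finset.sum_subset
    (Finset.subset_univ ({![0, 0, 1], ![0, 1, 0], ![1, 0, 0]} : Finset Spin3))]
  · rw [Finset.sum_insert (by decide), Finset.sum_insert (by decide), Finset.sum_singleton,
      B2.term χ A 1, B2.term χ A (Equiv.swap 1 2), B2.term χ A (finRotate 3), ← mul_add, ← mul_add,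
      ← two_mul, ← one_add_mul, ← mul_assoc, show (1 + 2 : ℝ≥0∞) = 3 by norm_num,
      ENNReal.inv_mul_cancel (by norm_num) (by norm_num), one_mul]
    · intro x
      rw [wave, if_neg (by decide), if_neg (by decide), if_pos rfl, B2.enorm_sq]
      rfl
    · intro x
      rw [wave, if_neg (by decide), if_pos rfl, B2.enorm_sq, neg_sq]
      rfl
    · intro x
      rw [wave, if_pos rfl, B2.enorm_sq]
      rfl
  · intro s _ hs
    simp only [Finset.mem_insert, Finset.mem_singleton, not_or] at hs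
    simp only [wave, if_neg hs.1, if_neg hs.2.1, if_neg hs.2.2, enorm_zero, ne_eq,
      OfNat.ofNat_ne_zero, not_false_eq_true, zero_pow, mul_zero, lintegral_zero]

end

end Crest.Agent.R335
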