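import Crest.Agent.R335.B1a

set_option autoImplicit false

open MeasureTheory Set Filter Topology Metric
open scoped Gradient ContDiff RealInnerProductSpace ENNReal

namespace Crest.Agent.R335

noncomputable section

open Crest.MathPhysics.ThreeBody

namespace B2b

/-- the weights of the spin components -/
def wt (s : Spin3) : ℝ := if s = ![0, 0, 1] ∨ s = ![0, 1, 0] ∨ s = ![1, 0, 0] then 1 / 3 else 0

theorem wt_nonneg (s : Spin3) : 0 ≤ wt s := by
  unfold wt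
  split_ifs <;> norm_num

theorem sum_wt : ∑ s, wt s = 1 := by
  have h : (Finset.univ.filter fun s : Spin3 =>
      s = ![0, 0, 1] ∨ s = ![0, 1, 0] ∨ s = ![1, 0, 0]).card = 3 := by decide
  unfold wt
  rw [Finset.sum_ite, Finset.sum_const, Finset.sum_const_zero, h]
  norm_num

theorem comp (χ : E9 → ℝ) (s : Spin3) : ∃ (c : ℝ) (σ : Equiv.Perm (Fin 3)), c ^ 2 = wt s ∧
    wave χ s = fun x => ((c * χ (triIso σ x) : ℝ) : ℂ) := by
  have h3 : (1 / √3 : ℝ) ^ 2 = 1 / 3 := by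
    rw [div_pow, Real.sq_sqrt (by norm_num)]
    norm_num
  by_cases h1 : s = ![0, 0, 1]
  · refine ⟨1 / √3, 1, by rw [h3, wt, if_pos (Or.inl h1)], funext fun x => ?_⟩
    rw [wave, if_pos h1, triIso_apply]
    congr 1
    change _ = _ * χ (tri 0 1 2 x)
    ring
  by_cases h2 : s = ![0, 1, 0]
  · refine ⟨-(1 / √3), Equiv.swap 1 2, by rw [neg_sq, h3, wt, if_pos (Or.inr (Or.inl h2))],
      funext fun x => ?_⟩
    rw [wave, if_neg h1, if_pos h2, triIso_apply]
    congr 1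
    change _ = _ * χ (tri 0 2 1 x)
    ring
  by_cases h4 : s = ![1, 0, 0]
  · refine ⟨1 / √3, finRotate 3, by rw [h3, wt, if_pos (Or.inr (Or.inr h4))], funext fun x => ?_⟩
    rw [wave, if_neg h1, if_neg h2, if_pos h4, triIso_apply]
    congr 1
    change _ = _ * χ (tri 1 2 0 x)
    ring
  · refine ⟨0, 1, by rw [wt, if_neg (by tauto)]; norm_num, funext fun x => ?_⟩
    rw [wave, if_neg h1, if_neg h2, if_neg h4]
    simp

/-- antisymmetry under one permutation -/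
def P (χ : E9 → ℝ) (σ : Equiv.Perm (Fin 3)) : Prop :=
  ∀ (s : Spin3) (x : Config3),
    wave χ (fun i => s (σ i)) (permConfig σ x) = ((Equiv.Perm.sign σ : ℤ) : ℂ) * wave χ s x

theorem P_one (χ : E9 → ℝ) : P χ 1 := by
  intro s x
  simp only [Equiv.Perm.sign_one, Units.val_one, Int.cast_one, one_mul]
  rfl

theorem P_mul {χ : E9 → ℝ} {σ τ : Equiv.Perm (Fin 3)} (h1 : P χ σ) (h2 : P χ τ) : P χ (σ * τ) := by
  intro s x
  have h := h2 (fun i => s (σ i)) (permConfig σ x)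
  rw [h1, perm_perm] at h
  rw [Equiv.Perm.sign_mul, Units.val_mul, Int.cast_mul, mul_comm ((Equiv.Perm.sign σ : ℤ) : ℂ),
    mul_assoc]
  exact h

theorem spin_eq (s : Spin3) : s = ![s 0, s 1, s 2] := by
  funext i
  fin_cases i <;> rfl

theorem w001 (χ : E9 → ℝ) (x : Config3) :
    wave χ ![0, 0, 1] x = ((χ (tri 0 1 2 x) / √3 : ℝ) : ℂ) := by
  rw [wave, if_pos rfl]

theorem w010 (χ : E9 → ℝ) (x : Config3) :
    wave χ ![0, 1, 0] x = ((-χ (tri 0 2 1 x) / √3 : ℝ) : ℂ) := by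
  rw [wave, if_neg (by decide), if_pos rfl]

theorem w100 (χ : E9 → ℝ) (x : Config3) :
    wave χ ![1, 0, 0] x = ((χ (tri 1 2 0 x) / √3 : ℝ) : ℂ) := by
  rw [wave, if_neg (by decide), if_neg (by decide), if_pos rfl]

theorem wz (χ : E9 → ℝ) (x : Config3) {s : Spin3} (h1 : s ≠ ![0, 0, 1]) (h2 : s ≠ ![0, 1, 0])
    (h3 : s ≠ ![1, 0, 0]) : wave χ s x = 0 := by
  rw [wave, if_neg h1, if_neg h2, if_neg h3]

theorem spin_cases (s : Spin3) : s = ![0, 0, 1] ∨ s = ![0, 1, 0] ∨ s = ![1, 0, 0] ∨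
    (s ≠ ![0, 0, 1] ∧ s ≠ ![0, 1, 0] ∧ s ≠ ![1, 0, 0]) := by
  tauto

theorem anti {χ : E9 → ℝ} (ha : Anti χ) (i j k : Fin 3) (x : Config3) :
    χ (tri j i k x) = -χ (tri i j k x) := ha (tri i j k x)

theorem P01 {χ : E9 → ℝ} (ha : Anti χ) : P χ (Equiv.swap 0 1) := by
  intro s x
  have hs : ((Equiv.Perm.sign (Equiv.swap (0 : Fin 3) 1) : ℤ) : ℂ) = -1 := by
    rw [Equiv.Perm.sign_swap (by decide)]
    simp
  rw [hs]
  rcases spin_cases s with rfl | rfl | rfl | ⟨h1, h2, h3⟩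
  · rw [show (fun i => (![0, 0, 1] : Spin3) (Equiv.swap 0 1 i)) = ![0, 0, 1] by decide, w001, w001]
    change ((χ (tri 1 0 2 x) / √3 : ℝ) : ℂ) = _
    rw [anti ha 0 1 2]
    push_cast
    ring
  · rw [show (fun i => (![0, 1, 0] : Spin3) (Equiv.swap 0 1 i)) = ![1, 0, 0] by decide, w100, w010]
    change ((χ (tri 0 2 1 x) / √3 : ℝ) : ℂ) = _
    push_cast
    ring
  · rw [show (fun i => (![1, 0, 0] : Spin3) (Equiv.swap 0 1 i)) = ![0, 1, 0] by decide, w010, w100]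
    change ((-χ (tri 1 2 0 x) / √3 : ℝ) : ℂ) = _
    push_cast
    ring
  · rw [wz χ x h1 h2 h3, mul_zero]
    revert s
    suffices h : ∀ s : Spin3, s ≠ ![0, 0, 1] → s ≠ ![0, 1, 0] → s ≠ ![1, 0, 0] →
        (fun i => s (Equiv.swap 0 1 i)) ≠ ![0, 0, 1] ∧
        (fun i => s (Equiv.swap 0 1 i)) ≠ ![0, 1, 0] ∧
        (fun i => s (Equiv.swap 0 1 i)) ≠ ![1, 0, 0] from fun s h1 h2 h3 =>
      wz χ _ (h s h1 h2 h3).1 (h s h1 h2 h3).2.1 (h s h1 h2 h3).2.2
    decide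

theorem P12 {χ : E9 → ℝ} (ha : Anti χ) : P χ (Equiv.swap 1 2) := by
  intro s x
  have hs : ((Equiv.Perm.sign (Equiv.swap (1 : Fin 3) 2) : ℤ) : ℂ) = -1 := by
    rw [Equiv.Perm.sign_swap (by decide)]
    simp
  rw [hs]
  rcases spin_cases s with rfl | rfl | rfl | ⟨h1, h2, h3⟩
  · rw [show (fun i => (![0, 0, 1] : Spin3) (Equiv.swap 1 2 i)) = ![0, 1, 0] by decide, w010, w001]
    change ((-χ (tri 0 1 2 x) / √3 : ℝ) : ℂ) = _
    push_cast
    ring
  · rw [show (fun i => (![0, 1, 0] : Spin3) (Equiv.swap 1 2 i)) = ![0, 0, 1] by decide, w001, w010]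
    change ((χ (tri 0 2 1 x) / √3 : ℝ) : ℂ) = _
    push_cast
    ring
  · rw [show (fun i => (![1, 0, 0] : Spin3) (Equiv.swap 1 2 i)) = ![1, 0, 0] by decide, w100, w100]
    change ((χ (tri 2 1 0 x) / √3 : ℝ) : ℂ) = _
    rw [anti ha 1 2 0]
    push_cast
    ring
  · rw [wz χ x h1 h2 h3, mul_zero]
    revert s
    suffices h : ∀ s : Spin3, s ≠ ![0, 0, 1] → s ≠ ![0, 1, 0] → s ≠ ![1, 0, 0] →
        (fun i => s (Equiv.swap 1 2 i)) ≠ ![0, 0, 1] ∧
        (fun i => s (Equiv.swap 1 2 i)) ≠ ![0, 1, 0] ∧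
        (fun i => s (Equiv.swap 1 2 i)) ≠ ![1, 0, 0] from fun s h1 h2 h3 =>
      wz χ _ (h s h1 h2 h3).1 (h s h1 h2 h3).2.1 (h s h1 h2 h3).2.2
    decide

theorem P_all {χ : E9 → ℝ} (ha : Anti χ) (σ : Equiv.Perm (Fin 3)) : P χ σ := by
  have h : ∀ σ : Equiv.Perm (Fin 3), σ = 1 ∨ σ = Equiv.swap 0 1 ∨ σ = Equiv.swap 1 2 ∨
      σ = Equiv.swap 0 1 * Equiv.swap 1 2 ∨ σ = Equiv.swap 1 2 * Equiv.swap 0 1 ∨
      σ = Equiv.swap 0 1 * Equiv.swap 1 2 * Equiv.swap 0 1 := by decide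
  rcases h σ with rfl | rfl | rfl | rfl | rfl | rfl
  · exact P_one χ
  · exact P01 ha
  · exact P12 ha
  · exact P_mul (P01 ha) (P12 ha)
  · exact P_mul (P12 ha) (P01 ha)
  · exact P_mul (P_mul (P01 ha) (P12 ha)) (P01 ha)

theorem h1_zero : H1 (fun _ : Config3 => (0 : ℝ)) :=
  Tst.h1 ⟨contDiff_const, HasCompactSupport.zero⟩

theorem dir_zero : dir (fun _ : Config3 => (0 : ℝ)) = 0 := by
  unfold dir
  rw [integral_congr_ae (g := fun _ => (0 : ℝ))]
  · simp
  · filter_upwards [D_const (V := Config3) 0] with x hx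
    rw [hx]
    simp

theorem dir_smul {u : Config3 → ℝ} (c : ℝ) (h : H1 u) : dir (fun x => c * u x) = c ^ 2 * dir u := by
  unfold dir
  rw [← integral_const_mul]
  refine integral_congr_ae ?_
  filter_upwards [D_smul c h.hl] with x hx
  rw [hx, norm_smul, mul_pow, Real.norm_eq_abs, sq_abs]

theorem dir_nonneg {V : Type*} [NormedAddCommGroup V] [InnerProductSpace ℝ V]
    [FiniteDimensional ℝ V] [MeasurableSpace V] [BorelSpace V] (u : V → ℝ) : 0 ≤ dir u :=
  integral_nonneg fun _ => sq_nonneg _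

end B2b

theorem wave_ferm {χ : E9 → ℝ} (h : MemLp χ 2 volume) (ha : Anti χ) : IsFermionic (wave χ) := by
  refine ⟨fun s => ?_, fun σ => B2b.P_all ha σ⟩
  obtain ⟨c, σ, -, e⟩ := B2b.comp χ s
  rw [e]
  exact ((h.comp_measurePreserving (triIso σ).measurePreserving).const_mul c).ofReal (K := ℂ)

theorem wave_norm {χ : E9 → ℝ} (h : MemLp χ 2 volume) :
    normSq (wave χ) = ENNReal.ofReal (nsq χ) := by
  have hn : 0 ≤ nsq χ := integral_nonneg fun _ => sq_nonneg _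
  have key : ∀ s, ∫⁻ x, ‖wave χ s x‖ₑ ^ 2 = ENNReal.ofReal (B2b.wt s * nsq χ) := by
    intro s
    obtain ⟨c, σ, hc, e⟩ := B2b.comp χ s
    have h1 : MemLp (fun x => χ (triIso σ x)) 2 volume :=
      h.comp_measurePreserving (triIso σ).measurePreserving
    have h2 : ∫ x, χ (triIso σ x) ^ 2 = nsq χ :=
      (triIso σ).measurePreserving.integral_comp (triIso σ).toHomeomorph.measurableEmbedding
        fun p => χ p ^ 2
    rw [e, ← hc, ← h2, ← integral_const_mul,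
      ofReal_integral_eq_lintegral_ofReal (h1.integrable_sq.const_mul _)
        (Eventually.of_forall fun x => by positivity)]
    refine lintegral_congr fun x => ?_
    rw [← ofReal_norm, ← ENNReal.ofReal_pow (norm_nonneg _), Complex.norm_real,
      Real.norm_eq_abs, sq_abs, mul_pow]
  unfold normSq
  rw [Finset.sum_congr rfl fun s _ => key s,
    ← ENNReal.ofReal_sum_of_nonneg fun s _ => mul_nonneg (B2b.wt_nonneg s) hn, ← Finset.sum_mul,
    B2b.sum_wt, one_mul]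

theorem wave_kin {χ : E9 → ℝ} (h : H1 χ) : kinetic (wave χ) = ENNReal.ofReal ((1 / 2) * dir χ) := by
  have hn : 0 ≤ (1 / 2) * dir χ := mul_nonneg (by norm_num) (B2b.dir_nonneg χ)
  have key : ∀ s, kineticOne (wave χ s) = ENNReal.ofReal (B2b.wt s * ((1 / 2) * dir χ)) := by
    intro s
    obtain ⟨c, σ, hc, e⟩ := B2b.comp χ s
    obtain ⟨h1, h2, -⟩ := h.iso (triIso σ)
    have ere : (fun x => (wave χ s x).re) = fun x => c * χ (triIso σ x) := by
      rw [e]
      rfl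
    have eim : (fun x => (wave χ s x).im) = fun _ => 0 := by
      rw [e]
      rfl
    rw [kin_eq (by rw [ere]; exact h1.smul c) (by rw [eim]; exact B2b.h1_zero), ere, eim,
      B2b.dir_zero, B2b.dir_smul c h1, h2, hc]
    congr 1
    ring
  unfold kinetic
  rw [Finset.sum_congr rfl fun s _ => key s,
    ← ENNReal.ofReal_sum_of_nonneg fun s _ => mul_nonneg (B2b.wt_nonneg s) hn, ← Finset.sum_mul,
    B2b.sum_wt, one_mul]

theorem wave_pot {χ : E9 → ℝ} {W : Config3 → ℝ} (hW : SymW W)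
    (hi : Integrable fun p => W (cfg p) * χ p ^ 2) :
    (∀ s, Integrable fun x => W x * ‖wave χ s x‖ ^ 2) ∧
      potentialEnergy W (wave χ) = ∫ p, W (cfg p) * χ p ^ 2 := by
  have key : ∀ s, Integrable (fun x => W x * ‖wave χ s x‖ ^ 2) ∧
      ∫ x, W x * ‖wave χ s x‖ ^ 2 = B2b.wt s * ∫ p, W (cfg p) * χ p ^ 2 := by
    intro s
    obtain ⟨c, σ, hc, e⟩ := B2b.comp χ s
    have e2 : (fun x => W x * ‖wave χ s x‖ ^ 2) =
        fun x => c ^ 2 * (W (cfg (triIso σ x)) * χ (triIso σ x) ^ 2) := by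
      funext x
      rw [e, cfg_triIso, hW, Complex.norm_real, Real.norm_eq_abs, sq_abs]
      ring
    have h1 : Integrable fun x => W (cfg (triIso σ x)) * χ (triIso σ x) ^ 2 :=
      (triIso σ).measurePreserving.integrable_comp_of_integrable hi
    have h2 : ∫ x, W (cfg (triIso σ x)) * χ (triIso σ x) ^ 2 = ∫ p, W (cfg p) * χ p ^ 2 :=
      (triIso σ).measurePreserving.integral_comp (triIso σ).toHomeomorph.measurableEmbedding
        fun p => W (cfg p) * χ p ^ 2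
    rw [e2]
    exact ⟨h1.const_mul _, by rw [integral_const_mul, h2, hc]⟩
  refine ⟨fun s => (key s).1, ?_⟩
  unfold potentialEnergy
  rw [Finset.sum_congr rfl fun s _ => (key s).2, ← Finset.sum_mul, B2b.sum_wt, one_mul]

end

end Crest.Agent.R335
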