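import Crest.Agent.R335.B1a
import Crest.Agent.R335.B1b
import Crest.Agent.R335.B2

set_option autoImplicit false

open MeasureTheory Set Filter Topology Metric
open scoped Gradient ContDiff RealInnerProductSpace ENNReal

namespace Crest.Agent.R335

noncomputable section

open Crest.MathPhysics.ThreeBody

namespace B3

theorem exists_tau : ∀ s : Spin3, ∃ τ ρ : Equiv.Perm (Fin 3),
    Equiv.swap 0 1 * τ = τ * ρ ∧ (fun i => s (ρ i)) = s ∧ Equiv.Perm.sign ρ = -1 := by
  decide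

theorem enorm_sq (z : ℂ) :
    ‖z‖ₑ ^ 2 = ENNReal.ofReal (z.re ^ 2) + ENNReal.ofReal (z.im ^ 2) := by
  rw [← ofReal_norm, ← ENNReal.ofReal_pow (norm_nonneg _), Complex.sq_norm,
    Complex.normSq_apply, ← ENNReal.ofReal_add (sq_nonneg _) (sq_nonneg _), sq, sq]

theorem lint_iso (L : E9 ≃ₗᵢ[ℝ] Config3) (g : Config3 → ℝ≥0∞) : ∫⁻ x, g x = ∫⁻ p, g (L p) :=
  (L.measurePreserving.lintegral_comp_emb L.toHomeomorph.measurableEmbedding g).symm

theorem int_iso (L : E9 ≃ₗᵢ[ℝ] Config3) (g : Config3 → ℝ) : ∫ x, g x = ∫ p, g (L p) :=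
  (L.measurePreserving.integral_comp L.toHomeomorph.measurableEmbedding g).symm

theorem nsq_nonneg (u : E9 → ℝ) : 0 ≤ nsq u := integral_nonneg fun _ => sq_nonneg _

theorem dir_nonneg {V : Type*} [NormedAddCommGroup V] [InnerProductSpace ℝ V]
    [FiniteDimensional ℝ V] [MeasurableSpace V] [BorelSpace V] (u : V → ℝ) : 0 ≤ dir u :=
  integral_nonneg fun _ => sq_nonneg _

theorem lint_sq {u : E9 → ℝ} (h : MemLp u 2 volume) :
    ∫⁻ p, ENNReal.ofReal (u p ^ 2) = ENNReal.ofReal (nsq u) :=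
  (ofReal_integral_eq_lintegral_ofReal h.integrable_sq
    (Eventually.of_forall fun _ => sq_nonneg _)).symm

theorem aem_sq {u : E9 → ℝ} (h : MemLp u 2 volume) :
    AEMeasurable (fun p => ENNReal.ofReal (u p ^ 2)) volume :=
  (h.1.aemeasurable.pow_const 2).ennreal_ofReal

theorem meas_cnt {A : Set E} (hA : MeasurableSet A) : Measurable (cnt A) := by
  have h : Measurable (A.indicator fun _ => (1 : ℝ≥0∞)) := measurable_const.indicator hA
  have h1 : Continuous fun p : E9 => p.fst := by fun_prop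
  have h2 : Continuous fun p : E9 => p.snd.fst := by fun_prop
  have h3 : Continuous fun p : E9 => p.snd.snd := by fun_prop
  exact ((h.comp h1.measurable).add (h.comp h2.measurable)).add (h.comp h3.measurable)

theorem cnt_eq (A : Set E) (τ : Equiv.Perm (Fin 3)) (p : E9) :
    ∑ i : Fin 3, A.indicator (fun _ => (1 : ℝ≥0∞)) (elPos i (permConfig τ (cfg p))) = cnt A p := by
  simp only [elPos_perm]
  rw [Equiv.sum_comp τ fun i => A.indicator (fun _ => (1 : ℝ≥0∞)) (elPos i (cfg p)),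
    Fin.sum_univ_three]
  rfl

/-- the two real components of one spin component -/
theorem one {Φ : Wave3} (hf : IsFermionic Φ) (hk : kinetic Φ < ⊤) (s : Spin3) :
    ∃ c : Bool → E9 → ℝ, (∀ j, H1 (c j) ∧ Anti (c j)) ∧
      ∫⁻ x, ‖Φ s x‖ₑ ^ 2 = ENNReal.ofReal (∑ j, nsq (c j)) ∧
      kineticOne (Φ s) = ENNReal.ofReal (∑ j, (1 / 2) * dir (c j)) ∧
      (∀ W : Config3 → ℝ, SymW W → (∀ j, Integrable fun p => W (cfg p) * c j p ^ 2) →
        ∫ x, W x * ‖Φ s x‖ ^ 2 = ∑ j, ∫ p, W (cfg p) * c j p ^ 2) ∧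
      ∀ A : Set E, MeasurableSet A →
        ∫⁻ x, (∑ i : Fin 3, A.indicator (fun _ => (1 : ℝ≥0∞)) (elPos i x)) * ‖Φ s x‖ₑ ^ 2 =
          ∑ j, ∫⁻ x in A, ENNReal.ofReal (dens (c j) x) := by
  obtain ⟨τ, ρ, h1, h2, h3⟩ := exists_tau s
  let L : E9 ≃ₗᵢ[ℝ] Config3 := cfg.trans (permIso τ)
  have hL : ∀ p, L p = permConfig τ (cfg p) := fun p => permIso_apply τ _
  have hks : kineticOne (Φ s) < ⊤ :=
    (Finset.single_le_sum (f := fun s => kineticOne (Φ s)) (fun _ _ => zero_le)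
      (Finset.mem_univ s)).trans_lt hk
  obtain ⟨hre, him⟩ := h1_of_kin hks
  obtain ⟨hu, hud, -⟩ := hre.iso L
  obtain ⟨hv, hvd, -⟩ := him.iso L
  have hanti : ∀ p, Φ s (L (sw12 p)) = -Φ s (L p) := fun p => by
    have h := hf.2 ρ s (permConfig τ (cfg p))
    rw [h2, h3, perm_perm, ← h1, ← perm_perm, ← cfg_sw12, ← hL, ← hL] at h
    rw [h]
    simp
  have au : Anti fun p => (Φ s (L p)).re := fun p => by
    simp only [hanti, Complex.neg_re]
  have av : Anti fun p => (Φ s (L p)).im := fun p => by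
    simp only [hanti, Complex.neg_im]
  refine ⟨fun b => cond b (fun p => (Φ s (L p)).re) fun p => (Φ s (L p)).im, ?_, ?_, ?_, ?_, ?_⟩
  · rintro (_ | _)
    · exact ⟨hv, av⟩
    · exact ⟨hu, au⟩
  · rw [Fintype.sum_bool, lint_iso L, ENNReal.ofReal_add (nsq_nonneg _) (nsq_nonneg _)]
    simp only [enorm_sq, cond_true, cond_false]
    rw [lintegral_add_left' (aem_sq hu.l2), lint_sq hu.l2, lint_sq hv.l2]
  · rw [Fintype.sum_bool, kin_eq hre him, ← hud, ← hvd]
    rfl
  · intro W hW hi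
    rw [Fintype.sum_bool, int_iso L, ← integral_add (hi true) (hi false)]
    refine integral_congr_ae (Eventually.of_forall fun p => ?_)
    simp only [cond_true, cond_false]
    rw [Complex.sq_norm, Complex.normSq_apply, show W (L p) = W (cfg p) by rw [hL, hW]]
    ring
  · intro A hA
    rw [Fintype.sum_bool, lint_iso L]
    simp only [cond_true, cond_false]
    rw [dens_lint hu.l2 au hA, dens_lint hv.l2 av hA,
      ← lintegral_add_left' ((meas_cnt hA).aemeasurable.fun_mul (aem_sq hu.l2))]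
    refine lintegral_congr fun p => ?_
    rw [enorm_sq, ← mul_add, ← cnt_eq A τ p, ← hL]

end B3

/-- the sixteen real components of a fermionic wave function -/
theorem exists_comps {Φ : Wave3} (hf : IsFermionic Φ) (hk : kinetic Φ < ⊤) :
    ∃ c : Fin 16 → E9 → ℝ, (∀ j, H1 (c j) ∧ Anti (c j)) ∧
      normSq Φ = ENNReal.ofReal (∑ j, nsq (c j)) ∧
      (kinetic Φ).toReal = ∑ j, (1 / 2) * dir (c j) ∧
      (∀ W : Config3 → ℝ, SymW W → (∀ j, Integrable fun p => W (cfg p) * c j p ^ 2) →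
        potentialEnergy W Φ = ∑ j, ∫ p, W (cfg p) * c j p ^ 2) ∧
      ∀ A : Set E, MeasurableSet A →
        densityOn Φ A = ∑ j, ∫⁻ x in A, ENNReal.ofReal (dens (c j) x) := by
  choose c h1 h2 h3 h4 h5 using B3.one hf hk
  let e : Spin3 × Bool ≃ Fin 16 := Fintype.equivFinOfCardEq (by simp)
  have hs : ∀ {M : Type} [AddCommMonoid M] (F : (E9 → ℝ) → M),
      ∑ j : Fin 16, F (c (e.symm j).1 (e.symm j).2) = ∑ s, ∑ b, F (c s b) := fun F => by
    rw [Equiv.sum_comp e.symm fun a => F (c a.1 a.2), Fintype.sum_prod_type]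
  have hd : ∀ s, 0 ≤ ∑ b, (1 / 2) * dir (c s b) := fun s =>
    Finset.sum_nonneg fun b _ => mul_nonneg (by norm_num) (B3.dir_nonneg _)
  refine ⟨fun j => c (e.symm j).1 (e.symm j).2, fun j => h1 _ _, ?_, ?_, fun W hW hi => ?_,
    fun A hA => ?_⟩
  · rw [hs nsq, ENNReal.ofReal_sum_of_nonneg fun s _ =>
      Finset.sum_nonneg fun b _ => B3.nsq_nonneg _]
    exact Finset.sum_congr rfl fun s _ => h2 s
  · rw [hs fun u => (1 / 2) * dir u, kinetic, Finset.sum_congr rfl fun s _ => h3 s,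
      ← ENNReal.ofReal_sum_of_nonneg fun s _ => hd s,
      ENNReal.toReal_ofReal (Finset.sum_nonneg fun s _ => hd s)]
  · rw [hs fun u => ∫ p, W (cfg p) * u p ^ 2]
    exact Finset.sum_congr rfl fun s _ => h4 s W hW fun b => by simpa using hi (e (s, b))
  · rw [hs fun u => ∫⁻ x in A, ENNReal.ofReal (dens u x)]
    exact Finset.sum_congr rfl fun s _ => h5 s A hA

end

end Crest.Agent.R335
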