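import Crest.Agent.R335.BDefs

set_option autoImplicit false

open MeasureTheory Set Filter Topology Metric
open scoped Gradient ContDiff RealInnerProductSpace ENNReal

namespace Crest.Agent.R335

noncomputable section

open Crest.MathPhysics.ThreeBody

namespace B4

theorem nsq_nonneg (u : E → ℝ) : 0 ≤ nsq u := integral_nonneg fun _ => sq_nonneg _

theorem key {F : E → E6 → ℝ} {C : ℝ} (hC : 0 ≤ C)
    (hm : AEStronglyMeasurable (fun p : E9 => F p.fst p.snd) volume)
    (hF : ∀ y u, H1 u → Integrable (fun x => F x y * u x ^ 2) ∧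
      ∫ x, |F x y| * u x ^ 2 ≤ C * (dir u + nsq u))
    {χ : E9 → ℝ} (h : H1 χ) : Integrable fun p : E9 => F p.fst p.snd * χ p ^ 2 := by
  have hm2 : AEStronglyMeasurable (fun p : E9 => F p.fst p.snd * χ p ^ 2) volume :=
    hm.mul (h.l2.1.pow 2)
  have hm3 : AEStronglyMeasurable (fun z : E × E6 => F z.1 z.2 * χ (pt z.1 z.2) ^ 2)
      (volume.prod volume) := hm2.comp_measurePreserving S08_mp
  refine S08_int.1 ?_
  show Integrable (fun z : E × E6 => F z.1 z.2 * χ (pt z.1 z.2) ^ 2) (volume.prod volume)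
  have i1 := S08_int.2 h.dl2.norm.integrable_sq
  have i2 := S08_int.2 h.l2.integrable_sq
  refine (integrable_prod_iff' hm3).2 ⟨?_, ?_⟩
  · filter_upwards [h.slice_fst] with y hy
    exact (hF y _ hy.1).1
  · refine ((i1.integral_prod_right.add i2.integral_prod_right).const_mul C).mono'
      hm3.norm.prod_swap.integral_prod_right' ?_
    filter_upwards [h.slice_fst, i1.prod_left_ae] with y hy hy2
    have e : ∫ x, ‖F x y * χ (pt x y) ^ 2‖ = ∫ x, |F x y| * χ (pt x y) ^ 2 := by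
      refine integral_congr_ae (ae_of_all _ fun x => ?_)
      simp only [Real.norm_eq_abs, abs_mul, abs_pow, sq_abs]
    rw [Real.norm_of_nonneg (integral_nonneg fun _ => norm_nonneg _), e]
    refine (hF y _ hy.1).2.trans (mul_le_mul_of_nonneg_left (add_le_add ?_ le_rfl) hC)
    refine integral_mono_of_nonneg (ae_of_all _ fun _ => sq_nonneg _) hy2 ?_
    filter_upwards [hy.2] with x hx
    rw [hx]
    exact pow_le_pow_left₀ (norm_nonneg _) (WithLp.norm_fst_le E (D χ (pt x y))) 2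

theorem inv_bound (c : E) {u : E → ℝ} (h : H1 u) :
    Integrable (fun x => 1 / ‖x - c‖ * u x ^ 2) ∧
      ∫ x, |1 / ‖x - c‖| * u x ^ 2 ≤ 2 * (dir u + nsq u) := by
  obtain ⟨h1, h2⟩ := hardy h c
  have i1 : Integrable (fun x => 1 / ‖x - c‖ * u x ^ 2) := by
    refine (h1.integrable_mul h.l2).congr (ae_of_all _ fun x => ?_)
    simp only [Pi.mul_apply]
    ring
  refine ⟨i1, ?_⟩
  have h3 : ∫ x, |1 / ‖x - c‖| * u x ^ 2 ≤
      ∫ x, ((1 / 2) * (u x / ‖x - c‖) ^ 2 + (1 / 2) * u x ^ 2) := by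
    refine integral_mono_of_nonneg (ae_of_all _ fun x => by positivity)
      ((h1.integrable_sq.const_mul _).add (h.l2.integrable_sq.const_mul _))
      (ae_of_all _ fun x => ?_)
    have e : |1 / ‖x - c‖| * u x ^ 2 = (u x / ‖x - c‖) * u x := by
      rw [abs_of_nonneg (by positivity)]
      ring
    simp only [e]
    nlinarith [sq_nonneg (u x / ‖x - c‖ - u x)]
  rw [integral_add (h1.integrable_sq.const_mul _) (h.l2.integrable_sq.const_mul _),
    integral_const_mul, integral_const_mul] at h3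
  have h4 := nsq_nonneg u
  have h5 : nsq u = ∫ x, u x ^ 2 := rfl
  linarith

theorem cls_bound {v : E → ℝ} (hv : Cls v) : ∃ C : ℝ, 0 ≤ C ∧ ∀ u : E → ℝ, H1 u →
    Integrable (fun x => v x * u x ^ 2) ∧ ∫ x, |v x| * u x ^ 2 ≤ C * (dir u + nsq u) := by
  obtain ⟨v₁, v₂, rfl, h1, h2⟩ := hv
  obtain ⟨C, C0, hC⟩ := l32_bound
  set M : ℝ := (eLpNormEssSup v₂ volume).toReal with hM
  have M0 : 0 ≤ M := ENNReal.toReal_nonneg
  have hb : ∀ᵐ x, ‖v₂ x‖ ≤ M := by
    have hne : eLpNormEssSup v₂ volume ≠ ⊤ := by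
      have := h2.2
      rw [eLpNorm_exponent_top] at this
      exact this.ne
    filter_upwards [ae_le_eLpNormEssSup (f := v₂) (μ := volume)] with x hx
    rw [hM, ← toReal_enorm]
    exact ENNReal.toReal_mono hne hx
  set K : ℝ := C * (∫ x, |v₁ x| ^ (3 / 2 : ℝ)) ^ (2 / 3 : ℝ) with hK
  have K0 : 0 ≤ K :=
    mul_nonneg C0.le (Real.rpow_nonneg (integral_nonneg fun x => by positivity) _)
  refine ⟨K + M, add_nonneg K0 M0, fun u h => ?_⟩
  obtain ⟨a1, a2⟩ := hC v₁ u univ MeasurableSet.univ (by rwa [Measure.restrict_univ]) h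
  rw [integrableOn_univ] at a1
  simp only [Measure.restrict_univ] at a2
  have b1 : Integrable fun x => v₂ x * u x ^ 2 := h.l2.integrable_sq.bdd_mul h2.1 hb
  have a3 : Integrable fun x => |v₁ x| * u x ^ 2 := by
    refine a1.abs.congr (ae_of_all _ fun x => ?_)
    simp only [abs_mul, abs_pow, sq_abs]
  refine ⟨(a1.add b1).congr (ae_of_all _ fun x => by simp only [Pi.add_apply]; ring), ?_⟩
  have c1 : ∫ x, |(v₁ + v₂) x| * u x ^ 2 ≤ ∫ x, (|v₁ x| * u x ^ 2 + M * u x ^ 2) := by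
    refine integral_mono_of_nonneg (ae_of_all _ fun x => by positivity)
      (a3.add (h.l2.integrable_sq.const_mul _)) ?_
    filter_upwards [hb] with x hx
    rw [← add_mul]
    refine mul_le_mul_of_nonneg_right ?_ (sq_nonneg _)
    exact (abs_add_le _ _).trans (add_le_add le_rfl hx)
  rw [integral_add a3 (h.l2.integrable_sq.const_mul _), integral_const_mul] at c1
  have h4 := nsq_nonneg u
  have h5 : nsq u = ∫ x, u x ^ 2 := rfl
  have h6 := S09_dir_nonneg u
  rw [← h5] at c1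
  nlinarith [mul_nonneg K0 h4, mul_nonneg M0 h6]

/-- transfer along an isometry -/
theorem iso {G : E9 → ℝ} (hG : ∀ χ : E9 → ℝ, H1 χ → Integrable fun p => G p * χ p ^ 2)
    (L : E9 ≃ₗᵢ[ℝ] E9) (χ : E9 → ℝ) (h : H1 χ) : Integrable fun p => G (L p) * χ p ^ 2 := by
  have h1 := hG _ (h.iso L.symm).1
  have h2 := (L.measurePreserving.integrable_comp_emb
    L.toHomeomorph.measurableEmbedding).2 h1
  refine h2.congr (ae_of_all _ fun p => ?_)
  simp only [Function.comp_apply, LinearIsometryEquiv.symm_apply_apply]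

theorem cyc1 {G : E9 → ℝ} (hG : ∀ χ : E9 → ℝ, H1 χ → Integrable fun p => G p * χ p ^ 2)
    (χ : E9 → ℝ) (h : H1 χ) : Integrable fun p => G (cyc p) * χ p ^ 2 := by
  obtain ⟨L, hL⟩ := exists_cyc
  simpa only [hL] using iso hG L χ h

theorem nuc (c : E) (χ : E9 → ℝ) (h : H1 χ) :
    Integrable fun p : E9 => 1 / ‖p.fst - c‖ * χ p ^ 2 :=
  key (F := fun x _ => 1 / ‖x - c‖) zero_le_two
    (Measurable.aestronglyMeasurable (measurable_const.div
      (((WithLp.continuous_fst 2 E E6).sub continuous_const).norm.measurable)))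
    (fun _ _ hu => inv_bound c hu) h

theorem pair (χ : E9 → ℝ) (h : H1 χ) :
    Integrable fun p : E9 => 1 / ‖p.fst - p.snd.fst‖ * χ p ^ 2 :=
  key (F := fun x y => 1 / ‖x - y.fst‖) zero_le_two
    (Measurable.aestronglyMeasurable (measurable_const.div
      (((WithLp.continuous_fst 2 E E6).sub
        ((WithLp.continuous_fst 2 E E).comp (WithLp.continuous_snd 2 E E6))).norm.measurable)))
    (fun y _ hu => inv_bound y.fst hu) h

theorem one {v : E → ℝ} (hv : Cls v) (χ : E9 → ℝ) (h : H1 χ) :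
    Integrable fun p : E9 => v p.fst * χ p ^ 2 := by
  obtain ⟨C, C0, hC⟩ := cls_bound hv
  have hm : AEStronglyMeasurable v volume := by
    obtain ⟨v₁, v₂, rfl, h1, h2⟩ := hv
    exact h1.1.add h2.1
  refine key (F := fun x _ => v x) C0 ?_ (fun _ u hu => hC u hu) h
  exact hm.comp_quasiMeasurePreserving (Measure.quasiMeasurePreserving_fst.comp
    (WithLp.volume_preserving_ofLp E E6).quasiMeasurePreserving)

end B4

theorem int_coul (Z : ℕ) (R₁ R₂ : E) {χ : E9 → ℝ} (h : H1 χ) :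
    Integrable fun p => coulombPotential Z R₁ R₂ (cfg p) * χ p ^ 2 := by
  have a0 := B4.nuc R₁ χ h
  have a1 : Integrable fun p : E9 => 1 / ‖p.snd.fst - R₁‖ * χ p ^ 2 := B4.cyc1 (B4.nuc R₁) χ h
  have a2 : Integrable fun p : E9 => 1 / ‖p.snd.snd - R₁‖ * χ p ^ 2 :=
    B4.cyc1 (B4.cyc1 (B4.nuc R₁)) χ h
  have b0 := B4.nuc R₂ χ h
  have b1 : Integrable fun p : E9 => 1 / ‖p.snd.fst - R₂‖ * χ p ^ 2 := B4.cyc1 (B4.nuc R₂) χ h
  have b2 : Integrable fun p : E9 => 1 / ‖p.snd.snd - R₂‖ * χ p ^ 2 :=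
    B4.cyc1 (B4.cyc1 (B4.nuc R₂)) χ h
  have c0 := B4.pair χ h
  have c1 : Integrable fun p : E9 => 1 / ‖p.snd.fst - p.snd.snd‖ * χ p ^ 2 :=
    B4.cyc1 B4.pair χ h
  have c2 : Integrable fun p : E9 => 1 / ‖p.snd.snd - p.fst‖ * χ p ^ 2 :=
    B4.cyc1 (B4.cyc1 B4.pair) χ h
  refine ((((((a0.add a1).add a2).add ((b0.add b1).add b2)).const_mul (-(Z : ℝ))).add
    ((c0.add c1).add c2))).congr (ae_of_all _ fun p => ?_)
  have e01 : ((0 : Fin 3) < 1) = True := by simp
  have e02 : ((0 : Fin 3) < 2) = True := by simp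
  have e12 : ((1 : Fin 3) < 2) = True := by simp
  have e10 : ((1 : Fin 3) < 0) = False := by simp
  have e20 : ((2 : Fin 3) < 0) = False := by simp
  have e21 : ((2 : Fin 3) < 1) = False := by simp
  simp only [coulombPotential, Fin.sum_univ_three, elPos_cfg0, elPos_cfg1, elPos_cfg2,
    Pi.add_apply, e01, e02, e12, e10, e20, e21, lt_irrefl, if_true, if_false,
    norm_sub_rev p.snd.snd p.fst]
  ring

theorem int_V3 {v : E → ℝ} (hv : Cls v) {χ : E9 → ℝ} (h : H1 χ) :
    Integrable fun p => V3 v p * χ p ^ 2 := by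
  have a0 := B4.one hv χ h
  have a1 : Integrable fun p : E9 => v p.snd.fst * χ p ^ 2 := B4.cyc1 (B4.one hv) χ h
  have a2 : Integrable fun p : E9 => v p.snd.snd * χ p ^ 2 := B4.cyc1 (B4.cyc1 (B4.one hv)) χ h
  refine ((a0.add a1).add a2).congr (ae_of_all _ fun p => ?_)
  simp only [V3, Pi.add_apply]
  ring

end

end Crest.Agent.R335
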