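import Crest.Agent.R335.BDefs

set_option autoImplicit false

open MeasureTheory Set Filter Topology Metric
open scoped Gradient ContDiff RealInnerProductSpace ENNReal

namespace Crest.Agent.R335

noncomputable section

open Crest.MathPhysics.ThreeBody

namespace B5

theorem fr3 : Module.finrank ℝ E = 3 := by simp

theorem fr6 : Module.finrank ℝ E6 = 6 := by
  rw [(WithLp.linearEquiv 2 ℝ (E × E)).finrank_eq, Module.finrank_prod, fr3]

theorem fr9 : Module.finrank ℝ E9 = 9 := by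
  rw [(WithLp.linearEquiv 2 ℝ (E × E6)).finrank_eq, Module.finrank_prod, fr3, fr6]

theorem int9 (F : E9 → ℝ) {t : ℝ} (ht : 0 < t) : ∫ p, F (t • p) = (t ^ 9)⁻¹ * ∫ p, F p := by
  rw [Measure.integral_comp_smul, fr9, abs_of_pos (by positivity), smul_eq_mul]

theorem int6 (F : E6 → ℝ) {t : ℝ} (ht : 0 < t) : ∫ p, F (t • p) = (t ^ 6)⁻¹ * ∫ p, F p := by
  rw [Measure.integral_comp_smul, fr6, abs_of_pos (by positivity), smul_eq_mul]

theorem a_sq {t : ℝ} (ht : 0 < t) : (t ^ 4 * √t) ^ 2 = t ^ 9 := by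
  rw [mul_pow, Real.sq_sqrt ht.le]; ring

theorem h1_sc {χ : E9 → ℝ} (h : H1 χ) {t : ℝ} (ht : 0 < t) : H1 (sc t χ) :=
  (h.dilate ht).1.smul (t ^ 4 * √t)

theorem anti_sc {χ : E9 → ℝ} (h : Anti χ) (t : ℝ) : Anti (sc t χ) := by
  intro p
  have e : t • sw12 p = sw12 (t • p) := rfl
  unfold sc
  rw [e, h, mul_neg]

theorem pot_sc (U χ : E9 → ℝ) {t : ℝ} (ht : 0 < t) :
    ∫ p, U (t • p) * sc t χ p ^ 2 = ∫ p, U p * χ p ^ 2 := by
  have e : ∀ p, U (t • p) * sc t χ p ^ 2 = t ^ 9 * (U (t • p) * χ (t • p) ^ 2) := by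
    intro p
    unfold sc
    rw [mul_pow, a_sq ht]; ring
  simp only [e]
  rw [integral_const_mul, int9 (fun p => U p * χ p ^ 2) ht, mul_inv_cancel_left₀ (by positivity)]

theorem nsq_sc (χ : E9 → ℝ) {t : ℝ} (ht : 0 < t) : nsq (sc t χ) = nsq χ := by
  have := pot_sc (fun _ => 1) χ ht
  simpa only [one_mul, nsq] using this

theorem dir_sc {χ : E9 → ℝ} (h : H1 χ) {t : ℝ} (ht : 0 < t) : dir (sc t χ) = t ^ 2 * dir χ := by
  obtain ⟨h1, -, h2⟩ := h.dilate ht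
  have e : dir (sc t χ) = t ^ 9 * dir fun x => χ (t • x) := by
    unfold dir
    rw [← integral_const_mul]
    refine integral_congr_ae ?_
    filter_upwards [D_smul (t ^ 4 * √t) h1.hl] with x hx
    have : D (sc t χ) x = (t ^ 4 * √t) • D (fun x => χ (t • x)) x := hx
    rw [this, norm_smul, mul_pow, Real.norm_eq_abs, sq_abs, a_sq ht]
  rw [e, h2, fr9]
  field_simp

theorem Q_sc (U : E9 → ℝ) {χ : E9 → ℝ} (h : H1 χ) {t : ℝ} (ht : 0 < t) :
    Q (fun p => t ^ 2 * U (t • p)) (sc t χ) = t ^ 2 * Q U χ := by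
  unfold Q
  simp only [mul_assoc (t ^ 2)]
  rw [dir_sc h ht, integral_const_mul, pot_sc U χ ht]
  ring

theorem sc_sc (χ : E9 → ℝ) {t : ℝ} (ht : 0 < t) : sc t (sc t⁻¹ χ) = χ := by
  ext p
  unfold sc
  have h1 : 0 < √t := Real.sqrt_pos.2 ht
  rw [smul_smul, inv_mul_cancel₀ ht.ne', one_smul, Real.sqrt_inv]
  field_simp

theorem Q_inv (U : E9 → ℝ) {χ : E9 → ℝ} (h : H1 χ) {t : ℝ} (ht : 0 < t) :
    Q (fun p => t ^ 2 * U (t • p)) χ = t ^ 2 * Q U (sc t⁻¹ χ) := by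
  rw [← Q_sc U (h1_sc h (inv_pos.2 ht)) ht, sc_sc χ ht]

theorem lint3 (F : E → ℝ) {t : ℝ} (ht : 0 < t) (A : Set E) :
    ∫⁻ x in A, ENNReal.ofReal (t ^ 3 * F (t • x)) =
      ∫⁻ x in (Homeomorph.smulOfNeZero t ht.ne' : E ≃ₜ E) '' A, ENNReal.ofReal (F x) := by
  set T : E ≃ₜ E := Homeomorph.smulOfNeZero t ht.ne' with hT
  have h1 : ∫⁻ x in A, ENNReal.ofReal (F (t • x)) =
      ENNReal.ofReal ((t ^ 3)⁻¹) * ∫⁻ x in T '' A, ENNReal.ofReal (F x) := by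
    have h2 := T.measurableEmbedding.lintegral_map (μ := volume.restrict A)
      fun y => ENNReal.ofReal (F y)
    have h3 := T.measurableEmbedding.restrict_map volume (T '' A)
    rw [T.injective.preimage_image] at h3
    rw [← h3, (S07.chg_dil ht).map, Measure.restrict_smul, lintegral_smul_measure, fr3,
      abs_of_pos (by positivity), smul_eq_mul] at h2
    exact h2.symm
  simp only [ENNReal.ofReal_mul (show 0 ≤ t ^ 3 by positivity)]
  rw [lintegral_const_mul' _ _ ENNReal.ofReal_ne_top, h1, ← mul_assoc,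
    ← ENNReal.ofReal_mul (by positivity), mul_inv_cancel₀ (by positivity), ENNReal.ofReal_one, one_mul]

end B5

open B5

theorem GS.scale {U ψ : E9 → ℝ} (h : GS U ψ) {t : ℝ} (ht : 0 < t) :
    GS (fun p => t ^ 2 * U (t • p)) (sc t ψ) := by
  refine ⟨h1_sc h.h1 ht, anti_sc h.anti t, (nsq_sc ψ ht).trans h.norm, fun χ h1 h2 => ?_⟩
  have h3 := h.min _ (h1_sc h1 (inv_pos.2 ht)) (anti_sc h2 t⁻¹)
  rw [nsq_sc χ (inv_pos.2 ht)] at h3
  rw [Q_sc U h.h1 ht, Q_inv U h1 ht, mul_assoc]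
  exact mul_le_mul_of_nonneg_left h3 (sq_nonneg t)

theorem dens_sc (ψ : E9 → ℝ) {t : ℝ} (ht : 0 < t) (x : E) :
    dens (sc t ψ) x = t ^ 3 * dens ψ (t • x) := by
  unfold dens
  rw [Finset.mul_sum]
  refine Finset.sum_congr rfl fun i _ => ?_
  have e : ∀ y : E6, comp (sc t ψ) i (pt x y) ^ 2 = t ^ 9 * comp ψ i (pt (t • x) (t • y)) ^ 2 := by
    intro y
    rw [← a_sq ht, ← mul_pow]
    congr 1
    fin_cases i
    · show √2 * (t ^ 4 * √t * ψ (pt (t • x) (t • y))) = t ^ 4 * √t * (√2 * ψ (pt (t • x) (t • y)))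
      ring
    · rfl
  simp only [e]
  rw [integral_const_mul, int6 (fun y => comp ψ i (pt (t • x) y) ^ 2) ht, ← mul_assoc]
  congr 1
  field_simp

theorem Cls.scale {v : E → ℝ} (h : Cls v) {t : ℝ} (ht : 0 < t) :
    Cls fun x => t ^ 2 * v (t • x) := by
  obtain ⟨v₁, v₂, rfl, h1, h2⟩ := h
  refine ⟨fun x => t ^ 2 * v₁ (t • x), fun x => t ^ 2 * v₂ (t • x), ?_,
    ((S07.chg_dil ht).memLp h1).const_mul _, ((S07.chg_dil ht).memLp h2).const_mul _⟩
  ext x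
  simp only [Pi.add_apply, mul_add]

theorem Ens.scale {v ρ : E → ℝ} (h : Ens v ρ) {t : ℝ} (ht : 0 < t) :
    Ens (fun x => t ^ 2 * v (t • x)) (fun x => t ^ 3 * ρ (t • x)) := by
  obtain ⟨p, c, h1, h2, h3, h4, h5⟩ := h
  have e : V3 (fun x => t ^ 2 * v (t • x)) = fun q => t ^ 2 * V3 v (t • q) := by
    ext q
    show t ^ 2 * v (t • q.fst) + t ^ 2 * v (t • q.snd.fst) + t ^ 2 * v (t • q.snd.snd) =
      t ^ 2 * (v (t • q.fst) + v (t • q.snd.fst) + v (t • q.snd.snd))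
    ring
  refine ⟨p, fun k j => sc t (c k j), h1, fun k j => ⟨h1_sc (h2 k j).1 ht, anti_sc (h2 k j).2 t⟩,
    fun k => ?_, fun k χ a1 a2 a3 => ?_, fun A hA => ?_⟩
  · simp only [nsq_sc _ ht, h3]
  · have h6 := h4 k _ (h1_sc a1 (inv_pos.2 ht)) (anti_sc a2 t⁻¹) ((nsq_sc χ (inv_pos.2 ht)).trans a3)
    simp only [e, Q_sc _ (h2 k _).1 ht]
    rw [Q_inv _ a1 ht, ← Finset.mul_sum]
    exact mul_le_mul_of_nonneg_left h6 (sq_nonneg t)
  · simp only [dens_sc _ ht, lint3 _ ht]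
    exact h5 _ ((Homeomorph.smulOfNeZero t ht.ne' : E ≃ₜ E).measurableEmbedding.measurableSet_image.2 hA)

end

end Crest.Agent.R335
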