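import Crest.Agent.R335.Defs

/-! Row 335: mollification in `L²`. -/

set_option autoImplicit false
set_option linter.unusedSectionVars false

open MeasureTheory Set Filter Topology Metric
open scoped Gradient ContDiff RealInnerProductSpace ENNReal Convolution Pointwise

namespace Crest.Agent.R335.S02Aux

noncomputable section

/-- Riesz–Scheffé in `L²` -/
theorem scheffe {α F : Type*} [MeasurableSpace α] {μ : Measure α} [NormedAddCommGroup F]
    {u : α → F} {us : ℕ → α → F} (hu : MemLp u 2 μ) (hs : ∀ n, MemLp (us n) 2 μ)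
    (hle : ∀ n, ∫ y, ‖us n y‖ ^ 2 ∂μ ≤ ∫ y, ‖u y‖ ^ 2 ∂μ)
    (hae : ∀ᵐ y ∂μ, Tendsto (fun n => us n y) atTop (𝓝 (u y))) :
    Tendsto (fun n => ∫ y, ‖u y - us n y‖ ^ 2 ∂μ) atTop (𝓝 0) := by
  have i0 : Integrable (fun y => ‖u y‖ ^ 2) μ := (memLp_two_iff_integrable_sq_norm hu.1).1 hu
  have i1 : ∀ n, Integrable (fun y => ‖us n y‖ ^ 2) μ := fun n =>
    (memLp_two_iff_integrable_sq_norm (hs n).1).1 (hs n)
  have i2 : ∀ n, Integrable (fun y => ‖u y - us n y‖ ^ 2) μ := fun n =>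
    (memLp_two_iff_integrable_sq_norm (hu.sub (hs n)).1).1 (hu.sub (hs n))
  have i3 : ∀ n, Integrable
      (fun y => 2 * ‖us n y‖ ^ 2 + 2 * ‖u y‖ ^ 2 - ‖u y - us n y‖ ^ 2) μ := fun n =>
    (((i1 n).const_mul 2).add (i0.const_mul 2)).sub (i2 n)
  have hpos : ∀ n y, 0 ≤ 2 * ‖us n y‖ ^ 2 + 2 * ‖u y‖ ^ 2 - ‖u y - us n y‖ ^ 2 := by
    intro n y
    have h1 := norm_sub_le (u y) (us n y)
    have h2 : ‖u y - us n y‖ ^ 2 ≤ (‖u y‖ + ‖us n y‖) ^ 2 :=
      pow_le_pow_left₀ (norm_nonneg _) h1 2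
    nlinarith [sq_nonneg (‖u y‖ - ‖us n y‖)]
  have hint : ∀ n, ∫ y, (2 * ‖us n y‖ ^ 2 + 2 * ‖u y‖ ^ 2 - ‖u y - us n y‖ ^ 2) ∂μ ≤
      4 * ∫ y, ‖u y‖ ^ 2 ∂μ - ∫ y, ‖u y - us n y‖ ^ 2 ∂μ := by
    intro n
    have j1 : Integrable (fun y => 2 * ‖us n y‖ ^ 2 + 2 * ‖u y‖ ^ 2) μ :=
      ((i1 n).const_mul 2).add (i0.const_mul 2)
    rw [integral_sub j1 (i2 n), integral_add ((i1 n).const_mul 2) (i0.const_mul 2),
      integral_const_mul, integral_const_mul]
    linarith [hle n]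
  have hF := lintegral_liminf_le' (μ := μ) (u := atTop) (f := fun n y =>
    ENNReal.ofReal (2 * ‖us n y‖ ^ 2 + 2 * ‖u y‖ ^ 2 - ‖u y - us n y‖ ^ 2))
    fun n => (i3 n).1.aemeasurable.ennreal_ofReal
  have hL : ∫⁻ y, liminf (fun n =>
      ENNReal.ofReal (2 * ‖us n y‖ ^ 2 + 2 * ‖u y‖ ^ 2 - ‖u y - us n y‖ ^ 2)) atTop ∂μ =
      ENNReal.ofReal (4 * ∫ y, ‖u y‖ ^ 2 ∂μ) := by
    rw [← integral_const_mul, ofReal_integral_eq_lintegral_ofReal (i0.const_mul 4)
      (Eventually.of_forall fun y => by positivity)]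
    refine lintegral_congr_ae ?_
    filter_upwards [hae] with y hy
    have h1 := ((((hy.norm.pow 2).const_mul 2).add_const (2 * ‖u y‖ ^ 2)).sub
      ((hy.const_sub (u y)).norm.pow 2))
    have h2 : 2 * ‖u y‖ ^ 2 + 2 * ‖u y‖ ^ 2 - ‖u y - u y‖ ^ 2 = 4 * ‖u y‖ ^ 2 := by
      rw [sub_self, norm_zero]
      ring
    rw [h2] at h1
    exact (ENNReal.tendsto_ofReal h1).liminf_eq
  rw [hL] at hF
  refine tendsto_order.2 ⟨fun a ha => Eventually.of_forall fun n =>
    ha.trans_le (integral_nonneg fun y => by positivity), fun a ha => ?_⟩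
  by_contra hcon
  have hfr : ∃ᶠ n in atTop, a ≤ ∫ y, ‖u y - us n y‖ ^ 2 ∂μ := by
    simpa only [not_eventually, not_lt] using hcon
  have h0 : 0 ≤ 4 * ∫ y, ‖u y‖ ^ 2 ∂μ - a := by
    obtain ⟨n, hn⟩ := hfr.exists
    have h1 := hint n
    have h2 : 0 ≤ ∫ y, (2 * ‖us n y‖ ^ 2 + 2 * ‖u y‖ ^ 2 - ‖u y - us n y‖ ^ 2) ∂μ :=
      integral_nonneg (hpos n)
    linarith
  have h3 := hF.trans (liminf_le_of_frequently_le'
    (x := ENNReal.ofReal (4 * ∫ y, ‖u y‖ ^ 2 ∂μ - a)) (hfr.mono fun n hn => by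
      rw [← ofReal_integral_eq_lintegral_ofReal (i3 n) (Eventually.of_forall (hpos n))]
      exact ENNReal.ofReal_le_ofReal (by linarith [hint n])))
  rw [ENNReal.ofReal_le_ofReal_iff h0] at h3
  linarith

/-- summable integrals force almost everywhere convergence -/
theorem ae_tendsto {α : Type*} [MeasurableSpace α] {μ : Measure α} {h : ℕ → α → ℝ}
    (hi : ∀ n, Integrable (h n) μ) (h0 : ∀ n x, 0 ≤ h n x)
    (hle : ∀ n, ∫ x, h n x ∂μ ≤ (1 / 4) ^ n) :
    ∀ᵐ x ∂μ, Tendsto (fun n => h n x) atTop (𝓝 0) := by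
  have hm : ∀ n, AEMeasurable (fun x => ENNReal.ofReal (h n x)) μ := fun n =>
    (hi n).1.aemeasurable.ennreal_ofReal
  have h1 : ∫⁻ x, ∑' n, ENNReal.ofReal (h n x) ∂μ ≠ ⊤ := by
    rw [lintegral_tsum hm]
    have hs : Summable fun n : ℕ => ((1 : ℝ) / 4) ^ n :=
      summable_geometric_of_lt_one (by norm_num) (by norm_num)
    refine ne_top_of_le_ne_top hs.tsum_ofReal_ne_top (ENNReal.tsum_le_tsum fun n => ?_)
    rw [← ofReal_integral_eq_lintegral_ofReal (hi n) (Eventually.of_forall (h0 n))]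
    exact ENNReal.ofReal_le_ofReal (hle n)
  filter_upwards [ae_lt_top' (AEMeasurable.tsum hm) h1] with x hx
  have h2 := ENNReal.tendsto_atTop_zero_of_tsum_ne_top hx.ne
  have h3 := (ENNReal.tendsto_toReal ENNReal.zero_ne_top).comp h2
  rw [ENNReal.toReal_zero] at h3
  exact h3.congr fun n => ENNReal.toReal_ofReal (h0 n x)

variable {V : Type*} [NormedAddCommGroup V] [InnerProductSpace ℝ V] [FiniteDimensional ℝ V]
  [MeasurableSpace V] [BorelSpace V]

/-- convolution with the normalised bump -/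
def cv {F : Type*} [NormedAddCommGroup F] [NormedSpace ℝ F] (ρ : ContDiffBump (0 : V))
    (w : V → F) : V → F :=
  ρ.normed volume ⋆[ContinuousLinearMap.lsmul ℝ ℝ, volume] w

section conv

variable {F : Type*} [NormedAddCommGroup F] [NormedSpace ℝ F]

theorem cv_def (ρ : ContDiffBump (0 : V)) (w : V → F) :
    cv ρ w = ρ.normed volume ⋆[ContinuousLinearMap.lsmul ℝ ℝ, volume] w := rfl

theorem cv_apply (ρ : ContDiffBump (0 : V)) (w : V → F) (x : V) :
    cv ρ w x = ∫ t, ρ.normed volume (x - t) • w t := by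
  rw [cv_def, convolution_lsmul_swap]

theorem cv_smooth (ρ : ContDiffBump (0 : V)) {w : V → F} (hw : LocallyIntegrable w volume) :
    ContDiff ℝ ∞ (cv ρ w) :=
  ρ.hasCompactSupport_normed.contDiff_convolution_left _ ρ.contDiff_normed hw

theorem cv_int (ρ : ContDiffBump (0 : V)) {w : V → F} (hw : LocallyIntegrable w volume) (x : V) :
    Integrable fun t => ρ.normed volume (x - t) • w t :=
  (ρ.hasCompactSupport_normed.convolutionExists_left (ContinuousLinearMap.lsmul ℝ ℝ)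
    ρ.continuous_normed hw x).integrable_swap

theorem ker_int (ρ : ContDiffBump (0 : V)) (x : V) :
    Integrable fun t => ρ.normed volume (x - t) :=
  (ρ.integrable_normed (μ := volume)).comp_sub_left x

theorem ker_one (ρ : ContDiffBump (0 : V)) (x : V) : ∫ t, ρ.normed volume (x - t) = 1 := by
  rw [integral_sub_left_eq_self (ρ.normed volume) volume x, ρ.integral_normed]

theorem cv_sq_le (ρ : ContDiffBump (0 : V)) {w : V → F} (hw : MemLp w 2 volume) (x : V) :
    ‖cv ρ w x‖ ^ 2 ≤ cv ρ (fun t => ‖w t‖ ^ 2) x := by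
  have hl : LocallyIntegrable w volume := hw.locallyIntegrable (by norm_num)
  have i0 : Integrable (fun y => ‖w y‖ ^ 2) := (memLp_two_iff_integrable_sq_norm hw.1).1 hw
  have j1 := (cv_int ρ hl x).norm
  have j2 := cv_int ρ i0.locallyIntegrable x
  obtain ⟨c, hc⟩ : ∃ c, c = ∫ t, ‖ρ.normed volume (x - t) • w t‖ := ⟨_, rfl⟩
  have h1 : ‖cv ρ w x‖ ≤ c := by
    rw [cv_apply, hc]
    exact norm_integral_le_integral_norm _
  have h2 : 2 * c * c ≤ c ^ 2 + cv ρ (fun t => ‖w t‖ ^ 2) x := by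
    have h3 : ∫ t, 2 * c * ‖ρ.normed volume (x - t) • w t‖ ≤
        ∫ t, (c ^ 2 * ρ.normed volume (x - t) + ρ.normed volume (x - t) • ‖w t‖ ^ 2) := by
      refine integral_mono (j1.const_mul _) (((ker_int ρ x).const_mul _).add j2) fun t => ?_
      have h4 := ρ.nonneg_normed (μ := volume) (x - t)
      dsimp only
      rw [norm_smul, Real.norm_of_nonneg h4, smul_eq_mul]
      nlinarith [mul_nonneg h4 (sq_nonneg (c - ‖w t‖))]
    rw [integral_const_mul, ← hc, integral_add ((ker_int ρ x).const_mul _) j2, integral_const_mul,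
      ker_one, mul_one, ← cv_apply] at h3
    exact h3
  have h5 := pow_le_pow_left₀ (norm_nonneg _) h1 2
  nlinarith

theorem cv_l2 (ρ : ContDiffBump (0 : V)) {w : V → F} (hw : MemLp w 2 volume) :
    MemLp (cv ρ w) 2 volume ∧ ∫ x, ‖cv ρ w x‖ ^ 2 ≤ ∫ x, ‖w x‖ ^ 2 := by
  have hl : LocallyIntegrable w volume := hw.locallyIntegrable (by norm_num)
  have i0 : Integrable (fun y => ‖w y‖ ^ 2) := (memLp_two_iff_integrable_sq_norm hw.1).1 hw
  have i1 : Integrable (cv ρ fun t => ‖w t‖ ^ 2) :=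
    ρ.integrable_normed.integrable_convolution _ i0
  have hm := (cv_smooth ρ hl).continuous.aestronglyMeasurable (μ := volume)
  have i2 : Integrable fun x => ‖cv ρ w x‖ ^ 2 :=
    i1.mono' (hm.norm.pow 2) (Eventually.of_forall fun x => by
      rw [Real.norm_of_nonneg (by positivity)]
      exact cv_sq_le ρ hw x)
  refine ⟨(memLp_two_iff_integrable_sq_norm hm).2 i2, (integral_mono i2 i1 (cv_sq_le ρ hw)).trans ?_⟩
  have h1 := integral_convolution (ContinuousLinearMap.lsmul ℝ ℝ)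
    (ρ.integrable_normed (μ := volume)) i0
  rw [ρ.integral_normed, ContinuousLinearMap.lsmul_apply, one_smul] at h1
  exact h1.le

/-- the mollifiers of radius `r / (n + 1)` -/
def mol (r : ℝ) (hr : 0 < r) (n : ℕ) : ContDiffBump (0 : V) :=
  ⟨r * (1 / ((n : ℝ) + 1)) / 2, r * (1 / ((n : ℝ) + 1)), by positivity,
    half_lt_self (by positivity)⟩

omit [FiniteDimensional ℝ V] [MeasurableSpace V] [BorelSpace V] in
theorem mol_rOut (r : ℝ) (hr : 0 < r) (n : ℕ) :
    (mol r hr n : ContDiffBump (0 : V)).rOut = r * (1 / ((n : ℝ) + 1)) := rfl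

omit [FiniteDimensional ℝ V] [MeasurableSpace V] [BorelSpace V] in
theorem mol_rIn (r : ℝ) (hr : 0 < r) (n : ℕ) :
    (mol r hr n : ContDiffBump (0 : V)).rIn = r * (1 / ((n : ℝ) + 1)) / 2 := rfl

theorem cv_tendsto [CompleteSpace F] {r : ℝ} (hr : 0 < r) {c : ℕ → V → ℝ}
    (hc : ∀ n, Continuous (c n)) (hc1 : ∀ n x, ‖c n x‖ ≤ 1)
    (hc2 : ∀ x, Tendsto (fun n => c n x) atTop (𝓝 1)) {w : V → F} (hw : MemLp w 2 volume) :
    Tendsto (fun n => ∫ x, ‖w x - c n x • cv (mol r hr n) w x‖ ^ 2) atTop (𝓝 0) := by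
  have hl : LocallyIntegrable w volume := hw.locallyIntegrable (by norm_num)
  have hb : ∀ n x, ‖c n x • cv (mol r hr n) w x‖ ≤ ‖cv (mol r hr n) w x‖ := fun n x => by
    rw [norm_smul]
    exact mul_le_of_le_one_left (norm_nonneg _) (hc1 n x)
  have hm : ∀ n, MemLp (fun x => c n x • cv (mol r hr n) w x) 2 volume := fun n =>
    (cv_l2 _ hw).1.of_le ((hc n).smul (cv_smooth _ hl).continuous).aestronglyMeasurable
      (Eventually.of_forall (hb n))
  refine scheffe hw hm (fun n => ?_) ?_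
  · refine (integral_mono ((memLp_two_iff_integrable_sq_norm (hm n).1).1 (hm n))
      ((memLp_two_iff_integrable_sq_norm (cv_l2 _ hw).1.1).1 (cv_l2 _ hw).1) fun x => ?_).trans
      (cv_l2 (mol r hr n) hw).2
    exact pow_le_pow_left₀ (norm_nonneg _) (hb n x) 2
  · have h0 := (tendsto_one_div_add_atTop_nhds_zero_nat (𝕜 := ℝ)).const_mul r
    rw [mul_zero] at h0
    have h := ContDiffBump.ae_convolution_tendsto_right_of_locallyIntegrable
      (φ := fun n => (mol r hr n : ContDiffBump (0 : V)))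
      (l := atTop) (K := 2) (μ := volume) h0
      (Eventually.of_forall fun n => le_of_eq (by rw [mol_rOut, mol_rIn]; ring)) hl
    filter_upwards [h] with y hy
    have h1 := (hc2 y).smul hy
    rw [one_smul] at h1
    exact h1

end conv

theorem grad_def (φ : V → ℝ) (x : V) :
    ∇ φ x = (InnerProductSpace.toDual ℝ V).symm (fderiv ℝ φ x) := rfl

omit [MeasurableSpace V] [BorelSpace V] in
theorem cont_grad {φ : V → ℝ} (h : ContDiff ℝ 1 φ) : Continuous (∇ φ) :=
  (InnerProductSpace.toDual ℝ V).symm.continuous.comp (h.continuous_fderiv one_ne_zero)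

omit [MeasurableSpace V] [BorelSpace V] in
theorem supp_grad {φ : V → ℝ} (h : HasCompactSupport φ) : HasCompactSupport (∇ φ) :=
  (h.fderiv ℝ).comp_left (g := (InnerProductSpace.toDual ℝ V).symm) (map_zero _)

omit [MeasurableSpace V] [BorelSpace V] in
theorem norm_grad (φ : V → ℝ) (x : V) : ‖∇ φ x‖ = ‖fderiv ℝ φ x‖ :=
  (InnerProductSpace.toDual ℝ V).symm.norm_map _

omit [MeasurableSpace V] [BorelSpace V] in
theorem norm_grad_sub (φ ψ : V → ℝ) (x : V) :
    ‖∇ φ x - ∇ ψ x‖ = ‖fderiv ℝ φ x - fderiv ℝ ψ x‖ := by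
  rw [← (InnerProductSpace.toDual ℝ V).symm.norm_map, map_sub]
  rfl

omit [MeasurableSpace V] [BorelSpace V] in
theorem grad_zero {φ : V → ℝ} {x : V} (hx : x ∉ tsupport φ) : ∇ φ x = 0 := by
  rw [← norm_eq_zero, norm_grad, norm_eq_zero]
  by_contra h
  exact hx (support_fderiv_subset ℝ h)

theorem grad_cv {u : V → ℝ} {g : V → V} (hw : IsW u g) (ρ : ContDiffBump (0 : V)) (x : V) :
    ∇ (cv ρ u) x = cv ρ g x := by
  obtain ⟨p, hp⟩ : ∃ p : V → ℝ, p = ρ.normed volume := ⟨_, rfl⟩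
  have hs : HasCompactSupport p := hp ▸ ρ.hasCompactSupport_normed
  have h1 : ContDiff ℝ 1 p := hp ▸ ρ.contDiff_normed (n := 1)
  have hi := cv_int ρ hw.lg x
  refine ext_inner_right ℝ fun v => ?_
  rw [inner_gradient_left, cv_apply, real_inner_comm, ← integral_inner hi, cv_def, ← hp,
    ← convolution_flip, (hs.hasFDerivAt_convolution_right _ hw.lu h1 x).fderiv,
    convolution_precompR_apply _ hw.lu (hs.fderiv ℝ) (h1.continuous_fderiv one_ne_zero),
    convolution_def]
  have h2 := hw.ibp (fun t => p (x - t))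
    ⟨h1.comp (contDiff_const.sub contDiff_id), hs.comp_homeomorph (Homeomorph.subLeft x)⟩ v
  have h3 : ∀ t, ⟪∇ (fun t => p (x - t)) t, v⟫ = -fderiv ℝ p (x - t) v := by
    intro t
    have hd := (h1.differentiable one_ne_zero (x - t)).hasFDerivAt.comp t
      ((hasFDerivAt_id t).const_sub x)
    have e : fderiv ℝ (fun t => p (x - t)) t = _ := hd.fderiv
    rw [inner_gradient_left, e]
    simp
  simp only [h3, mul_neg, integral_neg, neg_inj] at h2
  refine Eq.trans ?_ (h2.trans ?_)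
  · refine integral_congr_ae (Eventually.of_forall fun t => ?_)
    simp [mul_comm]
  · refine integral_congr_ae (Eventually.of_forall fun t => ?_)
    dsimp only
    rw [inner_smul_right, real_inner_comm, mul_comm]

omit [MeasurableSpace V] [BorelSpace V] in
theorem grad_mul {a b : V → ℝ} (ha : ContDiff ℝ 1 a) (hb : ContDiff ℝ 1 b) (y : V) :
    ∇ (fun y => a y * b y) y = a y • ∇ b y + b y • ∇ a y := by
  have e : fderiv ℝ (fun y => a y * b y) y = _ :=
    ((ha.differentiable one_ne_zero y).hasFDerivAt.mul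
      (hb.differentiable one_ne_zero y).hasFDerivAt).fderiv
  refine ext_inner_right ℝ fun v => ?_
  rw [inner_gradient_left, e, inner_add_left, real_inner_smul_left, real_inner_smul_left,
    inner_gradient_left, inner_gradient_left]
  rfl

omit [MeasurableSpace V] [BorelSpace V] in
/-- cut-off functions -/
theorem exists_cut : ∃ (c : ℕ → V → ℝ) (L : ℝ), 0 ≤ L ∧ (∀ n, ContDiff ℝ ∞ (c n)) ∧
    (∀ n, HasCompactSupport (c n)) ∧ (∀ n x, ‖c n x‖ ≤ 1) ∧
    (∀ x, Tendsto (fun n => c n x) atTop (𝓝 1)) ∧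
    ∀ (n : ℕ) (x : V), ‖∇ (c n) x‖ ≤ L * (1 / ((n : ℝ) + 1)) := by
  obtain ⟨χ, hχ⟩ : ∃ χ : ContDiffBump (0 : V), χ = ⟨1, 2, one_pos, one_lt_two⟩ := ⟨_, rfl⟩
  obtain ⟨L, hL⟩ := (χ.hasCompactSupport.fderiv ℝ).exists_bound_of_continuous
    ((χ.contDiff (n := 1)).continuous_fderiv one_ne_zero)
  have hL0 : 0 ≤ L := (norm_nonneg _).trans (hL 0)
  refine ⟨fun n y => χ ((1 / ((n : ℝ) + 1)) • y), L, hL0,
    fun n => χ.contDiff.comp (contDiff_id.const_smul _),
    fun n => χ.hasCompactSupport.comp_smul (c := 1 / ((n : ℝ) + 1)) (by positivity),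
    fun n y => ?_, fun y => ?_, fun n y => ?_⟩
  · rw [Real.norm_of_nonneg χ.nonneg]
    exact χ.le_one
  · have h := (tendsto_one_div_add_atTop_nhds_zero_nat (𝕜 := ℝ)).smul_const y
    rw [zero_smul] at h
    have h1 : χ 0 = 1 := χ.one_of_mem_closedBall (mem_closedBall_self χ.rIn_pos.le)
    have h2 := (χ.continuous.tendsto 0).comp h
    rw [h1] at h2
    exact h2
  · have hd := (((χ.contDiff (n := 1)).differentiable one_ne_zero)
      ((1 / ((n : ℝ) + 1)) • y)).hasFDerivAt.comp y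
        ((hasFDerivAt_id y).const_smul (1 / ((n : ℝ) + 1)))
    have e : fderiv ℝ (fun y => χ ((1 / ((n : ℝ) + 1)) • y)) y = _ := hd.fderiv
    rw [norm_grad, e]
    refine (ContinuousLinearMap.opNorm_comp_le _ _).trans
      (mul_le_mul (hL _) ?_ (norm_nonneg _) hL0)
    rw [norm_smul, Real.norm_of_nonneg (by positivity)]
    exact mul_le_of_le_one_right (by positivity) ContinuousLinearMap.norm_id_le

/-- uniform `C¹` approximation of a `C¹` test function by smooth ones -/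
theorem exists_approx {φ : V → ℝ} (h1 : ContDiff ℝ 1 φ) (hc : HasCompactSupport φ) {ε : ℝ}
    (hε : 0 < ε) : ∃ χ : V → ℝ, ContDiff ℝ ∞ χ ∧
      (∀ x, x ∉ cthickening 1 (tsupport φ) → χ x = 0) ∧
      ∀ x, |φ x - χ x| ≤ ε ∧ ‖∇ φ x - ∇ χ x‖ ≤ ε := by
  have hd : Continuous (fderiv ℝ φ) := h1.continuous_fderiv (by simp)
  have u1 := hc.uniformContinuous_of_continuous h1.continuous
  have u2 := (hc.fderiv ℝ).uniformContinuous_of_continuous hd
  obtain ⟨r1, hr1, H1⟩ := Metric.uniformContinuous_iff.mp u1 ε hε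
  obtain ⟨r2, hr2, H2⟩ := Metric.uniformContinuous_iff.mp u2 ε hε
  have hr0 : 0 < min 1 (min r1 r2) := lt_min one_pos (lt_min hr1 hr2)
  obtain ⟨ρ, hρ⟩ : ∃ ρ : ContDiffBump (0 : V), ρ.rOut = min 1 (min r1 r2) :=
    ⟨⟨min 1 (min r1 r2) / 2, min 1 (min r1 r2), by linarith, by linarith⟩, rfl⟩
  refine ⟨ρ.normed volume ⋆[ContinuousLinearMap.lsmul ℝ ℝ, volume] φ, ?_, ?_, fun x => ⟨?_, ?_⟩⟩
  · exact ρ.hasCompactSupport_normed.contDiff_convolution_left _ ρ.contDiff_normed
      h1.continuous.locallyIntegrable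
  · intro x hx
    by_contra hne
    have := support_convolution_subset (L := ContinuousLinearMap.lsmul ℝ ℝ) (μ := volume)
      (f := ρ.normed volume) (g := φ) hne
    obtain ⟨a, ha, b, hb, rfl⟩ := this
    rw [ρ.support_normed_eq, hρ, mem_ball_zero_iff] at ha
    apply hx
    refine mem_cthickening_of_dist_le _ b 1 _ (subset_tsupport _ hb) ?_
    simp only [dist_add_self_left]
    exact ha.le.trans (min_le_left _ _)
  · rw [← Real.dist_eq, dist_comm]
    refine ρ.dist_normed_convolution_le h1.continuous.aestronglyMeasurable fun y hy => ?_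
    rw [hρ] at hy
    exact (H1 (lt_of_lt_of_le hy ((min_le_right _ _).trans (min_le_left _ _)))).le
  · rw [norm_grad_sub, ← dist_eq_norm, dist_comm]
    have hf := (hc.hasFDerivAt_convolution_right (ContinuousLinearMap.lsmul ℝ ℝ)
      ((ρ.continuous_normed (μ := volume)).locallyIntegrable (μ := volume)) h1 x).fderiv
    have e : (ρ.normed volume ⋆[(ContinuousLinearMap.lsmul ℝ ℝ).precompR V, volume]
        fderiv ℝ φ) x = (ρ.normed volume ⋆[ContinuousLinearMap.lsmul ℝ ℝ, volume] fderiv ℝ φ) x := by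
      simp only [convolution_def]
      congr 1
    rw [hf, e]
    refine ρ.dist_normed_convolution_le hd.aestronglyMeasurable fun y hy => ?_
    rw [hρ] at hy
    exact (H2 (lt_of_lt_of_le hy ((min_le_right _ _).trans (min_le_right _ _)))).le

/-- pairings with uniformly close test functions are close -/
theorem close {w a b : V → ℝ} (hw : LocallyIntegrable w volume) (ha : Continuous a)
    (hb : Continuous b) {K : Set V} (hK : IsCompact K) (ha0 : ∀ x, x ∉ K → a x = 0)
    (hb0 : ∀ x, x ∉ K → b x = 0) {ε : ℝ} (h : ∀ x, |a x - b x| ≤ ε) :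
    |(∫ x, w x * a x) - ∫ x, w x * b x| ≤ ε * ∫ x in K, ‖w x‖ := by
  have ia : Integrable fun x => w x * a x :=
    hw.integrable_smul_right_of_hasCompactSupport ha (HasCompactSupport.intro hK ha0)
  have ib : Integrable fun x => w x * b x :=
    hw.integrable_smul_right_of_hasCompactSupport hb (HasCompactSupport.intro hK hb0)
  have iK : IntegrableOn (fun x => ε * ‖w x‖) K := ((hw.integrableOn_isCompact hK).norm).const_mul ε
  rw [← integral_sub ia ib, ← integral_const_mul, ← integral_indicator hK.measurableSet,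
    ← Real.norm_eq_abs]
  refine norm_integral_le_of_norm_le (iK.integrable_indicator hK.measurableSet)
    (Eventually.of_forall fun x => ?_)
  by_cases hx : x ∈ K
  · rw [indicator_of_mem hx, ← mul_sub, norm_mul, mul_comm]
    exact mul_le_mul_of_nonneg_right (h x) (norm_nonneg _)
  · rw [indicator_of_notMem hx, ha0 x hx, hb0 x hx, sub_self, norm_zero]

end

end Crest.Agent.R335.S02Aux
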