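import Crest.Agent.R335.S01
import Crest.Agent.R335.S02Aux1

set_option autoImplicit false

open MeasureTheory Set Filter Topology Metric
open scoped Gradient ContDiff RealInnerProductSpace ENNReal

namespace Crest.Agent.R335

noncomputable section

variable {V : Type*} [NormedAddCommGroup V] [InnerProductSpace ℝ V] [FiniteDimensional ℝ V]
  [MeasurableSpace V] [BorelSpace V]

/-! smooth tests suffice; density of test functions in `H¹` (mollify `u`, continuity of translations in `L²`, then cut off) -/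
theorem isW_of_smooth {u : V → ℝ} {g : V → V} (hu : LocallyIntegrable u volume)
    (hg : LocallyIntegrable g volume)
    (h : ∀ φ : V → ℝ, ContDiff ℝ ∞ φ → HasCompactSupport φ → ∀ v : V,
      ∫ x, u x * ⟪∇ φ x, v⟫ = -∫ x, ⟪g x, v⟫ * φ x) : IsW u g := by
  refine ⟨hu, hg, fun φ hφ v => ?_⟩
  have hK : IsCompact (cthickening 1 (tsupport φ)) := hφ.2.isCompact.cthickening
  have hgv : LocallyIntegrable (fun x => ⟪g x, v⟫) volume := by
    intro x
    obtain ⟨s, hs, hi⟩ := hg x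
    exact ⟨s, hs, Integrable.inner_const hi v⟩
  have hφ0 : ∀ x, x ∉ cthickening 1 (tsupport φ) → x ∉ tsupport φ := fun x hx h' =>
    hx (self_subset_cthickening _ h')
  obtain ⟨C, hC⟩ : ∃ C : ℝ, C = ‖v‖ * (∫ x in cthickening 1 (tsupport φ), ‖u x‖) +
      ∫ x in cthickening 1 (tsupport φ), ‖⟪g x, v⟫‖ := ⟨_, rfl⟩
  have key : ∀ ε : ℝ, 0 < ε →
      |(∫ x, u x * ⟪∇ φ x, v⟫) - -∫ x, ⟪g x, v⟫ * φ x| ≤ ε * C := by
    intro ε hε
    obtain ⟨χ, hχ1, hχ2, hχ3⟩ := S02Aux.exists_approx hφ.1 hφ.2 hε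
    have hχ1' : ContDiff ℝ 1 χ := hχ1.of_le (by exact_mod_cast le_top)
    have hχ0 : ∀ x, x ∉ cthickening 1 (tsupport φ) → x ∉ tsupport χ := by
      intro x hx h'
      refine hx (closure_minimal (fun y hy => ?_) isClosed_cthickening h')
      by_contra hy'
      exact hy (hχ2 y hy')
    have e0 := h χ hχ1 (HasCompactSupport.intro hK hχ2) v
    have e1 := S02Aux.close (a := fun x => ⟪∇ φ x, v⟫) (b := fun x => ⟪∇ χ x, v⟫) hu
      ((S02Aux.cont_grad hφ.1).inner continuous_const)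
      ((S02Aux.cont_grad hχ1').inner continuous_const) hK
      (fun x hx => by rw [S02Aux.grad_zero (hφ0 x hx), inner_zero_left])
      (fun x hx => by rw [S02Aux.grad_zero (hχ0 x hx), inner_zero_left]) (ε := ε * ‖v‖)
      (fun x => by
        rw [← inner_sub_left]
        exact (abs_real_inner_le_norm _ _).trans
          (mul_le_mul_of_nonneg_right (hχ3 x).2 (norm_nonneg _)))
    have e2 := S02Aux.close hgv hφ.1.continuous hχ1.continuous hK
      (fun x hx => image_eq_zero_of_notMem_tsupport (hφ0 x hx)) hχ2 fun x => (hχ3 x).1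
    rw [abs_le] at e1 e2 ⊢
    rw [hC]
    constructor <;> nlinarith [e1.1, e1.2, e2.1, e2.2]
  have h0 : Tendsto (fun ε : ℝ => ε * C) (𝓝[>] 0) (𝓝 0) := by
    have h1 : Tendsto (fun ε : ℝ => ε * C) (𝓝 0) (𝓝 (0 * C)) := tendsto_id.mul_const C
    rw [zero_mul] at h1
    exact tendsto_nhdsWithin_of_tendsto_nhds h1
  have h2 := ge_of_tendsto h0 (eventually_mem_nhdsWithin.mono fun ε hε => key ε hε)
  exact sub_eq_zero.1 (abs_nonpos_iff.1 h2)
theorem H1.approx {u : V → ℝ} (h : H1 u) (ε : ℝ) (hε : 0 < ε) :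
    ∃ φ : V → ℝ, ContDiff ℝ ∞ φ ∧ HasCompactSupport φ ∧ ∫ x, (u x - φ x) ^ 2 ≤ ε ∧
      ∫ x, ‖D u x - ∇ φ x‖ ^ 2 ≤ ε := by
  obtain ⟨c, L, hL, hc1, hc2, hc3, hc4, hc5⟩ := S02Aux.exists_cut (V := V)
  have t1 := S02Aux.cv_tendsto one_pos (fun n => (hc1 n).continuous) hc3 hc4 h.l2
  have t2 := S02Aux.cv_tendsto one_pos (fun n => (hc1 n).continuous) hc3 hc4 h.dl2
  have t3 := ((((tendsto_one_div_add_atTop_nhds_zero_nat (𝕜 := ℝ)).const_mul L).pow 2).mul_const
    (∫ x, ‖u x‖ ^ 2)).const_mul 2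
  have t4 := (t2.const_mul 2).add t3
  have z : (2 : ℝ) * 0 + 2 * ((L * 0) ^ 2 * ∫ x, ‖u x‖ ^ 2) = 0 := by simp
  rw [z] at t4
  obtain ⟨n, hn1, hn2⟩ := ((t1.eventually (gt_mem_nhds hε)).and (t4.eventually (gt_mem_nhds hε))).exists
  obtain ⟨ρ, hρ⟩ : ∃ ρ : ContDiffBump (0 : V), ρ = S02Aux.mol 1 one_pos n := ⟨_, rfl⟩
  rw [← hρ] at hn1 hn2
  have hs := S02Aux.cv_smooth ρ h.isW.lu
  refine ⟨fun x => c n x * S02Aux.cv ρ u x, (hc1 n).mul hs, (hc2 n).mul_right, ?_, ?_⟩
  · refine le_of_eq_of_le ?_ hn1.le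
    refine integral_congr_ae (Eventually.of_forall fun x => ?_)
    dsimp only
    rw [Real.norm_eq_abs, sq_abs, smul_eq_mul]
  · refine le_trans ?_ hn2.le
    have m1 : MemLp (fun x => D u x - c n x • S02Aux.cv ρ (D u) x) 2 volume :=
      h.dl2.sub ((S02Aux.cv_l2 ρ h.dl2).1.of_le
        ((hc1 n).continuous.smul (S02Aux.cv_smooth ρ h.isW.lg).continuous).aestronglyMeasurable
        (Eventually.of_forall fun x => by
          rw [norm_smul]
          exact mul_le_of_le_one_left (norm_nonneg _) (hc3 n x)))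
    have i1 := ((memLp_two_iff_integrable_sq_norm m1.1).1 m1).const_mul 2
    have m2 := S02Aux.cv_l2 ρ h.l2
    have i2 := (((memLp_two_iff_integrable_sq_norm m2.1.1).1 m2.1).const_mul
      ((L * (1 / ((n : ℝ) + 1))) ^ 2)).const_mul 2
    refine (integral_mono_of_nonneg (Eventually.of_forall fun x => by positivity) (i1.add i2)
      (Eventually.of_forall fun x => ?_)).trans ?_
    · simp only [Pi.add_apply]
      rw [S02Aux.grad_mul ((hc1 n).of_le (by exact_mod_cast le_top))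
        (hs.of_le (by exact_mod_cast le_top)), S02Aux.grad_cv h.isW, ← sub_sub]
      have h1 := norm_sub_le (D u x - c n x • S02Aux.cv ρ (D u) x) (S02Aux.cv ρ u x • ∇ (c n) x)
      have h2 : ‖S02Aux.cv ρ u x • ∇ (c n) x‖ ≤ L * (1 / ((n : ℝ) + 1)) * ‖S02Aux.cv ρ u x‖ := by
        rw [norm_smul, mul_comm]
        exact mul_le_mul_of_nonneg_right (hc5 n x) (norm_nonneg _)
      have h3 := pow_le_pow_left₀ (norm_nonneg _) (h1.trans (add_le_add le_rfl h2)) 2
      nlinarith [sq_nonneg (‖D u x - c n x • S02Aux.cv ρ (D u) x‖ -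
        L * (1 / ((n : ℝ) + 1)) * ‖S02Aux.cv ρ u x‖)]
    · rw [integral_add' i1 i2, integral_const_mul, integral_const_mul, integral_const_mul]
      exact add_le_add le_rfl (mul_le_mul_of_nonneg_left
        (mul_le_mul_of_nonneg_left m2.2 (by positivity)) (by norm_num))
/-- approximation keeping the support (inside any open neighbourhood), the sign and the bound -/
theorem H1.approx_cs {u : V → ℝ} (h : H1 u) {K U : Set V} (hK : IsCompact K) (hU : IsOpen U)
    (hKU : K ⊆ U) (h0 : ∀ᵐ x, x ∉ K → u x = 0) {a b : ℝ} (ha : a ≤ 0) (hb : 0 ≤ b)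
    (ε : ℝ) (hε : 0 < ε) :
    ∃ φ : V → ℝ, ContDiff ℝ ∞ φ ∧ HasCompactSupport φ ∧ tsupport φ ⊆ U ∧
      ((∀ᵐ x, a ≤ u x) → ∀ x, a ≤ φ x) ∧ ((∀ᵐ x, u x ≤ b) → ∀ x, φ x ≤ b) ∧
      ∫ x, (u x - φ x) ^ 2 ≤ ε ∧ ∫ x, ‖D u x - ∇ φ x‖ ^ 2 ≤ ε := by
  obtain ⟨δ, hδ, hsub⟩ := hK.exists_cthickening_subset_open hU hKU
  have t1 := S02Aux.cv_tendsto (c := fun _ _ => 1) hδ (fun _ => continuous_const)
    (fun _ _ => norm_one.le) (fun _ => tendsto_const_nhds) h.l2
  have t2 := S02Aux.cv_tendsto (c := fun _ _ => 1) hδ (fun _ => continuous_const)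
    (fun _ _ => norm_one.le) (fun _ => tendsto_const_nhds) h.dl2
  obtain ⟨n, hn1, hn2⟩ := ((t1.eventually (gt_mem_nhds hε)).and (t2.eventually (gt_mem_nhds hε))).exists
  obtain ⟨ρ, hρ⟩ : ∃ ρ : ContDiffBump (0 : V), ρ = S02Aux.mol δ hδ n := ⟨_, rfl⟩
  have hr : ρ.rOut ≤ δ := by
    rw [hρ, S02Aux.mol_rOut]
    refine mul_le_of_le_one_right hδ.le ?_
    rw [div_le_one (by positivity)]
    linarith [Nat.cast_nonneg (α := ℝ) n]
  rw [← hρ] at hn1 hn2
  have hz : ∀ x, x ∉ cthickening δ K → S02Aux.cv ρ u x = 0 := by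
    intro x hx
    rw [S02Aux.cv_apply]
    refine integral_eq_zero_of_ae ?_
    filter_upwards [h0] with t ht
    by_cases htK : t ∈ K
    · have h1 : ρ.normed volume (x - t) = 0 := by
        by_contra hne
        have h2 : x - t ∈ Function.support (ρ.normed volume) := hne
        rw [ρ.support_normed_eq, mem_ball_zero_iff, ← dist_eq_norm] at h2
        exact hx (mem_cthickening_of_dist_le _ t δ _ htK (h2.le.trans hr))
      rw [h1, zero_smul, Pi.zero_apply]
    · rw [ht htK, smul_zero, Pi.zero_apply]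
  refine ⟨S02Aux.cv ρ u, S02Aux.cv_smooth ρ h.isW.lu, HasCompactSupport.intro hK.cthickening hz,
    Subset.trans (closure_minimal (fun y hy => ?_) isClosed_cthickening) hsub, fun hu x => ?_,
    fun hu x => ?_, ?_, ?_⟩
  · by_contra hy'
    exact hy (hz y hy')
  · have h1 : ∫ t, ρ.normed volume (x - t) * a ≤ ∫ t, ρ.normed volume (x - t) • u t := by
      refine integral_mono_ae ((S02Aux.ker_int ρ x).mul_const a) (S02Aux.cv_int ρ h.isW.lu x) ?_
      filter_upwards [hu] with t ht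
      exact mul_le_mul_of_nonneg_left ht (ρ.nonneg_normed _)
    rw [integral_mul_const, S02Aux.ker_one, one_mul, ← S02Aux.cv_apply] at h1
    exact h1
  · have h1 : ∫ t, ρ.normed volume (x - t) • u t ≤ ∫ t, ρ.normed volume (x - t) * b := by
      refine integral_mono_ae (S02Aux.cv_int ρ h.isW.lu x) ((S02Aux.ker_int ρ x).mul_const b) ?_
      filter_upwards [hu] with t ht
      exact mul_le_mul_of_nonneg_left ht (ρ.nonneg_normed _)
    rw [integral_mul_const, S02Aux.ker_one, one_mul, ← S02Aux.cv_apply] at h1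
    exact h1
  · refine le_of_eq_of_le ?_ hn1.le
    refine integral_congr_ae (Eventually.of_forall fun x => ?_)
    dsimp only
    rw [Real.norm_eq_abs, sq_abs, one_smul]
  · refine le_of_eq_of_le ?_ hn2.le
    refine integral_congr_ae (Eventually.of_forall fun x => ?_)
    dsimp only
    rw [S02Aux.grad_cv h.isW, one_smul]
/-- a sequence of test functions converging in `H¹` and almost everywhere -/
theorem H1.approx_seq {u : V → ℝ} (h : H1 u) :
    ∃ φ : ℕ → V → ℝ, (∀ n, ContDiff ℝ ∞ (φ n) ∧ HasCompactSupport (φ n)) ∧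
      (∀ n, ∫ x, (u x - φ n x) ^ 2 ≤ (1 / 4) ^ n) ∧ (∀ n, ∫ x, ‖D u x - ∇ (φ n) x‖ ^ 2 ≤ (1 / 4) ^ n) ∧
      (∀ᵐ x, Tendsto (fun n => φ n x) atTop (𝓝 (u x))) ∧
      ∀ᵐ x, Tendsto (fun n => ∇ (φ n) x) atTop (𝓝 (D u x)) := by
  choose φ h1 h2 h3 h4 using fun n : ℕ => h.approx ((1 / 4) ^ n) (by positivity)
  refine ⟨φ, fun n => ⟨h1 n, h2 n⟩, h3, h4, ?_, ?_⟩
  · have m : ∀ n, MemLp (fun x => u x - φ n x) 2 volume := fun n =>
      h.l2.sub ((h1 n).continuous.memLp_of_hasCompactSupport (h2 n))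
    filter_upwards [S02Aux.ae_tendsto (h := fun n x => (u x - φ n x) ^ 2)
      (fun n => (m n).integrable_sq) (fun n x => sq_nonneg _) h3] with x hx
    have h5 := hx.sqrt
    rw [Real.sqrt_zero] at h5
    rw [tendsto_iff_norm_sub_tendsto_zero]
    refine h5.congr fun n => ?_
    rw [Real.sqrt_sq_eq_abs, abs_sub_comm, Real.norm_eq_abs]
  · have m : ∀ n, MemLp (fun x => D u x - ∇ (φ n) x) 2 volume := fun n =>
      h.dl2.sub ((S02Aux.cont_grad ((h1 n).of_le (by exact_mod_cast le_top))).memLp_of_hasCompactSupport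
        (S02Aux.supp_grad (h2 n)))
    filter_upwards [S02Aux.ae_tendsto (h := fun n x => ‖D u x - ∇ (φ n) x‖ ^ 2)
      (fun n => (memLp_two_iff_integrable_sq_norm (m n).1).1 (m n)) (fun n x => sq_nonneg _) h4]
      with x hx
    have h5 := hx.sqrt
    rw [Real.sqrt_zero] at h5
    rw [tendsto_iff_norm_sub_tendsto_zero]
    refine h5.congr fun n => ?_
    rw [Real.sqrt_sq (norm_nonneg _), norm_sub_rev]

end

end Crest.Agent.R335
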