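import Crest.Agent.R335.S07Aux3

set_option autoImplicit false

open MeasureTheory Set Filter Topology Metric
open scoped Gradient ContDiff RealInnerProductSpace ENNReal

namespace Crest.Agent.R335

noncomputable section

variable {V : Type*} [NormedAddCommGroup V] [InnerProductSpace ℝ V] [FiniteDimensional ℝ V]
  [MeasurableSpace V] [BorelSpace V]

variable {W : Type*} [NormedAddCommGroup W] [InnerProductSpace ℝ W] [FiniteDimensional ℝ W]
  [MeasurableSpace W] [BorelSpace W]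

/-! changes of variables, reflection, odd functions -/
theorem IsW.iso {u : W → ℝ} {g : W → W} (a : IsW u g) (L : V ≃ₗᵢ[ℝ] W) :
    IsW (fun x => u (L x)) (fun x => L.symm (g (L x))) := (S07.chg_iso L).isW a
theorem Hl.iso {u : W → ℝ} (a : Hl u) (L : V ≃ₗᵢ[ℝ] W) :
    Hl (fun x => u (L x)) ∧ ∀ᵐ x, D (fun x => u (L x)) x = L.symm (D u (L x)) := (S07.chg_iso L).hl a
theorem H1.iso {u : W → ℝ} (a : H1 u) (L : V ≃ₗᵢ[ℝ] W) :
    H1 (fun x => u (L x)) ∧ dir (fun x => u (L x)) = dir u ∧ nsq (fun x => u (L x)) = nsq u := by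
  refine ⟨(S07.chg_iso L).h1 a, ?_, ?_⟩
  · have h1 := (S07.chg_iso L).integral fun y => ‖D u y‖ ^ 2
    rw [ENNReal.toReal_one, one_mul] at h1
    refine Eq.trans (integral_congr_ae ?_) h1
    filter_upwards [(a.hl.iso L).2] with x hx
    rw [hx, L.symm.norm_map]
    rfl
  · have h1 := (S07.chg_iso L).integral fun y => u y ^ 2
    rw [ENNReal.toReal_one, one_mul] at h1
    exact h1
theorem Bl.iso {u : W → ℝ} (a : Bl u) (L : V ≃ₗᵢ[ℝ] W) : Bl fun x => u (L x) :=
  ⟨(a.hl.iso L).1, (S07.chg_iso L).lb a.lb⟩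
theorem Hl.shift {u : V → ℝ} (a : Hl u) (v : V) :
    Hl (fun x => u (x + v)) ∧ ∀ᵐ x, D (fun x => u (x + v)) x = D u (x + v) :=
  (S07.chg_shift v).hl a
theorem H1.shift {u : V → ℝ} (a : H1 u) (v : V) : H1 fun x => u (x + v) := (S07.chg_shift v).h1 a
theorem H1.dilate {u : V → ℝ} (a : H1 u) {t : ℝ} (ht : 0 < t) :
    H1 (fun x => u (t • x)) ∧ (∀ᵐ x, D (fun x => u (t • x)) x = t • D u (t • x)) ∧
      dir (fun x => u (t • x)) = t ^ 2 * (t ^ Module.finrank ℝ V)⁻¹ * dir u := by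
  have h0 : ∀ᵐ x, D (fun x => u (t • x)) x = t • D u (t • x) := ((S07.chg_dil ht).hl a.hl).2
  refine ⟨(S07.chg_dil ht).h1 a, h0, ?_⟩
  have h1 : ∫ x : V, ‖D u (t • x)‖ ^ 2 = _ := (S07.chg_dil ht).integral fun y => ‖D u y‖ ^ 2
  rw [ENNReal.toReal_ofReal (abs_nonneg _), abs_of_pos (by positivity)] at h1
  unfold dir
  rw [mul_assoc, ← h1, ← integral_const_mul]
  refine integral_congr_ae ?_
  filter_upwards [h0] with x hx
  rw [hx, norm_smul, mul_pow, Real.norm_eq_abs, sq_abs]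
/-- the reflection as an isometry -/
theorem exists_Riso : ∃ L : E ≃ₗᵢ[ℝ] E, (∀ x, L x = R x) ∧ ∀ x, L.symm x = R x :=
  ⟨S07.Ri, S07.Ri_apply, S07.Ri_symm_apply⟩
theorem R_R (x : E) : R (R x) = x := S07.R_R' x
theorem R_two (x : E) : R x 2 = -x 2 := S07.R_two' x
theorem norm_R (x : E) : ‖R x‖ = ‖x‖ := S07.norm_R' x
theorem hor_R (x : E) : hor (R x) = hor x := by
  have h : hor (R x) = R x - (R x 2) • ez := rfl
  rw [h, R_two]
  unfold R hor
  module
theorem norm_sq_hor (x : E) : ‖x‖ ^ 2 = ‖hor x‖ ^ 2 + x 2 ^ 2 := by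
  rw [EuclideanSpace.real_norm_sq_eq, EuclideanSpace.real_norm_sq_eq]
  simp only [Fin.sum_univ_three, hor, PiLp.sub_apply, PiLp.smul_apply, S07.ez_zero, S07.ez_one,
    S07.ez_two, smul_eq_mul]
  ring
theorem mp_R : MeasurePreserving R volume volume := S07.mp_R'
theorem ae_two_ne : ∀ᵐ x : E, x 2 ≠ 0 := S07.ae_two_ne'
theorem Hl.refl {u : E → ℝ} (a : Hl u) :
    Hl (fun x => u (R x)) ∧ ∀ᵐ x, D (fun x => u (R x)) x = R (D u (R x)) := a.iso S07.Ri
theorem Ev.D {u : E → ℝ} (a : Hl u) (h : Ev u) : ∀ᵐ x, D u (R x) = R (D u x) := by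
  filter_upwards [a.refl.2, D_congr (u := fun x => u (R x)) (w := u) h] with x h1 h2
  rw [← h2, h1, R_R]
theorem Od.D {u : E → ℝ} (a : Hl u) (h : Od u) : ∀ᵐ x, D u (R x) = -R (D u x) := by
  have h0 : ∀ᵐ x, u (R x) = -1 * u x := by
    filter_upwards [h] with x hx
    rw [hx, neg_one_mul]
  filter_upwards [a.refl.2, D_congr (u := fun x => u (R x)) (w := fun x => -1 * u x) h0,
    D_smul (-1) a] with x h1 h2 h3
  rw [← S07.R_neg, ← neg_one_smul ℝ (R335.D u x), ← h3, ← h2, h1, R_R]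
theorem Od.integral {u : E → ℝ} (h : Od u) : ∫ x, u x = 0 := by
  have h1 := S07.integral_R u
  rw [integral_congr_ae h, integral_neg] at h1
  linarith
theorem Ev.integral {u : E → ℝ} (h : Ev u) (hi : Integrable u) : ∫ x, u x = 2 * ∫ x in Hp, u x := by
  have h1 := integral_add_compl S07.mHp hi
  have h2 := mp_R.setIntegral_preimage_emb S07.me_R u Hp
  have h3 : (R ⁻¹' Hp : Set E) =ᵐ[volume] (Hpᶜ : Set E) := by
    filter_upwards [ae_two_ne] with x hx
    refine propext ?_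
    show (0 ≤ R x 2) ↔ ¬ (0 ≤ x 2)
    rw [R_two]
    constructor
    · intro h4 h5
      exact hx (by linarith)
    · intro h4
      linarith [not_le.1 h4]
  rw [setIntegral_congr_set h3, integral_congr_ae (ae_restrict_of_ae h)] at h2
  linarith
/-- an odd function cut to the half space stays in `H¹_loc` -/
theorem Hl.half {u : E → ℝ} (a : Hl u) (h : Od u) :
    Hl (Hp.indicator u) ∧ ∀ᵐ x, D (Hp.indicator u) x = Hp.indicator (D u) x :=
  ⟨(S07.isW_half a h).hl (fun K hK => (a.l2 K hK).indicator S07.mHp)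
    (fun K hK => (a.dl2 K hK).indicator S07.mHp), (S07.isW_half a h).D_eq⟩
theorem H1.half {u : E → ℝ} (a : H1 u) (h : Od u) : H1 (Hp.indicator u) :=
  (S07.isW_half a.hl h).h1 (a.l2.indicator S07.mHp) (a.dl2.indicator S07.mHp)
theorem Bl.half {u : E → ℝ} (a : Bl u) (h : Od u) : Bl (Hp.indicator u) := by
  refine ⟨(a.hl.half h).1, fun K hK => ?_⟩
  obtain ⟨M, hM⟩ := a.lb K hK
  refine ⟨M, ?_⟩
  filter_upwards [hM] with x hx hxK
  exact (norm_indicator_le_norm_self u x).trans (hx hxK)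
/-- odd functions are small near the plane -/
theorem H1.odd_slab {u : E → ℝ} (a : H1 u) (h : Od u) {s : ℝ} (hs : 0 < s) :
    ∫ x in {x : E | |x 2| ≤ s}, u x ^ 2 ≤ s ^ 2 * dir u := S07.odd_slab' a h hs
theorem coord_two : Bl (fun x : E => x 2) ∧ ∀ x : E, ∇ (fun x : E => x 2) x = ez :=
  ⟨bl_c1 S07.contDiff_two, fun x => (S07.hasGrad_two x).gradient⟩

end

end Crest.Agent.R335
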