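import Crest.Agent.R335.S02

/-! Measure theory on Euclidean products (auxiliary lemmas for `S08`). -/

set_option autoImplicit false
set_option linter.unusedSectionVars false

open MeasureTheory Set Filter Topology Metric
open scoped Gradient ContDiff RealInnerProductSpace ENNReal

namespace Crest.Agent.R335

noncomputable section

section general

variable {α β G : Type*} [MeasurableSpace α] [MeasurableSpace β] {μ : Measure α} {ν : Measure β}
  [NormedAddCommGroup G]

theorem S08_cs {f g : α → ℝ} (hf : MemLp f 2 μ) (hg : MemLp g 2 μ) :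
    (∫ x, f x * g x ∂μ) ^ 2 ≤ (∫ x, f x ^ 2 ∂μ) * ∫ x, g x ^ 2 ∂μ := by
  have h1 := hf.integrable_sq
  have h2 := hg.integrable_sq
  have h3 : Integrable (fun x => f x * g x) μ := hf.integrable_mul hg
  have h : ∀ t : ℝ, 0 ≤ (∫ x, f x ^ 2 ∂μ) * (t * t) + (2 * ∫ x, f x * g x ∂μ) * t +
      ∫ x, g x ^ 2 ∂μ := by
    intro t
    have e : ∫ x, (t * f x + g x) ^ 2 ∂μ = (∫ x, f x ^ 2 ∂μ) * (t * t) +
        (2 * ∫ x, f x * g x ∂μ) * t + ∫ x, g x ^ 2 ∂μ := by
      have e1 : (fun x => (t * f x + g x) ^ 2) =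
          fun x => (f x ^ 2 * (t * t) + (2 * t) * (f x * g x)) + g x ^ 2 := by
        funext x
        ring
      have h4 : Integrable (fun x => f x ^ 2 * (t * t) + (2 * t) * (f x * g x)) μ :=
        (h1.mul_const _).add (h3.const_mul _)
      rw [e1, integral_add h4 h2,
        integral_add (h1.mul_const _) (h3.const_mul _), integral_mul_const, integral_const_mul]
      ring
    rw [← e]
    exact integral_nonneg fun x => sq_nonneg _
  have := discrim_le_zero h
  rw [discrim] at this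
  nlinarith

theorem S08_tendsto {a c : α → ℝ} {b : ℕ → α → ℝ} (ha : MemLp a 2 μ) (hc : MemLp c 2 μ)
    (hb : ∀ n, MemLp (b n) 2 μ)
    (h : Tendsto (fun n => ∫ x, (a x - b n x) ^ 2 ∂μ) atTop (𝓝 0)) :
    Tendsto (fun n => ∫ x, b n x * c x ∂μ) atTop (𝓝 (∫ x, a x * c x ∂μ)) := by
  rw [tendsto_iff_dist_tendsto_zero]
  have h1 : Tendsto (fun n => √((∫ x, (a x - b n x) ^ 2 ∂μ) * ∫ x, c x ^ 2 ∂μ)) atTop (𝓝 0) := by
    simpa using (h.mul_const (∫ x, c x ^ 2 ∂μ)).sqrt
  refine squeeze_zero (fun n => dist_nonneg) (fun n => ?_) h1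
  have i1 : Integrable (fun x => a x * c x) μ := ha.integrable_mul hc
  have i2 : Integrable (fun x => b n x * c x) μ := (hb n).integrable_mul hc
  rw [dist_comm, Real.dist_eq, ← integral_sub i1 i2]
  refine Real.abs_le_sqrt ?_
  have := S08_cs (ha.sub (hb n)) hc
  simpa [sub_mul] using this

theorem S08_inner_int [InnerProductSpace ℝ G] {f g : α → G} (hf : MemLp f 2 μ) (hg : MemLp g 2 μ) :
    Integrable (fun x => ⟪f x, g x⟫) μ :=
  (hf.norm.integrable_mul hg.norm).mono' (hf.1.inner hg.1)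
    (ae_of_all _ fun _ => norm_inner_le_norm _ _)

theorem S08_smul_int [NormedSpace ℝ G] {f : α → ℝ} {g : α → G} (hf : MemLp f 2 μ)
    (hg : MemLp g 2 μ) : Integrable (fun x => f x • g x) μ :=
  (hf.norm.integrable_mul hg.norm).mono' (hf.1.smul hg.1)
    (ae_of_all _ fun _ => (norm_smul _ _).le)

variable [SFinite μ] [SFinite ν] [NormedSpace ℝ G]

theorem S08_l2_smul1 {a : α → ℝ} {B : β → G} (ha : MemLp a 2 μ) (hB : MemLp B 2 ν) :
    MemLp (fun z : α × β => a z.1 • B z.2) 2 (μ.prod ν) := by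
  refine (memLp_two_iff_integrable_sq_norm (ha.1.comp_fst.smul hB.1.comp_snd)).2 ?_
  refine (ha.norm.integrable_sq.mul_prod hB.norm.integrable_sq).congr (ae_of_all _ fun z => ?_)
  simp only [Pi.smul_apply', norm_smul, mul_pow]

theorem S08_l2_smul2 {A : α → G} {b : β → ℝ} (hA : MemLp A 2 μ) (hb : MemLp b 2 ν) :
    MemLp (fun z : α × β => b z.2 • A z.1) 2 (μ.prod ν) := by
  refine (memLp_two_iff_integrable_sq_norm (hb.1.comp_snd.smul hA.1.comp_fst)).2 ?_
  refine (hA.norm.integrable_sq.mul_prod hb.norm.integrable_sq).congr (ae_of_all _ fun z => ?_)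
  simp only [Pi.smul_apply', norm_smul, mul_pow, mul_comm]

theorem S08_l1_smul2 {A : α → G} {b : β → ℝ} (hA : Integrable A μ) (hb : Integrable b ν) :
    Integrable (fun z : α × β => b z.2 • A z.1) (μ.prod ν) :=
  hA.op_fst_snd (op := fun (u : G) (t : ℝ) => t • u) (by fun_prop)
    ⟨1, fun u t => by rw [norm_smul, one_mul, mul_comm]⟩ hb

theorem S08_l2_slice {H : α × β → G} (h : MemLp H 2 (μ.prod ν)) :
    ∀ᵐ x ∂μ, MemLp (fun y => H (x, y)) 2 ν := by
  filter_upwards [h.1.prodMk_left, h.norm.integrable_sq.prod_right_ae] with x h1 h2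
  exact (memLp_two_iff_integrable_sq_norm h1).2 h2

theorem S08_l2_pair {H : α × β → G} (h : MemLp H 2 (μ.prod ν)) {Φ : β → ℝ} (b : MemLp Φ 2 ν) :
    MemLp (fun x => ∫ y, Φ y • H (x, y) ∂ν) 2 μ := by
  have hm : AEStronglyMeasurable (fun x => ∫ y, Φ y • H (x, y) ∂ν) μ :=
    AEStronglyMeasurable.integral_prod_right' (f := fun z : α × β => Φ z.2 • H z)
      (b.1.comp_snd.smul h.1)
  rw [memLp_two_iff_integrable_sq_norm hm]
  refine (h.norm.integrable_sq.integral_prod_left.const_mul (∫ y, ‖Φ y‖ ^ 2 ∂ν)).mono'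
    (hm.norm.pow 2) ?_
  filter_upwards [S08_l2_slice h] with x hx
  rw [Real.norm_eq_abs, abs_of_nonneg (sq_nonneg _)]
  refine le_trans ?_ (S08_cs b.norm hx.norm)
  refine pow_le_pow_left₀ (norm_nonneg _) ((norm_integral_le_integral_norm _).trans ?_) 2
  simp only [norm_smul, le_refl]

theorem S08_slice_zero {e : ℕ → α × β → ℝ} (h0 : ∀ n z, 0 ≤ e n z)
    (hi : ∀ n, Integrable (e n) (μ.prod ν)) (hb : ∀ n, ∫ z, e n z ∂μ.prod ν ≤ (1 / 4) ^ n) :
    ∀ᵐ x ∂μ, Tendsto (fun n => ∫ y, e n (x, y) ∂ν) atTop (𝓝 0) := by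
  have h1 : ∀ n, Integrable (fun x => ∫ y, e n (x, y) ∂ν) μ := fun n => (hi n).integral_prod_left
  have h2 : ∀ n x, 0 ≤ ∫ y, e n (x, y) ∂ν := fun n x => integral_nonneg fun y => h0 n _
  have h3 : ∑' n, ∫⁻ x, ‖∫ y, e n (x, y) ∂ν‖ₑ ∂μ ≠ ⊤ := by
    have h4 : ∀ n, ∫⁻ x, ‖∫ y, e n (x, y) ∂ν‖ₑ ∂μ ≤ ENNReal.ofReal ((1 / 4) ^ n) := by
      intro n
      rw [← ofReal_integral_norm_eq_lintegral_enorm (h1 n)]
      refine ENNReal.ofReal_le_ofReal (le_trans (le_of_eq ?_) (hb n))
      rw [integral_prod _ (hi n)]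
      exact integral_congr_ae (ae_of_all _ fun x => Real.norm_of_nonneg (h2 n x))
    refine ne_top_of_le_ne_top ?_ (ENNReal.tsum_le_tsum h4)
    rw [← ENNReal.ofReal_tsum_of_nonneg (fun n => by positivity)
      (summable_geometric_of_lt_one (by norm_num) (by norm_num))]
    exact ENNReal.ofReal_ne_top
  rw [← lintegral_tsum fun n => (h1 n).1.enorm] at h3
  have h5 := ae_lt_top' (AEMeasurable.tsum fun n => (h1 n).1.enorm) h3
  filter_upwards [h5] with x hx
  have h6 := ENNReal.tendsto_atTop_zero_of_tsum_ne_top hx.ne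
  exact tendsto_zero_iff_enorm_tendsto_zero.2 h6

end general

variable {V : Type*} [NormedAddCommGroup V] [InnerProductSpace ℝ V] [FiniteDimensional ℝ V]
  [MeasurableSpace V] [BorelSpace V]

variable {W : Type*} [NormedAddCommGroup W] [InnerProductSpace ℝ W] [FiniteDimensional ℝ W]
  [MeasurableSpace W] [BorelSpace W]

variable {G : Type*} [NormedAddCommGroup G]

theorem S08_mp : MeasurePreserving (fun z : V × W => pt z.1 z.2)
    ((volume : Measure V).prod (volume : Measure W)) volume :=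
  WithLp.volume_preserving_toLp V W

theorem S08_emb : MeasurableEmbedding (fun z : V × W => pt z.1 z.2) :=
  (MeasurableEquiv.toLp 2 (V × W)).measurableEmbedding

theorem S08_int {F : WithLp 2 (V × W) → G} :
    Integrable (fun z : V × W => F (pt z.1 z.2)) (volume.prod volume) ↔ Integrable F :=
  S08_mp.integrable_comp_emb S08_emb

theorem S08_mem {F : WithLp 2 (V × W) → G} {q : ℝ≥0∞} :
    MemLp (fun z : V × W => F (pt z.1 z.2)) q (volume.prod volume) ↔ MemLp F q volume := by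
  rw [← S08_mp.map_eq, S08_emb.memLp_map_measure_iff]
  rfl

theorem S08_mem_loc {F : WithLp 2 (V × W) → G} {q : ℝ≥0∞}
    (h : ∀ (K₁ : Set V) (K₂ : Set W), IsCompact K₁ → IsCompact K₂ →
      MemLp (fun z : V × W => F (pt z.1 z.2)) q ((volume.restrict K₁).prod (volume.restrict K₂)))
    (K : Set (WithLp 2 (V × W))) (hK : IsCompact K) : MemLp F q (volume.restrict K) := by
  have h1 := h _ _ (hK.image (WithLp.continuous_fst 2 V W)) (hK.image (WithLp.continuous_snd 2 V W))
  rw [Measure.prod_restrict] at h1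
  rw [← (S08_mp.restrict_preimage_emb S08_emb K).map_eq, S08_emb.memLp_map_measure_iff]
  refine h1.mono_measure (Measure.restrict_mono ?_ le_rfl)
  exact fun z hz => ⟨⟨_, hz, rfl⟩, ⟨_, hz, rfl⟩⟩

theorem S08_li {F : WithLp 2 (V × W) → G}
    (h : ∀ (K₁ : Set V) (K₂ : Set W), IsCompact K₁ → IsCompact K₂ →
      Integrable (fun z : V × W => F (pt z.1 z.2))
        ((volume.restrict K₁).prod (volume.restrict K₂))) : LocallyIntegrable F volume :=
  locallyIntegrable_iff.2 fun K hK => memLp_one_iff_integrable.1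
    (S08_mem_loc (fun K₁ K₂ h1 h2 => memLp_one_iff_integrable.2 (h K₁ K₂ h1 h2)) K hK)

variable [NormedSpace ℝ G]

theorem S08_integral {F : WithLp 2 (V × W) → G} (h : Integrable F) :
    ∫ p, F p = ∫ x, ∫ y, F (pt x y) := by
  rw [← S08_mp.integral_comp S08_emb F, integral_prod _ (S08_int.2 h)]

theorem S08_integral' {F : WithLp 2 (V × W) → G} (h : Integrable F) :
    ∫ p, F p = ∫ y, ∫ x, F (pt x y) := by
  rw [← S08_mp.integral_comp S08_emb F, integral_prod_symm _ (S08_int.2 h)]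

theorem S08_li1 {a : V → ℝ} {B : W → G} (ha : LocallyIntegrable a volume)
    (hB : LocallyIntegrable B volume) :
    LocallyIntegrable (fun p : WithLp 2 (V × W) => a p.fst • B p.snd) volume :=
  S08_li fun _ _ h1 h2 =>
    (ha.integrableOn_isCompact h1).smul_prod (hB.integrableOn_isCompact h2)

theorem S08_li2 {A : V → G} {b : W → ℝ} (hA : LocallyIntegrable A volume)
    (hb : LocallyIntegrable b volume) :
    LocallyIntegrable (fun p : WithLp 2 (V × W) => b p.snd • A p.fst) volume :=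
  S08_li fun _ _ h1 h2 =>
    S08_l1_smul2 (hA.integrableOn_isCompact h1) (hb.integrableOn_isCompact h2)

theorem S08_m1 {a : V → ℝ} {B : W → G} (ha : MemLp a 2 volume) (hB : MemLp B 2 volume) :
    MemLp (fun p : WithLp 2 (V × W) => a p.fst • B p.snd) 2 volume :=
  S08_mem.1 (S08_l2_smul1 ha hB)

theorem S08_m2 {A : V → G} {b : W → ℝ} (hA : MemLp A 2 volume) (hb : MemLp b 2 volume) :
    MemLp (fun p : WithLp 2 (V × W) => b p.snd • A p.fst) 2 volume :=
  S08_mem.1 (S08_l2_smul2 hA hb)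

theorem S08_slice {H : WithLp 2 (V × W) → G} (h : MemLp H 2 volume) :
    ∀ᵐ x, MemLp (fun y => H (pt x y)) 2 volume :=
  S08_l2_slice (S08_mem.2 h)

theorem S08_pair {H : WithLp 2 (V × W) → G} (h : MemLp H 2 volume) {Φ : W → ℝ}
    (b : MemLp Φ 2 volume) : MemLp (fun x => ∫ y, Φ y • H (pt x y)) 2 volume :=
  S08_l2_pair (S08_mem.2 h) b

/-- the first inclusion -/
def S08_inl (V W : Type*) [NormedAddCommGroup V] [InnerProductSpace ℝ V] [NormedAddCommGroup W]
    [InnerProductSpace ℝ W] : V →L[ℝ] WithLp 2 (V × W) :=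
  (WithLp.prodContinuousLinearEquiv 2 ℝ V W).symm.toContinuousLinearMap.comp
    (ContinuousLinearMap.inl ℝ V W)

/-- the second inclusion -/
def S08_inr (V W : Type*) [NormedAddCommGroup V] [InnerProductSpace ℝ V] [NormedAddCommGroup W]
    [InnerProductSpace ℝ W] : W →L[ℝ] WithLp 2 (V × W) :=
  (WithLp.prodContinuousLinearEquiv 2 ℝ V W).symm.toContinuousLinearMap.comp
    (ContinuousLinearMap.inr ℝ V W)

theorem S08_inl_apply (x : V) : S08_inl V W x = pt x 0 := rfl

theorem S08_inr_apply (y : W) : S08_inr V W y = pt 0 y := rfl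

theorem S08_pt_add (x : V) (y : W) : pt x y = S08_inl V W x + S08_inr V W y := by
  rw [S08_inl_apply, S08_inr_apply, ← WithLp.toLp_add]
  simp

theorem S08_inner (p q : WithLp 2 (V × W)) : ⟪p, q⟫ = ⟪p.fst, q.fst⟫ + ⟪p.snd, q.snd⟫ :=
  WithLp.prod_inner_apply p q

theorem S08_inner_pt (p : WithLp 2 (V × W)) (a : V) (b : W) :
    ⟪p, pt a b⟫ = ⟪p.fst, a⟫ + ⟪p.snd, b⟫ := S08_inner p _

theorem S08_pt_inner (a : V) (b : W) (p : WithLp 2 (V × W)) :
    ⟪pt a b, p⟫ = ⟪a, p.fst⟫ + ⟪b, p.snd⟫ := S08_inner _ p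

theorem S08_mem_fst {α : Type*} [MeasurableSpace α] {μ : Measure α} {H : α → WithLp 2 (V × W)}
    (h : MemLp H 2 μ) : MemLp (fun x => (H x).fst) 2 μ :=
  (WithLp.fstL 2 ℝ V W).comp_memLp' h

theorem S08_mem_snd {α : Type*} [MeasurableSpace α] {μ : Measure α} {H : α → WithLp 2 (V × W)}
    (h : MemLp H 2 μ) : MemLp (fun x => (H x).snd) 2 μ :=
  (WithLp.sndL 2 ℝ V W).comp_memLp' h

theorem S08_inner_grad (f : V → ℝ) (x v : V) : ⟪∇ f x, v⟫ = fderiv ℝ f x v :=
  InnerProductSpace.toDual_symm_apply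

theorem S08_cont_grad {φ : V → ℝ} (h : Tst φ) : Continuous (∇ φ) :=
  (InnerProductSpace.toDual ℝ V).symm.continuous.comp (h.1.continuous_fderiv one_ne_zero)

theorem S08_cs_grad {φ : V → ℝ} (h : Tst φ) : HasCompactSupport (∇ φ) :=
  (h.2.fderiv ℝ).comp_left (g := (InnerProductSpace.toDual ℝ V).symm) (map_zero _)

theorem S08_tst_l2 {φ : V → ℝ} (h : Tst φ) : MemLp φ 2 volume :=
  h.1.continuous.memLp_of_hasCompactSupport h.2

theorem S08_grad_l2 {φ : V → ℝ} (h : Tst φ) : MemLp (∇ φ) 2 volume :=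
  (S08_cont_grad h).memLp_of_hasCompactSupport (S08_cs_grad h)

theorem S08_tst_snd {φ : WithLp 2 (V × W) → ℝ} (h : Tst φ) (x : V) :
    Tst (fun y => φ (pt x y)) ∧ ∀ y, ∇ (fun y => φ (pt x y)) y = (∇ φ (pt x y)).snd := by
  have hd : ∀ y, HasFDerivAt (fun y : W => pt x y) (S08_inr V W) y := fun y => by
    simp only [S08_pt_add]
    exact (S08_inr V W).hasFDerivAt.const_add _
  have hc : ContDiff ℝ 1 (fun y : W => pt x y) := by
    simp only [S08_pt_add]
    exact contDiff_const.add (S08_inr V W).contDiff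
  have hi : Isometry (fun y : W => pt x y) := Isometry.of_dist_eq fun a b => by
    simp [WithLp.prod_dist_eq_of_L2]
  refine ⟨⟨h.1.comp hc, h.2.comp_isClosedEmbedding hi.isClosedEmbedding⟩, fun y => ?_⟩
  refine ext_inner_right ℝ fun v => ?_
  have h1 := ((h.1.differentiable one_ne_zero (pt x y)).hasFDerivAt.comp y (hd y)).fderiv
  rw [S08_inner_grad, show (fun y => φ (pt x y)) = φ ∘ fun y => pt x y from rfl, h1,
    ContinuousLinearMap.comp_apply, ← S08_inner_grad, S08_inr_apply, S08_inner_pt,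
    inner_zero_right, zero_add]

theorem S08_tst_fst {φ : WithLp 2 (V × W) → ℝ} (h : Tst φ) (y : W) :
    Tst (fun x => φ (pt x y)) ∧ ∀ x, ∇ (fun x => φ (pt x y)) x = (∇ φ (pt x y)).fst := by
  have hd : ∀ x, HasFDerivAt (fun x : V => pt x y) (S08_inl V W) x := fun x => by
    simp only [S08_pt_add]
    exact (S08_inl V W).hasFDerivAt.add_const _
  have hc : ContDiff ℝ 1 (fun x : V => pt x y) := by
    simp only [S08_pt_add]
    exact (S08_inl V W).contDiff.add contDiff_const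
  have hi : Isometry (fun x : V => pt x y) := Isometry.of_dist_eq fun a b => by
    simp [WithLp.prod_dist_eq_of_L2]
  refine ⟨⟨h.1.comp hc, h.2.comp_isClosedEmbedding hi.isClosedEmbedding⟩, fun x => ?_⟩
  refine ext_inner_right ℝ fun v => ?_
  have h1 := ((h.1.differentiable one_ne_zero (pt x y)).hasFDerivAt.comp x (hd x)).fderiv
  rw [S08_inner_grad, show (fun x => φ (pt x y)) = φ ∘ fun x => pt x y from rfl, h1,
    ContinuousLinearMap.comp_apply, ← S08_inner_grad, S08_inl_apply, S08_inner_pt,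
    inner_zero_right, add_zero]

/-- weak gradients pass to `L²` limits -/
theorem S08_isW_lim {u : V → ℝ} {g : V → V} {w : ℕ → V → ℝ} {h : ℕ → V → V}
    (hu : MemLp u 2 volume) (hg : MemLp g 2 volume) (hw : ∀ n, MemLp (w n) 2 volume)
    (hh : ∀ n, MemLp (h n) 2 volume) (hW : ∀ n, IsW (w n) (h n))
    (c1 : Tendsto (fun n => ∫ x, (u x - w n x) ^ 2) atTop (𝓝 0))
    (c2 : Tendsto (fun n => ∫ x, ‖g x - h n x‖ ^ 2) atTop (𝓝 0)) : IsW u g := by
  refine ⟨hu.locallyIntegrable one_le_two, hg.locallyIntegrable one_le_two, fun φ hφ v => ?_⟩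
  have t1 := S08_tendsto hu ((S08_grad_l2 hφ).inner_const (𝕜 := ℝ) v) hw c1
  have t2 := S08_tendsto (hg.inner_const (𝕜 := ℝ) v) (S08_tst_l2 hφ)
    (fun n => (hh n).inner_const (𝕜 := ℝ) v) (by
      refine squeeze_zero (fun n => integral_nonneg fun x => sq_nonneg _) (fun n => ?_)
        (by simpa using c2.mul_const (‖v‖ ^ 2))
      rw [← integral_mul_const]
      refine integral_mono_of_nonneg (ae_of_all _ fun x => sq_nonneg _)
        ((hg.sub (hh n)).norm.integrable_sq.mul_const _) (ae_of_all _ fun x => ?_)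
      change (⟪g x, v⟫ - ⟪h n x, v⟫) ^ 2 ≤ ‖g x - h n x‖ ^ 2 * ‖v‖ ^ 2
      rw [← inner_sub_left, ← mul_pow, ← sq_abs]
      exact pow_le_pow_left₀ (abs_nonneg _) (abs_real_inner_le_norm _ _) 2)
  exact tendsto_nhds_unique t1 (t2.neg.congr fun n => ((hW n).ibp φ hφ v).symm)

end

end Crest.Agent.R335
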