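import Crest.Agent.R335.S06
import Crest.Agent.R335.S07
import Crest.Agent.R335.S08Aux

set_option autoImplicit false
set_option linter.unusedSectionVars false

open MeasureTheory Set Filter Topology Metric
open scoped Gradient ContDiff RealInnerProductSpace ENNReal

namespace Crest.Agent.R335

noncomputable section

variable {V : Type*} [NormedAddCommGroup V] [InnerProductSpace ℝ V] [FiniteDimensional ℝ V]
  [MeasurableSpace V] [BorelSpace V]

variable {W : Type*} [NormedAddCommGroup W] [InnerProductSpace ℝ W] [FiniteDimensional ℝ W]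
  [MeasurableSpace W] [BorelSpace W]

/-! product spaces: slices, tensor products, partial pairings -/
theorem integral_pt {F : WithLp 2 (V × W) → ℝ} (h : Integrable F) :
    ∫ p, F p = ∫ x, ∫ y, F (pt x y) := S08_integral h
theorem integrable_pt {F : WithLp 2 (V × W) → ℝ} (h : Integrable F) :
    (∀ᵐ x, Integrable fun y => F (pt x y)) ∧ Integrable fun x => ∫ y, F (pt x y) :=
  ⟨(S08_int.2 h).prod_right_ae, (S08_int.2 h).integral_prod_left⟩
theorem ae_pt {P : WithLp 2 (V × W) → Prop} (h : ∀ᵐ p, P p) : ∀ᵐ x, ∀ᵐ y, P (pt x y) :=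
  Measure.ae_ae_of_ae_prod (S08_mp.quasiMeasurePreserving.ae h)
theorem ae_fst {P : V → Prop} (h : ∀ᵐ x, P x) : ∀ᵐ p : WithLp 2 (V × W), P p.fst :=
  (WithLp.volume_preserving_ofLp V W).quasiMeasurePreserving.ae
    (Measure.quasiMeasurePreserving_fst.ae h)
theorem ae_snd {P : W → Prop} (h : ∀ᵐ y, P y) : ∀ᵐ p : WithLp 2 (V × W), P p.snd :=
  (WithLp.volume_preserving_ofLp V W).quasiMeasurePreserving.ae
    (Measure.quasiMeasurePreserving_snd.ae h)
theorem H1.slice_snd {F : WithLp 2 (V × W) → ℝ} (h : H1 F) :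
    ∀ᵐ x, H1 (fun y => F (pt x y)) ∧ ∀ᵐ y, D (fun y => F (pt x y)) y = (D F (pt x y)).snd := by
  obtain ⟨φ, h1, h2, h3, -, -⟩ := h.approx_seq
  have ht : ∀ n, Tst (φ n) := fun n => ⟨(h1 n).1.of_le (by exact_mod_cast le_top), (h1 n).2⟩
  have i1 : ∀ n, Integrable fun p => (F p - φ n p) ^ 2 := fun n =>
    (h.l2.sub (S08_tst_l2 (ht n))).integrable_sq
  have m2 : ∀ n, MemLp (fun p => D F p - ∇ (φ n) p) 2 volume := fun n =>
    h.dl2.sub (S08_grad_l2 (ht n))
  have i2 : ∀ n, Integrable fun p => ‖D F p - ∇ (φ n) p‖ ^ 2 := fun n => (m2 n).norm.integrable_sq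
  have z1 := S08_slice_zero (e := fun n (z : V × W) => (F (pt z.1 z.2) - φ n (pt z.1 z.2)) ^ 2)
    (fun n z => sq_nonneg _) (fun n => S08_int.2 (i1 n))
    fun n => (S08_mp.integral_comp S08_emb fun p => (F p - φ n p) ^ 2).trans_le (h2 n)
  have z2 := S08_slice_zero
    (e := fun n (z : V × W) => ‖D F (pt z.1 z.2) - ∇ (φ n) (pt z.1 z.2)‖ ^ 2)
    (fun n z => sq_nonneg _) (fun n => S08_int.2 (i2 n))
    fun n => (S08_mp.integral_comp S08_emb fun p => ‖D F p - ∇ (φ n) p‖ ^ 2).trans_le (h3 n)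
  filter_upwards [z1, z2, S08_slice h.l2, S08_slice h.dl2,
    ae_all_iff.2 fun n => S08_slice (m2 n)] with x a1 a2 a3 a4 a5
  have hW : IsW (fun y => F (pt x y)) fun y => (D F (pt x y)).snd := by
    refine S08_isW_lim (w := fun n y => φ n (pt x y)) (h := fun n => ∇ fun y => φ n (pt x y))
      a3 (S08_mem_snd a4) (fun n => S08_tst_l2 (S08_tst_snd (ht n) x).1)
      (fun n => S08_grad_l2 (S08_tst_snd (ht n) x).1)
      (fun n => isW_c1 (S08_tst_snd (ht n) x).1.1) a1 ?_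
    refine squeeze_zero (fun n => integral_nonneg fun y => sq_nonneg _) (fun n => ?_) a2
    refine integral_mono_of_nonneg (ae_of_all _ fun y => sq_nonneg _) (a5 n).norm.integrable_sq
      (ae_of_all _ fun y => ?_)
    simp only [(S08_tst_snd (ht n) x).2]
    exact pow_le_pow_left₀ (norm_nonneg _)
      (WithLp.norm_snd_le V (D F (pt x y) - ∇ (φ n) (pt x y))) 2
  exact ⟨hW.h1 a3 (S08_mem_snd a4), hW.D_eq⟩
theorem H1.slice_fst {F : WithLp 2 (V × W) → ℝ} (h : H1 F) :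
    ∀ᵐ y, H1 (fun x => F (pt x y)) ∧ ∀ᵐ x, D (fun x => F (pt x y)) x = (D F (pt x y)).fst := by
  let L := LinearIsometryEquiv.withLpProdComm 2 ℝ W V
  filter_upwards [(h.iso L).1.slice_snd, ae_pt (h.hl.iso L).2] with y a b
  refine ⟨a.1, ?_⟩
  filter_upwards [a.2, b] with x a' b'
  exact a'.trans (congrArg WithLp.snd b')
theorem exists_swap : ∃ L : WithLp 2 (V × W) ≃ₗᵢ[ℝ] WithLp 2 (W × V), ∀ x y, L (pt x y) = pt y x :=
  ⟨LinearIsometryEquiv.withLpProdComm 2 ℝ V W, fun _ _ => rfl⟩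

theorem S08_li_clm {G G' : Type*} [NormedAddCommGroup G] [NormedSpace ℝ G] [NormedAddCommGroup G']
    [NormedSpace ℝ G'] (L : G →L[ℝ] G') {g : V → G} (h : LocallyIntegrable g volume) :
    LocallyIntegrable (fun x => L (g x)) volume :=
  locallyIntegrable_iff.2 fun _ hK => L.integrable_comp (h.integrableOn_isCompact hK)

theorem S08_li_inner {g : V → V} (h : LocallyIntegrable g volume) (v : V) :
    LocallyIntegrable (fun x => ⟪g x, v⟫) volume :=
  locallyIntegrable_iff.2 fun _ hK => (h.integrableOn_isCompact hK).inner_const v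

theorem S08_pt_smul (s t : ℝ) (a : V) (b : W) :
    pt (s • a) (t • b) = s • S08_inl V W a + t • S08_inr V W b := by
  rw [S08_pt_add, map_smul, map_smul]

theorem S08_isW_tensor {f : V → ℝ} {g : V → V} {Φ : W → ℝ} {G : W → W} (a : IsW f g)
    (b : IsW Φ G) : IsW (fun p : WithLp 2 (V × W) => f p.fst * Φ p.snd)
      (fun p => pt (Φ p.snd • g p.fst) (f p.fst • G p.snd)) := by
  have lu : LocallyIntegrable (fun p : WithLp 2 (V × W) => f p.fst * Φ p.snd) volume :=
    S08_li1 a.lu b.lu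
  refine ⟨lu, ?_, fun φ hφ v => ?_⟩
  · simp only [S08_pt_smul]
    exact (S08_li2 (S08_li_clm (S08_inl V W) a.lg) b.lu).add
      (S08_li1 a.lu (S08_li_clm (S08_inr V W) b.lg))
  have cg := S08_cont_grad hφ
  have i1 : Integrable fun p : WithLp 2 (V × W) => f p.fst * Φ p.snd * ⟪(∇ φ p).fst, v.fst⟫ :=
    lu.integrable_smul_right_of_hasCompactSupport
      (((WithLp.continuous_fst 2 V W).comp cg).inner continuous_const)
      ((S08_cs_grad hφ).comp_left (g := fun q : WithLp 2 (V × W) => ⟪q.fst, v.fst⟫) (by simp))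
  have i2 : Integrable fun p : WithLp 2 (V × W) => f p.fst * Φ p.snd * ⟪(∇ φ p).snd, v.snd⟫ :=
    lu.integrable_smul_right_of_hasCompactSupport
      (((WithLp.continuous_snd 2 V W).comp cg).inner continuous_const)
      ((S08_cs_grad hφ).comp_left (g := fun q : WithLp 2 (V × W) => ⟪q.snd, v.snd⟫) (by simp))
  have j1 : Integrable fun p : WithLp 2 (V × W) => Φ p.snd * ⟪g p.fst, v.fst⟫ * φ p :=
    (S08_li2 (S08_li_inner a.lg v.fst) b.lu).integrable_smul_right_of_hasCompactSupport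
      hφ.1.continuous hφ.2
  have j2 : Integrable fun p : WithLp 2 (V × W) => f p.fst * ⟪G p.snd, v.snd⟫ * φ p :=
    (S08_li1 a.lu (S08_li_inner b.lg v.snd)).integrable_smul_right_of_hasCompactSupport
      hφ.1.continuous hφ.2
  have e1 : ∫ p : WithLp 2 (V × W), f p.fst * Φ p.snd * ⟪(∇ φ p).fst, v.fst⟫ =
      -∫ p : WithLp 2 (V × W), Φ p.snd * ⟪g p.fst, v.fst⟫ * φ p := by
    rw [S08_integral' i1, S08_integral' j1, ← integral_neg]
    refine integral_congr_ae (ae_of_all _ fun y => ?_)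
    have := congrArg (Φ y * ·) (a.ibp _ (S08_tst_fst hφ y).1 v.fst)
    simp only [(S08_tst_fst hφ y).2, mul_neg, ← integral_const_mul] at this
    simp only [WithLp.toLp_fst, WithLp.toLp_snd]
    simpa only [mul_assoc, mul_comm, mul_left_comm] using this
  have e2 : ∫ p : WithLp 2 (V × W), f p.fst * Φ p.snd * ⟪(∇ φ p).snd, v.snd⟫ =
      -∫ p : WithLp 2 (V × W), f p.fst * ⟪G p.snd, v.snd⟫ * φ p := by
    rw [S08_integral i2, S08_integral j2, ← integral_neg]
    refine integral_congr_ae (ae_of_all _ fun x => ?_)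
    have := congrArg (f x * ·) (b.ibp _ (S08_tst_snd hφ x).1 v.snd)
    simp only [(S08_tst_snd hφ x).2, mul_neg, ← integral_const_mul] at this
    simp only [WithLp.toLp_fst, WithLp.toLp_snd]
    simpa only [mul_assoc, mul_comm, mul_left_comm] using this
  simp only [S08_inner (∇ φ _), S08_pt_inner, real_inner_smul_left, mul_add, add_mul]
  rw [integral_add i1 i2, integral_add j1 j2, e1, e2, neg_add]

theorem S08_dl2 {f : V → ℝ} {Φ : W → ℝ} (a : H1 f) (b : H1 Φ) : MemLp (fun p : WithLp 2 (V × W) =>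
    pt (Φ p.snd • D f p.fst) (f p.fst • D Φ p.snd)) 2 volume := by
  simp only [S08_pt_smul]
  exact (S08_m2 ((S08_inl V W).comp_memLp' a.dl2) b.l2).add
    (S08_m1 a.l2 ((S08_inr V W).comp_memLp' b.dl2))

theorem H1.tensor {f : V → ℝ} {Φ : W → ℝ} (a : H1 f) (b : H1 Φ) :
    H1 (fun p : WithLp 2 (V × W) => f p.fst * Φ p.snd) ∧
      ∀ᵐ p : WithLp 2 (V × W), D (fun p : WithLp 2 (V × W) => f p.fst * Φ p.snd) p =
        pt (Φ p.snd • D f p.fst) (f p.fst • D Φ p.snd) :=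
  ⟨(S08_isW_tensor a.isW b.isW).h1 (S08_m1 a.l2 b.l2) (S08_dl2 a b),
    (S08_isW_tensor a.isW b.isW).D_eq⟩

/-- pairing of the first components with a field on the first factor -/
theorem S08_pair_inner {H : WithLp 2 (V × W) → V} (h : MemLp H 2 volume) {Φ : W → ℝ}
    (b : MemLp Φ 2 volume) {X : V → V} (hX : MemLp X 2 volume) :
    ∫ x, ⟪∫ y, Φ y • H (pt x y), X x⟫ =
      ∫ p : WithLp 2 (V × W), Φ p.snd * ⟪H p, X p.fst⟫ := by
  have i : Integrable fun p : WithLp 2 (V × W) => Φ p.snd * ⟪H p, X p.fst⟫ := by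
    simpa only [real_inner_smul_right] using S08_inner_int h (S08_m2 hX b)
  rw [S08_integral i]
  refine integral_congr_ae ?_
  filter_upwards [S08_slice h] with x hx
  rw [real_inner_comm, ← integral_inner (S08_smul_int b hx)]
  simp only [real_inner_smul_right, WithLp.toLp_fst, WithLp.toLp_snd, real_inner_comm]

theorem S08_pair_mul {H : WithLp 2 (V × W) → ℝ} (h : MemLp H 2 volume) {Φ : W → ℝ}
    (b : MemLp Φ 2 volume) {c : V → ℝ} (hc : MemLp c 2 volume) :
    ∫ x, (∫ y, H (pt x y) * Φ y) * c x = ∫ p : WithLp 2 (V × W), H p * (c p.fst * Φ p.snd) := by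
  have i : Integrable fun p : WithLp 2 (V × W) => H p * (c p.fst * Φ p.snd) :=
    h.integrable_mul (S08_m1 hc b)
  rw [S08_integral i]
  refine integral_congr_ae (ae_of_all _ fun x => ?_)
  simp only [WithLp.toLp_fst, WithLp.toLp_snd, ← integral_mul_const]
  congr 1
  funext y
  ring

theorem S08_pair' {H : WithLp 2 (V × W) → ℝ} (h : MemLp H 2 volume) {Φ : W → ℝ}
    (b : MemLp Φ 2 volume) : MemLp (fun x => ∫ y, H (pt x y) * Φ y) 2 volume := by
  simpa only [smul_eq_mul, mul_comm] using S08_pair h b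

theorem H1.pair {F : WithLp 2 (V × W) → ℝ} (h : H1 F) {Φ : W → ℝ} (b : MemLp Φ 2 volume) :
    H1 (fun x => ∫ y, F (pt x y) * Φ y) ∧
      ∀ᵐ x, D (fun x => ∫ y, F (pt x y) * Φ y) x = ∫ y, Φ y • (D F (pt x y)).fst := by
  have m1 := S08_pair' h.l2 b
  have m0 := S08_mem_fst h.dl2
  have m2 := S08_pair m0 b
  have hW : IsW (fun x => ∫ y, F (pt x y) * Φ y) fun x => ∫ y, Φ y • (D F (pt x y)).fst := by
    refine ⟨m1.locallyIntegrable one_le_two, m2.locallyIntegrable one_le_two, fun φ hφ v => ?_⟩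
    have c1 : MemLp (fun x => ⟪∇ φ x, v⟫) 2 volume := (S08_grad_l2 hφ).inner_const (𝕜 := ℝ) v
    have c2 : MemLp (fun x => φ x • v) 2 volume :=
      (ContinuousLinearMap.toSpanSingleton ℝ v).comp_memLp' (S08_tst_l2 hφ)
    have e1 := S08_pair_inner m0 b c2
    simp only [real_inner_smul_right] at e1
    have i1 : Integrable fun p : WithLp 2 (V × W) => F p * (⟪∇ φ p.fst, v⟫ * Φ p.snd) :=
      h.l2.integrable_mul (S08_m1 c1 b)
    have i2 : Integrable fun p : WithLp 2 (V × W) => Φ p.snd * (φ p.fst * ⟪(D F p).fst, v⟫) := by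
      simpa only [real_inner_smul_right] using S08_inner_int m0 (S08_m2 c2 b)
    simp only [mul_comm _ (φ _)]
    rw [S08_pair_mul h.l2 b c1, e1, S08_integral' i1, S08_integral' i2, ← integral_neg]
    refine integral_congr_ae ?_
    filter_upwards [h.slice_fst] with y hy
    have h1 := hy.1.isW.ibp φ hφ v
    have h2 : ∫ x, ⟪D (fun x => F (pt x y)) x, v⟫ * φ x = ∫ x, ⟪(D F (pt x y)).fst, v⟫ * φ x :=
      integral_congr_ae (hy.2.mono fun x hx => by simp only [hx])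
    have := congrArg (Φ y * ·) (h1.trans (congrArg Neg.neg h2))
    simp only [mul_neg, ← integral_const_mul] at this
    simp only [WithLp.toLp_fst, WithLp.toLp_snd]
    simpa only [mul_assoc, mul_comm, mul_left_comm] using this
  exact ⟨hW.h1 m1 m2, hW.D_eq⟩

theorem S08_isW_one : IsW (fun _ : V => (1 : ℝ)) fun _ => 0 := by
  simpa using isW_c1 (φ := fun _ : V => (1 : ℝ)) contDiff_const

theorem S08_one_l2 {K : Set V} (hK : IsCompact K) :
    MemLp (fun _ : V => (1 : ℝ)) 2 (volume.restrict K) :=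
  haveI : IsFiniteMeasure (volume.restrict K) := isFiniteMeasure_restrict.2 hK.measure_lt_top.ne
  memLp_const 1

theorem Hl.lift_fst {a : V → ℝ} (h : Hl a) : Hl (fun p : WithLp 2 (V × W) => a p.fst) ∧
    ∀ᵐ p : WithLp 2 (V × W), D (fun p : WithLp 2 (V × W) => a p.fst) p = pt (D a p.fst) 0 := by
  have hW : IsW (fun p : WithLp 2 (V × W) => a p.fst) fun p => pt (D a p.fst) 0 := by
    simpa using S08_isW_tensor h.isW (S08_isW_one (V := W))
  refine ⟨hW.hl (S08_mem_loc fun K₁ K₂ h1 h2 => ?_) (S08_mem_loc fun K₁ K₂ h1 h2 => ?_), hW.D_eq⟩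
  · simpa using S08_l2_smul2 (h.l2 K₁ h1) (S08_one_l2 h2)
  · simpa [S08_inl_apply] using
      S08_l2_smul2 ((S08_inl V W).comp_memLp' (h.dl2 K₁ h1)) (S08_one_l2 h2)
theorem Hl.lift_snd {a : W → ℝ} (h : Hl a) : Hl (fun p : WithLp 2 (V × W) => a p.snd) ∧
    ∀ᵐ p : WithLp 2 (V × W), D (fun p : WithLp 2 (V × W) => a p.snd) p = pt 0 (D a p.snd) := by
  have hW : IsW (fun p : WithLp 2 (V × W) => a p.snd) fun p => pt 0 (D a p.snd) := by
    simpa using S08_isW_tensor (S08_isW_one (V := V)) h.isW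
  refine ⟨hW.hl (S08_mem_loc fun K₁ K₂ h1 h2 => ?_) (S08_mem_loc fun K₁ K₂ h1 h2 => ?_), hW.D_eq⟩
  · simpa using S08_l2_smul1 (S08_one_l2 h1) (h.l2 K₂ h2)
  · simpa [S08_inr_apply] using
      S08_l2_smul1 (S08_one_l2 h1) ((S08_inr V W).comp_memLp' (h.dl2 K₂ h2))

theorem S08_sol_snd {Φ B : W → ℝ} (b : Sol Φ B) {χ : WithLp 2 (V × W) → ℝ} (hχ : H1 χ)
    {f : V → ℝ} (a : MemLp f 2 volume) :
    ∫ p : WithLp 2 (V × W), (1 / 2) * (f p.fst * ⟪D Φ p.snd, (D χ p).snd⟫) =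
      ∫ p : WithLp 2 (V × W), f p.fst * B p.snd * χ p := by
  have i1 : Integrable fun p : WithLp 2 (V × W) =>
      (1 / 2 : ℝ) * (f p.fst * ⟪D Φ p.snd, (D χ p).snd⟫) := by
    simpa only [real_inner_smul_left] using
      (S08_inner_int (S08_m1 a b.h1.dl2) (S08_mem_snd hχ.dl2)).const_mul (1 / 2)
  have i2 : Integrable fun p : WithLp 2 (V × W) => f p.fst * B p.snd * χ p :=
    (S08_m1 a b.l2).integrable_mul hχ.l2
  rw [S08_integral i1, S08_integral i2]
  refine integral_congr_ae ?_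
  filter_upwards [hχ.slice_snd] with x hx
  have h2 : ∫ y, (1 / 2 : ℝ) * ⟪D Φ y, (D χ (pt x y)).snd⟫ =
      ∫ y, (1 / 2 : ℝ) * ⟪D Φ y, D (fun y => χ (pt x y)) y⟫ :=
    integral_congr_ae (hx.2.mono fun y hy => by simp only [hy])
  have := congrArg (f x * ·) (h2.trans (b.eq _ hx.1))
  simp only [← integral_const_mul] at this
  simp only [WithLp.toLp_fst, WithLp.toLp_snd]
  simpa only [mul_assoc, mul_comm, mul_left_comm] using this

theorem S08_sol_fst {f A : V → ℝ} (a : Sol f A) {χ : WithLp 2 (V × W) → ℝ} (hχ : H1 χ)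
    {Φ : W → ℝ} (b : MemLp Φ 2 volume) :
    ∫ p : WithLp 2 (V × W), (1 / 2) * (Φ p.snd * ⟪D f p.fst, (D χ p).fst⟫) =
      ∫ p : WithLp 2 (V × W), A p.fst * Φ p.snd * χ p := by
  have i1 : Integrable fun p : WithLp 2 (V × W) =>
      (1 / 2 : ℝ) * (Φ p.snd * ⟪D f p.fst, (D χ p).fst⟫) := by
    simpa only [real_inner_smul_left] using
      (S08_inner_int (S08_m2 a.h1.dl2 b) (S08_mem_fst hχ.dl2)).const_mul (1 / 2)
  have i2 : Integrable fun p : WithLp 2 (V × W) => A p.fst * Φ p.snd * χ p :=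
    (S08_m1 a.l2 b).integrable_mul hχ.l2
  rw [S08_integral' i1, S08_integral' i2]
  refine integral_congr_ae ?_
  filter_upwards [hχ.slice_fst] with y hy
  have h2 : ∫ x, (1 / 2 : ℝ) * ⟪D f x, (D χ (pt x y)).fst⟫ =
      ∫ x, (1 / 2 : ℝ) * ⟪D f x, D (fun x => χ (pt x y)) x⟫ :=
    integral_congr_ae (hy.2.mono fun x hx => by simp only [hx])
  have := congrArg (Φ y * ·) (h2.trans (a.eq _ hy.1))
  simp only [← integral_const_mul] at this
  simp only [WithLp.toLp_fst, WithLp.toLp_snd]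
  simpa only [mul_assoc, mul_comm, mul_left_comm] using this

/-- weak equation of a tensor product -/
theorem Sol.tensor {f A : V → ℝ} {Φ B : W → ℝ} (a : Sol f A) (b : Sol Φ B) :
    Sol (fun p : WithLp 2 (V × W) => f p.fst * Φ p.snd)
      (fun p => A p.fst * Φ p.snd + f p.fst * B p.snd) := by
  obtain ⟨h1, h2⟩ := a.h1.tensor b.h1
  refine ⟨h1, (S08_m1 a.l2 b.h1.l2).add (S08_m1 a.h1.l2 b.l2), fun χ hχ => ?_⟩
  have i1 : Integrable fun p : WithLp 2 (V × W) =>
      (1 / 2 : ℝ) * (Φ p.snd * ⟪D f p.fst, (D χ p).fst⟫) := by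
    simpa only [real_inner_smul_left] using
      (S08_inner_int (S08_m2 a.h1.dl2 b.h1.l2) (S08_mem_fst hχ.dl2)).const_mul (1 / 2)
  have i2 : Integrable fun p : WithLp 2 (V × W) =>
      (1 / 2 : ℝ) * (f p.fst * ⟪D Φ p.snd, (D χ p).snd⟫) := by
    simpa only [real_inner_smul_left] using
      (S08_inner_int (S08_m1 a.h1.l2 b.h1.dl2) (S08_mem_snd hχ.dl2)).const_mul (1 / 2)
  have j1 : Integrable fun p : WithLp 2 (V × W) => A p.fst * Φ p.snd * χ p :=
    (S08_m1 a.l2 b.h1.l2).integrable_mul hχ.l2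
  have j2 : Integrable fun p : WithLp 2 (V × W) => f p.fst * B p.snd * χ p :=
    (S08_m1 a.h1.l2 b.l2).integrable_mul hχ.l2
  simp only [add_mul]
  rw [integral_add j1 j2, ← S08_sol_fst a hχ b.h1.l2, ← S08_sol_snd b hχ a.h1.l2,
    ← integral_add i1 i2]
  refine integral_congr_ae (h2.mono fun p hp => ?_)
  simp only [hp, S08_pt_inner, real_inner_smul_left, mul_add]
/-- weak equation of a partial pairing -/
theorem Sol.pair {F A : WithLp 2 (V × W) → ℝ} {Φ B : W → ℝ} (a : Sol F A) (b : Sol Φ B) :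
    Sol (fun x => ∫ y, F (pt x y) * Φ y)
      (fun x => ∫ y, (A (pt x y) * Φ y - F (pt x y) * B y)) := by
  obtain ⟨h1, h2⟩ := a.h1.pair b.h1.l2
  have m1 := S08_pair' a.l2 b.h1.l2
  have m2 := S08_pair' a.h1.l2 b.l2
  have e : ∀ᵐ x, ∫ y, (A (pt x y) * Φ y - F (pt x y) * B y) =
      (∫ y, A (pt x y) * Φ y) - ∫ y, F (pt x y) * B y := by
    filter_upwards [S08_slice a.l2, S08_slice a.h1.l2] with x c1 c2
    exact integral_sub (c1.integrable_mul b.h1.l2) (c2.integrable_mul b.l2)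
  refine ⟨h1, (memLp_congr_ae e).2 (m1.sub m2), fun χ hχ => ?_⟩
  obtain ⟨t1, t2⟩ := hχ.tensor b.h1
  have e1 : ∫ x, (1 / 2 : ℝ) * ⟪D (fun x => ∫ y, F (pt x y) * Φ y) x, D χ x⟫ =
      ∫ p : WithLp 2 (V × W), (1 / 2 : ℝ) * (Φ p.snd * ⟪(D F p).fst, D χ p.fst⟫) := by
    rw [integral_const_mul, integral_const_mul,
      ← S08_pair_inner (S08_mem_fst a.h1.dl2) b.h1.l2 hχ.dl2]
    congr 1
    exact integral_congr_ae (h2.mono fun x hx => by simp only [hx])
  have e2 : ∫ x, (∫ y, (A (pt x y) * Φ y - F (pt x y) * B y)) * χ x =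
      (∫ p : WithLp 2 (V × W), A p * (χ p.fst * Φ p.snd)) -
        ∫ p : WithLp 2 (V × W), F p * (χ p.fst * B p.snd) := by
    have k1 : Integrable fun x => (∫ y, A (pt x y) * Φ y) * χ x := m1.integrable_mul hχ.l2
    have k2 : Integrable fun x => (∫ y, F (pt x y) * B y) * χ x := m2.integrable_mul hχ.l2
    rw [← S08_pair_mul a.l2 b.h1.l2 hχ.l2, ← S08_pair_mul a.h1.l2 b.l2 hχ.l2, ← integral_sub k1 k2]
    exact integral_congr_ae (e.mono fun x hx => by simp only [hx, sub_mul])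
  have i1 : Integrable fun p : WithLp 2 (V × W) =>
      (1 / 2 : ℝ) * (Φ p.snd * ⟪(D F p).fst, D χ p.fst⟫) := by
    simpa only [real_inner_smul_right] using
      (S08_inner_int (S08_mem_fst a.h1.dl2) (S08_m2 hχ.dl2 b.h1.l2)).const_mul (1 / 2)
  have i2 : Integrable fun p : WithLp 2 (V × W) =>
      (1 / 2 : ℝ) * (χ p.fst * ⟪D Φ p.snd, (D F p).snd⟫) := by
    simpa only [real_inner_smul_left] using
      (S08_inner_int (S08_m1 hχ.l2 b.h1.dl2) (S08_mem_snd a.h1.dl2)).const_mul (1 / 2)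
  have e3 : ∫ p : WithLp 2 (V × W), F p * (χ p.fst * B p.snd) =
      ∫ p : WithLp 2 (V × W), (1 / 2 : ℝ) * (χ p.fst * ⟪D Φ p.snd, (D F p).snd⟫) := by
    rw [S08_sol_snd b a.h1 hχ.l2]
    simp only [mul_comm]
  rw [e1, e2, e3, ← a.eq _ t1, eq_sub_iff_add_eq, ← integral_add i1 i2]
  refine integral_congr_ae (t2.mono fun p hp => ?_)
  simp only [hp, S08_inner_pt, real_inner_smul_right, mul_add]
  rw [real_inner_comm (D Φ p.snd)]

end

end Crest.Agent.R335
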