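import Crest.Agent.R335.S06
import Crest.Agent.R335.S07

set_option autoImplicit false

open MeasureTheory Set Filter Topology Metric
open scoped Gradient ContDiff RealInnerProductSpace ENNReal

namespace Crest.Agent.R335

noncomputable section

variable {V : Type*} [NormedAddCommGroup V] [InnerProductSpace ℝ V] [FiniteDimensional ℝ V]
  [MeasurableSpace V] [BorelSpace V]

/-! Sobolev, Hardy, thin sets -/
theorem S09_e2 {F : Type*} [NormedAddCommGroup F] {f : V → F} (hf : MemLp f 2 volume) :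
    eLpNorm f 2 volume = ENNReal.ofReal (√(∫ x, ‖f x‖ ^ 2)) := by
  rw [hf.eLpNorm_eq_integral_rpow_norm two_ne_zero ENNReal.ofNat_ne_top, Real.sqrt_eq_rpow]
  simp

theorem S09_grad_l2 {φ : V → ℝ} (h : Tst φ) : MemLp (∇ φ) 2 volume :=
  (memLp_congr_ae (D_c1 h.1)).1 h.h1.dl2

theorem S09_dir_nonneg (u : V → ℝ) : 0 ≤ dir u := integral_nonneg fun _ => by positivity

theorem S09_transfer {u : V → ℝ} (h : H1 u) {p : ℝ≥0∞} {C : ℝ} (hC : 0 ≤ C) (w : ℕ → V → ℝ)
    (W : V → ℝ) (hw : ∀ n, Continuous (w n))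
    (hW : ∀ᵐ x, Tendsto (fun n => w n x) atTop (𝓝 (W x)))
    (H : ∀ n φ, Tst φ → eLpNorm (fun x => φ x * w n x) p volume ≤
      ENNReal.ofReal C * eLpNorm (∇ φ) 2 volume) :
    eLpNorm (fun x => u x * W x) p volume ≤ ENNReal.ofReal (C * √(dir u)) := by
  obtain ⟨φ, h1, -, h3, h4, -⟩ := h.approx_seq
  have ht : ∀ n, Tst (φ n) := fun n => ⟨(h1 n).1.of_le (by simp), (h1 n).2⟩
  have key : ∀ m : ℕ, eLpNorm (fun x => u x * W x) p volume ≤
      ENNReal.ofReal (C * (√(dir u) + (1 / 2) ^ m)) := fun m => by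
    refine Lp.eLpNorm_le_of_ae_tendsto (u := atTop) (f := fun n x => φ n x * w n x) ?_
      (fun n => ((h1 n).1.continuous.mul (hw n)).aestronglyMeasurable) ?_
    · filter_upwards [eventually_ge_atTop m] with n hn
      refine (H n _ (ht n)).trans ?_
      rw [ENNReal.ofReal_mul hC]
      gcongr
      have e : ∇ (φ n) = D u - fun x => D u x - ∇ (φ n) x := by
        funext x
        simp
      have m2 : MemLp (fun x => D u x - ∇ (φ n) x) 2 volume := h.dl2.sub (S09_grad_l2 (ht n))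
      rw [e]
      refine (eLpNorm_sub_le h.dl2.1 m2.1 one_le_two).trans ?_
      rw [S09_e2 h.dl2, S09_e2 m2, ← ENNReal.ofReal_add (by positivity) (by positivity)]
      refine ENNReal.ofReal_le_ofReal (add_le_add le_rfl (Real.sqrt_le_iff.2 ⟨by positivity, ?_⟩))
      refine (h3 n).trans ?_
      rw [← pow_mul, mul_comm m 2, pow_mul, show ((1 : ℝ) / 2) ^ 2 = 1 / 4 by norm_num]
      exact pow_le_pow_of_le_one (by norm_num) (by norm_num) hn
    · filter_upwards [h4, hW] with x a b using a.mul b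
  refine ge_of_tendsto' (x := atTop) (ENNReal.tendsto_ofReal ?_) key
  have := ((tendsto_pow_atTop_nhds_zero_of_lt_one (r := (1 / 2 : ℝ)) (by norm_num)
    (by norm_num)).const_add (√(dir u))).const_mul C
  rwa [add_zero] at this

theorem sobolev : ∃ C : ℝ, 0 < C ∧ ∀ u : E → ℝ, H1 u → MemLp u 6 volume ∧ ∫ x, u x ^ 6 ≤ C * dir u ^ 3 := by
  set C : ℝ := (eLpNormLESNormFDerivOfEqInnerConst (volume : Measure E) (2 : NNReal) : ℝ) with hC
  have C0 : 0 ≤ C := NNReal.coe_nonneg _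
  refine ⟨C ^ 6 + 1, by positivity, fun u h => ?_⟩
  have key := S09_transfer h (p := 6) C0 (fun _ _ => 1) (fun _ => 1) (fun _ => continuous_const)
    (.of_forall fun _ => tendsto_const_nhds) fun _ φ hφ => by
      have := eLpNorm_le_eLpNorm_fderiv_of_eq_inner (volume : Measure E) hφ.1 hφ.2 (p := 2)
        (p' := 6) one_le_two (by simp) (by simp; norm_num)
      simp only [mul_one]
      rw [hC, ENNReal.ofReal_coe_nnreal, eLpNorm_congr_norm_ae (f := ∇ φ) (g := fderiv ℝ φ)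
        (.of_forall fun x => by simp [gradient])]
      exact this
  simp only [mul_one] at key
  have m6 : MemLp u 6 volume := ⟨h.l2.1, key.trans_lt ENNReal.ofReal_lt_top⟩
  refine ⟨m6, ?_⟩
  have d0 := S09_dir_nonneg u
  rw [m6.eLpNorm_eq_integral_rpow_norm (by simp) (by simp),
    ENNReal.ofReal_le_ofReal_iff (by positivity)] at key
  have e : ∫ x, ‖u x‖ ^ (6 : ℝ≥0∞).toReal = ∫ x, u x ^ 6 := integral_congr_ae (.of_forall fun x => by
    simp only [ENNReal.toReal_ofNat, Real.norm_eq_abs, Real.rpow_ofNat]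
    exact Even.pow_abs (by decide) _)
  have i0 : 0 ≤ ∫ x, u x ^ 6 := integral_nonneg fun x => by positivity
  rw [e, ENNReal.toReal_ofNat, Real.rpow_inv_le_iff_of_pos i0 (by positivity) (by norm_num),
    Real.rpow_ofNat, mul_pow, show √(dir u) ^ 6 = (√(dir u) ^ 2) ^ 3 by ring,
    Real.sq_sqrt d0] at key
  exact key.trans (by gcongr; linarith)

theorem l32_bound : ∃ C : ℝ, 0 < C ∧ ∀ (v u : E → ℝ) (A : Set E), MeasurableSet A →
    MemLp v (3 / 2 : ℝ≥0∞) (volume.restrict A) → H1 u → IntegrableOn (fun x => v x * u x ^ 2) A volume ∧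
      ∫ x in A, |v x| * u x ^ 2 ≤ C * (∫ x in A, |v x| ^ (3 / 2 : ℝ)) ^ (2 / 3 : ℝ) * dir u := by
  obtain ⟨C, C0, hC⟩ := sobolev
  refine ⟨C ^ (1 / 3 : ℝ), by positivity, fun v u A hA hv h => ?_⟩
  obtain ⟨m6, k6⟩ := hC u h
  have d0 := S09_dir_nonneg u
  have e1 : (3 / 2 : ℝ≥0∞) = ENNReal.ofReal (3 / 2) := by
    rw [ENNReal.ofReal_div_of_pos two_pos]
    simp
  have e2 : (3 : ℝ≥0∞) = ENNReal.ofReal 3 := by simp
  have hc : (3 / 2 : ℝ).HolderConjugate 3 := ⟨by norm_num, by norm_num, by norm_num⟩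
  have t1 : ENNReal.HolderTriple 6 6 3 := ⟨by
    rw [← two_mul, show (6 : ℝ≥0∞) = 2 * 3 by norm_num, ENNReal.mul_inv (by simp) (by simp),
      ← mul_assoc, ENNReal.mul_inv_cancel (by simp) (by simp), one_mul]⟩
  have t2 : ENNReal.HolderTriple (3 / 2) 3 1 := by
    rw [e1, e2]
    exact hc.ennrealOfReal
  have m3 : MemLp (fun x => u x ^ 2) 3 volume := by
    simpa only [sq] using m6.mul' m6
  refine ⟨hv.integrable_mul (m3.restrict A), ?_⟩
  have k := integral_mul_le_Lp_mul_Lq_of_nonneg hc (μ := volume.restrict A) (f := fun x => |v x|)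
    (g := fun x => u x ^ 2) (.of_forall fun x => abs_nonneg _) (.of_forall fun x => sq_nonneg _)
    (e1 ▸ hv.abs) (e2 ▸ m3.restrict A)
  have e3 : ∀ x, (u x ^ 2) ^ (3 : ℝ) = u x ^ 6 := fun x => by
    rw [Real.rpow_ofNat]
    ring
  simp only [e3] at k
  have i6 : Integrable (fun x => u x ^ 6) := by
    have := MemLp.integrable_norm_pow (p := 6) m6 (by norm_num)
    simpa only [Real.norm_eq_abs, Even.pow_abs (show Even 6 by decide)] using this
  have k2 : (∫ x in A, u x ^ 6) ^ (1 / 3 : ℝ) ≤ C ^ (1 / 3 : ℝ) * dir u := by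
    refine (Real.rpow_le_rpow (integral_nonneg fun x => by positivity)
      ((setIntegral_le_integral i6 (.of_forall fun x => by positivity)).trans k6)
      (by norm_num)).trans_eq ?_
    rw [Real.mul_rpow C0.le (by positivity), ← Real.rpow_natCast, ← Real.rpow_mul d0]
    norm_num
  have i0 : 0 ≤ ∫ x in A, |v x| ^ (3 / 2 : ℝ) := integral_nonneg fun x => by positivity
  refine k.trans ?_
  rw [show (1 / (3 / 2) : ℝ) = 2 / 3 by norm_num, mul_comm (C ^ (1 / 3 : ℝ)), mul_assoc]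
  gcongr

theorem S09_dvg (c : E) {ε : ℝ} (hε : 0 < ε) (x : E) :
    dvg (fun x => (‖x - c‖ ^ 2 + ε)⁻¹ • (x - c)) x =
      (‖x - c‖ ^ 2 + 3 * ε) / (‖x - c‖ ^ 2 + ε) ^ 2 := by
  have h0 : ‖x - c‖ ^ 2 + ε ≠ 0 := by positivity
  have h1 := (hasFDerivAt_id (𝕜 := ℝ) x).sub_const c
  have h2 := ((hasDerivAt_inv h0).comp_hasFDerivAt x (h1.norm_sq.add_const ε)).smul h1
  unfold dvg
  rw [show fderiv ℝ (fun x => (‖x - c‖ ^ 2 + ε)⁻¹ • (x - c)) x = _ from h2.fderiv]
  simp only [ContinuousLinearMap.toLinearMap_add, map_add, ContinuousLinearMap.toLinearMap_smul,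
    map_smul, ContinuousLinearMap.coe_id, LinearMap.trace_id]
  rw [show ∀ (f : E →L[ℝ] ℝ) (v : E), LinearMap.trace ℝ E (f.smulRight v : E →ₗ[ℝ] E) = f v from
    fun f v => LinearMap.trace_smulRight (f : E →ₗ[ℝ] ℝ) v]
  have h3 : ⟪x, x - c⟫ = ‖x - c‖ ^ 2 + ⟪c, x - c⟫ := by
    rw [← real_inner_self_eq_norm_sq, inner_sub_left, sub_add_cancel]
  simp [h3]
  field_simp
  ring

theorem S09_hardy (c : E) {ε : ℝ} (hε : 0 < ε) {φ : E → ℝ} (h : Tst φ) :
    ∫ x, φ x ^ 2 * (‖x - c‖ ^ 2 + ε)⁻¹ ≤ 4 * ∫ x, ‖∇ φ x‖ ^ 2 := by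
  have h0 : ∀ x : E, ‖x - c‖ ^ 2 + ε ≠ 0 := fun x => by positivity
  have hX : ContDiff ℝ 1 fun x : E => (‖x - c‖ ^ 2 + ε)⁻¹ • (x - c) :=
    ((((contDiff_id.sub contDiff_const).norm_sq ℝ).add contDiff_const).inv h0).smul
      (contDiff_id.sub contDiff_const)
  have hs : HasCompactSupport fun x => φ x * φ x := h.2.mul_right
  have h2 : Tst fun x => φ x * φ x := ⟨h.1.mul h.1, hs⟩
  have k := ibp_field isOpen_univ hX.contDiffOn h2.h1
    ⟨_, hs, subset_univ _, .of_forall fun x hx => image_eq_zero_of_notMem_tsupport (f := fun x => φ x * φ x) hx⟩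
  have hD := D_mul_c1 h.h1.hl h.1
  have c1 := h.1.continuous
  have c2 : Continuous (∇ φ) :=
    (InnerProductSpace.toDual ℝ E).symm.continuous.comp (h.1.continuous_fderiv one_ne_zero)
  have e : ∫ x, ⟪(‖x - c‖ ^ 2 + ε)⁻¹ • (x - c), D (fun x => φ x * φ x) x⟫ =
      ∫ x, φ x * (2 * ⟪(‖x - c‖ ^ 2 + ε)⁻¹ • (x - c), ∇ φ x⟫) := by
    refine integral_congr_ae ?_
    filter_upwards [hD, D_c1 h.1] with x a b
    rw [a, b, inner_add_right, inner_smul_right]
    ring
  simp only [e, S09_dvg c hε] at k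
  have i1 : Integrable fun x => φ x * (2 * ⟪(‖x - c‖ ^ 2 + ε)⁻¹ • (x - c), ∇ φ x⟫) :=
    (c1.mul (continuous_const.mul (hX.continuous.inner c2))).integrable_of_hasCompactSupport
      h.2.mul_right
  have i2 : Integrable fun x => (‖x - c‖ ^ 2 + 3 * ε) / (‖x - c‖ ^ 2 + ε) ^ 2 * (φ x * φ x) :=
    (Continuous.mul (Continuous.div (by fun_prop) (by fun_prop) fun x => pow_ne_zero _ (h0 x))
      (c1.mul c1)).integrable_of_hasCompactSupport hs.mul_left
  have i3 : Integrable fun x => ‖∇ φ x‖ ^ 2 :=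
    (memLp_two_iff_integrable_sq_norm c2.aestronglyMeasurable).1 (S09_grad_l2 h)
  have k2 : ∫ x, φ x ^ 2 * (‖x - c‖ ^ 2 + ε)⁻¹ ≤ ∫ x, (4 * ‖∇ φ x‖ ^ 2 +
      2 * (φ x * (2 * ⟪(‖x - c‖ ^ 2 + ε)⁻¹ • (x - c), ∇ φ x⟫) +
        (‖x - c‖ ^ 2 + 3 * ε) / (‖x - c‖ ^ 2 + ε) ^ 2 * (φ x * φ x))) := by
    refine integral_mono_of_nonneg (.of_forall fun x => by positivity)
      ((i3.const_mul 4).add ((i1.add i2).const_mul 2)) (.of_forall fun x => ?_)
    have a1 := norm_add_sq_real ((2 : ℝ) • ∇ φ x) (φ x • ((‖x - c‖ ^ 2 + ε)⁻¹ • (x - c)))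
    have a2 := sq_nonneg ‖(2 : ℝ) • ∇ φ x + φ x • ((‖x - c‖ ^ 2 + ε)⁻¹ • (x - c))‖
    rw [inner_smul_left, inner_smul_right, real_inner_comm, norm_smul, norm_smul, norm_smul,
      mul_pow, mul_pow, mul_pow] at a1
    simp only [Real.norm_eq_abs, sq_abs, conj_trivial] at a1
    have a3 : φ x ^ 2 * (‖x - c‖ ^ 2 + ε)⁻¹ + φ x ^ 2 * ((‖x - c‖ ^ 2 + ε)⁻¹ ^ 2 * ‖x - c‖ ^ 2) +
        φ x ^ 2 * (5 * ε * (‖x - c‖ ^ 2 + ε)⁻¹ ^ 2) =
        2 * ((‖x - c‖ ^ 2 + 3 * ε) / (‖x - c‖ ^ 2 + ε) ^ 2 * (φ x * φ x)) := by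
      have := h0 x
      field_simp
      ring
    have a4 : 0 ≤ φ x ^ 2 * (5 * ε * (‖x - c‖ ^ 2 + ε)⁻¹ ^ 2) := by positivity
    simp only
    linarith
  rw [integral_add (i3.const_mul 4) ((i1.fun_add i2).const_mul 2), integral_const_mul,
    integral_const_mul, integral_add i1 i2, k] at k2
  linarith

/-- expand `‖∇u + u (x-c)/(2(‖x-c‖²+ε))‖² ≥ 0` -/
theorem hardy {u : E → ℝ} (h : H1 u) (c : E) :
    MemLp (fun x => u x / ‖x - c‖) 2 volume ∧ ∫ x, (u x / ‖x - c‖) ^ 2 ≤ 4 * dir u := by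
  have d0 := S09_dir_nonneg u
  have key := S09_transfer h (p := 2) (C := 2) zero_le_two
    (fun n x => (√(‖x - c‖ ^ 2 + 1 / ((n : ℝ) + 1)))⁻¹) (fun x => ‖x - c‖⁻¹)
    (fun n => Continuous.inv₀ (by fun_prop) fun x => by positivity) ?_ fun n φ hφ => ?_
  · have m2 : MemLp (fun x => u x / ‖x - c‖) 2 volume :=
      ⟨(h.l2.1.aemeasurable.div (by fun_prop)).aestronglyMeasurable, by
        simpa only [div_eq_mul_inv] using key.trans_lt ENNReal.ofReal_lt_top⟩
    refine ⟨m2, ?_⟩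
    simp only [← div_eq_mul_inv] at key
    rw [S09_e2 m2, ENNReal.ofReal_le_ofReal_iff (by positivity), Real.sqrt_le_iff, mul_pow,
      Real.sq_sqrt d0] at key
    simp only [Real.norm_eq_abs, sq_abs] at key
    linarith [key.2]
  · filter_upwards [Measure.ae_ne volume c] with x hx
    have h1 : 0 < ‖x - c‖ := norm_pos_iff.2 (sub_ne_zero.2 hx)
    refine Tendsto.inv₀ ?_ h1.ne'
    have := (tendsto_one_div_add_atTop_nhds_zero_nat.const_add (‖x - c‖ ^ 2)).sqrt
    rwa [add_zero, Real.sqrt_sq h1.le] at this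
  · have hε : 0 < 1 / ((n : ℝ) + 1) := by positivity
    have m2 : MemLp (fun x => φ x * (√(‖x - c‖ ^ 2 + 1 / ((n : ℝ) + 1)))⁻¹) 2 volume :=
      (hφ.1.continuous.mul (Continuous.inv₀ (by fun_prop) fun x => by
        positivity)).memLp_of_hasCompactSupport hφ.2.mul_right
    rw [S09_e2 m2, S09_e2 (S09_grad_l2 hφ), ← ENNReal.ofReal_mul zero_le_two]
    refine ENNReal.ofReal_le_ofReal (Real.sqrt_le_iff.2 ⟨by positivity, ?_⟩)
    rw [mul_pow, Real.sq_sqrt (integral_nonneg fun _ => by positivity)]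
    refine le_trans (le_of_eq (integral_congr_ae (.of_forall fun x => ?_)))
      ((S09_hardy c hε hφ).trans_eq (by norm_num))
    simp only [Real.norm_eq_abs, sq_abs]
    rw [mul_pow, inv_pow, Real.sq_sqrt (by positivity)]

theorem S09_tonelli {f : V → ℝ} (hf : Integrable f) (h0 : ∀ y, 0 ≤ f y) (r : ℝ) :
    ∫⁻ x, ENNReal.ofReal (∫ y in ball x r, f y) =
      volume (ball (0 : V) r) * ENNReal.ofReal (∫ y, f y) := by
  have hm : AEMeasurable (fun y => ENNReal.ofReal (f y)) volume := hf.1.aemeasurable.ennreal_ofReal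
  have hS : MeasurableSet {p : V × V | dist p.2 p.1 < r} :=
    (isOpen_lt (by fun_prop) continuous_const).measurableSet
  have e : ∀ x, ENNReal.ofReal (∫ y in ball x r, f y) =
      ∫⁻ y, {p : V × V | dist p.2 p.1 < r}.indicator (fun p => hm.mk _ p.2) (x, y) := fun x => by
    rw [ofReal_integral_eq_lintegral_ofReal hf.integrableOn (.of_forall h0),
      lintegral_congr_ae (ae_restrict_of_ae hm.ae_eq_mk), ← lintegral_indicator measurableSet_ball]
    rfl
  simp only [e]
  rw [lintegral_lintegral_swap (by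
      exact ((hm.measurable_mk.comp measurable_snd).indicator hS).aemeasurable),
    ofReal_integral_eq_lintegral_ofReal hf (.of_forall h0), lintegral_congr_ae hm.ae_eq_mk,
    ← lintegral_const_mul _ hm.measurable_mk]
  refine lintegral_congr fun y => ?_
  rw [← Measure.addHaar_ball_center volume y, mul_comm, ← setLIntegral_const,
    ← lintegral_indicator measurableSet_ball]
  refine lintegral_congr fun x => ?_
  simp only [indicator, mem_ofPred_eq, mem_ball, dist_comm]

theorem S09_local {u : V → ℝ} (h : H1 u) (x : V) : ∃ w : V → ℝ, H1 w ∧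
    (∀ y ∈ ball x (1 / 4), w y = u y) ∧
    dir w ≤ ∫ y in ball x 1, (128 * ‖D u y‖ ^ 2 + 128 * u y ^ 2) := by
  obtain ⟨j, j1, j2, j3, j4, j5, j6, -⟩ := exists_cutoff x (r := 1 / 4) (s := 1 / 2) (by norm_num)
    (by norm_num)
  have j1' : ContDiff ℝ 1 j := j1.of_le (by simp)
  refine ⟨fun y => j y * u y, h.hl.mul_tst ⟨j1', j2⟩, fun y hy => ?_, ?_⟩
  · simp only
    rw [j4 y (by rw [← dist_eq_norm]; exact (mem_ball.1 hy).le), one_mul]
  rw [← integral_indicator measurableSet_ball]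
  have i1 := (memLp_two_iff_integrable_sq_norm h.dl2.1).1 h.dl2
  have i2 := (memLp_two_iff_integrable_sq h.l2.1).1 h.l2
  refine integral_mono_of_nonneg (.of_forall fun _ => by positivity)
    (((i1.const_mul 128).add (i2.const_mul 128)).indicator measurableSet_ball) ?_
  filter_upwards [D_mul_c1 h.hl j1'] with y hy
  rw [hy]
  by_cases hb : y ∈ ball x 1
  · rw [indicator_of_mem hb]
    have a1 : ‖j y • D u y + u y • ∇ j y‖ ≤ ‖D u y‖ + |u y| * 8 := by
      refine (norm_add_le _ _).trans (add_le_add ?_ ?_)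
      · rw [norm_smul, Real.norm_of_nonneg (j3 y).1]
        exact mul_le_of_le_one_left (norm_nonneg _) (j3 y).2
      · rw [norm_smul]
        exact mul_le_mul_of_nonneg_left ((j6 y).trans_eq (by norm_num)) (abs_nonneg _)
    refine (pow_le_pow_left₀ (norm_nonneg _) a1 2).trans ?_
    rw [← sq_abs (u y)]
    nlinarith [sq_nonneg (‖D u y‖ - |u y| * 8), sq_nonneg ‖D u y‖]
  · rw [indicator_of_notMem hb]
    rw [mem_ball, dist_eq_norm, not_lt] at hb
    have a1 : j =ᶠ[𝓝 y] fun _ => 0 := by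
      filter_upwards [(isOpen_lt continuous_const (by fun_prop : Continuous fun z : V =>
        ‖z - x‖)).mem_nhds (show (3 / 4 : ℝ) < ‖y - x‖ by linarith)] with z hz
      exact j5 z (by linarith [show (3 / 4 : ℝ) < ‖z - x‖ from hz])
    rw [a1.gradient_eq, j5 y (by linarith)]
    simp

/-- average the Sobolev inequality over translates of a bump -/
theorem thin : ∃ C : ℝ, 0 < C ∧ ∀ (u : E → ℝ) (A : Set E) (η : ℝ), H1 u → MeasurableSet A → 0 ≤ η →
    (∀ x, (volume (A ∩ ball x 1)).toReal ≤ η) →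
      ∫ x in A, u x ^ 2 ≤ C * η ^ (2 / 3 : ℝ) * (dir u + nsq u) := by
  obtain ⟨C, C0, hC⟩ := l32_bound
  have p1 : 0 < (volume (ball (0 : E) 1)).toReal :=
    ENNReal.toReal_pos (measure_ball_pos _ _ one_pos).ne' measure_ball_lt_top.ne
  have p2 : 0 < (volume (ball (0 : E) (1 / 4))).toReal :=
    ENNReal.toReal_pos (measure_ball_pos _ _ (by norm_num)).ne' measure_ball_lt_top.ne
  refine ⟨C * (volume (ball (0 : E) 1)).toReal * 128 / (volume (ball (0 : E) (1 / 4))).toReal,
    by positivity, fun u A η h hA η0 hη => ?_⟩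
  have i1 := (memLp_two_iff_integrable_sq_norm h.dl2.1).1 h.dl2
  have i2 := (memLp_two_iff_integrable_sq h.l2.1).1 h.l2
  have i3 : Integrable fun y => 128 * ‖D u y‖ ^ 2 + 128 * u y ^ 2 :=
    (i1.const_mul 128).add (i2.const_mul 128)
  have loc : ∀ x, ∫ y in ball x (1 / 4), A.indicator (fun y => u y ^ 2) y ≤
      C * η ^ (2 / 3 : ℝ) * ∫ y in ball x 1, (128 * ‖D u y‖ ^ 2 + 128 * u y ^ 2) := fun x => by
    obtain ⟨w, w1, w2, w3⟩ := S09_local h x
    have hm : MeasurableSet (A ∩ ball x (1 / 4)) := hA.inter measurableSet_ball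
    have : IsFiniteMeasure (volume.restrict (A ∩ ball x (1 / 4))) :=
      isFiniteMeasure_restrict.2 ((measure_mono inter_subset_right).trans_lt measure_ball_lt_top).ne
    have k := (hC (fun _ => 1) w _ hm (memLp_const 1) w1).2
    simp only [abs_one, one_mul, Real.one_rpow, integral_const, smul_eq_mul, mul_one,
      MeasurableSet.univ, measureReal_restrict_apply, univ_inter] at k
    rw [setIntegral_indicator hA, inter_comm, ← setIntegral_congr_fun hm
      (f := fun y => w y ^ 2) fun y hy => by simp only [w2 y hy.2]]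
    refine k.trans ?_
    have d0 := S09_dir_nonneg w
    have a1 : volume.real (A ∩ ball x (1 / 4)) ≤ η := le_trans (measureReal_mono
      (inter_subset_inter_right _ (ball_subset_ball (by norm_num)))
      ((measure_mono inter_subset_right).trans_lt measure_ball_lt_top).ne) (hη x)
    gcongr
  have k := lintegral_mono (μ := (volume : Measure E)) fun x => ENNReal.ofReal_le_ofReal (loc x)
  have c0 : 0 ≤ C * η ^ (2 / 3 : ℝ) := by positivity
  simp only [ENNReal.ofReal_mul c0] at k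
  rw [lintegral_const_mul' _ _ ENNReal.ofReal_ne_top, S09_tonelli i3 fun _ => by positivity,
    S09_tonelli (i2.indicator hA) fun y => indicator_nonneg (fun _ _ => sq_nonneg _) y,
    integral_indicator hA, integral_add (i1.const_mul 128) (i2.const_mul 128), integral_const_mul,
    integral_const_mul] at k
  have d0 := S09_dir_nonneg u
  have n0 : 0 ≤ nsq u := integral_nonneg fun _ => sq_nonneg _
  change _ ≤ _ * (_ * ENNReal.ofReal (128 * dir u + 128 * nsq u)) at k
  have k2 := ENNReal.toReal_mono (ENNReal.mul_ne_top ENNReal.ofReal_ne_top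
    (ENNReal.mul_ne_top measure_ball_lt_top.ne ENNReal.ofReal_ne_top)) k
  rw [ENNReal.toReal_mul, ENNReal.toReal_mul, ENNReal.toReal_mul, ENNReal.toReal_ofReal c0,
    ENNReal.toReal_ofReal (integral_nonneg fun _ => sq_nonneg _),
    ENNReal.toReal_ofReal (show 0 ≤ 128 * dir u + 128 * nsq u by positivity)] at k2
  rw [div_mul_eq_mul_div, div_mul_eq_mul_div, le_div_iff₀ p2]
  refine (mul_comm _ _).trans_le (k2.trans_eq ?_)
  ring

theorem H1.eq_zero [Nontrivial V] {u : V → ℝ} (h : H1 u) (h0 : dir u = 0) : ∀ᵐ x, u x = 0 := by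
  have i2 := (memLp_two_iff_integrable_sq h.l2.1).1 h.l2
  obtain ⟨e, he⟩ := exists_norm_eq V zero_le_one
  have k1 : ∀ n : ℕ, ∫ x, u x ^ 2 ≤ 2 * ∫ x in (ball (0 : V) n)ᶜ, u x ^ 2 := fun n => by
    have m2 := ((h.shift ((2 * n : ℝ) • e)).sub h).l2
    have a1 := h.diff_le ((2 * n : ℝ) • e)
    rw [h0, mul_zero] at a1
    have a2 := (integral_eq_zero_iff_of_nonneg (fun _ => sq_nonneg _)
      ((memLp_two_iff_integrable_sq m2.1).1 m2)).1
      (a1.antisymm (integral_nonneg fun _ => sq_nonneg _))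
    have a3 : ∫ x in ball (0 : V) n, u x ^ 2 ≤ ∫ x in (ball (0 : V) n)ᶜ, u x ^ 2 := by
      rw [← integral_indicator measurableSet_ball, ← integral_indicator measurableSet_ball.compl,
        ← integral_add_right_eq_self ((ball (0 : V) n)ᶜ.indicator fun x => u x ^ 2)
          ((2 * n : ℝ) • e)]
      refine integral_mono_of_nonneg (.of_forall fun y => indicator_nonneg (fun _ _ => sq_nonneg _) y)
        ((i2.indicator measurableSet_ball.compl).comp_add_right _) ?_
      filter_upwards [a2] with x hx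
      by_cases hb : x ∈ ball (0 : V) n
      · rw [indicator_of_mem hb, indicator_of_mem, sub_eq_zero.1 (pow_eq_zero_iff two_ne_zero |>.1 hx)]
        rw [mem_compl_iff, mem_ball_zero_iff, not_lt]
        rw [mem_ball_zero_iff] at hb
        have b1 := norm_sub_le (x + (2 * n : ℝ) • e) x
        rw [add_sub_cancel_left, norm_smul, he, Real.norm_of_nonneg (by positivity)] at b1
        linarith
      · rw [indicator_of_notMem hb]
        exact indicator_nonneg (fun _ _ => sq_nonneg _) _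
    rw [← integral_add_compl (measurableSet_ball (x := (0 : V)) (ε := n)) i2]
    linarith
  have k2 := (tendsto_setIntegral_of_antitone (s := fun n : ℕ => (ball (0 : V) n)ᶜ)
    (fun _ => measurableSet_ball.compl)
    (fun a b hab => compl_subset_compl.2 (ball_subset_ball (Nat.cast_le.2 hab)))
    ⟨0, i2.integrableOn⟩).const_mul 2
  rw [← compl_iUnion, iUnion_ball_nat, compl_univ, setIntegral_empty, mul_zero] at k2
  filter_upwards [(integral_eq_zero_iff_of_nonneg (fun _ => sq_nonneg _) i2).1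
    ((ge_of_tendsto' k2 k1).antisymm (integral_nonneg fun _ => sq_nonneg _))] with x hx
  exact (pow_eq_zero_iff two_ne_zero).1 hx


end

end Crest.Agent.R335
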