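import Crest.Agent.R335.Defs3
import Crest.Agent.R335.S09
import Crest.Agent.R335.S08
import Crest.Agent.R335.S07
import Crest.Agent.R335.S02

/-! Row 335, module B (bridge to the frozen definitions): definitions and elementary facts. -/

set_option autoImplicit false

open MeasureTheory Set Filter Topology Metric
open scoped Gradient ContDiff RealInnerProductSpace ENNReal

namespace Crest.Agent.R335

noncomputable section

open Crest.MathPhysics.ThreeBody

/-- electrons `i, j, k` of a configuration -/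
def tri (i j k : Fin 3) (x : Config3) : E9 := pt (elPos i x) (pt (elPos j x) (elPos k x))

/-- the identification of `E9` with the configuration space -/
def cfg : E9 ≃ₗᵢ[ℝ] Config3 where
  toFun p := WithLp.toLp 2 fun ic => (![p.fst, p.snd.fst, p.snd.snd] : Fin 3 → E) ic.1 ic.2
  invFun x := tri 0 1 2 x
  map_add' p q := by
    ext ⟨i, c⟩
    fin_cases i <;> simp
  map_smul' t p := by
    ext ⟨i, c⟩
    fin_cases i <;> simp
  left_inv p := rfl
  right_inv x := by
    ext ⟨i, c⟩
    fin_cases i <;> rfl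
  norm_map' p := by
    rw [← sq_eq_sq₀ (norm_nonneg _) (norm_nonneg _), EuclideanSpace.real_norm_sq_eq,
      WithLp.prod_norm_sq_eq_of_L2, WithLp.prod_norm_sq_eq_of_L2, EuclideanSpace.real_norm_sq_eq,
      EuclideanSpace.real_norm_sq_eq, EuclideanSpace.real_norm_sq_eq, Fintype.sum_prod_type,
      Fin.sum_univ_three, add_assoc]
    rfl

theorem elPos_cfg0 (p : E9) : elPos 0 (cfg p) = p.fst := rfl
theorem elPos_cfg1 (p : E9) : elPos 1 (cfg p) = p.snd.fst := rfl
theorem elPos_cfg2 (p : E9) : elPos 2 (cfg p) = p.snd.snd := rfl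
theorem cfg_symm (x : Config3) : cfg.symm x = tri 0 1 2 x := rfl
theorem elPos_perm (σ : Equiv.Perm (Fin 3)) (i : Fin 3) (x : Config3) :
    elPos i (permConfig σ x) = elPos (σ i) x := rfl
theorem tri_perm (σ : Equiv.Perm (Fin 3)) (i j k : Fin 3) (x : Config3) :
    tri i j k (permConfig σ x) = tri (σ i) (σ j) (σ k) x := rfl
theorem perm_perm (σ τ : Equiv.Perm (Fin 3)) (x : Config3) :
    permConfig τ (permConfig σ x) = permConfig (σ * τ) x := rfl
theorem sw12_tri (i j k : Fin 3) (x : Config3) : sw12 (tri i j k x) = tri j i k x := rfl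
theorem cyc_tri (i j k : Fin 3) (x : Config3) : cyc (tri i j k x) = tri j k i x := rfl
theorem cfg_sw12 (p : E9) : cfg (sw12 p) = permConfig (Equiv.swap 0 1) (cfg p) := by
  ext ⟨i, c⟩
  fin_cases i <;> rfl

/-- relabelling as an isometry -/
def permIso (σ : Equiv.Perm (Fin 3)) : Config3 ≃ₗᵢ[ℝ] Config3 :=
  LinearIsometryEquiv.piLpCongrLeft 2 ℝ ℝ (Equiv.prodCongr σ.symm (Equiv.refl (Fin 3)))

theorem permIso_apply (σ : Equiv.Perm (Fin 3)) (x : Config3) : permIso σ x = permConfig σ x := by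
  ext ⟨i, c⟩
  rfl

/-- `tri (σ 0) (σ 1) (σ 2)` as an isometry -/
def triIso (σ : Equiv.Perm (Fin 3)) : Config3 ≃ₗᵢ[ℝ] E9 := (permIso σ).trans cfg.symm

theorem triIso_apply (σ : Equiv.Perm (Fin 3)) (x : Config3) :
    triIso σ x = tri (σ 0) (σ 1) (σ 2) x := by
  simp only [triIso, LinearIsometryEquiv.trans_apply, permIso_apply]
  rfl

theorem cfg_triIso (σ : Equiv.Perm (Fin 3)) (x : Config3) : cfg (triIso σ x) = permConfig σ x := by
  simp only [triIso, LinearIsometryEquiv.trans_apply, permIso_apply,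
    LinearIsometryEquiv.apply_symm_apply]

/-- relabelling of `E9` as an isometry -/
def permE (σ : Equiv.Perm (Fin 3)) : E9 ≃ₗᵢ[ℝ] E9 := cfg.trans (triIso σ)

theorem exists_sw12 : ∃ L : E9 ≃ₗᵢ[ℝ] E9, ∀ p, L p = sw12 p :=
  ⟨permE (Equiv.swap 0 1), fun p => by
    simp only [permE, LinearIsometryEquiv.trans_apply, triIso_apply]; rfl⟩

theorem exists_cyc : ∃ L : E9 ≃ₗᵢ[ℝ] E9, ∀ p, L p = cyc p :=
  ⟨permE (finRotate 3), fun p => by
    simp only [permE, LinearIsometryEquiv.trans_apply, triIso_apply]; rfl⟩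

/-- symmetric potentials -/
def SymW (W : Config3 → ℝ) : Prop := ∀ σ x, W (permConfig σ x) = W x

/-- the doublet wave function built from `χ` -/
def wave (χ : E9 → ℝ) : Wave3 := fun s x =>
  if s = ![0, 0, 1] then ((χ (tri 0 1 2 x) / √3 : ℝ) : ℂ)
  else if s = ![0, 1, 0] then ((-χ (tri 0 2 1 x) / √3 : ℝ) : ℂ)
  else if s = ![1, 0, 0] then ((χ (tri 1 2 0 x) / √3 : ℝ) : ℂ)
  else 0

/-- the number of electrons in `A` -/
def cnt (A : Set E) (p : E9) : ℝ≥0∞ :=
  A.indicator (fun _ => 1) p.fst + A.indicator (fun _ => 1) p.snd.fst +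
    A.indicator (fun _ => 1) p.snd.snd

/-- `L²`-normalised dilation -/
def sc (t : ℝ) (ψ : E9 → ℝ) (p : E9) : ℝ := t ^ 4 * √t * ψ (t • p)

end

end Crest.Agent.R335
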