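import Crest.Agent.R335.B2b
import Crest.Agent.R335.B3
import Crest.Agent.R335.B4
import Crest.Agent.R335.B5

set_option autoImplicit false

open MeasureTheory Set Filter Topology Metric
open scoped Gradient ContDiff RealInnerProductSpace ENNReal

namespace Crest.Agent.R335

noncomputable section

namespace BMain

open Crest.MathPhysics.ThreeBody

lemma nsq_nonneg (u : E9 → ℝ) : 0 ≤ nsq u := integral_nonneg fun _ => sq_nonneg _

/-- the wave function of an antisymmetric `H¹` function -/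
lemma wave_adm {W : Config3 → ℝ} (hW : SymW W) {χ : E9 → ℝ} (h : H1 χ) (ha : Anti χ)
    (hi : Integrable fun p => W (cfg p) * χ p ^ 2) :
    IsAdmissible W (wave χ) ∧ energy W (wave χ) = Q (fun p => W (cfg p)) χ := by
  obtain ⟨p1, p2⟩ := wave_pot hW hi
  refine ⟨⟨wave_ferm h.l2 ha, by rw [wave_kin h]; exact ENNReal.ofReal_lt_top, p1⟩, ?_⟩
  unfold energy Q
  rw [wave_kin h, p2, ENNReal.toReal_ofReal (by have := S09_dir_nonneg χ; positivity)]

/-- components of a normalised admissible state -/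
lemma comps {W : Config3 → ℝ} (hW : SymW W)
    (hi : ∀ χ, H1 χ → Integrable fun p => W (cfg p) * χ p ^ 2) {Φ : Wave3}
    (h : IsAdmissible W Φ) (hn : normSq Φ = 1) :
    ∃ c : Fin 16 → E9 → ℝ, (∀ j, H1 (c j) ∧ Anti (c j)) ∧ ∑ j, nsq (c j) = 1 ∧
      energy W Φ = ∑ j, Q (fun p => W (cfg p)) (c j) ∧
      ∀ A : Set E, MeasurableSet A →
        densityOn Φ A = ∑ j, ∫⁻ x in A, ENNReal.ofReal (dens (c j) x) := by
  obtain ⟨c, c1, c2, c3, c4, c5⟩ := exists_comps h.1 h.2.1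
  refine ⟨c, c1, ?_, ?_, c5⟩
  · rw [hn] at c2
    exact ENNReal.ofReal_eq_one.1 c2.symm
  · unfold energy Q
    rw [c3, c4 W hW fun j => hi _ (c1 j).1, ← Finset.sum_add_distrib]

lemma ground {W : Config3 → ℝ} (hW : SymW W)
    (hi : ∀ χ, H1 χ → Integrable fun p => W (cfg p) * χ p ^ 2) {ψ : E9 → ℝ}
    (h : GS (fun p => W (cfg p)) ψ) : IsGroundState W (wave ψ) := by
  obtain ⟨a1, a2⟩ := wave_adm hW h.h1 h.anti (hi _ h.h1)
  refine ⟨a1, by rw [wave_norm h.h1.l2, h.norm, ENNReal.ofReal_one], fun Φ hΦ hn => ?_⟩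
  obtain ⟨c, c1, c2, c3, -⟩ := comps hW hi hΦ hn
  rw [a2, c3, ← mul_one (Q _ ψ), ← c2, Finset.mul_sum]
  exact Finset.sum_le_sum fun j _ => h.min _ (c1 j).1 (c1 j).2

lemma sym_one (v : E → ℝ) : SymW (oneBodyPotential v) := fun σ x =>
  Equiv.sum_comp σ fun i => v (elPos i x)

lemma one_cfg (v : E → ℝ) (p : E9) : oneBodyPotential v (cfg p) = V3 v p := by
  unfold oneBodyPotential V3
  rw [Fin.sum_univ_three, elPos_cfg0, elPos_cfg1, elPos_cfg2]

lemma ens {ψ : E9 → ℝ} (h : H1 ψ) (ha : Anti ψ) (hr : HasEnsembleRep (wave ψ)) :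
    ∃ v, Cls v ∧ Ens v (dens ψ) := by
  obtain ⟨v, hv, p, Φ, hp, hg, hd⟩ := hr
  have hv' : Cls v := hv
  have e : (fun p => oneBodyPotential v (cfg p)) = V3 v := funext (one_cfg v)
  have hi : ∀ χ, H1 χ → Integrable fun p => oneBodyPotential v (cfg p) * χ p ^ 2 := fun χ hχ => by
    simp only [one_cfg]
    exact int_V3 hv' hχ
  choose c c1 c2 c3 c4 using fun k => comps (sym_one v) hi (hg k).1 (hg k).2.1
  refine ⟨v, hv', p, c, hp, c1, c2, fun k χ h1 h2 h3 => ?_, fun A hA => ?_⟩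
  · obtain ⟨a1, a2⟩ := wave_adm (sym_one v) h1 h2 (hi _ h1)
    have := (hg k).2.2 _ a1 (by rw [wave_norm h1.l2, h3, ENNReal.ofReal_one])
    rwa [a2, c3, e] at this
  · rw [← wave_dens h.l2 ha hA, hd A hA]
    simp only [c4 _ A hA]

lemma coul_eq (Z : ℕ) (R₁ R₂ : E) (x : Config3) : coulombPotential Z R₁ R₂ x =
    (∑ i : Fin 3, (-(Z : ℝ) / ‖elPos i x - R₁‖ - (Z : ℝ) / ‖elPos i x - R₂‖)) +
      (1 / ‖elPos 0 x - elPos 1 x‖ + 1 / ‖elPos 0 x - elPos 2 x‖ + 1 / ‖elPos 1 x - elPos 2 x‖) := by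
  unfold coulombPotential
  congr 1
  simp [Fin.sum_univ_three]

lemma sym_coul (Z : ℕ) (R₁ R₂ : E) : SymW (coulombPotential Z R₁ R₂) := by
  intro σ x
  rw [coul_eq, coul_eq]
  congr 1
  · exact Equiv.sum_comp σ fun i => -(Z : ℝ) / ‖elPos i x - R₁‖ - (Z : ℝ) / ‖elPos i x - R₂‖
  · simp only [elPos_perm]
    have key : ∀ f : Fin 3 → Fin 3 → ℝ, (∀ i j, f i j = f j i) →
        f (σ 0) (σ 1) + f (σ 0) (σ 2) + f (σ 1) (σ 2) = f 0 1 + f 0 2 + f 1 2 := by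
      intro f hf
      have h01 : σ 0 ≠ σ 1 := σ.injective.ne (by decide)
      have h02 : σ 0 ≠ σ 2 := σ.injective.ne (by decide)
      have h12 : σ 1 ≠ σ 2 := σ.injective.ne (by decide)
      generalize σ 0 = a at *
      generalize σ 1 = b at *
      generalize σ 2 = c at *
      have e1 := hf 0 1
      have e2 := hf 0 2
      have e3 := hf 1 2
      have e4 : ∀ i : Fin 3, i = 0 ∨ i = 1 ∨ i = 2 := by decide
      rcases e4 a with rfl | rfl | rfl <;> rcases e4 b with rfl | rfl | rfl <;>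
        rcases e4 c with rfl | rfl | rfl <;> first | contradiction | linarith
    exact key (fun i j => 1 / ‖elPos i x - elPos j x‖) fun i j => by rw [norm_sub_rev]

lemma nrm (t : ℝ) (ht : 0 < t) (a b : E) : ‖t • a - b‖ = t * ‖a - t⁻¹ • b‖ := by
  have : t • a - b = t • (a - t⁻¹ • b) := by
    rw [smul_sub, smul_smul, mul_inv_cancel₀ ht.ne', one_smul]
  rw [this, norm_smul, Real.norm_eq_abs, abs_of_pos ht]

lemma coul_cfg {Z : ℕ} (hZ : 0 < (Z : ℝ)) (d : ℝ) (p : E9) :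
    coulombPotential Z (EuclideanSpace.single 2 (d / Z)) (EuclideanSpace.single 2 (-(d / Z))) (cfg p) =
      (Z : ℝ) ^ 2 * U3 d (1 / Z) ((Z : ℝ) • p) := by
  have e1 : (EuclideanSpace.single 2 (d / Z) : E) = (Z : ℝ)⁻¹ • d • ez := by
    ext i
    by_cases h : i = 2 <;> simp [ez, h, div_eq_inv_mul]
  have e2 : (EuclideanSpace.single 2 (-(d / Z)) : E) = (Z : ℝ)⁻¹ • (-(d • ez)) := by
    ext i
    by_cases h : i = 2 <;> simp [ez, h, div_eq_inv_mul]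
  have v : ∀ x : E, (Z : ℝ) ^ 2 * vx d ((Z : ℝ) • x) =
      -(Z : ℝ) / ‖x - (Z : ℝ)⁻¹ • d • ez‖ - (Z : ℝ) / ‖x - (Z : ℝ)⁻¹ • (-(d • ez))‖ := by
    intro x
    unfold vx
    rw [← sub_neg_eq_add, nrm _ hZ, nrm _ hZ]
    simp only [div_eq_mul_inv, mul_inv]
    field_simp
  have w : ∀ x y : E, ‖(Z : ℝ) • x - (Z : ℝ) • y‖ = Z * ‖x - y‖ := fun x y => by
    rw [← smul_sub, norm_smul, Real.norm_eq_abs, abs_of_pos hZ]
  rw [coul_eq, Fin.sum_univ_three, elPos_cfg0, elPos_cfg1, elPos_cfg2, e1, e2, ← v, ← v, ← v]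
  unfold U3 U2 Wx
  simp only [WithLp.smul_fst, WithLp.smul_snd, w, div_eq_mul_inv, mul_inv]
  field_simp
  ring

end BMain

open Crest.MathPhysics.ThreeBody in
theorem B_main (h : Core) :
    ∃ D₀ : ℝ, ∀ D : ℝ, D₀ ≤ D → ∃ Z₀ : ℕ, ∀ Z : ℕ, Z₀ ≤ Z →
      ∃ Ψ : Wave3, IsGroundState (coulombPotential Z (EuclideanSpace.single 2 (D / Z))
          (EuclideanSpace.single 2 (-(D / Z)))) Ψ ∧ ¬ HasEnsembleRep Ψ := by
  obtain ⟨d0, h⟩ := h
  refine ⟨d0, fun d hd => ?_⟩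
  obtain ⟨l0, hl0, h⟩ := h d hd
  obtain ⟨N, hN⟩ := exists_nat_gt (1 / l0)
  refine ⟨N, fun Z hZ => ?_⟩
  have hZ' : (N : ℝ) ≤ Z := by exact_mod_cast hZ
  have h1 : 1 / l0 < Z := hN.trans_le hZ'
  have Z0 : (0 : ℝ) < Z := lt_trans (by positivity) h1
  obtain ⟨ψ, hψ, hno⟩ := h (1 / Z) (by positivity) (by
    rw [div_lt_iff₀ hl0] at h1
    rw [div_le_iff₀ Z0]
    linarith)
  have g := hψ.scale Z0
  refine ⟨wave (sc Z ψ), BMain.ground (BMain.sym_coul _ _ _) (fun χ hχ => int_coul _ _ _ hχ) ?_,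
    fun hr => ?_⟩
  · simpa only [BMain.coul_cfg Z0] using g
  · obtain ⟨v, hv, he⟩ := BMain.ens g.h1 g.anti hr
    have t0 : (0 : ℝ) < (Z : ℝ)⁻¹ := inv_pos.2 Z0
    refine hno _ (hv.scale t0) ?_
    have := he.scale t0
    have e : (fun x => (Z : ℝ)⁻¹ ^ 3 * dens (sc Z ψ) ((Z : ℝ)⁻¹ • x)) = dens ψ := by
      funext x
      rw [dens_sc ψ Z0, smul_smul, mul_inv_cancel₀ Z0.ne', one_smul]
      field_simp
    rwa [e] at this

end

end Crest.Agent.R335
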