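import Crest.Agent.R335.S11Aux1

set_option autoImplicit false

open MeasureTheory Set Filter Topology Metric
open scoped Gradient ContDiff RealInnerProductSpace ENNReal

namespace Crest.Agent.R335

noncomputable section

variable {V : Type*} [NormedAddCommGroup V] [InnerProductSpace ℝ V] [FiniteDimensional ℝ V]
  [MeasurableSpace V] [BorelSpace V]

/-! existence of minimisers without compactness -/
/-- a minimising sequence is Cauchy for the coercive form `Q - m + K Σ ip²` (parallelogram law) -/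
theorem exists_min {P : (V → ℝ) → Prop} {U : V → ℝ} {k : ℕ} {b : Fin k → V → ℝ} {K C m : ℝ}
    (hP : ∀ u, P u → H1 u)
    (hlin : ∀ u w (s t : ℝ), P u → P w → P fun x => s * u x + t * w x)
    (hcl : ∀ (u : V → ℝ) (w : ℕ → V → ℝ), H1 u → (∀ n, P (w n)) →
      Tendsto (fun n => nsq fun x => u x - w n x) atTop (𝓝 0) → ∃ u', P u' ∧ ∀ᵐ x, u' x = u x)
    (hU : ∀ u, H1 u → MemLp (fun x => U x * u x) 2 volume ∧
      nsq (fun x => U x * u x) ≤ C * (dir u + nsq u))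
    (hb : ∀ i, MemLp (b i) 2 volume) (hK : 0 ≤ K) (hC : 0 ≤ C)
    (h1 : ∀ u, P u → m * nsq u - K * ∑ i, ip (b i) u ^ 2 ≤ Q U u)
    (h0 : ∃ u, P u ∧ Q U u < m * nsq u) :
    ∃ ψ, P ψ ∧ nsq ψ = 1 ∧ Q U ψ < m ∧ (∀ u, P u → Q U ψ * nsq u ≤ Q U u) ∧
      ∀ χ, P χ → ∫ x, (1 / 2) * ⟪D ψ x, D χ x⟫ = ∫ x, (Q U ψ - U x) * ψ x * χ x := by
  have hQ : ∀ u w (s t : ℝ), P u → P w → Q U (fun x => s * u x + t * w x) =
      s ^ 2 * Q U u + 2 * s * t * S11_B U u w + t ^ 2 * Q U w := fun u w s t hu hw =>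
    S11_Q_lc (hP u hu) (hP w hw) (hU u (hP u hu)).1 (hU w (hP w hw)).1 s t
  have hN : ∀ u w (s t : ℝ), P u → P w → nsq (fun x => s * u x + t * w x) =
      s ^ 2 * nsq u + 2 * s * t * ip u w + t ^ 2 * nsq w := fun u w s t hu hw =>
    S11_nsq_lc (hP u hu).l2 (hP w hw).l2 s t
  obtain ⟨c, hc, hlo⟩ : ∃ c : ℝ, 0 ≤ c ∧ ∀ u, H1 u →
      dir u / 4 - c * nsq u ≤ Q U u ∧ Q U u ≤ dir u + c * nsq u := by
    refine ⟨1 / 4 + C / (4 * (1 / 4)), by positivity, fun u hu => ?_⟩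
    have h := abs_le.1 (S11_Q_lower hC hU (ε := 1 / 4) (by norm_num) hu)
    have := S11_dir_nonneg u
    unfold Q
    constructor <;> linarith [h.1, h.2]
  have hnorm : ∀ u, P u → 0 < nsq u → ∃ w, P w ∧ nsq w = 1 ∧ Q U w * nsq u = Q U u := by
    intro u hu h
    have h2 : (√(nsq u))⁻¹ ^ 2 * nsq u = 1 := by
      rw [inv_pow, Real.sq_sqrt h.le, inv_mul_cancel₀ h.ne']
    refine ⟨_, hlin u u (√(nsq u))⁻¹ 0 hu hu, ?_, ?_⟩
    · rw [hN u u _ _ hu hu]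
      linarith
    · rw [hQ u u _ _ hu hu]
      linear_combination Q U u * h2
  have hpos : ∀ u, P u → nsq u = 0 → 0 ≤ Q U u := fun u hu h => by
    have h2 := (hlo u (hP u hu)).1
    rw [h] at h2
    linarith [S11_dir_nonneg u]
  obtain ⟨u₀, hu₀, hu₀1, hu₀m⟩ : ∃ u, P u ∧ nsq u = 1 ∧ Q U u < m := by
    obtain ⟨u, hu, h⟩ := h0
    have h2 : 0 < nsq u := (S11_nsq_nonneg u).lt_of_ne' fun h2 => by
      have := hpos u hu h2
      rw [h2] at h
      linarith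
    obtain ⟨w, hw, hw1, hw2⟩ := hnorm u hu h2
    exact ⟨w, hw, hw1, lt_of_mul_lt_mul_right (hw2.trans_lt h) h2.le⟩
  have hne : ({a | ∃ u, P u ∧ nsq u = 1 ∧ Q U u = a} : Set ℝ).Nonempty := ⟨_, u₀, hu₀, hu₀1, rfl⟩
  have hbd : BddBelow ({a | ∃ u, P u ∧ nsq u = 1 ∧ Q U u = a} : Set ℝ) := by
    refine ⟨-c, ?_⟩
    rintro _ ⟨u, hu, hu1, rfl⟩
    have h2 := (hlo u (hP u hu)).1
    rw [hu1] at h2
    linarith [S11_dir_nonneg u]
  obtain ⟨m₀, hm₀⟩ : ∃ m₀, IsGLB ({a | ∃ u, P u ∧ nsq u = 1 ∧ Q U u = a} : Set ℝ) m₀ :=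
    ⟨_, isGLB_csInf hne hbd⟩
  have hm : m₀ < m := (hm₀.1 ⟨u₀, hu₀, hu₀1, rfl⟩).trans_lt hu₀m
  have hq : ∀ u, P u → m₀ * nsq u ≤ Q U u := fun u hu => by
    rcases (S11_nsq_nonneg u).eq_or_lt with h | h
    · rw [← h, mul_zero]
      exact hpos u hu h.symm
    · obtain ⟨w, hw, hw1, hw2⟩ := hnorm u hu h
      rw [← hw2]
      exact mul_le_mul_of_nonneg_right (hm₀.1 ⟨w, hw, hw1, rfl⟩) h.le
  -- parallelogram inequality
  have hpar : ∀ u w (t : ℝ), t ^ 2 = 1 → P u → P w →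
      Q U (fun x => 1 * u x + t * w x) - m₀ * nsq (fun x => 1 * u x + t * w x) ≤
        2 * (Q U u - m₀ * nsq u) + 2 * (Q U w - m₀ * nsq w) := fun u w t ht hu hw => by
    have h := hq _ (hlin u w 1 (-t) hu hw)
    rw [hQ u w _ _ hu hw, hN u w _ _ hu hw] at h ⊢
    rw [neg_sq, ht] at h
    rw [ht]
    linarith
  obtain ⟨Λ, hΛ, hco⟩ : ∃ Λ : ℝ, 0 < Λ ∧ ∀ u, P u →
      nsq u + dir u ≤ Λ * (Q U u - m₀ * nsq u + K * ∑ i, ip (b i) u ^ 2) := by
    have hmm : 0 < m - m₀ := sub_pos.2 hm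
    refine ⟨4 + (1 + 4 * (c + |m₀|)) / (m - m₀), by positivity, fun u hu => ?_⟩
    obtain ⟨G, hG⟩ : ∃ G, G = Q U u - m₀ * nsq u + K * ∑ i, ip (b i) u ^ 2 := ⟨_, rfl⟩
    have h2 : nsq u ≤ G / (m - m₀) := by
      rw [le_div_iff₀ hmm]
      linarith [h1 u hu]
    have h3 : 0 ≤ K * ∑ i, ip (b i) u ^ 2 :=
      mul_nonneg hK (Finset.sum_nonneg fun i _ => sq_nonneg _)
    have h4 := (hlo u (hP u hu)).1
    have h5 := mul_le_mul_of_nonneg_right (le_abs_self m₀) (S11_nsq_nonneg u)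
    have h6 := mul_le_mul_of_nonneg_left h2 (by positivity : 0 ≤ 1 + 4 * (c + |m₀|))
    rw [← hG]
    have h7 : (4 + (1 + 4 * (c + |m₀|)) / (m - m₀)) * G =
        4 * G + (1 + 4 * (c + |m₀|)) * (G / (m - m₀)) := by ring
    rw [h7]
    linarith
  -- a minimising sequence
  obtain ⟨a, -, -, ha1, ha2⟩ := hm₀.exists_seq_antitone_tendsto hne
  choose v hv1 hv2 hv3 using ha2
  have hbdd : Bornology.IsBounded (Set.pi univ fun i : Fin k =>
      Icc (-√(nsq (b i))) (√(nsq (b i)))) := Bornology.IsBounded.pi fun i => isBounded_Icc _ _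
  obtain ⟨l, -, φ, hφ, hl⟩ := tendsto_subseq_of_bounded hbdd
    (x := fun n i => ip (b i) (v n)) fun n i _ => by
      have h := S11_cs (hb i) (hP _ (hv1 n)).l2
      rw [hv2, mul_one] at h
      exact abs_le.1 (Real.abs_le_sqrt h)
  have hw3 : Tendsto (fun n => Q U (v (φ n)) - m₀ * nsq (v (φ n))) atTop (𝓝 0) := by
    have h := (ha1.comp hφ.tendsto_atTop).sub_const m₀
    rw [sub_self] at h
    refine h.congr fun n => ?_
    rw [hv2, hv3, mul_one]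
    rfl
  have hw4 : Tendsto (fun n => ∑ i, (ip (b i) (v (φ n)) - l i) ^ 2) atTop (𝓝 0) := by
    have h := tendsto_finsetSum Finset.univ fun i _ =>
      ((tendsto_pi_nhds.1 hl i).sub_const (l i)).pow 2
    simpa using h
  have hw5 : Tendsto (fun n => Λ * (2 * (Q U (v (φ n)) - m₀ * nsq (v (φ n))) +
      2 * K * ∑ i, (ip (b i) (v (φ n)) - l i) ^ 2)) atTop (𝓝 0) := by
    have h := ((hw3.const_mul 2).add (hw4.const_mul (2 * K))).const_mul Λ
    simpa only [mul_zero, add_zero] using h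
  have hsub : ∀ u w : V → ℝ, (fun x => u x - w x) = fun x => 1 * u x + -1 * w x := fun u w =>
    funext fun x => by ring
  obtain ⟨u, hu, hlim⟩ := h1_of_cauchy (w := fun n => v (φ n)) (fun n => hP _ (hv1 _))
    fun ε hε => by
      obtain ⟨N, hN⟩ := eventually_atTop.1 (hw5.eventually (ge_mem_nhds (half_pos hε)))
      refine ⟨N, fun n hn n' hn' => ?_⟩
      rw [hsub]
      refine (hco _ (hlin _ _ _ _ (hv1 _) (hv1 _))).trans ?_
      have h2 := hpar _ _ (-1) (by norm_num) (hv1 (φ n)) (hv1 (φ n'))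
      have h3 : ∑ i, ip (b i) (fun x => 1 * v (φ n) x + -1 * v (φ n') x) ^ 2 ≤
          2 * ∑ i, (ip (b i) (v (φ n)) - l i) ^ 2 + 2 * ∑ i, (ip (b i) (v (φ n')) - l i) ^ 2 := by
        rw [Finset.mul_sum, Finset.mul_sum, ← Finset.sum_add_distrib]
        refine Finset.sum_le_sum fun i _ => ?_
        rw [S11_ip_lc (hb i) (hP _ (hv1 _)).l2 (hP _ (hv1 _)).l2]
        nlinarith [sq_nonneg (ip (b i) (v (φ n)) + ip (b i) (v (φ n')) - 2 * l i)]
      have h4 := mul_le_mul_of_nonneg_left (add_le_add h2 (mul_le_mul_of_nonneg_left h3 hK)) hΛ.le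
      have h5 := hN n hn
      have h6 := hN n' hn'
      linarith
  have hlim1 : Tendsto (fun n => nsq fun x => u x - v (φ n) x) atTop (𝓝 0) :=
    squeeze_zero (fun n => S11_nsq_nonneg _)
      (fun n => le_add_of_nonneg_right (S11_dir_nonneg _)) hlim
  obtain ⟨u', hu', he⟩ := hcl u _ hu (fun n => hv1 (φ n)) hlim1
  have he' : ∀ n, ∀ᵐ x, u x - v (φ n) x = 1 * u' x + -1 * v (φ n) x := fun n =>
    he.mono fun x hx => by rw [hx]; ring
  have hu'q : Q U u' - m₀ * nsq u' ≤ 0 := by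
    have h := (hw3.const_mul 2).add (hlim.const_mul (2 * (1 + c + |m₀|)))
    rw [mul_zero, mul_zero, add_zero] at h
    refine ge_of_tendsto' h fun n => ?_
    have h2 := hlin _ _ 1 (-1) hu' (hv1 (φ n))
    have h3 := hpar _ _ 1 (by norm_num) (hv1 (φ n)) h2
    rw [show (fun x => 1 * v (φ n) x + 1 * (1 * u' x + -1 * v (φ n) x)) = u' from
      funext fun x => by ring] at h3
    rw [S11_nsq_congr (he' n), S11_dir_congr (he' n)]
    have h4 := (hlo _ (hP _ h2)).2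
    have h5 := S11_nsq_nonneg fun x => 1 * u' x + -1 * v (φ n) x
    have h6 := S11_dir_nonneg fun x => 1 * u' x + -1 * v (φ n) x
    have h7 := mul_le_mul_of_nonneg_right (neg_abs_le m₀) h5
    have h8 := mul_nonneg (add_nonneg hc (abs_nonneg m₀)) h6
    linarith
  have hu'n : 0 < nsq u' := by
    have h := (hlim1.const_mul 2).const_add (2 * nsq u')
    rw [mul_zero, add_zero] at h
    have h9 : 1 ≤ 2 * nsq u' := by
      refine ge_of_tendsto' h fun n => ?_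
      have h2 := hlin _ _ 1 (-1) hu' (hv1 (φ n))
      have h3 := hN _ _ 1 (-1) hu' h2
      have h4 := hN _ _ 1 1 hu' h2
      rw [show (fun x => 1 * u' x + -1 * (1 * u' x + -1 * v (φ n) x)) = v (φ n) from
        funext fun x => by ring, hv2] at h3
      rw [S11_nsq_congr (he' n)]
      have h5 := S11_nsq_nonneg fun x => 1 * u' x + 1 * (1 * u' x + -1 * v (φ n) x)
      linarith
    linarith
  obtain ⟨ψ, hψ, hψ1, hψ2⟩ := hnorm u' hu' hu'n
  have hψ3 : Q U ψ = m₀ := le_antisymm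
    (le_of_mul_le_mul_right (by linarith) hu'n) (hm₀.1 ⟨ψ, hψ, hψ1, rfl⟩)
  refine ⟨ψ, hψ, hψ1, hψ3 ▸ hm, hψ3 ▸ hq, fun χ hχ => ?_⟩
  have hd := discrim_le_zero (a := Q U χ - m₀ * nsq χ) (b := 2 * (S11_B U ψ χ - m₀ * ip ψ χ))
    (c := 0) fun t => by
      have h := hq _ (hlin ψ χ 1 t hψ hχ)
      rw [hQ _ _ _ _ hψ hχ, hN _ _ _ _ hψ hχ, hψ1, hψ3] at h
      linarith
  have hd' : S11_B U ψ χ = m₀ * ip ψ χ := by
    rw [discrim, mul_zero, sub_zero] at hd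
    have := pow_eq_zero_iff (two_ne_zero) |>.1 (le_antisymm hd (sq_nonneg _))
    linarith
  have h2 : ∫ x, (Q U ψ - U x) * ψ x * χ x = m₀ * ip ψ χ - ∫ x, U x * ψ x * χ x := by
    unfold ip
    rw [hψ3, ← integral_const_mul, ← integral_sub ((S11_int_mul (hP ψ hψ).l2
      (hP χ hχ).l2).const_mul m₀) (S11_int_mul (hU ψ (hP ψ hψ)).1 (hP χ hχ).l2)]
    exact integral_congr_ae (Eventually.of_forall fun x => by ring)
  rw [h2, integral_const_mul, ← hd', S11_B]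
  ring
/-- a potential that is operator-bounded by `‖·‖_{H¹}` is form-small -/
theorem Q_lower {U : V → ℝ} {C : ℝ} (hC : 0 ≤ C) (hU : ∀ u, H1 u → MemLp (fun x => U x * u x) 2 volume ∧
      nsq (fun x => U x * u x) ≤ C * (dir u + nsq u)) {ε : ℝ} (hε : 0 < ε) {u : V → ℝ} (h : H1 u) :
    |∫ x, U x * u x ^ 2| ≤ ε * dir u + (ε + C / (4 * ε)) * nsq u :=
  S11_Q_lower hC hU hε h
theorem exists_cauchy_of_convex {H : Type*} [NormedAddCommGroup H] [InnerProductSpace ℝ H]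
    {S : ℕ → Set H} {M : ℝ} (hc : ∀ n, Convex ℝ (S n)) (hne : ∀ n, (S n).Nonempty)
    (hm : Antitone S) (hb : ∀ n, ∀ x ∈ S n, ‖x‖ ≤ M) :
    ∃ s : ℕ → H, (∀ n, s n ∈ S n) ∧ CauchySeq s := by
  have hbb : ∀ n, BddBelow ((fun x : H => ‖x‖ ^ 2) '' S n) := fun n =>
    ⟨0, by rintro _ ⟨x, -, rfl⟩; positivity⟩
  obtain ⟨d, hd⟩ : ∃ d : ℕ → ℝ, ∀ n, IsGLB ((fun x : H => ‖x‖ ^ 2) '' S n) (d n) :=
    ⟨_, fun n => isGLB_csInf ((hne n).image _) (hbb n)⟩
  have hdm : Monotone d := fun n n' h => (hd n').2 fun y hy => (hd n).1 (image_mono (hm h) hy)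
  have hdb : BddAbove (range d) := by
    refine ⟨M ^ 2, ?_⟩
    rintro _ ⟨n, rfl⟩
    obtain ⟨x, hx⟩ := hne n
    exact ((hd n).1 ⟨x, hx, rfl⟩).trans (pow_le_pow_left₀ (norm_nonneg _) (hb n x hx) 2)
  have hs : ∀ n : ℕ, ∃ x ∈ S n, ‖x‖ ^ 2 < d n + 1 / ((n : ℝ) + 1) := fun n => by
    obtain ⟨_, ⟨x, hx, rfl⟩, -, h⟩ := (hd n).exists_between
      (lt_add_of_pos_right _ (Nat.one_div_pos_of_nat (n := n)))
    exact ⟨x, hx, h⟩
  choose s hs1 hs2 using hs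
  refine ⟨s, hs1, cauchySeq_of_le_tendsto_0
    (fun N => √(4 * ((⨆ n, d n) - d N) + 4 * (1 / ((N : ℝ) + 1)))) (fun n n' N hn hn' => ?_) ?_⟩
  · refine Real.le_sqrt_of_sq_le ?_
    have h1 := (hd N).1 ⟨_, hc N (hm hn (hs1 n)) (hm hn' (hs1 n')) (a := 1 / 2) (b := 1 / 2)
      (by norm_num) (by norm_num) (by norm_num), rfl⟩
    have h2 := parallelogram_law_with_norm ℝ (s n) (s n')
    have h3 := le_ciSup hdb n
    have h4 := le_ciSup hdb n'
    have h5 := Nat.one_div_le_one_div (α := ℝ) hn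
    have h6 := Nat.one_div_le_one_div (α := ℝ) hn'
    have h7 := hs2 n
    have h8 := hs2 n'
    simp only [← smul_add, norm_smul, mul_pow, Real.norm_eq_abs, sq_abs] at h1
    rw [dist_eq_norm]
    nlinarith
  · have h1 := ((tendsto_atTop_ciSup hdm hdb).const_sub (⨆ n, d n)).const_mul 4
    have h2 := (h1.add ((tendsto_one_div_add_atTop_nhds_zero_nat (𝕜 := ℝ)).const_mul 4)).sqrt
    simpa only [sub_self, mul_zero, add_zero, Real.sqrt_zero] using h2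
/-- localisation formula -/
theorem Sol.loc {p A a : V → ℝ} (h : Sol p A) (ha : Hl a) (hb : Bd a) (hg : Bd fun x => ‖D a x‖) :
    H1 (fun x => a x * p x) ∧ (1 / 2) * dir (fun x => a x * p x) =
      (∫ x, A x * a x ^ 2 * p x) + (1 / 2) * ∫ x, ‖D a x‖ ^ 2 * p x ^ 2 := by
  obtain ⟨h1, h2⟩ := h.h1.mul_lip ha hb hg
  obtain ⟨h3, h4⟩ := h1.mul_lip ha hb hg
  refine ⟨h1, ?_⟩
  have h5 : ∫ x, A x * a x ^ 2 * p x = ∫ x, A x * (a x * (a x * p x)) :=
    integral_congr_ae (Eventually.of_forall fun x => by ring)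
  rw [h5, ← h.eq _ h3, dir, ← integral_const_mul, ← integral_const_mul, ← integral_add
    ((S11_int_inner h.h1.dl2 h3.dl2).const_mul _) ((S11_int_bd ha hg h.h1.l2).const_mul _)]
  refine integral_congr_ae ?_
  filter_upwards [h2, h4] with x e1 e2
  rw [e2, e1, norm_add_sq_real]
  simp only [norm_smul, real_inner_smul_left, real_inner_smul_right, inner_add_right, mul_pow,
    Real.norm_eq_abs, sq_abs, real_inner_self_eq_norm_sq]
  ring
/-- IMS formula -/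
theorem ims {u a b : V → ℝ} (h : H1 u) (ha : Hl a) (ha1 : Bd a) (ha2 : Bd fun x => ‖D a x‖)
    (hb : Hl b) (hb1 : Bd b) (hb2 : Bd fun x => ‖D b x‖) (hab : ∀ᵐ x, a x ^ 2 + b x ^ 2 = 1) :
    dir u = dir (fun x => a x * u x) + dir (fun x => b x * u x) -
      ∫ x, (‖D a x‖ ^ 2 + ‖D b x‖ ^ 2) * u x ^ 2 := by
  obtain ⟨h1, h2⟩ := h.mul_lip ha ha1 ha2
  obtain ⟨h3, h4⟩ := h.mul_lip hb hb1 hb2
  obtain ⟨h5, h6⟩ := Bl.mul ⟨ha, ha1.lb⟩ ⟨ha, ha1.lb⟩
  obtain ⟨h7, h8⟩ := Bl.mul ⟨hb, hb1.lb⟩ ⟨hb, hb1.lb⟩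
  have h9 := D_congr (u := fun x => a x * a x + b x * b x) (w := fun _ => 1)
    (hab.mono fun x hx => by linarith)
  have h10 : Integrable (fun x => (‖D a x‖ ^ 2 + ‖D b x‖ ^ 2) * u x ^ 2) volume :=
    ((S11_int_bd ha ha2 h.l2).add (S11_int_bd hb hb2 h.l2)).congr
      (Eventually.of_forall fun x => by simp only [Pi.add_apply]; ring)
  unfold dir
  rw [← integral_add (S11_int_normsq h1.dl2) (S11_int_normsq h3.dl2), ← integral_sub
    (f := fun x => ‖D (fun x => a x * u x) x‖ ^ 2 + ‖D (fun x => b x * u x) x‖ ^ 2)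
    ((S11_int_normsq h1.dl2).add (S11_int_normsq h3.dl2)) h10]
  refine integral_congr_ae ?_
  filter_upwards [h2, h4, h6, h8, h9, D_add h5.hl h7.hl, D_const (V := V) 1, hab]
    with x e1 e2 e3 e4 e5 e6 e7 e8
  rw [e5, e7, e3, e4] at e6
  have e9 := congrArg (fun v => ⟪D u x, v⟫) e6
  simp only [inner_zero_right, inner_add_right, real_inner_smul_right] at e9
  rw [e1, e2, norm_add_sq_real, norm_add_sq_real]
  simp only [norm_smul, real_inner_smul_left, real_inner_smul_right, mul_pow,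
    Real.norm_eq_abs, sq_abs]
  linear_combination (-‖D u x‖ ^ 2) * e8 + u x * e9
/-- quadratic partition of unity adapted to a `1`-Lipschitz function `d` -/
theorem exists_ims {d : V → ℝ} (hd : ∀ x y, |d x - d y| ≤ ‖x - y‖) {r s : ℝ} (hs : 0 < s) :
    ∃ a b : V → ℝ, ∃ α : ℝ → ℝ, (∀ x, a x = Real.cos (α (d x)) ∧ b x = Real.sin (α (d x))) ∧
      Bl a ∧ Bl b ∧ (∀ x, 0 ≤ a x ∧ a x ≤ 1 ∧ 0 ≤ b x ∧ b x ≤ 1) ∧
      (∀ x, d x ≤ r → b x = 0) ∧ (∀ x, r + s ≤ d x → a x = 0) ∧ (∀ x, a x ^ 2 + b x ^ 2 = 1) ∧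
      ∀ᵐ x, ‖D a x‖ ^ 2 + ‖D b x‖ ^ 2 ≤ 3 / s ^ 2 := by
  obtain ⟨α, hα⟩ : ∃ α : ℝ → ℝ, ∀ t, α t = Real.pi / 2 * max 0 (min 1 ((t - r) / s)) :=
    ⟨_, fun _ => rfl⟩
  have hπ := Real.pi_pos
  have h0 : ∀ t, 0 ≤ α t ∧ α t ≤ Real.pi / 2 := fun t => by
    rw [hα]
    exact ⟨mul_nonneg (by positivity) (le_max_left _ _),
      mul_le_of_le_one_right (by positivity) (max_le zero_le_one (min_le_left _ _))⟩
  obtain ⟨g1, g2⟩ := lip_D_le' (u := fun x => α (d x)) (L := Real.pi / 2 / s)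
      (by positivity) fun x y => by
    rw [hα, hα, ← mul_sub, abs_mul, abs_of_pos (half_pos hπ), div_mul_eq_mul_div _ s,
      mul_div_assoc]
    refine mul_le_mul_of_nonneg_left ?_ (half_pos hπ).le
    rw [max_comm 0, max_comm 0]
    refine (abs_max_sub_max_le_abs _ _ _).trans ((abs_min_sub_min_le_max _ _ _ _).trans ?_)
    rw [sub_self, abs_zero, ← sub_div, abs_div, abs_of_pos hs, sub_sub_sub_cancel_right]
    exact max_le (by positivity) (div_le_div_of_nonneg_right (hd x y) hs.le)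
  obtain ⟨c1, c2⟩ := g1.comp (β := Real.cos) Real.contDiff_cos
  obtain ⟨s1, s2⟩ := g1.comp (β := Real.sin) Real.contDiff_sin
  refine ⟨_, _, α, fun x => ⟨rfl, rfl⟩, c1, s1, fun x => ⟨?_, Real.cos_le_one _, ?_,
    Real.sin_le_one _⟩, fun x hx => ?_, fun x hx => ?_, fun x => Real.cos_sq_add_sin_sq _, ?_⟩
  · exact Real.cos_nonneg_of_mem_Icc ⟨by linarith [(h0 (d x)).1], (h0 _).2⟩
  · exact Real.sin_nonneg_of_nonneg_of_le_pi (h0 _).1 (by linarith [(h0 (d x)).2])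
  · rw [hα, max_eq_left ((min_le_right _ _).trans
      (div_nonpos_of_nonpos_of_nonneg (sub_nonpos.2 hx) hs.le)), mul_zero, Real.sin_zero]
  · rw [hα, min_eq_left ((one_le_div hs).2 (by linarith)), max_eq_right zero_le_one, mul_one,
      Real.cos_pi_div_two]
  · filter_upwards [g2, c2, s2] with x e1 e2 e3
    rw [e2, e3, norm_smul, norm_smul, mul_pow, mul_pow, Real.norm_eq_abs, Real.norm_eq_abs, sq_abs,
      sq_abs, Real.deriv_cos, Real.deriv_sin, neg_sq, ← add_mul, Real.sin_sq_add_cos_sq, one_mul]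
    refine (pow_le_pow_left₀ (norm_nonneg _) e1 2).trans ?_
    rw [div_pow]
    refine div_le_div_of_nonneg_right ?_ (by positivity)
    nlinarith [Real.pi_lt_d2]

end

end Crest.Agent.R335
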