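import Crest.Agent.R335.S12Aux1

set_option autoImplicit false
set_option linter.unusedSectionVars false

open MeasureTheory Set Filter Topology Metric
open scoped Gradient ContDiff RealInnerProductSpace ENNReal

namespace Crest.Agent.R335

noncomputable section

variable {V : Type*} [NormedAddCommGroup V] [InnerProductSpace ℝ V] [FiniteDimensional ℝ V]
  [MeasurableSpace V] [BorelSpace V]

/-! calculus of weak subsolutions -/
theorem WSub.add {w p q S T : V → ℝ} {Ω : Set V} (hw : AEStronglyMeasurable w volume) (hw1 : LB w)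
    (a : WSub w Ω p S) (b : WSub w Ω q T) :
    WSub w Ω (fun x => p x + q x) (fun x => S x + T x) := by
  refine ⟨a.hl.add b.hl, fun K hK hKΩ => (a.li K hK hKΩ).add (b.li K hK hKΩ), fun χ h h0 => ?_⟩
  have e1 : ∫ x, (1 / 2) * w x * ⟪D (fun x => p x + q x) x, D χ x⟫ =
      (∫ x, (1 / 2) * w x * ⟪D p x, D χ x⟫) + ∫ x, (1 / 2) * w x * ⟪D q x, D χ x⟫ := by
    rw [← integral_add (S12_int_lhs hw hw1 a.hl h) (S12_int_lhs hw hw1 b.hl h)]
    refine integral_congr_ae ?_
    filter_upwards [D_add a.hl b.hl] with x hx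
    rw [hx, inner_add_left, mul_add]
  have e2 : ∫ x, (S x + T x) * χ x = (∫ x, S x * χ x) + ∫ x, T x * χ x := by
    rw [← integral_add (S12_int_rhs a.li h) (S12_int_rhs b.li h)]
    exact integral_congr_ae (Eventually.of_forall fun x => add_mul _ _ _)
  rw [e1, e2]
  exact add_le_add (a.le χ h h0) (b.le χ h h0)
theorem WSub.smul {w p S : V → ℝ} {Ω : Set V} (a : WSub w Ω p S) {c : ℝ} (hc : 0 ≤ c) :
    WSub w Ω (fun x => c * p x) (fun x => c * S x) := by
  refine ⟨a.hl.smul c, fun K hK hKΩ => (a.li K hK hKΩ).const_mul c, fun χ h h0 => ?_⟩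
  have e1 : ∫ x, (1 / 2) * w x * ⟪D (fun x => c * p x) x, D χ x⟫ =
      c * ∫ x, (1 / 2) * w x * ⟪D p x, D χ x⟫ := by
    rw [← integral_const_mul]
    refine integral_congr_ae ?_
    filter_upwards [D_smul c a.hl] with x hx
    rw [hx, real_inner_smul_left]
    ring
  have e2 : ∫ x, (c * S x) * χ x = c * ∫ x, S x * χ x := by
    rw [← integral_const_mul]
    exact integral_congr_ae (Eventually.of_forall fun x => mul_assoc _ _ _)
  rw [e1, e2]
  exact mul_le_mul_of_nonneg_left (a.le χ h h0) hc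
theorem WSub.mono {w p S T : V → ℝ} {Ω Ω' : Set V} (a : WSub w Ω p S) (h : Ω' ⊆ Ω)
    (hT : ∀ K, IsCompact K → K ⊆ Ω' → IntegrableOn T K volume) (hle : ∀ᵐ x, x ∈ Ω' → S x ≤ T x) :
    WSub w Ω' p T := by
  refine ⟨a.hl, hT, fun χ hχ h0 => (a.le χ (hχ.mono h) h0).trans ?_⟩
  refine integral_mono_ae (S12_int_rhs a.li (hχ.mono h)) (S12_int_rhs hT hχ) ?_
  obtain ⟨K, hK, hKΩ, hz⟩ := hχ.cs
  filter_upwards [hz, hle, h0] with x hz hle h0
  by_cases hx : x ∈ K
  · exact mul_le_mul_of_nonneg_right (hle (hKΩ hx)) h0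
  · rw [hz hx, mul_zero, mul_zero]
theorem WSub.congr {w p q S : V → ℝ} {Ω U : Set V} (a : WSub w Ω p S) (hq : Hl q) (hU : IsOpen U)
    (hΩ : Ω ⊆ U) (h : ∀ᵐ x, x ∈ U → q x = p x) : WSub w Ω q S := by
  refine ⟨hq, a.li, fun χ hχ h0 => le_trans (le_of_eq ?_) (a.le χ hχ h0)⟩
  obtain ⟨K, hK, hKΩ, -, hz⟩ := S12_supp hχ
  refine integral_congr_ae ?_
  filter_upwards [hz, D_eqOn hq a.hl hU h] with x hz he
  by_cases hx : x ∈ K
  · rw [he (hΩ (hKΩ hx))]
  · rw [hz hx, inner_zero_right, inner_zero_right]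
theorem Sol.sub {p A : V → ℝ} (h : Sol p A) : Sub univ p A := by
  refine ⟨h.h1.hl, fun K hK _ => S12_intOn hK (h.l2.restrict K), fun χ hχ _ => ?_⟩
  rw [← h.eq χ hχ.h1]
  simp only [mul_one]
  exact le_rfl
theorem Sol.neg {p A : V → ℝ} (h : Sol p A) : Sol (fun x => -p x) (fun x => -A x) := by
  have e : (fun x => -p x) = fun x => (-1 : ℝ) * p x := funext fun x => by ring
  refine ⟨by rw [e]; exact h.h1.smul _, h.l2.neg, fun χ hχ => ?_⟩
  have e1 : ∫ x, (1 / 2) * ⟪D (fun x => -p x) x, D χ x⟫ = -∫ x, (1 / 2) * ⟪D p x, D χ x⟫ := by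
    rw [← integral_neg]
    refine integral_congr_ae ?_
    filter_upwards [(S12_D_neg h.h1.hl).2] with x hx
    rw [hx, inner_neg_left, mul_neg]
  rw [e1, h.eq χ hχ, ← integral_neg]
  exact integral_congr_ae (Eventually.of_forall fun x => (neg_mul _ _).symm)
theorem Sol.lin {p A q B : V → ℝ} (h : Sol p A) (h' : Sol q B) (s t : ℝ) :
    Sol (fun x => s * p x + t * q x) (fun x => s * A x + t * B x) := by
  refine ⟨(h.h1.smul s).add (h'.h1.smul t), (h.l2.const_mul s).add (h'.l2.const_mul t),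
    fun χ hχ => ?_⟩
  have e1 : ∫ x, (1 / 2) * ⟪D (fun x => s * p x + t * q x) x, D χ x⟫ =
      s * (∫ x, (1 / 2) * ⟪D p x, D χ x⟫) + t * ∫ x, (1 / 2) * ⟪D q x, D χ x⟫ := by
    rw [← integral_const_mul, ← integral_const_mul,
      ← integral_add (((S12_inner h.h1.dl2 hχ.dl2).const_mul _).const_mul _)
        (((S12_inner h'.h1.dl2 hχ.dl2).const_mul _).const_mul _)]
    refine integral_congr_ae ?_
    filter_upwards [D_add (h.h1.hl.smul s) (h'.h1.hl.smul t), D_smul s h.h1.hl, D_smul t h'.h1.hl]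
      with x e1 e2 e3
    rw [e1, e2, e3, inner_add_left, real_inner_smul_left, real_inner_smul_left]
    ring
  have e2 : ∫ x, (s * A x + t * B x) * χ x = s * (∫ x, A x * χ x) + t * ∫ x, B x * χ x := by
    rw [← integral_const_mul, ← integral_const_mul,
      ← integral_add ((S12_mul h.l2 hχ.l2).const_mul _) ((S12_mul h'.l2 hχ.l2).const_mul _)]
    refine integral_congr_ae (Eventually.of_forall fun x => ?_)
    beta_reduce
    ring
  rw [e1, e2, h.eq χ hχ, h'.eq χ hχ]
theorem Sol.congr {p A q B : V → ℝ} (h : Sol p A) (h1 : ∀ᵐ x, q x = p x) (h2 : ∀ᵐ x, B x = A x) :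
    Sol q B := by
  have h2' : A =ᵐ[volume] B := by
    filter_upwards [h2] with x hx using hx.symm
  refine ⟨h.h1.congr h1, (memLp_congr_ae h2').1 h.l2, fun χ hχ => ?_⟩
  have e1 : ∫ x, (1 / 2) * ⟪D q x, D χ x⟫ = ∫ x, (1 / 2) * ⟪D p x, D χ x⟫ := by
    refine integral_congr_ae ?_
    filter_upwards [D_congr h1] with x hx
    rw [hx]
  rw [e1, h.eq χ hχ]
  refine integral_congr_ae ?_
  filter_upwards [h2] with x hx
  rw [hx]
theorem sub_c2 {q : V → ℝ} {U : Set V} (hq : Hl q) (hU : IsOpen U) (h : ContDiffOn ℝ 2 q U) :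
    Sub U q (fun x => -(1 / 2) * lap q x) ∧ Sub U (fun x => -q x) (fun x => (1 / 2) * lap q x) := by
  have hi : ∀ K, IsCompact K → K ⊆ U → IntegrableOn (lap q) K volume := fun K hK hKU =>
    ((S12_lap_cont hU h).mono hKU).integrableOn_compact hK
  have key : ∀ χ, TF U χ → ∫ x, ⟪D q x, D χ x⟫ = -∫ x, lap q x * χ x := fun χ hχ => by
    rw [← ibp_lap hU h hχ.h1 hχ.cs]
    obtain ⟨K, hK, hKU, -, hz⟩ := S12_supp hχ
    refine integral_congr_ae ?_
    filter_upwards [hz, D_eq_grad_on hq hU (h.of_le (by norm_num))] with x hz he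
    by_cases hx : x ∈ K
    · rw [he (hKU hx)]
    · rw [hz hx, inner_zero_right, inner_zero_right]
  refine ⟨⟨hq, fun K hK hKU => (hi K hK hKU).const_mul _, fun χ hχ _ => le_of_eq ?_⟩,
    ⟨(S12_D_neg hq).1, fun K hK hKU => (hi K hK hKU).const_mul _, fun χ hχ _ => le_of_eq ?_⟩⟩
  · simp only [mul_assoc]
    rw [integral_const_mul, integral_const_mul, integral_const_mul, key χ hχ]
    ring
  · have e1 : ∫ x, (1 / 2) * 1 * ⟪D (fun x => -q x) x, D χ x⟫ =
        -(1 / 2) * ∫ x, ⟪D q x, D χ x⟫ := by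
      rw [← integral_const_mul]
      refine integral_congr_ae ?_
      filter_upwards [(S12_D_neg hq).2] with x hx
      rw [hx, inner_neg_left]
      ring
    rw [e1, key χ hχ]
    simp only [mul_assoc]
    rw [integral_const_mul]
    ring
/-- Kato's inequality; the closed constraint `C` disappears if `p ≤ 0` outside `C` -/
theorem WSub.kato {w p S : V → ℝ} {Ω C : Set V} (hw : AEStronglyMeasurable w volume) (hw1 : LB w)
    (hw0 : ∀ᵐ x, 0 ≤ w x) (a : WSub w (C ∩ Ω) p S) (hC : IsClosed C) (h : ∀ᵐ x, x ∉ C → p x ≤ 0) :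
    WSub w Ω (fun x => max (p x) 0) (fun x => if 0 < p x then S x else 0) := by
  have hnm : NullMeasurableSet {x | 0 < p x} volume :=
    nullMeasurableSet_lt aemeasurable_const a.hl.aesm.aemeasurable
  have hli : ∀ K, IsCompact K → K ⊆ Ω →
      IntegrableOn (fun x => if 0 < p x then S x else 0) K volume := by
    intro K hK hKΩ
    have h1 : IntegrableOn S (C ∩ K) volume :=
      a.li _ (hK.inter_left hC) (inter_subset_inter_right _ hKΩ)
    have h2 : IntegrableOn ({x | 0 < p x}.indicator S) (C ∩ K) volume :=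
      Integrable.indicator₀ h1 (hnm.mono_ac Measure.absolutelyContinuous_restrict)
    have h3 : IntegrableOn (fun x => if 0 < p x then S x else 0) (C ∩ K) volume := by
      refine h2.congr (Eventually.of_forall fun x => ?_)
      by_cases hx : 0 < p x
      · rw [indicator_of_mem (show x ∈ {x | 0 < p x} from hx)]
        exact (if_pos hx).symm
      · rw [indicator_of_notMem (show x ∉ {x | 0 < p x} from hx)]
        exact (if_neg hx).symm
    refine h3.of_ae_sdiff_eq_zero hK.measurableSet.nullMeasurableSet ?_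
    filter_upwards [h] with x hx hx'
    exact if_neg (not_lt.2 (hx fun hc => hx'.2 ⟨hc, hx'.1⟩))
  refine ⟨a.hl.pos.1, hli, fun χ hχ h0 => ?_⟩
  obtain ⟨β, b1, b2, b3, b4, b5, b6⟩ := S12_steps
  have hcomp : ∀ n, Hl (fun x => β n (p x)) ∧
      ∀ᵐ x, D (fun x => β n (p x)) x = deriv (β n) (p x) • D p x := fun n => by
    obtain ⟨L, hL⟩ := b2 n
    exact a.hl.comp (b1 n) hL
  have hbl : ∀ n, Bl fun x => β n (p x) := fun n =>
    ⟨(hcomp n).1, fun K _ => ⟨1, Eventually.of_forall fun x _ =>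
      abs_le.2 ⟨by linarith [(b4 n (p x)).1], (b4 n (p x)).2⟩⟩⟩
  have htf : ∀ n, TF (C ∩ Ω) fun x => β n (p x) * χ x := fun n =>
    S12_tf_mul hχ (hbl n) hC (by filter_upwards [h] with x hx hc using b5 n _ (hx hc))
  have iL := S12_int_lhs hw hw1 a.hl hχ
  have iR := S12_int_rhs hli hχ
  have hn1 : ∀ n x, ‖β n (p x)‖ ≤ 1 := fun n x =>
    abs_le.2 ⟨by linarith [(b4 n (p x)).1], (b4 n (p x)).2⟩
  have hle : ∀ n, ∫ x, β n (p x) * ((1 / 2) * w x * ⟪D p x, D χ x⟫) ≤
      ∫ x, β n (p x) * ((if 0 < p x then S x else 0) * χ x) := fun n => by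
    have h1 := a.le _ (htf n) (by filter_upwards [h0] with x hx using mul_nonneg (b4 n _).1 hx)
    refine le_trans ?_ (h1.trans_eq ?_)
    · refine integral_mono_ae (iL.bdd_mul (hcomp n).1.aesm (Eventually.of_forall (hn1 n)))
        (S12_int_lhs hw hw1 a.hl (htf n)) ?_
      filter_upwards [((hbl n).mul hχ.bl).2, (hcomp n).2, hw0, h0] with x e1 e2 hw0 h0
      rw [e1, e2, inner_add_right, real_inner_smul_right, real_inner_smul_right,
        real_inner_smul_right]
      have : 0 ≤ w x * (χ x * (deriv (β n) (p x) * ⟪D p x, D p x⟫)) :=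
        mul_nonneg hw0 (mul_nonneg h0 (mul_nonneg (b3 n _) real_inner_self_nonneg))
      nlinarith [this]
    · refine integral_congr_ae (Eventually.of_forall fun x => ?_)
      beta_reduce
      by_cases hx : 0 < p x
      · rw [if_pos hx]
        ring
      · rw [b5 n _ (not_lt.1 hx)]
        ring
  have lim : ∀ F : V → ℝ, Integrable F → Tendsto (fun n => ∫ x, β n (p x) * F x) atTop
      (𝓝 (∫ x, (if 0 < p x then 1 else 0) * F x)) := fun F hF => by
    refine tendsto_integral_of_dominated_convergence _ (fun n => (hcomp n).1.aesm.mul hF.1) hF.norm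
      (fun n => Eventually.of_forall fun x => ?_) (Eventually.of_forall fun x => ?_)
    · rw [norm_mul]
      exact mul_le_of_le_one_left (norm_nonneg _) (hn1 n x)
    · refine tendsto_const_nhds.congr' ?_
      by_cases hx : 0 < p x
      · filter_upwards [b6 _ hx] with n hn
        rw [hn, if_pos hx]
      · refine Eventually.of_forall fun n => ?_
        beta_reduce
        rw [b5 n _ (not_lt.1 hx), if_neg hx]
  have hfin := le_of_tendsto_of_tendsto' (lim _ iL) (lim _ iR) hle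
  refine le_trans (le_of_eq ?_) (hfin.trans_eq ?_)
  · refine integral_congr_ae ?_
    filter_upwards [a.hl.pos.2] with x hx
    rw [hx]
    by_cases hp : 0 < p x
    · rw [if_pos hp, if_pos hp, one_mul]
    · rw [if_neg hp, if_neg hp, inner_zero_left, zero_mul, mul_zero]
  · refine integral_congr_ae (Eventually.of_forall fun x => ?_)
    beta_reduce
    by_cases hp : 0 < p x
    · rw [if_pos hp, one_mul]
    · rw [if_neg hp, if_neg hp, zero_mul, zero_mul]
/-- energy inequality -/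
theorem WSub.energy {w p S j : V → ℝ} {Ω : Set V} (hw : AEStronglyMeasurable w volume) (hw1 : LB w)
    (a : WSub w Ω p S) (hp : LB p) (h0 : ∀ᵐ x, j x ≠ 0 → 0 ≤ p x) (hj : TF Ω j) :
    ∫ x, (1 / 2) * w x * ‖D (fun x => j x * p x) x‖ ^ 2 ≤
      (∫ x, S x * p x * j x ^ 2) + ∫ x, (1 / 2) * w x * p x ^ 2 * ‖D j x‖ ^ 2 := by
  have hpb : Bl p := ⟨a.hl, hp⟩
  have h1 := hj.bl.mul hpb
  have h2 := h1.1.mul hj.bl
  have htf : TF Ω fun x => (j x * p x) * j x := hj.mul h1.1
  have hle := a.le _ htf (by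
    filter_upwards [h0] with x hx
    by_cases hj0 : j x = 0
    · rw [hj0, mul_zero]
    · have := mul_nonneg (hx hj0) (mul_self_nonneg (j x))
      nlinarith [this])
  have i1 := S12_int_lhs hw hw1 a.hl htf
  have i2 : Integrable fun x => (1 / 2) * w x * p x ^ 2 * ‖D j x‖ ^ 2 := by
    have := S12_int_lhs (w := fun x => w x * (p x * p x)) (hw.mul (a.hl.aesm.mul a.hl.aesm))
      (S12_lb_mul_lb hw1 (S12_lb_mul_lb hp hp)) hj.h1.hl hj
    refine this.congr (Eventually.of_forall fun x => ?_)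
    beta_reduce
    rw [real_inner_self_eq_norm_sq]
    ring
  have e1 : ∫ x, (1 / 2) * w x * ‖D (fun x => j x * p x) x‖ ^ 2 =
      (∫ x, (1 / 2) * w x * ⟪D p x, D (fun x => (j x * p x) * j x) x⟫) +
        ∫ x, (1 / 2) * w x * p x ^ 2 * ‖D j x‖ ^ 2 := by
    rw [← integral_add i1 i2]
    refine integral_congr_ae ?_
    filter_upwards [h1.2, h2.2] with x e1 e2
    rw [e2, e1, ← real_inner_self_eq_norm_sq, ← real_inner_self_eq_norm_sq]
    simp only [inner_add_left, inner_add_right, real_inner_smul_left, real_inner_smul_right]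
    rw [real_inner_comm (D p x) (D j x)]
    ring
  have e2 : ∫ x, S x * ((j x * p x) * j x) = ∫ x, S x * p x * j x ^ 2 := by
    refine integral_congr_ae (Eventually.of_forall fun x => ?_)
    beta_reduce
    ring
  rw [e1, ← e2]
  exact add_le_add hle le_rfl
theorem Sub.ext {p S χ : V → ℝ} (a : Sub univ p S) (hp : H1 p) (hS : MemLp S 2 volume) (h : H1 χ)
    (h0 : ∀ᵐ x, 0 ≤ χ x) : ∫ x, (1 / 2) * ⟪D p x, D χ x⟫ ≤ ∫ x, S x * χ x := by
  obtain ⟨w, w1, w2, w3, w4, w5, -, -⟩ := h.trunc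
  have hle : ∀ n, ∫ x, (1 / 2) * ⟪D p x, D (w n) x⟫ ≤ ∫ x, S x * w n x := fun n => by
    have := a.le _ (w1 n) (by
      filter_upwards [h0] with x hx
      rcases hx.eq_or_lt with h1 | h1
      · have := (w2 n x).1
        rw [← h1, abs_zero] at this
        exact (abs_nonpos_iff.1 this).ge
      · exact nonneg_of_mul_nonneg_left (w2 n x).2 h1)
    simpa only [mul_one] using this
  have t1 : Tendsto (fun n => ∫ x, (1 / 2) * ⟪D p x, D (w n) x⟫) atTop
      (𝓝 (∫ x, (1 / 2) * ⟪D p x, D χ x⟫)) := by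
    refine tendsto_integral_of_dominated_convergence
      (fun x => (1 / 2) * (‖D p x‖ * (‖D χ x‖ + |χ x|)))
      (fun n => (hp.hl.aesm_D.inner (w1 n).h1.hl.aesm_D).const_mul _)
      ((S12_mul hp.dl2.norm (h.dl2.norm.add h.l2.abs)).const_mul _) (fun n => ?_) ?_
    · filter_upwards [w4 n] with x hx
      rw [norm_mul, Real.norm_of_nonneg (by norm_num)]
      refine mul_le_mul_of_nonneg_left ?_ (by norm_num)
      exact (norm_inner_le_norm (𝕜 := ℝ) _ _).trans (mul_le_mul_of_nonneg_left hx (norm_nonneg _))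
    · filter_upwards [w5] with x hx
      exact (tendsto_const_nhds.inner hx).const_mul _
  have t2 : Tendsto (fun n => ∫ x, S x * w n x) atTop (𝓝 (∫ x, S x * χ x)) := by
    refine tendsto_integral_of_dominated_convergence _
      (fun n => hS.1.mul (w1 n).h1.hl.aesm) (S12_mul hS h.l2).norm
      (fun n => Eventually.of_forall fun x => ?_) (Eventually.of_forall fun x => ?_)
    · rw [norm_mul, norm_mul]
      exact mul_le_mul_of_nonneg_left (w2 n x).1 (norm_nonneg _)
    · exact (w3 x).const_mul _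
  exact le_of_tendsto_of_tendsto' t1 t2 hle
theorem Sub.localize {p S j : V → ℝ} {Ω : Set V} (a : Sub Ω p S) (hj : ContDiff ℝ 2 j)
    (h0 : ∀ x, 0 ≤ j x) (hs : tsupport j ⊆ Ω) :
    Sub univ (fun x => j x * p x)
      (fun x => j x * S x - ⟪∇ j x, D p x⟫ - (1 / 2) * lap j x * p x) := by
  have hj1 : ContDiff ℝ 1 j := hj.of_le (by norm_num)
  have hg1 : ContDiff ℝ 1 (∇ j) := contDiffOn_univ.1 (S12_grad_c1 isOpen_univ hj.contDiffOn)
  have hlap : Continuous (lap j) := continuousOn_univ.1 (S12_lap_cont isOpen_univ hj.contDiffOn)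
  have l1 : ∀ K, IsCompact K → K ⊆ univ → IntegrableOn (fun x => j x * S x) K volume := by
    intro K hK _
    have hK' : IsCompact (tsupport j ∩ K) := hK.inter_left (isClosed_tsupport j)
    refine (S12_cont_mul hj.continuous hK'
      (a.li _ hK' (inter_subset_left.trans hs))).of_ae_sdiff_eq_zero
        hK.measurableSet.nullMeasurableSet (Eventually.of_forall fun x hx => ?_)
    rw [image_eq_zero_of_notMem_tsupport fun hc => hx.2 ⟨hc, hx.1⟩, zero_mul]
  have l2 : ∀ K, IsCompact K → K ⊆ univ → IntegrableOn (fun x => ⟪∇ j x, D p x⟫) K volume :=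
    fun K hK _ => S12_inner (S12_cont_memLp hg1.continuous hK) (a.hl.dl2 K hK)
  have l3 : ∀ K, IsCompact K → K ⊆ univ → IntegrableOn (fun x => lap j x * p x) K volume :=
    fun K hK _ => S12_mul (S12_cont_memLp hlap hK) (a.hl.l2 K hK)
  refine ⟨a.hl.mul_c1 hj1, fun K hK hu => ?_, fun χ hχ hχ0 => ?_⟩
  · refine ((l1 K hK hu).sub (l2 K hK hu)).sub ?_
    exact ((l3 K hK hu).const_mul (1 / 2)).congr
      (Eventually.of_forall fun x => (mul_assoc _ _ _).symm)
  have htf : TF Ω fun x => j x * χ x :=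
    (S12_tf_mul hχ (bl_c1 hj1) (isClosed_tsupport j) (Eventually.of_forall fun x hx =>
      image_eq_zero_of_notMem_tsupport hx)).mono (inter_subset_left.trans hs)
  have hle := a.le _ htf (by filter_upwards [hχ0] with x hx using mul_nonneg (h0 x) hx)
  have hibp := S12_ibp hg1 a.hl hχ
  have i1 := S12_int_rhs l1 hχ
  have i2 := S12_int_rhs l2 hχ
  have i3 := S12_int_rhs l3 hχ
  have i4 : Integrable fun x => j x * ⟪D p x, D χ x⟫ :=
    S12_int_vec hj.continuous.aestronglyMeasurable (Continuous.lb' hj.continuous) a.hl.dl2 hχ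
  have i5 : Integrable fun x => p x * ⟪∇ j x, D χ x⟫ := by
    have := S12_int_vec' (fun K hK => S12_memLp_smul hg1.continuous hK (a.hl.l2 K hK)) hχ
    simpa only [real_inner_smul_left] using this
  have e1 : ∫ x, (1 / 2) * 1 * ⟪D (fun x => j x * p x) x, D χ x⟫ =
      (1 / 2) * ((∫ x, j x * ⟪D p x, D χ x⟫) + ∫ x, p x * ⟪∇ j x, D χ x⟫) := by
    rw [← integral_add i4 i5, ← integral_const_mul]
    refine integral_congr_ae ?_
    filter_upwards [D_mul_c1 a.hl hj1] with x hx
    rw [hx, inner_add_left, real_inner_smul_left, real_inner_smul_left, mul_one]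
  have e2 : ∫ x, (1 / 2) * 1 * ⟪D p x, D (fun x => j x * χ x) x⟫ =
      (1 / 2) * ((∫ x, j x * ⟪D p x, D χ x⟫) + ∫ x, ⟪∇ j x, D p x⟫ * χ x) := by
    rw [← integral_add i4 i2, ← integral_const_mul]
    refine integral_congr_ae ?_
    filter_upwards [D_mul_c1 hχ.h1.hl hj1] with x hx
    rw [hx, inner_add_right, real_inner_smul_right, real_inner_smul_right,
      real_inner_comm (D p x) (∇ j x)]
    ring
  have e3 : ∫ x, (p x * dvg (∇ j) x + ⟪D p x, ∇ j x⟫) * χ x =
      (∫ x, lap j x * p x * χ x) + ∫ x, ⟪∇ j x, D p x⟫ * χ x := by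
    rw [← integral_add i3 i2]
    refine integral_congr_ae (Eventually.of_forall fun x => ?_)
    beta_reduce
    rw [real_inner_comm (D p x) (∇ j x), show dvg (∇ j) x = lap j x from rfl]
    ring
  have e4 : ∫ x, S x * (j x * χ x) = ∫ x, j x * S x * χ x := by
    refine integral_congr_ae (Eventually.of_forall fun x => ?_)
    beta_reduce
    ring
  have e5 : ∫ x, (j x * S x - ⟪∇ j x, D p x⟫ - (1 / 2) * lap j x * p x) * χ x =
      (∫ x, j x * S x * χ x) - (∫ x, ⟪∇ j x, D p x⟫ * χ x) -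
        (1 / 2) * ∫ x, lap j x * p x * χ x := by
    have i12 : Integrable fun x => j x * S x * χ x - ⟪∇ j x, D p x⟫ * χ x := i1.sub i2
    rw [← integral_const_mul, ← integral_sub i1 i2, ← integral_sub i12 (i3.const_mul _)]
    refine integral_congr_ae (Eventually.of_forall fun x => ?_)
    beta_reduce
    ring
  rw [e2, e4] at hle
  rw [e3] at hibp
  rw [e1, e5, hibp]
  linarith
theorem WSub.unweight {w p S : V → ℝ} {Ω : Set V} (hw : Bl w) (hw2 : LP w) (a : WSub w Ω p S) :
    Sub Ω p (fun x => S x / w x + ⟪D w x, D p x⟫ / (2 * w x)) := by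
  have hi := hw.inv hw2
  have hpos := S12_lp_pos hw2
  have l1 : ∀ K, IsCompact K → K ⊆ Ω → IntegrableOn (fun x => S x / w x) K volume := by
    intro K hK hKΩ
    have := S12_lb_mul hi.1.hl.aesm hi.1.lb hK (a.li K hK hKΩ)
    simpa only [div_eq_inv_mul] using this
  have l2 : ∀ K, IsCompact K → K ⊆ Ω →
      IntegrableOn (fun x => ⟪D w x, D p x⟫ / (2 * w x)) K volume := by
    intro K hK _
    have := (S12_lb_mul hi.1.hl.aesm hi.1.lb hK
      (S12_inner (hw.hl.dl2 K hK) (a.hl.dl2 K hK))).const_mul (1 / 2)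
    refine this.congr (Eventually.of_forall fun x => ?_)
    beta_reduce
    rw [div_eq_mul_inv _ (2 * w x), mul_inv]
    ring
  refine ⟨a.hl, fun K hK hKΩ => (l1 K hK hKΩ).add (l2 K hK hKΩ), fun χ hχ h0 => ?_⟩
  have htf : TF Ω fun x => (w x)⁻¹ * χ x := hχ.mul hi.1
  have hle := a.le _ htf (by
    filter_upwards [h0, hpos] with x hx hp using mul_nonneg (inv_nonneg.2 hp.le) hx)
  have i1 := S12_int_rhs l1 hχ
  have i2 := S12_int_rhs l2 hχ
  have i3 := S12_int_lhs aestronglyMeasurable_const S12_lb_one a.hl hχ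
  have e1 : ∫ x, (1 / 2) * w x * ⟪D p x, D (fun x => (w x)⁻¹ * χ x) x⟫ =
      (∫ x, (1 / 2) * 1 * ⟪D p x, D χ x⟫) - ∫ x, ⟪D w x, D p x⟫ / (2 * w x) * χ x := by
    rw [← integral_sub i3 i2]
    refine integral_congr_ae ?_
    filter_upwards [(hi.1.mul hχ.bl).2, hi.2, hpos] with x e1 e2 hp
    rw [e1, e2, inner_add_right, real_inner_smul_right, real_inner_smul_right,
      real_inner_smul_right, real_inner_comm (D p x) (D w x)]
    field_simp
    ring
  have e2 : ∫ x, S x * ((w x)⁻¹ * χ x) = ∫ x, S x / w x * χ x := by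
    refine integral_congr_ae (Eventually.of_forall fun x => ?_)
    beta_reduce
    rw [div_eq_mul_inv, mul_assoc]
  have e3 : ∫ x, (S x / w x + ⟪D w x, D p x⟫ / (2 * w x)) * χ x =
      (∫ x, S x / w x * χ x) + ∫ x, ⟪D w x, D p x⟫ / (2 * w x) * χ x := by
    rw [← integral_add i1 i2]
    exact integral_congr_ae (Eventually.of_forall fun x => add_mul _ _ _)
  rw [e1, e2] at hle
  rw [e3]
  linarith
/-- weak maximum principle in an exterior domain (`C = univ` or the closed half space) -/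
theorem Sub.ext_le {p U : V → ℝ} {C : Set V} {r c : ℝ} (hC : IsClosed C) (hc : 0 < c) (hr : 0 ≤ r)
    (a : Sub (C ∩ {x | r < ‖x‖}) p (fun x => -(U x * p x))) (hU : ∀ᵐ x, r < ‖x‖ → c ≤ U x)
    (hp : LB p) (h2 : MemLp (fun x => max (p x) 0) 2 volume) (h0 : ∀ᵐ x, x ∉ C → p x ≤ 0)
    (h1 : ∀ᵐ x, r < ‖x‖ → ‖x‖ < r + 1 → p x ≤ 0) : ∀ᵐ x, r < ‖x‖ → p x ≤ 0 := by
  have k1 := WSub.kato aestronglyMeasurable_const S12_lb_one
    (Eventually.of_forall fun _ => zero_le_one) a hC h0
  have k2 : Sub {x : V | r < ‖x‖} (fun x => max (p x) 0) (fun x => -c * max (p x) 0) := by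
    refine k1.mono Subset.rfl (fun K hK _ => (S12_intOn hK (h2.restrict K)).const_mul _) ?_
    filter_upwards [hU] with x hx hx'
    by_cases hp0 : 0 < p x
    · rw [if_pos hp0, max_eq_left hp0.le]
      have := mul_le_mul_of_nonneg_right (hx hx') hp0.le
      linarith
    · rw [if_neg hp0, max_eq_right (not_lt.1 hp0), mul_zero]
  have hq : LB fun x => max (p x) 0 := fun K hK => by
    obtain ⟨M, hM⟩ := hp K hK
    refine ⟨M, ?_⟩
    filter_upwards [hM] with x hx hxK
    rw [abs_of_nonneg (le_max_right _ _)]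
    exact max_le ((le_abs_self _).trans (hx hxK)) ((abs_nonneg _).trans (hx hxK))
  obtain ⟨i, i1, -, i2, i3, i4, -, -⟩ :=
    exists_cutoff (0 : V) (r := r + 1 / 3) (s := 1 / 3) (by linarith) (by norm_num)
  simp only [sub_zero] at i3 i4
  have hφ : ContDiff ℝ 1 fun x => 1 - i x := contDiff_const.sub (i1.of_le (by simp))
  have hgφ : ∀ x : V, (‖x‖ ≤ r ∨ r + 1 ≤ ‖x‖) → ∇ (fun x => 1 - i x) x = 0 := by
    rintro x (hx | hx)
    · have : (fun x => 1 - i x) =ᶠ[𝓝 x] fun _ => 0 := by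
        have hh : ∀ᶠ y in 𝓝 x, ‖y‖ < r + 1 / 3 :=
          continuous_norm.continuousAt.eventually_lt continuousAt_const (by linarith)
        filter_upwards [hh] with y hy
        rw [i3 y hy.le, sub_self]
      rw [this.gradient_eq, gradient_fun_const]
    · have : (fun x => 1 - i x) =ᶠ[𝓝 x] fun _ => 1 := by
        have hh : ∀ᶠ y in 𝓝 x, r + 1 / 3 + 1 / 3 < ‖y‖ :=
          continuousAt_const.eventually_lt continuous_norm.continuousAt (by linarith)
        filter_upwards [hh] with y hy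
        rw [i4 y hy.le, sub_zero]
      rw [this.gradient_eq, gradient_fun_const]
  have ho := fun n : ℕ => exists_cutoff (0 : V) (r := (n : ℝ)) (s := (n : ℝ) + 1) n.cast_nonneg
    n.cast_add_one_pos
  choose o o1 o2 o3 o4 o5 o6 o7 using ho
  simp only [sub_zero] at o4
  have ho1 : ∀ n, ContDiff ℝ 1 (o n) := fun n => (o1 n).of_le (by simp)
  have hto : ∀ n, TF univ (o n) := fun n => Tst.tf ⟨ho1 n, o2 n⟩ (subset_univ _)
  have htf : ∀ n, TF {x : V | r < ‖x‖} fun x => (1 - i x) * o n x := fun n => by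
    refine (S12_tf_mul (C := {x : V | r + 1 / 3 ≤ ‖x‖}) (hto n) (bl_c1 hφ)
      (isClosed_le continuous_const continuous_norm) (Eventually.of_forall fun x hx => ?_)).mono ?_
    · rw [i3 x (not_le.1 hx).le, sub_self]
    · intro x hx
      have : r + 1 / 3 ≤ ‖x‖ := hx.1
      show r < ‖x‖
      linarith
  have hq2 : Integrable fun x => max (p x) 0 ^ 2 := h2.integrable_sq
  have hen : ∀ n : ℕ, ∫ x, max (p x) 0 ^ 2 * ((1 - i x) * o n x) ^ 2 ≤
      c⁻¹ * ((1 / 2) * (4 / ((n : ℝ) + 1)) ^ 2 * ∫ x, max (p x) 0 ^ 2) := fun n => by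
    have h3 := WSub.energy aestronglyMeasurable_const S12_lb_one k2 hq
      (Eventually.of_forall fun x _ => le_max_right _ _) (htf n)
    have h4 : 0 ≤ ∫ x, (1 / 2) * 1 *
        ‖D (fun x => ((1 - i x) * o n x) * max (p x) 0) x‖ ^ 2 :=
      integral_nonneg fun x => by positivity
    have h5 : ∫ x, -c * max (p x) 0 * max (p x) 0 * ((1 - i x) * o n x) ^ 2 =
        -c * ∫ x, max (p x) 0 ^ 2 * ((1 - i x) * o n x) ^ 2 := by
      rw [← integral_const_mul]
      refine integral_congr_ae (Eventually.of_forall fun x => ?_)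
      beta_reduce
      ring
    have h6 : ∫ x, (1 / 2) * 1 * max (p x) 0 ^ 2 * ‖D (fun x => (1 - i x) * o n x) x‖ ^ 2 ≤
        (1 / 2) * (4 / ((n : ℝ) + 1)) ^ 2 * ∫ x, max (p x) 0 ^ 2 := by
      rw [← integral_const_mul]
      refine integral_mono_of_nonneg (Eventually.of_forall fun x => by positivity)
        (hq2.const_mul _) ?_
      filter_upwards [D_mul_c1 (hto n).h1.hl hφ, D_c1 (ho1 n), h1] with x e1 e2 hx
      by_cases hp0 : p x ≤ 0
      · rw [max_eq_right hp0]
        simp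
      · have hor : ‖x‖ ≤ r ∨ r + 1 ≤ ‖x‖ := by
          by_contra hcon
          push Not at hcon
          exact hp0 (hx hcon.1 hcon.2)
        have hn : ‖D (fun x => (1 - i x) * o n x) x‖ ≤ 4 / ((n : ℝ) + 1) := by
          rw [e1, e2, hgφ x hor, smul_zero, add_zero, norm_smul]
          refine (mul_le_of_le_one_left (norm_nonneg _) ?_).trans (o6 n x)
          exact abs_le.2 ⟨by linarith [(i2 x).2], by linarith [(i2 x).1]⟩
        have := mul_le_mul_of_nonneg_left (pow_le_pow_left₀ (norm_nonneg _) hn 2)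
          (sq_nonneg (max (p x) 0))
        linarith
    rw [h5] at h3
    rw [le_inv_mul_iff₀ hc]
    linarith
  have hb1 : ∀ x, ‖(1 - i x) ^ 2‖ ≤ 1 := fun x => by
    rw [Real.norm_of_nonneg (sq_nonneg _)]
    exact pow_le_one₀ (by linarith [(i2 x).2]) (by linarith [(i2 x).1])
  have t1 : Tendsto (fun n : ℕ => ∫ x, max (p x) 0 ^ 2 * ((1 - i x) * o n x) ^ 2) atTop
      (𝓝 (∫ x, max (p x) 0 ^ 2 * (1 - i x) ^ 2)) := by
    refine tendsto_integral_of_dominated_convergence _ (fun n => hq2.1.mul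
      ((hφ.continuous.mul (o1 n).continuous).pow 2).aestronglyMeasurable) hq2.norm
      (fun n => Eventually.of_forall fun x => ?_) (Eventually.of_forall fun x => ?_)
    · rw [norm_mul]
      refine mul_le_of_le_one_right (norm_nonneg _) ?_
      rw [Real.norm_of_nonneg (sq_nonneg _)]
      exact pow_le_one₀ (mul_nonneg (by linarith [(i2 x).2]) (o3 n x).1)
        (mul_le_one₀ (by linarith [(i2 x).1]) (o3 n x).1 (o3 n x).2)
    · refine tendsto_const_nhds.congr' ?_
      filter_upwards [tendsto_natCast_atTop_atTop.eventually_ge_atTop ‖x‖] with n hn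
      rw [o4 n x hn, mul_one]
  have t2 : Tendsto (fun n : ℕ =>
      c⁻¹ * ((1 / 2) * (4 / ((n : ℝ) + 1)) ^ 2 * ∫ x, max (p x) 0 ^ 2)) atTop
      (𝓝 (c⁻¹ * ((1 / 2) * 0 ^ 2 * ∫ x, max (p x) 0 ^ 2))) := by
    have : Tendsto (fun n : ℕ => 4 / ((n : ℝ) + 1)) atTop (𝓝 0) :=
      tendsto_const_nhds.div_atTop (tendsto_natCast_atTop_atTop.atTop_add tendsto_const_nhds)
    exact (((this.pow 2).const_mul _).mul_const _).const_mul _
  have hz : ∫ x, max (p x) 0 ^ 2 * (1 - i x) ^ 2 = 0 := by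
    refine le_antisymm ?_ (integral_nonneg fun x => by positivity)
    have := le_of_tendsto_of_tendsto' t1 t2 hen
    simpa using this
  have hz' := (integral_eq_zero_iff_of_nonneg (fun x => mul_nonneg (sq_nonneg _) (sq_nonneg _))
    (hq2.mul_bdd (hφ.continuous.pow 2).aestronglyMeasurable (Eventually.of_forall hb1))).1 hz
  filter_upwards [hz', h1] with x hx hx1 hrx
  by_cases hlt : ‖x‖ < r + 1
  · exact hx1 hrx hlt
  · have hx' : max (p x) 0 ^ 2 * (1 - i x) ^ 2 = 0 := hx
    rw [i4 x (by linarith [not_lt.1 hlt]), sub_zero, one_pow, mul_one, sq_eq_zero_iff] at hx'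
    exact (le_max_left _ _).trans hx'.le

end

end Crest.Agent.R335
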