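import Crest.Agent.R335.S13Aux1

set_option autoImplicit false
set_option linter.unusedSectionVars false

open MeasureTheory Set Filter Topology Metric
open scoped Gradient ContDiff RealInnerProductSpace ENNReal

namespace Crest.Agent.R335

noncomputable section

variable {V : Type*} [NormedAddCommGroup V] [InnerProductSpace ℝ V] [FiniteDimensional ℝ V]
  [MeasurableSpace V] [BorelSpace V]

variable {W : Type*} [NormedAddCommGroup W] [InnerProductSpace ℝ W] [FiniteDimensional ℝ W]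
  [MeasurableSpace W] [BorelSpace W]

variable {ι : Type} [Fintype ι]

/-- squared slice norm -/
def s13N (P : ι → WithLp 2 (V × W) → ℝ) (x : V) : ℝ := ∑ i, ∫ y, P i (pt x y) ^ 2

/-- half of the gradient of the squared slice norm -/
def s13G (P : ι → WithLp 2 (V × W) → ℝ) (x : V) : V :=
  ∑ i, ∫ y, P i (pt x y) • (D (P i) (pt x y)).fst

/-- slice integral of the squared horizontal gradient -/
def s13H (P : ι → WithLp 2 (V × W) → ℝ) (x : V) : ℝ := ∑ i, ∫ y, ‖(D (P i) (pt x y)).fst‖ ^ 2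

theorem s13N_nonneg (P : ι → WithLp 2 (V × W) → ℝ) (x : V) : 0 ≤ s13N P x :=
  Finset.sum_nonneg fun _ _ => integral_nonneg fun _ => sq_nonneg _

theorem s13H_nonneg (P : ι → WithLp 2 (V × W) → ℝ) (x : V) : 0 ≤ s13H P x :=
  Finset.sum_nonneg fun _ _ => integral_nonneg fun _ => sq_nonneg _

theorem s13N_int {P : ι → WithLp 2 (V × W) → ℝ} (h : ∀ i, H1 (P i)) : Integrable (s13N P) :=
  integrable_finsetSum _ fun i _ => (s13_intg (h i).l2.integrable_sq).2

theorem s13H_int {P : ι → WithLp 2 (V × W) → ℝ} (h : ∀ i, H1 (P i)) : Integrable (s13H P) :=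
  integrable_finsetSum _ fun i _ => (s13_intg (s13_sqn_int (s13_fst2 (h i).dl2))).2

theorem s13N_integral {P : ι → WithLp 2 (V × W) → ℝ} (h : ∀ i, H1 (P i)) :
    ∫ x, s13N P x = ∑ i, nsq (P i) := by
  unfold s13N
  rw [integral_finsetSum _ fun i _ => (s13_intg (h i).l2.integrable_sq).2]
  exact Finset.sum_congr rfl fun i _ => (integral_pt (h i).l2.integrable_sq).symm

theorem s13H_integral {P : ι → WithLp 2 (V × W) → ℝ} (h : ∀ i, H1 (P i)) :
    ∫ x, s13H P x ≤ ∑ i, dir (P i) := by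
  unfold s13H
  rw [integral_finsetSum _ fun i _ => (s13_intg (s13_sqn_int (s13_fst2 (h i).dl2))).2]
  refine Finset.sum_le_sum fun i _ => ?_
  rw [← integral_pt (s13_sqn_int (s13_fst2 (h i).dl2))]
  refine integral_mono (s13_sqn_int (s13_fst2 (h i).dl2)) (s13_sqn_int (h i).dl2) fun p => ?_
  exact pow_le_pow_left₀ (norm_nonneg _) (WithLp.norm_fst_le _ _) 2

theorem s13G_sq {P : ι → WithLp 2 (V × W) → ℝ} (h : ∀ i, H1 (P i)) :
    ∀ᵐ x, ‖s13G P x‖ ^ 2 ≤ s13N P x * s13H P x := by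
  filter_upwards [ae_all_iff.2 fun i => (s13_intg (h i).l2.integrable_sq).1,
    ae_all_iff.2 fun i => (s13_intg (s13_sqn_int (s13_fst2 (h i).dl2))).1,
    ae_all_iff.2 fun i => (s13_intg (s13_smul_int (h i).l2 (s13_fst2 (h i).dl2))).1]
    with x h1 h2 h3
  exact s13_cs (a := fun i y => P i (pt x y)) (g := fun i y => (D (P i) (pt x y)).fst) h1 h2 h3

theorem s13_isW_sum {κ : Type*} (s : Finset κ) {u : κ → V → ℝ} {g : κ → V → V}
    (h : ∀ i, IsW (u i) (g i)) : IsW (fun x => ∑ i ∈ s, u i x) (fun x => ∑ i ∈ s, g i x) := by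
  classical
  induction s using Finset.induction_on with
  | empty =>
    simp only [Finset.sum_empty]
    exact ⟨locallyIntegrable_zero, locallyIntegrable_zero, fun φ _ v => by simp⟩
  | insert a s ha ih =>
    simp only [Finset.sum_insert ha]
    exact (h a).add ih

theorem s13N_isW {P : ι → WithLp 2 (V × W) → ℝ} (h : ∀ i, H1 (P i)) :
    IsW (s13N P) (fun x => (2 : ℝ) • s13G P x) := by
  have := s13_isW_sum Finset.univ fun i => s13_isW_one (h i)
  refine this.congr (Eventually.of_forall fun x => rfl) (Eventually.of_forall fun x => ?_)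
  unfold s13G
  rw [Finset.smul_sum]

theorem s13_slice_bd {P : WithLp 2 (V × W) → ℝ} (h : TF univ P) :
    ∃ M : ℝ, ∀ᵐ x, ∫ y, P (pt x y) ^ 2 ≤ M := by
  obtain ⟨M, hM⟩ := h.bd
  obtain ⟨K, hK, -, h0⟩ := h.cs
  obtain ⟨R, hR⟩ := hK.isBounded.subset_closedBall 0
  have hi : Integrable ((closedBall (0 : W) R).indicator fun _ => M ^ 2) :=
    (integrable_indicator_iff measurableSet_closedBall).2
      (integrableOn_const measure_closedBall_lt_top.ne)
  refine ⟨∫ y, (closedBall (0 : W) R).indicator (fun _ => M ^ 2) y, ?_⟩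
  filter_upwards [ae_pt hM, ae_pt h0] with x h1 h2
  refine integral_mono_of_nonneg (Eventually.of_forall fun y => sq_nonneg _) hi ?_
  filter_upwards [h1, h2] with y h3 h4
  by_cases hy : y ∈ closedBall (0 : W) R
  · rw [indicator_of_mem hy, ← sq_abs]
    exact pow_le_pow_left₀ (abs_nonneg _) h3 2
  · rw [indicator_of_notMem hy, h4 fun hk => hy ?_]
    · simp
    have h5 := hR hk
    rw [mem_closedBall_zero_iff] at h5 ⊢
    exact (WithLp.norm_snd_le _ (pt x y)).trans h5

theorem s13N_bl {P : ι → WithLp 2 (V × W) → ℝ} (h : ∀ i, TF univ (P i)) : Bl (s13N P) := by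
  choose M hM using fun i => s13_slice_bd (h i)
  have h1 : ∀ i, H1 (P i) := fun i => (h i).h1
  have hb : ∀ᵐ x, |s13N P x| ≤ ∑ i, M i := by
    filter_upwards [ae_all_iff.2 hM] with x hx
    rw [abs_of_nonneg (s13N_nonneg P x)]
    exact Finset.sum_le_sum fun i _ => hx i
  have hW := s13N_isW h1
  refine ⟨hW.hl (fun K hK => ?_) (fun K _ => MemLp.restrict K ?_), Bd.lb ⟨_, hb⟩⟩
  · have : IsFiniteMeasure (volume.restrict K) := isFiniteMeasure_restrict.2 hK.measure_lt_top.ne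
    exact MemLp.of_bound hW.lu.aestronglyMeasurable.restrict _ (ae_restrict_of_ae hb)
  · have hm := hW.lg.aestronglyMeasurable
    refine (memLp_two_iff_integrable_sq_norm hm).2 ?_
    refine Integrable.mono' ((s13H_int h1).const_mul (4 * ∑ i, M i)) (hm.norm.pow 2) ?_
    filter_upwards [hb, s13G_sq h1] with x h2 h3
    rw [Real.norm_eq_abs, abs_of_nonneg (sq_nonneg _), norm_smul, mul_pow, Real.norm_two]
    have h4 : s13N P x * s13H P x ≤ (∑ i, M i) * s13H P x :=
      mul_le_mul_of_nonneg_right ((le_abs_self _).trans h2) (s13H_nonneg P x)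
    linarith

theorem s13_tau_tf {P : ι → WithLp 2 (V × W) → ℝ} (h : ∀ i, TF univ (P i)) {τ : V → ℝ}
    (hτ : ContDiff ℝ 1 τ) (h0 : ∀ x, 0 < τ x) :
    IsW (fun x => √(s13N P x + τ x ^ 2))
      (fun x => (√(s13N P x + τ x ^ 2))⁻¹ • (s13G P x + τ x • ∇ τ x)) := by
  have b1 := s13N_bl h
  have b2 := bl_c1 hτ
  obtain ⟨b3, d3⟩ := b2.mul b2
  have b4 := b1.add b3
  have lp : LP fun x => s13N P x + τ x * τ x := by
    intro K hK
    obtain ⟨c, hc, h⟩ := Continuous.lp' (hτ.continuous.mul hτ.continuous)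
      (fun x => mul_pos (h0 x) (h0 x)) K hK
    refine ⟨c, hc, h.mono fun x hx hxK => (hx hxK).trans ?_⟩
    exact le_add_of_nonneg_left (s13N_nonneg P x)
  obtain ⟨b5, d5⟩ := b4.sqrt lp
  refine b5.hl.isW.congr (Eventually.of_forall fun x => by rw [sq]) ?_
  filter_upwards [d5, D_add b1.hl b3.hl, d3, D_c1 hτ, (s13N_isW fun i => (h i).h1).D_eq]
    with x e5 e4 e3 e2 e1
  rw [e5, e4, e3, e2, e1, sq, ← two_smul ℝ (τ x • ∇ τ x), ← smul_add, smul_smul]
  congr 1
  rw [mul_inv]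
  ring

theorem s13_tau {P : ι → WithLp 2 (V × W) → ℝ} (h : ∀ i, H1 (P i)) {τ : V → ℝ}
    (hτ : ContDiff ℝ 1 τ) (h0 : ∀ x, 0 < τ x) :
    IsW (fun x => √(s13N P x + τ x ^ 2))
      (fun x => (√(s13N P x + τ x ^ 2))⁻¹ • (s13G P x + τ x • ∇ τ x)) := by
  choose w w1 w2 w3 w4 w5 _ using fun i => (h i).trunc
  have m2 : ∀ i, MemLp (fun p => ‖D (P i) p‖ + |P i p|) 2 volume := fun i =>
    (h i).dl2.norm.add (h i).l2.norm
  have i1 : ∀ i, Integrable fun p => P i p ^ 2 := fun i => (h i).l2.integrable_sq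
  have i2 : ∀ i, Integrable fun p => (‖D (P i) p‖ + |P i p|) ^ 2 := fun i => (m2 i).integrable_sq
  have i3 : ∀ i, Integrable fun p => |P i p| * (‖D (P i) p‖ + |P i p|) := fun i =>
    s13_smul_int (h i).l2.norm (m2 i)
  have hH' : Integrable fun x => ∑ i, ∫ y, (‖D (P i) (pt x y)‖ + |P i (pt x y)|) ^ 2 :=
    integrable_finsetSum _ fun i _ => (s13_intg (i2 i)).2
  have hsq : ∀ i n p, w i n p ^ 2 ≤ P i p ^ 2 := fun i n p => sq_le_sq.2 (w2 i n p).1
  have cτ := hτ.continuous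
  have cg := s13_grad_cont hτ
  have tN : ∀ᵐ x, Tendsto (fun n => s13N (fun i => w i n) x) atTop (𝓝 (s13N P x)) := by
    filter_upwards [ae_all_iff.2 fun i => (s13_intg (i1 i)).1,
      ae_all_iff.2 fun i => ae_all_iff.2 fun n => (s13_intg (w1 i n).h1.l2.integrable_sq).1]
      with x h1 h2
    refine tendsto_finsetSum _ fun i _ => ?_
    refine tendsto_integral_of_dominated_convergence _ (fun n => (h2 i n).1) (h1 i)
      (fun n => Eventually.of_forall fun y => ?_) (Eventually.of_forall fun y => (w3 i _).pow 2)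
    rw [Real.norm_eq_abs, abs_of_nonneg (sq_nonneg _)]
    exact hsq i n _
  have tG : ∀ᵐ x, Tendsto (fun n => s13G (fun i => w i n) x) atTop (𝓝 (s13G P x)) := by
    filter_upwards [ae_all_iff.2 fun i => (s13_intg (i3 i)).1,
      ae_all_iff.2 fun i => ae_all_iff.2 fun n =>
        (s13_intg (s13_smul_int (w1 i n).h1.l2 (s13_fst2 (w1 i n).h1.dl2))).1,
      ae_all_iff.2 fun i => ae_all_iff.2 fun n => ae_pt (w4 i n),
      ae_all_iff.2 fun i => ae_pt (w5 i)] with x h1 h2 h3 h4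
    refine tendsto_finsetSum _ fun i _ => ?_
    refine tendsto_integral_of_dominated_convergence _ (fun n => (h2 i n).1) (h1 i)
      (fun n => ?_) ?_
    · filter_upwards [h3 i n] with y hy
      rw [norm_smul]
      exact mul_le_mul (w2 i n _).1 ((WithLp.norm_fst_le _ _).trans hy) (norm_nonneg _)
        (abs_nonneg _)
    · filter_upwards [h4 i] with y hy
      exact (w3 i _).smul (((WithLp.continuous_fst 2 V W).tendsto _).comp hy)
  refine s13_isW_lim (U := fun x => 1 + (s13N P x + τ x ^ 2))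
    (G := fun x => 1 + ((∑ i, ∫ y, (‖D (P i) (pt x y)‖ + |P i (pt x y)|) ^ 2) + ‖∇ τ x‖ ^ 2))
    (fun n => s13_tau_tf (fun i => w1 i n) hτ h0)
    ((locallyIntegrable_const 1).add
      ((s13N_int h).locallyIntegrable.add (cτ.pow 2).locallyIntegrable))
    ((locallyIntegrable_const 1).add (hH'.locallyIntegrable.add (cg.norm.pow 2).locallyIntegrable))
    (fun n => ?_) (fun n => ?_) ?_ ?_
  · filter_upwards [ae_all_iff.2 fun i => (s13_intg (i1 i)).1] with x h1
    rw [abs_of_nonneg (Real.sqrt_nonneg _)]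
    have h2 : s13N (fun i => w i n) x ≤ s13N P x :=
      Finset.sum_le_sum fun i _ => integral_mono_of_nonneg
        (Eventually.of_forall fun y => sq_nonneg _) (h1 i)
        (Eventually.of_forall fun y => hsq i n _)
    have h3 := s13_sqrt_le (add_nonneg (s13N_nonneg (fun i => w i n) x) (sq_nonneg (τ x)))
    linarith
  · filter_upwards [ae_all_iff.2 fun i => (s13_intg (i2 i)).1,
      ae_all_iff.2 fun i => ae_pt (w4 i n), s13G_sq fun i => (w1 i n).h1] with x h1 h2 h3
    have h4 : s13H (fun i => w i n) x ≤ ∑ i, ∫ y, (‖D (P i) (pt x y)‖ + |P i (pt x y)|) ^ 2 := by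
      refine Finset.sum_le_sum fun i _ => integral_mono_of_nonneg
        (Eventually.of_forall fun y => sq_nonneg _) (h1 i) ?_
      filter_upwards [h2 i] with y hy
      exact pow_le_pow_left₀ (norm_nonneg _) ((WithLp.norm_fst_le _ _).trans hy) 2
    have h5 := s13_alg (τ := τ x) (t := ∇ τ x) (s13N_nonneg _ x) (s13H_nonneg _ x) h3
    exact s13_le_of_sq (h5.trans (by linarith))
  · filter_upwards [tN] with x hx
    exact (hx.add_const _).sqrt
  · filter_upwards [tN, tG] with x hx hx'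
    refine Tendsto.smul (((hx.add_const _).sqrt).inv₀ ?_) (hx'.add_const _)
    exact (Real.sqrt_pos.2 (add_pos_of_nonneg_of_pos (s13N_nonneg P x) (pow_pos (h0 x) 2))).ne'

theorem s13_tau_hl {P : ι → WithLp 2 (V × W) → ℝ} (h : ∀ i, H1 (P i)) {τ : V → ℝ}
    (hτ : ContDiff ℝ 1 τ) (h0 : ∀ x, 0 < τ x) : Hl fun x => √(s13N P x + τ x ^ 2) := by
  have hW := s13_tau h hτ h0
  refine hW.hl (fun K hK => ?_) (fun K hK => ?_)
  · refine (memLp_two_iff_integrable_sq_norm hW.lu.aestronglyMeasurable.restrict).2 ?_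
    have h1 : IntegrableOn (fun x => s13N P x + τ x ^ 2) K volume :=
      (s13N_int h).integrableOn.add ((hτ.continuous.pow 2).continuousOn.integrableOn_compact hK)
    refine h1.congr (Eventually.of_forall fun x => ?_)
    show _ = ‖√(s13N P x + τ x ^ 2)‖ ^ 2
    rw [Real.norm_eq_abs, sq_abs, Real.sq_sqrt (add_nonneg (s13N_nonneg P x) (sq_nonneg _))]
  · have hm : AEStronglyMeasurable _ (volume.restrict K) := hW.lg.aestronglyMeasurable.restrict
    refine (memLp_two_iff_integrable_sq_norm hm).2 ?_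
    have h1 : IntegrableOn (fun x => s13H P x + ‖∇ τ x‖ ^ 2) K volume :=
      (s13H_int h).integrableOn.add
        (((s13_grad_cont hτ).norm.pow 2).continuousOn.integrableOn_compact hK)
    refine Integrable.mono' h1 (hm.norm.pow 2) (ae_restrict_of_ae ?_)
    filter_upwards [s13G_sq h] with x hx
    rw [Real.norm_eq_abs, abs_of_nonneg (sq_nonneg _)]
    exact s13_alg (s13N_nonneg P x) (s13H_nonneg P x) hx

theorem s13_zero {P : ι → WithLp 2 (V × W) → ℝ} (h : ∀ i, H1 (P i)) :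
    IsW (fun x => √(s13N P x)) (fun x => (√(s13N P x))⁻¹ • s13G P x) := by
  have hg : ∀ (c : ℝ) (x : V), ∇ (fun _ : V => c) x = 0 := fun c x => gradient_fun_const x c
  have t0 : Tendsto (fun n : ℕ => (1 / ((n : ℝ) + 1))) atTop (𝓝 0) :=
    tendsto_one_div_add_atTop_nhds_zero_nat
  have t1 : ∀ x, Tendsto (fun n : ℕ => √(s13N P x + (1 / ((n : ℝ) + 1)) ^ 2)) atTop
      (𝓝 (√(s13N P x))) := by
    intro x
    have := ((t0.pow 2).const_add (s13N P x)).sqrt
    simpa using this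
  refine s13_isW_lim (U := fun x => 1 + (s13N P x + 1)) (G := fun x => 1 + s13H P x)
    (fun n : ℕ => s13_tau h (τ := fun _ => 1 / ((n : ℝ) + 1)) contDiff_const
      fun _ => Nat.one_div_pos_of_nat)
    ((locallyIntegrable_const 1).add
      ((s13N_int h).locallyIntegrable.add (locallyIntegrable_const 1)))
    ((locallyIntegrable_const 1).add (s13H_int h).locallyIntegrable)
    (fun n => Eventually.of_forall fun x => ?_) (fun n => ?_) (Eventually.of_forall t1) ?_
  · rw [abs_of_nonneg (Real.sqrt_nonneg _)]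
    have h3 := s13_sqrt_le (add_nonneg (s13N_nonneg P x) (sq_nonneg (1 / ((n : ℝ) + 1))))
    have h4 : (1 / ((n : ℝ) + 1)) ^ 2 ≤ 1 :=
      pow_le_one₀ Nat.one_div_pos_of_nat.le (Nat.one_div_le_one_div (Nat.zero_le n) |>.trans
        (by simp))
    linarith
  · filter_upwards [s13G_sq h] with x hx
    have h5 := s13_alg (τ := 1 / ((n : ℝ) + 1)) (t := ∇ (fun _ : V => 1 / ((n : ℝ) + 1)) x)
      (s13N_nonneg _ x) (s13H_nonneg _ x) hx
    refine s13_le_of_sq (h5.trans ?_)
    rw [hg]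
    simp
  · filter_upwards [s13G_sq h] with x hx
    simp only [hg, smul_zero, add_zero]
    rcases (s13N_nonneg P x).eq_or_lt with h1 | h1
    · rw [← h1, zero_mul] at hx
      have h2 : s13G P x = 0 := by
        have := pow_eq_zero_iff (two_ne_zero) |>.1 (le_antisymm hx (sq_nonneg _))
        exact norm_eq_zero.1 this
      simp only [h2, smul_zero]
      exact tendsto_const_nhds
    · exact ((t1 x).inv₀ (Real.sqrt_pos.2 h1).ne').smul_const _

/-- the equation of one `P` tested with `ξ(x) P` -/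
theorem s13_test_one {P A : WithLp 2 (V × W) → ℝ} (h : Sol P A) {ξ : V → ℝ} (h1 : Hl ξ)
    (hb : Bd ξ) (h2 : Integrable fun x => ‖D ξ x‖ ^ 2 * ∫ y, P (pt x y) ^ 2) :
    Integrable (fun x => (1 / 2) * (ξ x * ∫ y, ‖(D P (pt x y)).fst‖ ^ 2) +
      (1 / 2) * ⟪∫ y, P (pt x y) • (D P (pt x y)).fst, D ξ x⟫ -
      ξ x * ∫ y, (A (pt x y) * P (pt x y) - (1 / 2) * ‖(D P (pt x y)).snd‖ ^ 2)) ∧
    ∫ x, ((1 / 2) * (ξ x * ∫ y, ‖(D P (pt x y)).fst‖ ^ 2) +
      (1 / 2) * ⟪∫ y, P (pt x y) • (D P (pt x y)).fst, D ξ x⟫ -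
      ξ x * ∫ y, (A (pt x y) * P (pt x y) - (1 / 2) * ‖(D P (pt x y)).snd‖ ^ 2)) = 0 := by
  obtain ⟨hla, hDa⟩ := Hl.lift_fst (W := W) h1
  obtain ⟨M, hM⟩ := hb
  have hM' : ∀ᵐ p : WithLp 2 (V × W), ‖ξ p.fst‖ ≤ M := ae_fst (W := W) hM
  have hP := h.h1
  have i1 : Integrable fun p => P p ^ 2 := hP.l2.integrable_sq
  have top : MemLp (fun p : WithLp 2 (V × W) => ξ p.fst) ∞ volume :=
    memLp_top_of_bound hla.aesm M hM'
  have m1 : MemLp (fun p : WithLp 2 (V × W) => ξ p.fst * P p) 2 volume := hP.l2.smul top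
  have m2 : MemLp (fun p : WithLp 2 (V × W) => ξ p.fst • D P p) 2 volume := hP.dl2.smul top
  have m3 : MemLp (fun p : WithLp 2 (V × W) =>
      P p • D (fun p : WithLp 2 (V × W) => ξ p.fst) p) 2 volume := by
    have hm : AEStronglyMeasurable (fun p : WithLp 2 (V × W) =>
        P p • D (fun p : WithLp 2 (V × W) => ξ p.fst) p) volume := hP.l2.1.smul hla.aesm_D
    refine (memLp_two_iff_integrable_sq_norm hm).2 ?_
    have e : ∀ᵐ x, ∀ᵐ y, ‖P (pt x y) • D (fun p : WithLp 2 (V × W) => ξ p.fst) (pt x y)‖ ^ 2 =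
        ‖D ξ x‖ ^ 2 * P (pt x y) ^ 2 := by
      filter_upwards [ae_pt hDa] with x hx
      filter_upwards [hx] with y hy
      rw [hy, norm_smul, mul_pow, Real.norm_eq_abs, sq_abs, mul_comm]
      simp
    refine s13_int_of_slices (hm.norm.pow 2) ?_ (h2.congr ?_)
    · filter_upwards [e, (s13_intg i1).1] with x hx hi
      exact (hi.const_mul _).congr (EventuallyEq.symm hx)
    · filter_upwards [e] with x hx
      rw [← integral_const_mul]
      refine integral_congr_ae ?_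
      filter_upwards [hx] with y hy
      rw [Real.norm_eq_abs, abs_of_nonneg (sq_nonneg _), hy]
  have m4 : MemLp (fun p : WithLp 2 (V × W) =>
      ξ p.fst • D P p + P p • D (fun p : WithLp 2 (V × W) => ξ p.fst) p) 2 volume := m2.add m3
  obtain ⟨hl, hD⟩ := hla.mul hP.hl (fun K _ => m1.restrict K) (fun K _ => m4.restrict K)
  have m5 : MemLp (D fun p : WithLp 2 (V × W) => ξ p.fst * P p) 2 volume :=
    m4.ae_eq (EventuallyEq.symm hD)
  have hΞ : H1 fun p : WithLp 2 (V × W) => ξ p.fst * P p := hl.h1 m1 m5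
  have key := h.eq _ hΞ
  have j1 : Integrable fun p => (1 / 2 : ℝ) *
      ⟪D P p, D (fun p : WithLp 2 (V × W) => ξ p.fst * P p) p⟫ :=
    (s13_inner_int hP.dl2 m5).const_mul _
  have j2 : Integrable fun p => A p * (ξ p.fst * P p) := s13_smul_int h.l2 m1
  have j3 : Integrable fun p => (1 / 2 : ℝ) *
      ⟪D P p, D (fun p : WithLp 2 (V × W) => ξ p.fst * P p) p⟫ - A p * (ξ p.fst * P p) :=
    j1.sub j2
  have k0 : ∫ p, ((1 / 2 : ℝ) * ⟪D P p, D (fun p : WithLp 2 (V × W) => ξ p.fst * P p) p⟫ -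
      A p * (ξ p.fst * P p)) = 0 := by
    rw [integral_sub j1 j2, key, sub_self]
  rw [integral_pt j3] at k0
  have i2 : Integrable fun p => ‖(D P p).fst‖ ^ 2 := s13_sqn_int (s13_fst2 hP.dl2)
  have i3 : Integrable fun p => P p • (D P p).fst := s13_smul_int hP.l2 (s13_fst2 hP.dl2)
  have i4 : Integrable fun p => A p * P p - (1 / 2) * ‖(D P p).snd‖ ^ 2 :=
    (s13_smul_int h.l2 hP.l2).sub ((s13_sqn_int (s13_snd2 hP.dl2)).const_mul _)
  have e : ∀ᵐ x, ∫ y, ((1 / 2 : ℝ) * ⟪D P (pt x y),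
      D (fun p : WithLp 2 (V × W) => ξ p.fst * P p) (pt x y)⟫ -
      A (pt x y) * (ξ (pt x y).fst * P (pt x y))) =
      (1 / 2) * (ξ x * ∫ y, ‖(D P (pt x y)).fst‖ ^ 2) +
      (1 / 2) * ⟪∫ y, P (pt x y) • (D P (pt x y)).fst, D ξ x⟫ -
      ξ x * ∫ y, (A (pt x y) * P (pt x y) - (1 / 2) * ‖(D P (pt x y)).snd‖ ^ 2) := by
    filter_upwards [ae_pt hD, ae_pt hDa, (s13_intg i2).1, (s13_intg i3).1, (s13_intg i4).1]
      with x e1 e2 k2 k3 k4
    have l2 : Integrable fun y => (1 / 2 : ℝ) * (ξ x * ‖(D P (pt x y)).fst‖ ^ 2) :=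
      (k2.const_mul _).const_mul _
    have l3 : Integrable fun y => (1 / 2 : ℝ) * ⟪D ξ x, P (pt x y) • (D P (pt x y)).fst⟫ :=
      (k3.const_inner _).const_mul _
    have l4 : Integrable fun y =>
        ξ x * (A (pt x y) * P (pt x y) - (1 / 2) * ‖(D P (pt x y)).snd‖ ^ 2) := k4.const_mul _
    have l5 : Integrable fun y => (1 / 2 : ℝ) * (ξ x * ‖(D P (pt x y)).fst‖ ^ 2) +
        (1 / 2 : ℝ) * ⟪D ξ x, P (pt x y) • (D P (pt x y)).fst⟫ := l2.add l3
    rw [real_inner_comm, ← integral_inner k3, ← integral_const_mul, ← integral_const_mul,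
      ← integral_const_mul, ← integral_const_mul, ← integral_add l2 l3, ← integral_sub l5 l4]
    refine integral_congr_ae ?_
    filter_upwards [e1, e2] with y f1 f2
    rw [f1, f2, inner_add_right, real_inner_smul_right, real_inner_smul_right,
      real_inner_smul_right, real_inner_self_eq_norm_sq, WithLp.prod_norm_sq_eq_of_L2,
      WithLp.prod_inner_apply]
    simp only [inner_zero_right, add_zero]
    show 1 / 2 * (ξ x * (‖(D P (pt x y)).fst‖ ^ 2 + ‖(D P (pt x y)).snd‖ ^ 2) +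
      P (pt x y) * ⟪(D P (pt x y)).fst, D ξ x⟫) - A (pt x y) * (ξ x * P (pt x y)) = _
    rw [real_inner_comm]
    ring
  exact ⟨(s13_intg j3).2.congr e, (integral_congr_ae e).symm.trans k0⟩

end

end Crest.Agent.R335
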