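import Crest.Agent.R335.S08
import Crest.Agent.R335.S12
import Crest.Agent.R335.S13Aux2

set_option autoImplicit false

open MeasureTheory Set Filter Topology Metric
open scoped Gradient ContDiff RealInnerProductSpace ENNReal

namespace Crest.Agent.R335

noncomputable section

variable {V : Type*} [NormedAddCommGroup V] [InnerProductSpace ℝ V] [FiniteDimensional ℝ V]
  [MeasurableSpace V] [BorelSpace V]

variable {W : Type*} [NormedAddCommGroup W] [InnerProductSpace ℝ W] [FiniteDimensional ℝ W]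
  [MeasurableSpace W] [BorelSpace W]

/-! the slice norm of a family of solutions is a subsolution -/
/-- slice norm -/
def snorm {ι : Type} [Fintype ι] (P : ι → WithLp 2 (V × W) → ℝ) (x : V) : ℝ :=
  √(∑ i, ∫ y, P i (pt x y) ^ 2)
/-- slice energy `Σ ∫ (A P - ½ |∇_y P|²) dy` -/
def srem {ι : Type} [Fintype ι] (P A : ι → WithLp 2 (V × W) → ℝ) (x : V) : ℝ :=
  ∑ i, ∫ y, (A i (pt x y) * P i (pt x y) - (1 / 2) * ‖(D (P i) (pt x y)).snd‖ ^ 2)
theorem s13_snorm_sq {ι : Type} [Fintype ι] (P : ι → WithLp 2 (V × W) → ℝ) (x : V) :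
    snorm P x ^ 2 = s13N P x := Real.sq_sqrt (s13N_nonneg P x)
theorem s13_snorm_D {ι : Type} [Fintype ι] {P : ι → WithLp 2 (V × W) → ℝ} (h : ∀ i, H1 (P i)) :
    ∀ᵐ x, D (snorm P) x = (snorm P x)⁻¹ • s13G P x := (s13_zero h).D_eq
theorem s13_test {ι : Type} [Fintype ι] {P A : ι → WithLp 2 (V × W) → ℝ}
    (h : ∀ i, Sol (P i) (A i)) {ξ : V → ℝ} (h1 : Hl ξ) (hb : Bd ξ)
    (h2 : Integrable fun x => ‖D ξ x‖ ^ 2 * s13N P x) :
    Integrable (fun x => (1 / 2) * (ξ x * s13H P x) + (1 / 2) * ⟪s13G P x, D ξ x⟫ -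
      ξ x * srem P A x) ∧
    ∫ x, ((1 / 2) * (ξ x * s13H P x) + (1 / 2) * ⟪s13G P x, D ξ x⟫ - ξ x * srem P A x) = 0 := by
  have h3 : ∀ i, Integrable fun x => ‖D ξ x‖ ^ 2 * ∫ y, P i (pt x y) ^ 2 := by
    intro i
    refine h2.mono' ((h1.aesm_D.norm.pow 2).mul (s13_intg (h i).h1.l2.integrable_sq).2.1)
      (Eventually.of_forall fun x => ?_)
    have h4 : ∀ j, 0 ≤ ∫ y, P j (pt x y) ^ 2 := fun j => integral_nonneg fun y => sq_nonneg _
    rw [Real.norm_eq_abs, abs_of_nonneg (mul_nonneg (sq_nonneg _) (h4 i))]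
    exact mul_le_mul_of_nonneg_left
      (Finset.single_le_sum (fun j _ => h4 j) (Finset.mem_univ i)) (sq_nonneg _)
  have h5 := fun i => s13_test_one (h i) h1 hb (h3 i)
  have e : (fun x => (1 / 2) * (ξ x * s13H P x) + (1 / 2) * ⟪s13G P x, D ξ x⟫ -
      ξ x * srem P A x) = fun x => ∑ i, ((1 / 2) * (ξ x * ∫ y, ‖(D (P i) (pt x y)).fst‖ ^ 2) +
      (1 / 2) * ⟪∫ y, P i (pt x y) • (D (P i) (pt x y)).fst, D ξ x⟫ - ξ x *
        ∫ y, (A i (pt x y) * P i (pt x y) - (1 / 2) * ‖(D (P i) (pt x y)).snd‖ ^ 2)) := by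
    funext x
    unfold s13H s13G srem
    rw [sum_inner, Finset.sum_sub_distrib, Finset.sum_add_distrib, ← Finset.mul_sum,
      ← Finset.mul_sum, ← Finset.mul_sum, ← Finset.mul_sum]
  rw [e]
  refine ⟨integrable_finsetSum _ fun i _ => (h5 i).1, ?_⟩
  rw [integral_finsetSum _ fun i _ => (h5 i).1]
  exact Finset.sum_eq_zero fun i _ => (h5 i).2
theorem snorm_h1 {ι : Type} [Fintype ι] {P : ι → WithLp 2 (V × W) → ℝ} (h : ∀ i, H1 (P i)) :
    H1 (snorm P) ∧ nsq (snorm P) = ∑ i, nsq (P i) ∧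
      (∀ᵐ x, ‖D (snorm P) x‖ ^ 2 ≤ ∑ i, ∫ y, ‖(D (P i) (pt x y)).fst‖ ^ 2) ∧
      (∀ᵐ x, snorm P x • D (snorm P) x = ∑ i, ∫ y, P i (pt x y) • (D (P i) (pt x y)).fst) ∧
      dir (snorm P) ≤ ∑ i, dir (P i) := by
  have hW : IsW (snorm P) (fun x => (snorm P x)⁻¹ • s13G P x) := s13_zero h
  have hD := s13_snorm_D h
  have b1 : ∀ᵐ x, ‖D (snorm P) x‖ ^ 2 ≤ s13H P x := by
    filter_upwards [hD, s13G_sq h] with x h1 h2
    have h3 := s13_alg (τ := 0) (t := 0) (s13N_nonneg P x) (s13H_nonneg P x) h2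
    rw [h1]
    show ‖(√(s13N P x))⁻¹ • s13G P x‖ ^ 2 ≤ s13H P x
    simpa using h3
  have m1 : MemLp (snorm P) 2 volume := by
    refine (memLp_two_iff_integrable_sq hW.lu.aestronglyMeasurable).2 ?_
    exact (s13N_int h).congr (Eventually.of_forall fun x => (s13_snorm_sq P x).symm)
  have hm := hW.isW_D.lg.aestronglyMeasurable
  have i2 : Integrable fun x => ‖D (snorm P) x‖ ^ 2 := by
    refine Integrable.mono' (s13H_int h) (hm.norm.pow 2) ?_
    filter_upwards [b1] with x hx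
    rw [Real.norm_eq_abs, abs_of_nonneg (sq_nonneg _)]
    exact hx
  refine ⟨⟨hW.isW_D, m1, (memLp_two_iff_integrable_sq_norm hm).2 i2⟩, ?_, b1, ?_, ?_⟩
  · rw [← s13N_integral h]
    exact integral_congr_ae (Eventually.of_forall fun x => s13_snorm_sq P x)
  · filter_upwards [hD, s13G_sq h] with x h1 h2
    show _ = s13G P x
    rw [h1, smul_smul]
    by_cases h3 : snorm P x = 0
    · rw [← s13_snorm_sq, h3] at h2
      have h4 : ‖s13G P x‖ ^ 2 = 0 := le_antisymm (by simpa using h2) (sq_nonneg _)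
      rw [norm_eq_zero.1 (pow_eq_zero_iff two_ne_zero |>.1 h4), smul_zero]
    · rw [mul_inv_cancel₀ h3, one_smul]
  · exact (integral_mono_ae i2 (s13H_int h) b1).trans (s13H_integral h)
/-- test the equation of `P i` with `χ P i / √(p² + τ²)` -/
theorem snorm_sub_tau {ι : Type} [Fintype ι] {P A : ι → WithLp 2 (V × W) → ℝ}
    (h : ∀ i, Sol (P i) (A i)) {τ S : V → ℝ} (hτ : ContDiff ℝ 2 τ) (hτ0 : ∀ x, 0 < τ x) {Ω : Set V}
    (hS : ∀ K, IsCompact K → K ⊆ Ω → IntegrableOn S K volume)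
    (hle : ∀ᵐ x, x ∈ Ω →
      srem P A x - (1 / 2) * τ x * lap τ x ≤ S x * √(snorm P x ^ 2 + τ x ^ 2)) :
    Sub Ω (fun x => √(snorm P x ^ 2 + τ x ^ 2)) S := by
  simp only [s13_snorm_sq] at hle ⊢
  have hP : ∀ i, H1 (P i) := fun i => (h i).h1
  have hτ1 : ContDiff ℝ 1 τ := hτ.of_le (by norm_num)
  have hl := s13_tau_hl hP hτ1 hτ0
  have hD := (s13_tau hP hτ1 hτ0).D_eq
  have hA : ∀ᵐ x, ‖(√(s13N P x + τ x ^ 2))⁻¹ • (s13G P x + τ x • ∇ τ x)‖ ^ 2 ≤
      s13H P x + ‖∇ τ x‖ ^ 2 := by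
    filter_upwards [s13G_sq hP] with x hx
    exact s13_alg (s13N_nonneg P x) (s13H_nonneg P x) hx
  have hτp : ∀ x, τ x ≤ √(s13N P x + τ x ^ 2) := fun x =>
    Real.le_sqrt_of_sq_le (le_add_of_nonneg_left (s13N_nonneg P x))
  have hNp : ∀ x, s13N P x ≤ √(s13N P x + τ x ^ 2) ^ 2 := fun x => by
    rw [Real.sq_sqrt (add_nonneg (s13N_nonneg P x) (sq_nonneg _))]
    exact le_add_of_nonneg_right (sq_nonneg _)
  obtain ⟨p, hp⟩ : ∃ p : V → ℝ, p = fun x => √(s13N P x + τ x ^ 2) := ⟨_, rfl⟩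
  have hp' : ∀ x, √(s13N P x + τ x ^ 2) = p x := fun x => by rw [hp]
  rw [← hp] at hl hD ⊢
  simp only [hp'] at hD hA hτp hNp hle
  have hp0 : ∀ x, 0 < p x := fun x => (hτ0 x).trans_le (hτp x)
  obtain ⟨bi, di⟩ := s13_inv hl hτ.continuous hτ0 hτp
  refine ⟨hl, hS, fun χ hχ hχ0 => ?_⟩
  have tξ : TF Ω fun x => (p x)⁻¹ * χ x := hχ.mul bi
  have dξ := (bi.mul hχ.bl).2
  obtain ⟨ξ, hξ⟩ : ∃ ξ : V → ℝ, ξ = fun x => (p x)⁻¹ * χ x := ⟨_, rfl⟩
  rw [← hξ] at tξ dξ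
  have hξ' : ∀ x, χ x = p x * ξ x := fun x => by
    rw [hξ, mul_inv_cancel_left₀ (hp0 x).ne']
  have dξ' : ∀ᵐ x, p x • D ξ x = D χ x - ξ x • D p x := by
    filter_upwards [dξ, di] with x e1 e2
    rw [e1, e2, smul_add, smul_smul, smul_smul, smul_smul, mul_inv_cancel₀ (hp0 x).ne', one_smul,
      sub_eq_add_neg, ← neg_smul, hξ' x]
    congr 2
    have := (hp0 x).ne'
    field_simp
  obtain ⟨K, hK, hKΩ, hK0⟩ := hχ.cs
  obtain ⟨K', hK', -, hK0'⟩ := tξ.cs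
  have i1 : Integrable fun x => ‖D p x‖ ^ 2 * (ξ x * ξ x) := by
    obtain ⟨M, hM⟩ := tξ.bd
    refine s13_int_cs hK' (s13_sqn_int (hl.dl2 K' hK')) (tξ.h1.l2.1.mul tξ.h1.l2.1)
      ⟨M * M, ?_⟩ ?_
    · filter_upwards [hM] with x hx
      rw [abs_mul]
      exact mul_self_le_mul_self (abs_nonneg _) hx
    · filter_upwards [hK0'] with x hx hxK
      rw [hx hxK, mul_zero]
  have i2 : Integrable fun x => ‖D ξ x‖ ^ 2 * s13N P x := by
    have j : Integrable fun x => 2 * ‖D χ x‖ ^ 2 + 2 * (‖D p x‖ ^ 2 * (ξ x * ξ x)) :=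
      ((s13_sqn_int hχ.h1.dl2).const_mul 2).add (i1.const_mul 2)
    refine j.mono' ((tξ.h1.dl2.1.norm.pow 2).mul (s13N_int hP).1) ?_
    filter_upwards [dξ'] with x hx
    rw [Real.norm_eq_abs, abs_of_nonneg (mul_nonneg (sq_nonneg _) (s13N_nonneg P x))]
    have e1 : ‖D ξ x‖ ^ 2 * s13N P x ≤ ‖p x • D ξ x‖ ^ 2 := by
      rw [norm_smul, mul_pow, Real.norm_eq_abs, sq_abs, mul_comm (p x ^ 2)]
      exact mul_le_mul_of_nonneg_left (hNp x) (sq_nonneg _)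
    have e2 : ‖p x • D ξ x‖ ≤ ‖D χ x‖ + |ξ x| * ‖D p x‖ := by
      rw [hx, ← Real.norm_eq_abs, ← norm_smul]
      exact norm_sub_le _ _
    have e3 := pow_le_pow_left₀ (norm_nonneg _) e2 2
    rw [← abs_mul_abs_self (ξ x)]
    nlinarith [sq_nonneg (‖D χ x‖ - |ξ x| * ‖D p x‖)]
  obtain ⟨z1, z2⟩ := s13_test h tξ.h1.hl tξ.bd i2
  have tτ : TF Ω fun x => τ x * ξ x := tξ.mul (bl_c1 hτ1)
  have dτ := D_mul_c1 tξ.h1.hl hτ1
  have l1 := ibp_lap isOpen_univ hτ.contDiffOn tτ.h1 (tτ.mono (subset_univ _)).cs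
  have i3 : Integrable fun x => ⟪∇ τ x, D (fun x => τ x * ξ x) x⟫ :=
    s13_inner_cs (fun K hK => s01_memLp_two (s13_grad_cont hτ1) hK) tτ.h1 tτ.cs
  have i4 : Integrable fun x => lap τ x * (τ x * ξ x) := by
    obtain ⟨K'', hK'', -, hK0''⟩ := tτ.cs
    exact s13_int_cs hK'' ((s13_lap_cont hτ).continuousOn.integrableOn_compact hK'') tτ.h1.l2.1
      tτ.bd hK0''
  have i5 : Integrable fun x => S x * χ x := s13_int_cs hK (hS K hK hKΩ) hχ.h1.l2.1 hχ.bd hK0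
  have i6 : Integrable fun x => (1 / 2 : ℝ) * 1 * ⟪D p x, D χ x⟫ :=
    (s13_inner_cs hl.dl2 hχ.h1 hχ.cs).const_mul _
  have i7 : Integrable fun x => (1 / 2 : ℝ) *
      (⟪∇ τ x, D (fun x => τ x * ξ x) x⟫ + lap τ x * (τ x * ξ x)) := (i3.add i4).const_mul _
  have i8 : Integrable fun x => S x * χ x + ((1 / 2) * (ξ x * s13H P x) +
      (1 / 2) * ⟪s13G P x, D ξ x⟫ - ξ x * srem P A x) := i5.add z1
  have e : ∫ x, S x * χ x = ∫ x, (S x * χ x + ((1 / 2) * (ξ x * s13H P x) +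
      (1 / 2) * ⟪s13G P x, D ξ x⟫ - ξ x * srem P A x) + (1 / 2 : ℝ) *
      (⟪∇ τ x, D (fun x => τ x * ξ x) x⟫ + lap τ x * (τ x * ξ x))) := by
    rw [integral_add i8 i7, integral_add i5 z1, z2, integral_const_mul, integral_add i3 i4, l1]
    ring
  rw [e]
  refine integral_mono_ae i6 (i8.add i7) ?_
  filter_upwards [hD, hA, dξ', dτ, hle, hK0, hχ0] with x e1 e2 e3 e4 e5 e6 e7
  rw [← e1] at e2
  have e8 : 0 ≤ ξ x := by
    rw [hξ' x] at e7
    exact (mul_nonneg_iff_of_pos_left (hp0 x)).1 e7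
  have e9 : ξ x * (srem P A x - 1 / 2 * τ x * lap τ x) ≤ S x * χ x := by
    by_cases hx : x ∈ K
    · have := mul_le_mul_of_nonneg_left (e5 (hKΩ hx)) e8
      rw [hξ' x]
      linarith
    · have h0 := e6 hx
      have h1 : ξ x = 0 := by rw [hξ]; simp [h0]
      rw [h0, h1]
      simp
  have e10 : s13G P x + τ x • ∇ τ x = p x • D p x := by
    rw [e1, smul_smul, mul_inv_cancel₀ (hp0 x).ne', one_smul]
  have e11 : ⟪s13G P x, D ξ x⟫ + τ x * ⟪∇ τ x, D ξ x⟫ = ⟪D p x, D χ x⟫ - ξ x * ‖D p x‖ ^ 2 := by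
    rw [← real_inner_smul_left, ← inner_add_left, e10, real_inner_smul_left,
      ← real_inner_smul_right, e3, inner_sub_right, real_inner_smul_right,
      real_inner_self_eq_norm_sq]
  have e12 := mul_le_mul_of_nonneg_left e2 e8
  rw [e4, inner_add_right, real_inner_smul_right, real_inner_smul_right,
    real_inner_self_eq_norm_sq]
  linarith
theorem snorm_sub {ι : Type} [Fintype ι] {P A : ι → WithLp 2 (V × W) → ℝ}
    (h : ∀ i, Sol (P i) (A i)) {S : V → ℝ} {Ω : Set V}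
    (hS : ∀ K, IsCompact K → K ⊆ Ω → IntegrableOn S K volume)
    (hle : ∀ᵐ x, x ∈ Ω → srem P A x ≤ S x * snorm P x ∧ (snorm P x = 0 → 0 ≤ S x)) :
    Sub Ω (snorm P) S := by
  have hP : ∀ i, H1 (P i) := fun i => (h i).h1
  obtain ⟨h1, -, -, hG, -⟩ := snorm_h1 hP
  refine ⟨h1.hl, hS, fun χ hχ hχ0 => ?_⟩
  obtain ⟨K, hK, hKΩ, hK0⟩ := hχ.cs
  have p0 : ∀ x, 0 ≤ snorm P x := fun x => Real.sqrt_nonneg _
  obtain ⟨ε, hε⟩ : ∃ ε : ℕ → ℝ, ε = fun n : ℕ => 1 / ((n : ℝ) + 1) := ⟨_, rfl⟩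
  have ε0 : ∀ n, 0 < ε n := fun n => by rw [hε]; exact Nat.one_div_pos_of_nat
  have t0 : Tendsto ε atTop (𝓝 0) := by rw [hε]; exact tendsto_one_div_add_atTop_nhds_zero_nat
  have q0 : ∀ n x, 0 < √(snorm P x ^ 2 + ε n ^ 2) := fun n x =>
    Real.sqrt_pos.2 (add_pos_of_nonneg_of_pos (sq_nonneg _) (pow_pos (ε0 n) 2))
  obtain ⟨θ, hθ⟩ : ∃ θ : ℕ → V → ℝ, θ = fun n x => snorm P x / √(snorm P x ^ 2 + ε n ^ 2) :=
    ⟨_, rfl⟩
  have θ1 : ∀ n x, ‖θ n x‖ ≤ 1 := by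
    intro n x
    rw [hθ, Real.norm_eq_abs, abs_of_nonneg (div_nonneg (p0 x) (q0 n x).le), div_le_one (q0 n x)]
    exact Real.le_sqrt_of_sq_le (le_add_of_nonneg_right (sq_nonneg _))
  have θm : ∀ n, AEStronglyMeasurable (θ n) volume := by
    intro n
    have := h1.l2.1.aemeasurable
    rw [hθ]
    exact (this.div ((this.pow_const 2).add_const _).sqrt).aestronglyMeasurable
  have θt : ∀ x, Tendsto (fun n => θ n x) atTop (𝓝 (snorm P x / snorm P x)) := by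
    intro x
    rw [hθ]
    rcases (p0 x).eq_or_lt with h2 | h2
    · simp only [← h2, zero_div]
      exact tendsto_const_nhds
    · have h3 := ((t0.pow 2).const_add (snorm P x ^ 2)).sqrt
      rw [zero_pow two_ne_zero, add_zero, Real.sqrt_sq h2.le] at h3
      exact tendsto_const_nhds.div h3 h2.ne'
  have i5 : Integrable fun x => S x * χ x := s13_int_cs hK (hS K hK hKΩ) hχ.h1.l2.1 hχ.bd hK0
  have i6 : Integrable fun x => (1 / 2 : ℝ) * 1 * ⟪D (snorm P) x, D χ x⟫ :=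
    (s13_inner_int h1.dl2 hχ.h1.dl2).const_mul _
  have i7 : Integrable fun x => S x * χ x - (1 / 2 : ℝ) * 1 * ⟪D (snorm P) x, D χ x⟫ := i5.sub i6
  have key : ∀ n, 0 ≤ ∫ x, (S x * χ x - (1 / 2 : ℝ) * 1 * ⟪D (snorm P) x, D χ x⟫) * θ n x := by
    intro n
    have a := snorm_sub_tau h (τ := fun _ => ε n) (S := fun x => S x * θ n x) (Ω := Ω)
      contDiff_const (fun _ => ε0 n)
      (fun K hK hKΩ => Integrable.mul_bdd (c := 1) (hS K hK hKΩ) (θm n).restrict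
        (Eventually.of_forall (θ1 n))) (by
        filter_upwards [hle] with x hx hxΩ
        rw [s13_lap_const, mul_zero, sub_zero, hθ, mul_assoc, div_mul_cancel₀ _ (q0 n x).ne']
        exact (hx hxΩ).1)
    have b := a.le χ hχ hχ0
    have d := (s13_tau hP (τ := fun _ => ε n) contDiff_const fun _ => ε0 n).D_eq
    simp only [← s13_snorm_sq] at d
    have e1 : ∫ x, (1 / 2 : ℝ) * 1 * ⟪D (fun x => √(snorm P x ^ 2 + ε n ^ 2)) x, D χ x⟫ =
        ∫ x, (1 / 2 : ℝ) * 1 * ⟪D (snorm P) x, D χ x⟫ * θ n x := by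
      refine integral_congr_ae ?_
      filter_upwards [d, hG] with x e2 e3
      change _ = s13G P x at e3
      rw [e2, gradient_fun_const, smul_zero, add_zero, ← e3, real_inner_smul_left,
        real_inner_smul_left, hθ]
      ring
    have e2 : ∫ x, S x * θ n x * χ x = ∫ x, S x * χ x * θ n x :=
      integral_congr_ae (Eventually.of_forall fun x => mul_right_comm _ _ _)
    simp_rw [sub_mul]
    rw [integral_sub (i5.mul_bdd (c := 1) (θm n) (Eventually.of_forall (θ1 n)))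
      (i6.mul_bdd (c := 1) (θm n) (Eventually.of_forall (θ1 n))), ← e1, ← e2]
    exact sub_nonneg.2 b
  have lim : Tendsto (fun n => ∫ x, (S x * χ x - (1 / 2 : ℝ) * 1 * ⟪D (snorm P) x, D χ x⟫) * θ n x)
      atTop (𝓝 (∫ x, (S x * χ x - (1 / 2 : ℝ) * 1 * ⟪D (snorm P) x, D χ x⟫) *
        (snorm P x / snorm P x))) := by
    refine tendsto_integral_of_dominated_convergence _ (fun n => i7.1.mul (θm n)) i7.norm
      (fun n => Eventually.of_forall fun x => ?_)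
      (Eventually.of_forall fun x => (θt x).const_mul _)
    rw [norm_mul]
    exact mul_le_of_le_one_right (norm_nonneg _) (θ1 n x)
  have l2 := ge_of_tendsto' lim key
  have l3 : ∫ x, (S x * χ x - (1 / 2 : ℝ) * 1 * ⟪D (snorm P) x, D χ x⟫) * (snorm P x / snorm P x) ≤
      ∫ x, (S x * χ x - (1 / 2 : ℝ) * 1 * ⟪D (snorm P) x, D χ x⟫) := by
    refine integral_mono_ae (i7.mul_bdd (c := 1)
      (h1.l2.1.aemeasurable.div h1.l2.1.aemeasurable).aestronglyMeasurable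
      (Eventually.of_forall fun x => ?_)) i7 ?_
    · rw [norm_div]
      exact div_self_le_one _
    · filter_upwards [s13_snorm_D hP, hle, hK0, hχ0] with x e1 e2 e3 e4
      by_cases h2 : snorm P x = 0
      · rw [e1, h2]
        simp only [inv_zero, zero_smul, inner_zero_left, mul_zero, sub_zero, div_zero]
        by_cases hx : x ∈ K
        · exact mul_nonneg ((e2 (hKΩ hx)).2 h2) e4
        · rw [e3 hx, mul_zero]
      · rw [div_self h2, mul_one]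
  rw [integral_sub i5 i6] at l3
  exact sub_nonneg.1 (l2.trans l3)

end

end Crest.Agent.R335
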