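import Crest.Agent.R335.Defs3
import Crest.Agent.R335.S13
import Crest.Agent.R335.S11
import Crest.Agent.R335.S09

set_option autoImplicit false

open MeasureTheory Set Filter Topology Metric
open scoped Gradient ContDiff RealInnerProductSpace ENNReal

namespace Crest.Agent.R335

noncomputable section

/-! module K: the certificate integrated over slices -/

theorem K1_aesm {X : Type*} [TopologicalSpace X] {k : E → X} (hk : AEStronglyMeasurable k volume) :
    AEStronglyMeasurable (fun p : E9 => k p.fst) volume :=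
  hk.comp_quasiMeasurePreserving (Measure.quasiMeasurePreserving_fst.comp
    (WithLp.volume_preserving_ofLp E E6).quasiMeasurePreserving)

theorem K1_int {k : E → ℝ} (hk : AEStronglyMeasurable k volume) {P : E9 → ℝ} (hP : MemLp P 2 volume)
    (hi : Integrable fun x => k x * ∫ y, P (pt x y) ^ 2) :
    Integrable fun p : E9 => k p.fst * P p ^ 2 := by
  refine s13_int_of_slices ((K1_aesm hk).mul (hP.1.pow 2)) ?_ ?_
  · filter_upwards [(s13_intg hP.integrable_sq).1] with x hx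
    exact hx.const_mul (k x)
  · refine hi.norm.congr (ae_of_all _ fun x => ?_)
    show ‖k x * ∫ y, P (pt x y) ^ 2‖ = ∫ y, ‖k x * P (pt x y) ^ 2‖
    rw [norm_mul, Real.norm_of_nonneg (integral_nonneg fun _ => sq_nonneg _), ← integral_const_mul]
    refine integral_congr_ae (ae_of_all _ fun y => ?_)
    simp only [norm_mul, Real.norm_of_nonneg (sq_nonneg (P (pt x y)))]

theorem K1_one {r u : E → ℝ} {δ : ℝ} (hA : Ang r u δ) (hC : Cert r u δ) {P : E9 → ℝ} (hP : H1 P)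
    (hi : Integrable fun x => (‖(r x)⁻¹ • D r x‖ ^ 2 + ‖D u x‖ ^ 2) * ∫ y, P (pt x y) ^ 2) :
    Integrable (fun x => ⟪∫ y, P (pt x y) • (D P (pt x y)).fst, (r x)⁻¹ • D r x⟫) ∧
    Integrable (fun x => ((1 / 2) * ‖(r x)⁻¹ • D r x‖ ^ 2 - (1 / 2) * ‖D u x‖ ^ 2 -
      δ * Real.cos (u x) ^ 2) * ∫ y, P (pt x y) ^ 2) ∧
    -(δ / 2 * ∫ y, (∫ x, r x * Real.cos (u x) * P (pt x y)) ^ 2) ≤
      (1 / 2) * (∫ x, ∫ y, ‖(D P (pt x y)).fst‖ ^ 2) -
        (∫ x, ⟪∫ y, P (pt x y) • (D P (pt x y)).fst, (r x)⁻¹ • D r x⟫) +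
        ∫ x, ((1 / 2) * ‖(r x)⁻¹ • D r x‖ ^ 2 - (1 / 2) * ‖D u x‖ ^ 2 - δ * Real.cos (u x) ^ 2) *
          ∫ y, P (pt x y) ^ 2 := by
  have ma : AEStronglyMeasurable (fun x => (r x)⁻¹ • D r x) volume :=
    hA.hr.hl.aesm.aemeasurable.inv.aestronglyMeasurable.smul hA.hr.hl.aesm_D
  unfold Cert at hC
  generalize hdef : (fun x => (r x)⁻¹ • D r x) = a at ma
  have ea : ∀ x, (r x)⁻¹ • D r x = a x := fun x => congrFun hdef x
  simp only [ea] at hi hC ⊢
  have mb : AEStronglyMeasurable (fun x => ‖D u x‖ ^ 2) volume := hA.hu.aesm_D.norm.pow 2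
  have mc : AEStronglyMeasurable (fun x => Real.cos (u x) ^ 2) volume :=
    (Real.continuous_cos.comp_aestronglyMeasurable hA.hu.aesm).pow 2
  have m2 : AEStronglyMeasurable (fun p : E9 => P p ^ 2) volume := hP.l2.1.pow 2
  have iW : Integrable fun p : E9 => (‖a p.fst‖ ^ 2 + ‖D u p.fst‖ ^ 2) * P p ^ 2 :=
    K1_int (k := fun x => ‖a x‖ ^ 2 + ‖D u x‖ ^ 2) ((ma.norm.pow 2).add mb) hP.l2 hi
  have iA : Integrable fun p : E9 => ‖a p.fst‖ ^ 2 * P p ^ 2 := by
    refine iW.mono' ((K1_aesm (ma.norm.pow 2)).mul m2) (ae_of_all _ fun p => ?_)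
    rw [Real.norm_of_nonneg (by positivity)]
    exact mul_le_mul_of_nonneg_right (le_add_of_nonneg_right (sq_nonneg _)) (sq_nonneg _)
  have iB : Integrable fun p : E9 => ‖D u p.fst‖ ^ 2 * P p ^ 2 := by
    refine iW.mono' ((K1_aesm mb).mul m2) (ae_of_all _ fun p => ?_)
    rw [Real.norm_of_nonneg (by positivity)]
    exact mul_le_mul_of_nonneg_right (le_add_of_nonneg_left (sq_nonneg _)) (sq_nonneg _)
  have iC : Integrable fun p : E9 => Real.cos (u p.fst) ^ 2 * P p ^ 2 :=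
    hP.l2.integrable_sq.bdd_mul (c := 1) (K1_aesm mc) (ae_of_all _ fun p => by
      rw [Real.norm_of_nonneg (sq_nonneg _)]
      exact Real.cos_sq_le_one _)
  have l2a : MemLp (fun p : E9 => P p • a p.fst) 2 volume := by
    refine (memLp_two_iff_integrable_sq_norm (hP.l2.1.smul (K1_aesm ma))).2
      (iA.congr (ae_of_all _ fun p => ?_))
    simp only [Pi.smul_apply', norm_smul, mul_pow, Real.norm_eq_abs, sq_abs, mul_comm]
  have l2d := s13_fst2 hP.dl2
  have i1 := s13_sqn_int l2d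
  have i2 : Integrable fun p : E9 => ⟪P p • (D P p).fst, a p.fst⟫ := by
    refine (s13_inner_int l2d l2a).congr (ae_of_all _ fun p => ?_)
    simp only [real_inner_smul_left, real_inner_smul_right]
  have i3 : Integrable fun p : E9 => ((1 / 2) * ‖a p.fst‖ ^ 2 - (1 / 2) * ‖D u p.fst‖ ^ 2 -
      δ * Real.cos (u p.fst) ^ 2) * P p ^ 2 := by
    refine (((iA.const_mul (1 / 2)).sub (iB.const_mul (1 / 2))).sub (iC.const_mul δ)).congr
      (ae_of_all _ fun p => ?_)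
    simp only [Pi.sub_apply]
    ring
  have e2 : ∀ᵐ x, ∫ y, ⟪P (pt x y) • (D P (pt x y)).fst, a x⟫ =
      ⟪∫ y, P (pt x y) • (D P (pt x y)).fst, a x⟫ := by
    filter_upwards [(s13_intg (s13_smul_int hP.l2 l2d)).1] with x hx
    rw [real_inner_comm, ← integral_inner hx]
    simp only [real_inner_comm (a x)]
  have e3 : ∀ x, ∫ y, ((1 / 2) * ‖a x‖ ^ 2 - (1 / 2) * ‖D u x‖ ^ 2 - δ * Real.cos (u x) ^ 2) *
      P (pt x y) ^ 2 = ((1 / 2) * ‖a x‖ ^ 2 - (1 / 2) * ‖D u x‖ ^ 2 - δ * Real.cos (u x) ^ 2) *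
      ∫ y, P (pt x y) ^ 2 := fun x => integral_const_mul _ _
  refine ⟨(s13_intg i2).2.congr e2, (s13_intg i3).2.congr (ae_of_all _ e3), ?_⟩
  have f1 : ∫ x, ∫ y, ‖(D P (pt x y)).fst‖ ^ 2 = ∫ p, ‖(D P p).fst‖ ^ 2 := (S08_integral i1).symm
  have f2 : ∫ x, ⟪∫ y, P (pt x y) • (D P (pt x y)).fst, a x⟫ =
      ∫ p : E9, ⟪P p • (D P p).fst, a p.fst⟫ :=
    ((S08_integral i2).trans (integral_congr_ae e2)).symm
  have f3 : ∫ x, ((1 / 2) * ‖a x‖ ^ 2 - (1 / 2) * ‖D u x‖ ^ 2 - δ * Real.cos (u x) ^ 2) *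
      ∫ y, P (pt x y) ^ 2 = ∫ p : E9, ((1 / 2) * ‖a p.fst‖ ^ 2 - (1 / 2) * ‖D u p.fst‖ ^ 2 -
      δ * Real.cos (u p.fst) ^ 2) * P p ^ 2 :=
    ((S08_integral i3).trans (integral_congr_ae (ae_of_all _ e3))).symm
  have g1 : Integrable fun p : E9 => (1 / 2) * ‖(D P p).fst‖ ^ 2 - ⟪P p • (D P p).fst, a p.fst⟫ :=
    (i1.const_mul (1 / 2)).sub i2
  have iF : Integrable fun p : E9 => (1 / 2) * ‖(D P p).fst‖ ^ 2 - ⟪P p • (D P p).fst, a p.fst⟫ +
      ((1 / 2) * ‖a p.fst‖ ^ 2 - (1 / 2) * ‖D u p.fst‖ ^ 2 - δ * Real.cos (u p.fst) ^ 2) *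
        P p ^ 2 := g1.add i3
  rw [f1, f2, f3, ← integral_const_mul (1 / 2 : ℝ), ← integral_sub (i1.const_mul (1 / 2)) i2,
    ← integral_add g1 i3, S08_integral' iF, ← integral_const_mul, ← integral_neg]
  have iφ : Integrable fun y : E6 => (∫ x, r x * Real.cos (u x) * P (pt x y)) ^ 2 := by
    obtain ⟨L, hL⟩ := exists_swap (V := E6) (W := E)
    have h1 := S08_pair' (H := fun q => P (L q)) (hP.iso L).1.l2 hA.hφ.l2
    simp only [hL] at h1
    simpa only [mul_comm (P _)] using h1.integrable_sq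
  refine integral_mono_ae (iφ.const_mul (δ / 2)).neg (S08_int.2 iF).integral_prod_right ?_
  filter_upwards [hP.slice_fst, (S08_int.2 iW).prod_left_ae] with y h1 h2
  refine (hC _ h1.1 h2).trans (le_of_eq (integral_congr_ae ?_))
  filter_upwards [h1.2] with x hx
  rw [hx, norm_sub_sq_real, norm_smul, real_inner_smul_right]
  simp only [WithLp.toLp_fst, real_inner_smul_left, mul_pow, Real.norm_eq_abs, sq_abs]
  ring

/-- the certificate applied to the slices `x ↦ P i (x, y)` and integrated in `y` -/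
theorem K_cert {r u : E → ℝ} {δ : ℝ} (hA : Ang r u δ) (hC : Cert r u δ) {ι : Type} [Fintype ι]
    {P : ι → E9 → ℝ} (hP : ∀ i, H1 (P i))
    (hi : Integrable fun x => (‖(r x)⁻¹ • D r x‖ ^ 2 + ‖D u x‖ ^ 2) * s13N P x) :
    -(δ / 2 * ∑ i, ∫ y, (∫ x, r x * Real.cos (u x) * P i (pt x y)) ^ 2) ≤
      (1 / 2) * (∫ x, s13H P x) - (∫ x, ⟪s13G P x, (r x)⁻¹ • D r x⟫) +
        ∫ x, ((1 / 2) * ‖(r x)⁻¹ • D r x‖ ^ 2 - (1 / 2) * ‖D u x‖ ^ 2 - δ * Real.cos (u x) ^ 2) *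
          s13N P x := by
  have one : ∀ i, Integrable fun x =>
      (‖(r x)⁻¹ • D r x‖ ^ 2 + ‖D u x‖ ^ 2) * ∫ y, P i (pt x y) ^ 2 := by
    intro i
    have ma : AEStronglyMeasurable (fun x => (r x)⁻¹ • D r x) volume :=
      hA.hr.hl.aesm.aemeasurable.inv.aestronglyMeasurable.smul hA.hr.hl.aesm_D
    refine hi.mono' (((ma.norm.pow 2).add (hA.hu.aesm_D.norm.pow 2)).mul
      (s13_intg (hP i).l2.integrable_sq).2.1) (ae_of_all _ fun x => ?_)
    have h0 : ∀ j, 0 ≤ ∫ y, P j (pt x y) ^ 2 := fun j => integral_nonneg fun _ => sq_nonneg _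
    rw [Real.norm_of_nonneg (mul_nonneg (by positivity) (h0 i))]
    exact mul_le_mul_of_nonneg_left
      (Finset.single_le_sum (f := fun j => ∫ y, P j (pt x y) ^ 2) (fun j _ => h0 j)
        (Finset.mem_univ i)) (by positivity)
  have k := fun i => K1_one hA hC (hP i) (one i)
  simp only [s13H, s13G, s13N, sum_inner, Finset.mul_sum]
  rw [integral_finsetSum _ fun i _ => (s13_intg (s13_sqn_int (s13_fst2 (hP i).dl2))).2,
    integral_finsetSum _ fun i _ => (k i).1, integral_finsetSum _ fun i _ => (k i).2.1,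
    Finset.mul_sum, ← Finset.sum_neg_distrib, ← Finset.sum_sub_distrib, ← Finset.sum_add_distrib]
  exact Finset.sum_le_sum fun i _ => (k i).2.2

end

end Crest.Agent.R335
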