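import Crest.Agent.R335.Defs3
import Crest.Agent.R335.S13
import Crest.Agent.R335.S11
import Crest.Agent.R335.S09

set_option autoImplicit false

open MeasureTheory Set Filter Topology Metric
open scoped Gradient ContDiff RealInnerProductSpace ENNReal

namespace Crest.Agent.R335

noncomputable section

/-! module K: the two spin components of an antisymmetric function -/

/-- exchange of the first two electrons as an isometry -/
def K2_sw : E9 ≃ₗᵢ[ℝ] E9 where
  toFun p := sw12 p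
  invFun p := sw12 p
  map_add' _ _ := rfl
  map_smul' _ _ := rfl
  left_inv _ := rfl
  right_inv _ := rfl
  norm_map' p := by
    rw [← sq_eq_sq₀ (norm_nonneg _) (norm_nonneg _), WithLp.prod_norm_sq_eq_of_L2,
      WithLp.prod_norm_sq_eq_of_L2, WithLp.prod_norm_sq_eq_of_L2, WithLp.prod_norm_sq_eq_of_L2]
    show ‖p.snd.fst‖ ^ 2 + (‖p.fst‖ ^ 2 + ‖p.snd.snd‖ ^ 2) =
      ‖p.fst‖ ^ 2 + (‖p.snd.fst‖ ^ 2 + ‖p.snd.snd‖ ^ 2)
    ring

/-- the cyclic relabelling as an isometry -/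
def K2_cy : E9 ≃ₗᵢ[ℝ] E9 where
  toFun p := cyc p
  invFun p := pt p.snd.snd (pt p.fst p.snd.fst)
  map_add' _ _ := rfl
  map_smul' _ _ := rfl
  left_inv _ := rfl
  right_inv _ := rfl
  norm_map' p := by
    rw [← sq_eq_sq₀ (norm_nonneg _) (norm_nonneg _), WithLp.prod_norm_sq_eq_of_L2,
      WithLp.prod_norm_sq_eq_of_L2, WithLp.prod_norm_sq_eq_of_L2, WithLp.prod_norm_sq_eq_of_L2]
    show ‖p.snd.fst‖ ^ 2 + (‖p.snd.snd‖ ^ 2 + ‖p.fst‖ ^ 2) =
      ‖p.fst‖ ^ 2 + (‖p.snd.fst‖ ^ 2 + ‖p.snd.snd‖ ^ 2)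
    ring

theorem K2_int (L : E9 ≃ₗᵢ[ℝ] E9) (F : E9 → ℝ) : ∫ p, F (L p) = ∫ p, F p :=
  L.measurePreserving.integral_comp L.toHomeomorph.measurableEmbedding F

theorem K2_intg (L : E9 ≃ₗᵢ[ℝ] E9) (F : E9 → ℝ) :
    Integrable (fun p => F (L p)) ↔ Integrable F :=
  L.measurePreserving.integrable_comp_emb L.toHomeomorph.measurableEmbedding

theorem K2_sq2 (a : ℝ) : (√2 * a) ^ 2 = 2 * a ^ 2 := by
  rw [mul_pow, Real.sq_sqrt (by norm_num)]

theorem K_comp_h1 {c : E9 → ℝ} (h : H1 c) (i : Fin 2) : H1 (comp c i) := by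
  fin_cases i
  · exact h.smul √2
  · exact (h.iso K2_cy).1

theorem K_comp_nsq {c : E9 → ℝ} (h : H1 c) : ∑ i, nsq (comp c i) = 3 * nsq c := by
  rw [Fin.sum_univ_two]
  have e1 : nsq (comp c 1) = nsq c := (h.iso K2_cy).2.2
  have e0 : nsq (comp c 0) = 2 * nsq c := by
    show ∫ p, (√2 * c p) ^ 2 = 2 * ∫ p, c p ^ 2
    rw [← integral_const_mul]
    exact integral_congr_ae (Eventually.of_forall fun p => K2_sq2 _)
  rw [e0, e1]
  ring

theorem K_comp_dir {c : E9 → ℝ} (h : H1 c) (ha : Anti c) : ∫ x, s13H (comp c) x = dir c := by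
  have hc := K_comp_h1 h
  have i1 : Integrable fun p => ‖(D c p).fst‖ ^ 2 := s13_sqn_int (s13_fst2 h.dl2)
  have m2 : MemLp (fun p => (D c p).snd.fst) 2 volume := by
    refine (s13_snd2 h.dl2).of_le
      ((WithLp.continuous_fst 2 E E).comp_aestronglyMeasurable (s13_snd2 h.dl2).1) ?_
    exact Eventually.of_forall fun p => WithLp.norm_fst_le _ _
  have m3 : MemLp (fun p => (D c p).snd.snd) 2 volume := by
    refine (s13_snd2 h.dl2).of_le
      ((WithLp.continuous_snd 2 E E).comp_aestronglyMeasurable (s13_snd2 h.dl2).1) ?_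
    exact Eventually.of_forall fun p => WithLp.norm_snd_le _ _
  have i2 := s13_sqn_int m2
  have i3 := s13_sqn_int m3
  have i23 : Integrable fun p => ‖(D c p).snd.fst‖ ^ 2 + ‖(D c p).snd.snd‖ ^ 2 := i2.add i3
  have e : ∫ x, s13H (comp c) x = ∑ i, ∫ p, ‖(D (comp c i) p).fst‖ ^ 2 := by
    show ∫ x, ∑ i, ∫ y, ‖(D (comp c i) (pt x y)).fst‖ ^ 2 = _
    rw [integral_finsetSum _ fun i _ => (s13_intg (s13_sqn_int (s13_fst2 (hc i).dl2))).2]
    exact Finset.sum_congr rfl fun i _ => (integral_pt (s13_sqn_int (s13_fst2 (hc i).dl2))).symm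
  have e0 : ∫ p, ‖(D (comp c 0) p).fst‖ ^ 2 = 2 * ∫ p, ‖(D c p).fst‖ ^ 2 := by
    rw [← integral_const_mul]
    refine integral_congr_ae ?_
    filter_upwards [D_smul √2 h.hl] with p hp
    have hp' : D (comp c 0) p = √2 • D c p := hp
    rw [hp', WithLp.smul_fst, norm_smul, Real.norm_of_nonneg (Real.sqrt_nonneg _), K2_sq2]
  have e1 : ∫ p, ‖(D (comp c 1) p).fst‖ ^ 2 = ∫ p, ‖(D c p).snd.snd‖ ^ 2 := by
    rw [← K2_int K2_cy fun p => ‖(D c p).snd.snd‖ ^ 2]
    refine integral_congr_ae ?_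
    filter_upwards [(h.hl.iso K2_cy).2] with p hp
    have hp' : D (comp c 1) p = K2_cy.symm (D c (K2_cy p)) := hp
    rw [hp']
    rfl
  have e2 : ∫ p, ‖(D c p).fst‖ ^ 2 = ∫ p, ‖(D c p).snd.fst‖ ^ 2 := by
    rw [← K2_int K2_sw fun p => ‖(D c p).snd.fst‖ ^ 2]
    refine integral_congr_ae ?_
    have hs : ∀ᵐ p, (fun x => c (K2_sw x)) p = (fun x => -1 * c x) p :=
      Eventually.of_forall fun p => by
        show c (sw12 p) = -1 * c p
        rw [ha p]
        ring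
    filter_upwards [(h.hl.iso K2_sw).2, D_smul (-1) h.hl, D_congr hs] with p h1 h2 h3
    rw [h1, h2] at h3
    have h4 : (D c (K2_sw p)).snd.fst = ((-1 : ℝ) • D c p).fst := by
      rw [← h3]
      rfl
    rw [h4, WithLp.smul_fst, norm_smul]
    simp
  have e3 : dir c = (∫ p, ‖(D c p).fst‖ ^ 2) + ((∫ p, ‖(D c p).snd.fst‖ ^ 2) +
      ∫ p, ‖(D c p).snd.snd‖ ^ 2) := by
    rw [← integral_add i2 i3, ← integral_add i1 i23]
    refine integral_congr_ae (Eventually.of_forall fun p => ?_)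
    show ‖D c p‖ ^ 2 = ‖(D c p).fst‖ ^ 2 + (‖(D c p).snd.fst‖ ^ 2 + ‖(D c p).snd.snd‖ ^ 2)
    rw [WithLp.prod_norm_sq_eq_of_L2 (D c p), WithLp.prod_norm_sq_eq_of_L2 (D c p).snd]
  rw [e, Fin.sum_univ_two, e0, e1, e3, ← e2]
  ring

theorem K_comp_pot {c : E9 → ℝ} (ha : Anti c) {v : E → ℝ}
    (hv : ∀ i, Integrable fun p : E9 => v p.fst * comp c i p ^ 2) :
    Integrable (fun x => v x * dens c x) ∧ ∫ p, V3 v p * c p ^ 2 = ∫ x, v x * dens c x := by
  have ed : (fun x => v x * dens c x) = fun x => ∑ i, ∫ y, v x * comp c i (pt x y) ^ 2 := by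
    funext x
    show v x * ∑ i, ∫ y, comp c i (pt x y) ^ 2 = _
    rw [Finset.mul_sum]
    exact Finset.sum_congr rfl fun i _ => (integral_const_mul _ _).symm
  have hi : ∀ i, Integrable fun x => ∫ y, v x * comp c i (pt x y) ^ 2 := fun i =>
    (integrable_pt (hv i)).2
  have e : ∫ x, v x * dens c x = ∑ i, ∫ p : E9, v p.fst * comp c i p ^ 2 := by
    rw [ed, integral_finsetSum _ fun i _ => hi i]
    exact Finset.sum_congr rfl fun i _ => (integral_pt (hv i)).symm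
  have f0 : (fun p : E9 => v p.fst * comp c 0 p ^ 2) = fun p => 2 * (v p.fst * c p ^ 2) := by
    funext p
    show v p.fst * (√2 * c p) ^ 2 = _
    rw [K2_sq2]
    ring
  have i1 : Integrable fun p : E9 => v p.fst * c p ^ 2 := by
    have := (hv 0).const_mul (1 / 2)
    refine this.congr (Eventually.of_forall fun p => ?_)
    show 1 / 2 * (v p.fst * (√2 * c p) ^ 2) = _
    rw [K2_sq2]
    ring
  have f2 : (fun p : E9 => v (K2_sw p).snd.fst * c (K2_sw p) ^ 2) = fun p => v p.fst * c p ^ 2 := by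
    funext p
    show v p.fst * c (sw12 p) ^ 2 = _
    rw [ha p, neg_sq]
  have i2 : Integrable fun p : E9 => v p.snd.fst * c p ^ 2 := by
    rw [← K2_intg K2_sw, f2]
    exact i1
  have e2 : ∫ p : E9, v p.snd.fst * c p ^ 2 = ∫ p : E9, v p.fst * c p ^ 2 := by
    rw [← K2_int K2_sw fun p => v p.snd.fst * c p ^ 2, f2]
  have i3 : Integrable fun p : E9 => v p.snd.snd * c p ^ 2 :=
    (K2_intg K2_cy fun p => v p.snd.snd * c p ^ 2).1 (hv 1)
  have e3 : ∫ p : E9, v p.snd.snd * c p ^ 2 = ∫ p : E9, v p.fst * comp c 1 p ^ 2 :=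
    (K2_int K2_cy fun p => v p.snd.snd * c p ^ 2).symm
  refine ⟨?_, ?_⟩
  · rw [ed]
    exact integrable_finsetSum _ fun i _ => hi i
  · have e4 : ∫ p, V3 v p * c p ^ 2 = (∫ p : E9, v p.fst * c p ^ 2) +
        (∫ p : E9, v p.snd.fst * c p ^ 2) + ∫ p : E9, v p.snd.snd * c p ^ 2 := by
      have i12 : Integrable fun p : E9 => v p.fst * c p ^ 2 + v p.snd.fst * c p ^ 2 := i1.add i2
      rw [← integral_add i1 i2, ← integral_add i12 i3]
      refine integral_congr_ae (Eventually.of_forall fun p => ?_)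
      show (v p.fst + v p.snd.fst + v p.snd.snd) * c p ^ 2 =
        v p.fst * c p ^ 2 + v p.snd.fst * c p ^ 2 + v p.snd.snd * c p ^ 2
      ring
    rw [e, e4, Fin.sum_univ_two, f0, integral_const_mul, e2, e3]
    ring

end

end Crest.Agent.R335
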