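import Crest.Agent.R335.MA0

/-! Row 335, module MA: `L²` calculus on a product, the projection inequality. -/

set_option autoImplicit false
set_option linter.unusedSectionVars false

open MeasureTheory Set Filter Topology Metric
open scoped Gradient ContDiff RealInnerProductSpace ENNReal

namespace Crest.Agent.R335

noncomputable section

variable {V : Type*} [NormedAddCommGroup V] [InnerProductSpace ℝ V] [FiniteDimensional ℝ V]
  [MeasurableSpace V] [BorelSpace V]
variable {W : Type*} [NormedAddCommGroup W] [InnerProductSpace ℝ W] [FiniteDimensional ℝ W]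
  [MeasurableSpace W] [BorelSpace W]

theorem integral_pt' {F : WithLp 2 (V × W) → ℝ} (h : Integrable F) :
    ∫ p, F p = ∫ y, ∫ x, F (pt x y) := S08_integral' h
theorem integrable_pt' {F : WithLp 2 (V × W) → ℝ} (h : Integrable F) :
    (∀ᵐ y, Integrable fun x => F (pt x y)) ∧ Integrable fun y => ∫ x, F (pt x y) :=
  ⟨(S08_int.2 h).prod_left_ae, (S08_int.2 h).integral_prod_right⟩
theorem ae_pt' {P : WithLp 2 (V × W) → Prop} (h : ∀ᵐ p, P p) : ∀ᵐ y, ∀ᵐ x, P (pt x y) :=
  Measure.ae_ae_of_ae_prod (p := fun z : W × V => P (pt z.2 z.1))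
    (Measure.measurePreserving_swap.quasiMeasurePreserving.ae
      (S08_mp.quasiMeasurePreserving.ae h))
theorem memLp_tensor {a : V → ℝ} {b : W → ℝ} (ha : MemLp a 2 volume) (hb : MemLp b 2 volume) :
    MemLp (fun p : WithLp 2 (V × W) => a p.fst * b p.snd) 2 volume := S08_m1 ha hb
theorem ip_tensor {a a' : V → ℝ} {b b' : W → ℝ} (ha : MemLp a 2 volume) (ha' : MemLp a' 2 volume)
    (hb : MemLp b 2 volume) (hb' : MemLp b' 2 volume) :
    ip (fun p : WithLp 2 (V × W) => a p.fst * b p.snd) (fun p => a' p.fst * b' p.snd) =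
      ip a a' * ip b b' := by
  have i : Integrable fun p : WithLp 2 (V × W) => a p.fst * b p.snd * (a' p.fst * b' p.snd) :=
    (memLp_tensor ha hb).integrable_mul (memLp_tensor ha' hb')
  unfold ip
  rw [S08_integral i, ← integral_mul_const]
  refine integral_congr_ae (ae_of_all _ fun x => ?_)
  simp only [WithLp.toLp_fst, WithLp.toLp_snd, ← integral_const_mul]
  congr 1
  funext y
  ring
theorem MA2_swap_mem {χ : WithLp 2 (V × W) → ℝ} (h : MemLp χ 2 volume) :
    MemLp (fun z : W × V => χ (pt z.2 z.1)) 2 (volume.prod volume) :=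
  (S08_mem.2 h).comp_measurePreserving Measure.measurePreserving_swap
theorem memLp_slice_fst {χ : WithLp 2 (V × W) → ℝ} (h : MemLp χ 2 volume) :
    ∀ᵐ y, MemLp (fun x => χ (pt x y)) 2 volume :=
  S08_l2_slice (MA2_swap_mem h)
theorem memLp_slice_snd {χ : WithLp 2 (V × W) → ℝ} (h : MemLp χ 2 volume) :
    ∀ᵐ x, MemLp (fun y => χ (pt x y)) 2 volume := S08_slice h
theorem nsq_slice_fst {χ : WithLp 2 (V × W) → ℝ} (h : MemLp χ 2 volume) :
    Integrable (fun y => nsq fun x => χ (pt x y)) ∧ nsq χ = ∫ y, nsq fun x => χ (pt x y) :=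
  ⟨(integrable_pt' (F := fun p => χ p ^ 2) h.integrable_sq).2,
    integral_pt' (F := fun p => χ p ^ 2) h.integrable_sq⟩
theorem nsq_slice_snd {χ : WithLp 2 (V × W) → ℝ} (h : MemLp χ 2 volume) :
    Integrable (fun x => nsq fun y => χ (pt x y)) ∧ nsq χ = ∫ x, nsq fun y => χ (pt x y) :=
  ⟨(integrable_pt (F := fun p => χ p ^ 2) h.integrable_sq).2,
    integral_pt (F := fun p => χ p ^ 2) h.integrable_sq⟩
theorem memLp_pair_fst {a : V → ℝ} (ha : MemLp a 2 volume) {χ : WithLp 2 (V × W) → ℝ}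
    (h : MemLp χ 2 volume) : MemLp (fun y => ip a fun x => χ (pt x y)) 2 volume :=
  S08_l2_pair (MA2_swap_mem h) ha
theorem memLp_pair_snd {b : W → ℝ} (hb : MemLp b 2 volume) {χ : WithLp 2 (V × W) → ℝ}
    (h : MemLp χ 2 volume) : MemLp (fun x => ip b fun y => χ (pt x y)) 2 volume :=
  S08_pair h hb
theorem ip_pair_fst {a : V → ℝ} {b : W → ℝ} (ha : MemLp a 2 volume) (hb : MemLp b 2 volume)
    {χ : WithLp 2 (V × W) → ℝ} (h : MemLp χ 2 volume) :
    ip (fun p : WithLp 2 (V × W) => a p.fst * b p.snd) χ =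
      ip b fun y => ip a fun x => χ (pt x y) := by
  have i : Integrable fun p : WithLp 2 (V × W) => a p.fst * b p.snd * χ p :=
    (memLp_tensor ha hb).integrable_mul h
  unfold ip
  rw [S08_integral' i]
  refine integral_congr_ae (ae_of_all _ fun y => ?_)
  simp only [WithLp.toLp_fst, WithLp.toLp_snd, ← integral_const_mul]
  congr 1
  funext x
  ring
theorem ip_pair_snd {a : V → ℝ} {b : W → ℝ} (ha : MemLp a 2 volume) (hb : MemLp b 2 volume)
    {χ : WithLp 2 (V × W) → ℝ} (h : MemLp χ 2 volume) :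
    ip (fun p : WithLp 2 (V × W) => a p.fst * b p.snd) χ =
      ip a fun x => ip b fun y => χ (pt x y) := by
  have i : Integrable fun p : WithLp 2 (V × W) => a p.fst * b p.snd * χ p :=
    (memLp_tensor ha hb).integrable_mul h
  unfold ip
  rw [S08_integral i]
  refine integral_congr_ae (ae_of_all _ fun x => ?_)
  simp only [WithLp.toLp_fst, WithLp.toLp_snd, ← integral_const_mul]
  congr 1
  funext y
  ring
theorem MA2b_mem_sum {ι : Type} [Fintype ι] {a : ι → V → ℝ} (ha : ∀ i, MemLp (a i) 2 volume)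
    (c : ι → ℝ) : MemLp (fun x => ∑ i, c i * a i x) 2 volume :=
  memLp_finsetSum _ fun i _ => (ha i).const_mul (c i)

theorem MA2b_ip_sum {ι : Type} [Fintype ι] {a : ι → V → ℝ} (ha : ∀ i, MemLp (a i) 2 volume)
    {f : V → ℝ} (h : MemLp f 2 volume) (c : ι → ℝ) :
    ip f (fun x => ∑ i, c i * a i x) = ∑ i, c i * ip f (a i) := by
  unfold ip
  simp_rw [Finset.mul_sum, ← integral_const_mul]
  rw [← integral_finsetSum _ fun i _ => (S11_int_mul h (ha i)).const_mul (c i)]
  exact integral_congr_ae (Eventually.of_forall fun x =>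
    Finset.sum_congr rfl fun i _ => by ring)

/-- Pythagoras for a finite orthonormal family -/
theorem nsq_sub_proj {ι : Type} [Fintype ι] [DecidableEq ι] {a : ι → V → ℝ}
    (ha : ∀ i, MemLp (a i) 2 volume) (oa : ∀ i j, ip (a i) (a j) = if i = j then 1 else 0)
    {f : V → ℝ} (h : MemLp f 2 volume) :
    nsq (fun x => f x - ∑ i, ip (a i) f * a i x) = nsq f - ∑ i, ip (a i) f ^ 2 := by
  have hs := MA2b_mem_sum ha fun i => ip (a i) f
  have h1 := S11_nsq_lc h hs 1 (-1)
  have e : (fun x => f x - ∑ i, ip (a i) f * a i x) =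
      fun x => 1 * f x + -1 * ∑ i, ip (a i) f * a i x := by funext x; ring
  have h2 : ip f (fun x => ∑ i, ip (a i) f * a i x) = ∑ i, ip (a i) f ^ 2 := by
    rw [MA2b_ip_sum ha h]
    exact Finset.sum_congr rfl fun i _ => by rw [ip_comm f, sq]
  have h3 : nsq (fun x => ∑ i, ip (a i) f * a i x) = ∑ i, ip (a i) f ^ 2 := by
    rw [← ip_self, MA2b_ip_sum ha hs]
    refine Finset.sum_congr rfl fun i _ => ?_
    rw [ip_comm _ (a i), MA2b_ip_sum ha (ha i)]
    simp [oa, sq]
  rw [e, h1, h2, h3]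
  ring

theorem bessel {ι : Type} [Fintype ι] [DecidableEq ι] {a : ι → V → ℝ}
    (ha : ∀ i, MemLp (a i) 2 volume) (oa : ∀ i j, ip (a i) (a j) = if i = j then 1 else 0)
    {f : V → ℝ} (h : MemLp f 2 volume) : ∑ i, ip (a i) f ^ 2 ≤ nsq f := by
  have h1 := nsq_sub_proj ha oa h
  have h2 := S11_nsq_nonneg fun x => f x - ∑ i, ip (a i) f * a i x
  linarith

/-- `(1 - Π₁)(1 - Π₂) ≥ 0`.  Put `A i y = ⟨a i, χ(·,y)⟩`, `B j x = ⟨b j, χ(x,·)⟩`,
`ρ = χ - Σ a i ⊗ A i`.  Then `nsq ρ = nsq χ - Σ nsq (A i)` (`nsq_sub_proj` on the slices in `x`); Bessel on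
the slices `ρ(x,·)` gives `nsq ρ ≥ Σ_j nsq (B j - Σ_i ⟨a i, B j⟩ a i)`, and `⟨a i, B j⟩ = ⟨a i ⊗ b j, χ⟩`. -/
theorem proj_ineq {ι κ : Type} [Fintype ι] [DecidableEq ι] [Fintype κ] [DecidableEq κ]
    {a : ι → V → ℝ} {b : κ → W → ℝ}
    (ha : ∀ i, MemLp (a i) 2 volume) (oa : ∀ i j, ip (a i) (a j) = if i = j then 1 else 0)
    (hb : ∀ i, MemLp (b i) 2 volume) (ob : ∀ i j, ip (b i) (b j) = if i = j then 1 else 0)
    {χ : WithLp 2 (V × W) → ℝ} (h : MemLp χ 2 volume) :
    ∑ i, nsq (fun y => ip (a i) fun x => χ (pt x y)) +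
      ∑ j, nsq (fun x => ip (b j) fun y => χ (pt x y)) ≤
      nsq χ + ∑ i, ∑ j, ip (fun p : WithLp 2 (V × W) => a i p.fst * b j p.snd) χ ^ 2 := by
  set A : ι → W → ℝ := fun i y => ip (a i) fun x => χ (pt x y) with hA
  set B : κ → V → ℝ := fun j x => ip (b j) fun y => χ (pt x y) with hB
  have mA : ∀ i, MemLp (A i) 2 volume := fun i => memLp_pair_fst (ha i) h
  have mB : ∀ j, MemLp (B j) 2 volume := fun j => memLp_pair_snd (hb j) h
  set ρ : WithLp 2 (V × W) → ℝ := fun p => χ p - ∑ i, a i p.fst * A i p.snd with hρ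
  have mρ : MemLp ρ 2 volume :=
    h.sub (memLp_finsetSum _ fun i _ => memLp_tensor (ha i) (mA i))
  have h1 : nsq ρ = nsq χ - ∑ i, nsq (A i) := by
    have e0 : ∑ i, nsq (A i) = ∫ y, ∑ i, A i y ^ 2 :=
      (integral_finsetSum _ fun i _ => (mA i).integrable_sq).symm
    rw [(nsq_slice_fst mρ).2, (nsq_slice_fst h).2, e0,
      ← integral_sub (nsq_slice_fst h).1 (integrable_finsetSum _ fun i _ => (mA i).integrable_sq)]
    refine integral_congr_ae ?_
    filter_upwards [memLp_slice_fst h] with y hy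
    rw [← nsq_sub_proj ha oa hy]
    unfold nsq
    refine integral_congr_ae (Eventually.of_forall fun x => ?_)
    simp only [hρ, hA, mul_comm (a _ _)]
    rfl
  have h2 : ∑ j, nsq (fun x => ip (b j) fun y => ρ (pt x y)) ≤ nsq ρ := by
    rw [(nsq_slice_snd mρ).2]
    conv_lhs => unfold nsq
    rw [← integral_finsetSum _ fun j _ => (memLp_pair_snd (hb j) mρ).integrable_sq]
    refine integral_mono_ae
      (integrable_finsetSum _ fun j _ => (memLp_pair_snd (hb j) mρ).integrable_sq)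
      (nsq_slice_snd mρ).1 ?_
    filter_upwards [memLp_slice_snd mρ] with x hx using bessel hb ob hx
  have hc : ∀ i j, ip (b j) (A i) = ip (a i) (B j) := fun i j => by
    rw [← ip_pair_fst (ha i) (hb j) h, ip_pair_snd (ha i) (hb j) h]
  have h3 : ∀ j, nsq (fun x => ip (b j) fun y => ρ (pt x y)) =
      nsq (B j) - ∑ i, ip (fun p : WithLp 2 (V × W) => a i p.fst * b j p.snd) χ ^ 2 := fun j => by
    simp only [fun i => ip_pair_snd (ha i) (hb j) h]
    rw [← nsq_sub_proj ha oa (mB j)]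
    refine S11_nsq_congr ?_
    filter_upwards [memLp_slice_snd h] with x hx
    have e : (fun y => ρ (pt x y)) = fun y => 1 * χ (pt x y) + -1 * ∑ i, a i x * A i y := by
      funext y
      simp only [hρ]
      change χ (pt x y) - ∑ i, a i x * A i y = _
      ring
    rw [e, S11_ip_lc (hb j) hx (MA2b_mem_sum mA _), MA2b_ip_sum mA (hb j)]
    simp only [hc, mul_comm (a _ _)]
    ring
  simp only [h3, Finset.sum_sub_distrib] at h2
  rw [Finset.sum_comm]
  linarith


end

end Crest.Agent.R335
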