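import Crest.Agent.R335.Defs3
import Crest.Agent.R335.S13
import Crest.Agent.R335.S11
import Crest.Agent.R335.S09
import Crest.Agent.R335.MA2

set_option autoImplicit false

open MeasureTheory Set Filter Topology Metric
open scoped Gradient ContDiff RealInnerProductSpace ENNReal

namespace Crest.Agent.R335

noncomputable section

/-! module K: Pauli bound (occupation numbers of a doublet are at most two) -/

/-- two-body antisymmetric kernels -/
theorem K_pauli2 {K : E6 → ℝ} (hK : MemLp K 2 volume) (ha : ∀ a b, K (pt b a) = -K (pt a b))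
    {φ : E → ℝ} (hφ : MemLp φ 2 volume) :
    2 * ∫ b, (∫ a, φ a * K (pt a b)) ^ 2 ≤ nsq φ * nsq K := by
  set g : E → ℝ := fun b => ip φ fun a => K (pt a b) with hg
  have mg : MemLp g 2 volume := memLp_pair_fst hφ hK
  have mA := memLp_tensor hφ mg
  have mB := memLp_tensor mg hφ
  have iA : ip (fun p : E6 => φ p.fst * g p.snd) K = nsq g := by
    rw [ip_pair_fst hφ mg hK, ← ip_self]
  have iB : ip (fun p : E6 => g p.fst * φ p.snd) K = -nsq g := by
    rw [ip_pair_snd mg hφ hK, ← ip_self]
    unfold ip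
    rw [← integral_neg]
    refine integral_congr_ae (Eventually.of_forall fun x => ?_)
    have : ∫ y, φ y * K (pt x y) = -g x := by
      simp only [hg, ip]
      rw [← integral_neg]
      refine integral_congr_ae (Eventually.of_forall fun y => ?_)
      simp only [ha y x]
      ring
    simp only [this]
    ring
  have nA : nsq (fun p : E6 => φ p.fst * g p.snd) = nsq φ * nsq g := by
    rw [← ip_self, ip_tensor hφ hφ mg mg, ip_self, ip_self]
  have nB : nsq (fun p : E6 => g p.fst * φ p.snd) = nsq g * nsq φ := by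
    rw [← ip_self, ip_tensor mg mg hφ hφ, ip_self, ip_self]
  have iAB : ip (fun p : E6 => φ p.fst * g p.snd) (fun p : E6 => g p.fst * φ p.snd) =
      ip φ g ^ 2 := by
    rw [ip_tensor hφ mg mg hφ, ip_comm g φ, sq]
  have e1 := S11_nsq_lc mA mB 1 (-1)
  have e2 := S11_ip_lc hK mA mB 1 (-1)
  have mC : MemLp (fun p : E6 => 1 * (φ p.fst * g p.snd) + -1 * (g p.fst * φ p.snd)) 2 volume :=
    (mA.const_mul 1).add (mB.const_mul (-1))
  have cs := S11_cs hK mC
  rw [e1, e2, ip_comm K, ip_comm K, iA, iB, nA, nB, iAB] at cs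
  have p1 := S11_nsq_nonneg g
  have p2 := S11_nsq_nonneg φ
  have p3 := S11_nsq_nonneg K
  change 2 * nsq g ≤ nsq φ * nsq K
  rcases p1.eq_or_lt with h0 | h0
  · rw [← h0, mul_zero]; positivity
  · have : nsq g * (2 * nsq g) ≤ nsq g * (nsq φ * nsq K) := by
      nlinarith [mul_nonneg p3 (sq_nonneg (ip φ g))]
    exact le_of_mul_le_mul_left this h0

theorem K_pauli {c : E9 → ℝ} (h : MemLp c 2 volume) (ha : Anti c) {φ : E → ℝ}
    (hφ : MemLp φ 2 volume) :
    ∑ i, ∫ y, (∫ x, φ x * comp c i (pt x y)) ^ 2 ≤ 2 * nsq φ * nsq c := by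
  obtain ⟨L, hL⟩ := exists_cyc
  have mc : MemLp (fun p => c (cyc p)) 2 volume := by
    have := memLp_iso L h
    simpa only [hL] using this
  have nc : nsq (fun p => c (cyc p)) = nsq c := by
    have := nsq_iso L c
    simpa only [hL] using this
  have h1 : ∫ y, (∫ x, φ x * c (cyc (pt x y))) ^ 2 ≤ nsq φ * nsq c := by
    obtain ⟨i1, i2⟩ := nsq_slice_fst mc
    rw [← nc, i2, ← integral_const_mul]
    refine integral_mono_ae (memLp_pair_fst hφ mc).integrable_sq (i1.const_mul _) ?_
    filter_upwards [memLp_slice_fst mc] with y hy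
    exact S11_cs hφ hy
  have h0 : 2 * ∫ y, (∫ x, φ x * c (pt x y)) ^ 2 ≤ nsq φ * nsq c := by
    have mF : MemLp (fun y : E6 => ip φ fun x => c (pt x y)) 2 volume := memLp_pair_fst hφ h
    obtain ⟨i1, i2⟩ := nsq_slice_fst mF
    obtain ⟨j1, j2⟩ := nsq_slice_snd mc
    change 2 * nsq (fun y : E6 => ip φ fun x => c (pt x y)) ≤ _
    rw [← nc, i2, j2, ← integral_const_mul, ← integral_const_mul]
    refine integral_mono_ae (i1.const_mul _) (j1.const_mul _) ?_
    filter_upwards [memLp_slice_snd mc] with z hz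
    exact K_pauli2 hz (fun a b => ha (pt a (pt b z))) hφ
  rw [Fin.sum_univ_two]
  have e0 : ∫ y, (∫ x, φ x * comp c 0 (pt x y)) ^ 2 = 2 * ∫ y, (∫ x, φ x * c (pt x y)) ^ 2 := by
    rw [← integral_const_mul]
    refine integral_congr_ae (Eventually.of_forall fun y => ?_)
    have : ∫ x, φ x * comp c 0 (pt x y) = √2 * ∫ x, φ x * c (pt x y) := by
      rw [← integral_const_mul]
      refine integral_congr_ae (Eventually.of_forall fun x => ?_)
      simp only [comp, Matrix.cons_val_zero]
      ring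
    simp only [this, mul_pow, Real.sq_sqrt (zero_le_two (α := ℝ))]
  have e1 : ∫ y, (∫ x, φ x * comp c 1 (pt x y)) ^ 2 = ∫ y, (∫ x, φ x * c (cyc (pt x y))) ^ 2 := rfl
  rw [e0, e1]
  linarith

end

end Crest.Agent.R335
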