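import Crest.Agent.R335.Defs3
import Crest.Agent.R335.S13
import Crest.Agent.R335.S11
import Crest.Agent.R335.S09

set_option autoImplicit false

open MeasureTheory Set Filter Topology Metric
open scoped Gradient ContDiff RealInnerProductSpace ENNReal

namespace Crest.Agent.R335

noncomputable section

/-! module K: potentials of class `L^{3/2} + L^∞` are form-small; minimisers are eigenfunctions -/

theorem K_small {v : E → ℝ} (hv : Cls v) : ∃ C : ℝ, 0 ≤ C ∧ ∀ f : E → ℝ, H1 f →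
    Integrable (fun x => v x * f x ^ 2) ∧ ∫ x, |v x| * f x ^ 2 ≤ (1 / 4) * dir f + C * nsq f := by
  obtain ⟨v₁, v₂, rfl, h1, h2⟩ := hv
  obtain ⟨C0, hC0, hl⟩ := l32_bound
  obtain ⟨M, hM0, hM⟩ : ∃ M : ℝ, 0 ≤ M ∧ ∀ᵐ x, |v₂ x| ≤ M := by
    have h3 := h2.eLpNorm_lt_top
    rw [eLpNorm_exponent_top, eLpNormEssSup_lt_top_iff_isBoundedUnder] at h3
    obtain ⟨b, hb⟩ := h3
    refine ⟨b, b.2, ?_⟩
    filter_upwards [hb] with x hx
    exact_mod_cast (show ‖v₂ x‖₊ ≤ b from hx)
  let A : ℕ → Set E := fun n => {x | (n : ℝ) < |h1.1.mk v₁ x|}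
  have hA : ∀ n, MeasurableSet (A n) := fun n =>
    measurableSet_lt measurable_const h1.1.stronglyMeasurable_mk.measurable.abs
  have hanti : Antitone A := fun n m hnm x hx =>
    lt_of_le_of_lt (by exact_mod_cast hnm : (n : ℝ) ≤ m) hx
  have hg : Integrable (fun x => |v₁ x| ^ (3 / 2 : ℝ)) := by
    have := h1.integrable_norm_rpow (by simp) (ENNReal.div_ne_top (by simp) (by simp))
    simpa using this
  have hlim := tendsto_setIntegral_of_antitone (μ := volume) (f := fun x => |v₁ x| ^ (3 / 2 : ℝ))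
    hA hanti ⟨0, hg.integrableOn⟩
  have hemp : ⋂ n, A n = ∅ := by
    refine eq_empty_of_forall_notMem fun x hx => ?_
    obtain ⟨n, hn⟩ := exists_nat_gt |h1.1.mk v₁ x|
    exact lt_asymm hn (mem_iInter.1 hx n)
  rw [hemp, Measure.restrict_empty, integral_zero_measure] at hlim
  have hlim2 := (hlim.rpow_const (p := (2 / 3 : ℝ)) (Or.inr (by norm_num))).const_mul C0
  rw [Real.zero_rpow (by norm_num), mul_zero] at hlim2
  obtain ⟨n, hn⟩ := (hlim2.eventually (gt_mem_nhds (by norm_num : (0 : ℝ) < 1 / 4))).exists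
  refine ⟨n + M, by positivity, fun f hf => ?_⟩
  have hsq : Integrable (fun x => f x ^ 2) := hf.l2.integrable_sq
  have i1 : Integrable (fun x => v₁ x * f x ^ 2) :=
    integrableOn_univ.1 (hl v₁ f univ MeasurableSet.univ (h1.restrict _) hf).1
  have i2 : Integrable (fun x => v₂ x * f x ^ 2) := by
    refine Integrable.mono' (hsq.const_mul M) (h2.1.mul hsq.1) ?_
    filter_upwards [hM] with x hx
    rw [Real.norm_eq_abs, abs_mul, abs_of_nonneg (sq_nonneg (f x))]
    exact mul_le_mul_of_nonneg_right hx (sq_nonneg _)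
  have i3 : Integrable (fun x => (v₁ + v₂) x * f x ^ 2) :=
    (i1.add i2).congr (Eventually.of_forall fun x => by simp only [Pi.add_apply, add_mul])
  have habs : ∀ {u : E → ℝ}, Integrable (fun x => u x * f x ^ 2) →
      Integrable (fun x => |u x| * f x ^ 2) := fun {u} hu => by
    simpa only [abs_mul, abs_pow, sq_abs] using hu.abs
  refine ⟨i3, ?_⟩
  have i4 : Integrable ((A n).indicator fun x => |v₁ x| * f x ^ 2) := (habs i1).indicator (hA n)
  have b1 : ∫ x, |(v₁ + v₂) x| * f x ^ 2 ≤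
      ∫ x, ((A n).indicator (fun x => |v₁ x| * f x ^ 2) x + (n + M) * f x ^ 2) := by
    refine integral_mono_ae (habs i3) (i4.add (hsq.const_mul _)) ?_
    filter_upwards [hM, h1.1.ae_eq_mk] with x hx hx'
    have t := abs_add_le (v₁ x) (v₂ x)
    have q := sq_nonneg (f x)
    have n0 : (0 : ℝ) ≤ n := n.cast_nonneg
    simp only [Pi.add_apply]
    by_cases hxA : x ∈ A n
    · rw [indicator_of_mem hxA]; nlinarith
    · rw [indicator_of_notMem hxA]
      have : |v₁ x| ≤ n := by rw [hx']; exact not_lt.1 hxA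
      nlinarith
  rw [integral_add i4 (hsq.const_mul _), integral_indicator (hA n), integral_const_mul] at b1
  have b2 := (hl v₁ f (A n) (hA n) (h1.restrict _) hf).2
  have b3 := mul_le_mul_of_nonneg_right hn.le (S09_dir_nonneg f)
  unfold nsq
  linarith

theorem K_small9 {v : E → ℝ} (hv : Cls v) : ∃ C : ℝ, 0 ≤ C ∧ ∀ P : E9 → ℝ, H1 P →
    Integrable (fun p : E9 => v p.fst * P p ^ 2) ∧
      ∫ p : E9, |v p.fst| * P p ^ 2 ≤ (1 / 4) * (∫ p : E9, ‖(D P p).fst‖ ^ 2) + C * nsq P := by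
  obtain ⟨C, hC, h⟩ := K_small hv
  refine ⟨C, hC, fun P hP => ?_⟩
  have hvm : AEStronglyMeasurable v volume := by
    obtain ⟨v₁, v₂, rfl, h1, h2⟩ := hv
    exact h1.1.add h2.1
  have hvm9 : AEStronglyMeasurable (fun p : E9 => v p.fst) volume :=
    ⟨fun p => hvm.mk v p.fst, hvm.stronglyMeasurable_mk.comp_measurable
      (WithLp.continuous_fst 2 E E6).measurable, ae_fst hvm.ae_eq_mk⟩
  have hsq : Integrable (fun p : E9 => P p ^ 2) := hP.l2.integrable_sq
  have hd : Integrable (fun p : E9 => ‖(D P p).fst‖ ^ 2) := s13_sqn_int (s13_fst2 hP.dl2)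
  have hm : AEStronglyMeasurable (fun z : E × E6 => v (pt z.1 z.2).fst * P (pt z.1 z.2) ^ 2)
      (volume.prod volume) := (hvm9.mul hsq.1).comp_measurePreserving S08_mp
  have j1 : Integrable fun y : E6 => ∫ x : E, P (pt x y) ^ 2 :=
    (S08_int.2 hsq).integral_prod_right
  have j2 : Integrable fun y : E6 => ∫ x : E, ‖(D P (pt x y)).fst‖ ^ 2 :=
    (S08_int.2 hd).integral_prod_right
  have hs : ∀ᵐ y : E6, Integrable (fun x : E => v x * P (pt x y) ^ 2) ∧
      ∫ x : E, |v x| * P (pt x y) ^ 2 ≤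
        (1 / 4) * (∫ x : E, ‖(D P (pt x y)).fst‖ ^ 2) + C * ∫ x : E, P (pt x y) ^ 2 := by
    filter_upwards [hP.slice_fst] with y hy
    obtain ⟨a, b⟩ := h _ hy.1
    refine ⟨a, ?_⟩
    have e : dir (fun x => P (pt x y)) = ∫ x : E, ‖(D P (pt x y)).fst‖ ^ 2 :=
      integral_congr_ae (hy.2.mono fun x hx => by simp only [hx])
    rw [e] at b
    exact b
  have hn : ∀ (x : E) (y : E6), ‖v x * P (pt x y) ^ 2‖ = |v x| * P (pt x y) ^ 2 := fun x y => by
    rw [Real.norm_eq_abs, abs_mul, abs_of_nonneg (sq_nonneg (P (pt x y)))]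
  have j3 : Integrable fun y : E6 => ∫ x : E, ‖v x * P (pt x y) ^ 2‖ := by
    refine Integrable.mono' ((j2.const_mul (1 / 4)).add (j1.const_mul C))
      hm.norm.prod_swap.integral_prod_right' ?_
    filter_upwards [hs] with y hy
    rw [Real.norm_eq_abs, abs_of_nonneg (integral_nonneg fun _ => norm_nonneg _)]
    simp only [hn]
    exact hy.2
  have hint : Integrable (fun p : E9 => v p.fst * P p ^ 2) :=
    S08_int.1 ((integrable_prod_iff' hm).2 ⟨hs.mono fun y hy => hy.1, j3⟩)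
  refine ⟨hint, ?_⟩
  have hint' : Integrable (fun p : E9 => |v p.fst| * P p ^ 2) := by
    simpa only [abs_mul, abs_pow, sq_abs] using hint.abs
  unfold nsq
  rw [S08_integral' hint', S08_integral' hd, S08_integral' hsq, ← integral_const_mul,
    ← integral_const_mul, ← integral_add (j2.const_mul _) (j1.const_mul _)]
  refine integral_mono_ae ?_ ((j2.const_mul _).add (j1.const_mul _)) (hs.mono fun y hy => hy.2)
  exact (S08_int.2 hint').integral_prod_right

theorem K4_int {v f χ : E → ℝ}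
    (hv : ∀ χ : E → ℝ, H1 χ → Integrable fun x => v x * χ x ^ 2) (hf : H1 f) (hχ : H1 χ) :
    Integrable fun x => v x * f x * χ x := by
  refine (((hv _ (hf.add hχ)).sub (hv _ (hf.sub hχ))).const_mul (1 / 4)).congr
    (Eventually.of_forall fun x => ?_)
  simp only [Pi.sub_apply]
  ring

theorem K4_Q_lc {v u w : E → ℝ}
    (hv : ∀ χ : E → ℝ, H1 χ → Integrable fun x => v x * χ x ^ 2) (hu : H1 u) (hw : H1 w)
    (s t : ℝ) : Q v (fun x => s * u x + t * w x) =
      s ^ 2 * Q v u + 2 * s * t * S11_B v u w + t ^ 2 * Q v w := by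
  have e : ∫ x, v x * (s * u x + t * w x) ^ 2 = s ^ 2 * (∫ x, v x * u x ^ 2) +
      2 * s * t * (∫ x, v x * u x * w x) + t ^ 2 * ∫ x, v x * w x ^ 2 := by
    rw [← S11_int3 (hv u hu) (K4_int hv hu hw) (hv w hw)]
    exact integral_congr_ae (Eventually.of_forall fun x => by ring)
  unfold Q S11_B
  rw [S11_dir_lc hu hw, e]
  ring

theorem K_eig {v f : E → ℝ} {e : ℝ} (hf : H1 f)
    (hv : ∀ χ : E → ℝ, H1 χ → Integrable fun x => v x * χ x ^ 2) (h1 : Q v f = e * nsq f)
    (h2 : ∀ χ : E → ℝ, H1 χ → nsq χ = 1 → e ≤ Q v χ) : Eig v e f := by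
  have hlow : ∀ w : E → ℝ, H1 w → e * nsq w ≤ Q v w := by
    intro w hw
    rcases (S11_nsq_nonneg w).eq_or_lt with h0 | h0
    · have hz : ∀ᵐ x, w x ^ 2 = 0 :=
        (integral_eq_zero_iff_of_nonneg (fun x => sq_nonneg (w x)) hw.l2.integrable_sq).1 h0.symm
      have h3 : ∫ x, v x * w x ^ 2 = 0 :=
        integral_eq_zero_of_ae (hz.mono fun x hx => by simp only [hx, mul_zero, Pi.zero_apply])
      have := S11_dir_nonneg w
      rw [← h0, Q, h3]; linarith
    · set c : ℝ := (√(nsq w))⁻¹ with hc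
      have hc2 : c ^ 2 * nsq w = 1 := by
        rw [hc, inv_pow, Real.sq_sqrt h0.le, inv_mul_cancel₀ h0.ne']
      have h3 := h2 _ (S11_h1_lc hw hw c 0) (by rw [S11_nsq_lc hw.l2 hw.l2]; linarith)
      rw [K4_Q_lc hv hw hw] at h3
      have h4 : c ^ 2 * Q v w * nsq w = Q v w := by
        rw [mul_right_comm, hc2, one_mul]
      have h5 : e ≤ c ^ 2 * Q v w := by linarith
      rw [← h4]
      exact mul_le_mul_of_nonneg_right h5 h0.le
  intro χ hχ
  rw [integral_add ((S11_int_inner hf.dl2 hχ.dl2).const_mul _) (K4_int hv hf hχ),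
    integral_const_mul]
  change S11_B v f χ = _
  set a : ℝ := S11_B v f χ - e * ip f χ with ha
  set b : ℝ := Q v χ - e * nsq χ with hb
  have hb0 : 0 ≤ b := by have := hlow χ hχ; linarith
  have hq : ∀ t : ℝ, 0 ≤ 2 * t * a + t ^ 2 * b := by
    intro t
    have h3 := hlow _ (S11_h1_lc hf hχ 1 t)
    rw [K4_Q_lc hv hf hχ, S11_nsq_lc hf.l2 hχ.l2, h1] at h3
    rw [ha, hb]; nlinarith
  have h6 := hq (-a / (b + 1))
  have hb1 : 0 < b + 1 := by linarith
  have e1 : 2 * (-a / (b + 1)) * a + (-a / (b + 1)) ^ 2 * b =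
      -(a ^ 2 * (b + 2)) / (b + 1) ^ 2 := by field_simp; ring
  rw [e1, le_div_iff₀ (by positivity), zero_mul] at h6
  have h7 : a ^ 2 ≤ 0 := by nlinarith [sq_nonneg a]
  have h8 : a = 0 := pow_eq_zero_iff (two_ne_zero) |>.1 (le_antisymm h7 (sq_nonneg a))
  linarith

end

end Crest.Agent.R335
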