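import Crest.Agent.R335.Defs3
import Crest.Agent.R335.S13
import Crest.Agent.R335.S11
import Crest.Agent.R335.S09

set_option autoImplicit false

open MeasureTheory Set Filter Topology Metric
open scoped Gradient ContDiff RealInnerProductSpace ENNReal

namespace Crest.Agent.R335

noncomputable section

/-! module K: energy of a Slater determinant -/

/-- `(f ⊗ g - g ⊗ f) ⊗ χ / √2` -/
def K_sl (f g χ : E → ℝ) (p : E9) : ℝ :=
  (f p.fst * g p.snd.fst - g p.fst * f p.snd.fst) * χ p.snd.snd / √2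

section generic

variable {V : Type*} [NormedAddCommGroup V] [InnerProductSpace ℝ V] [FiniteDimensional ℝ V]
  [MeasurableSpace V] [BorelSpace V]
variable {W : Type*} [NormedAddCommGroup W] [InnerProductSpace ℝ W] [FiniteDimensional ℝ W]
  [MeasurableSpace W] [BorelSpace W]

/-- tensor product -/
def K5_t (f : V → ℝ) (Φ : W → ℝ) (p : WithLp 2 (V × W)) : ℝ := f p.fst * Φ p.snd

theorem K5_prod (a : V → ℝ) (b : W → ℝ) :
    ∫ p : WithLp 2 (V × W), a p.fst * b p.snd = (∫ x, a x) * ∫ y, b y := by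
  rw [← S08_mp.integral_comp S08_emb]
  exact integral_prod_mul a b

theorem K5_int {a : V → ℝ} {b : W → ℝ} (ha : Integrable a) (hb : Integrable b) :
    Integrable fun p : WithLp 2 (V × W) => a p.fst * b p.snd :=
  S08_int.1 (ha.mul_prod hb)

theorem K5_h1 {f : V → ℝ} {Φ : W → ℝ} (a : H1 f) (b : H1 Φ) : H1 (K5_t f Φ) := (a.tensor b).1

theorem K5_ip (f g : V → ℝ) (Φ Ψ : W → ℝ) : ip (K5_t f Φ) (K5_t g Ψ) = ip f g * ip Φ Ψ := by
  rw [ip, ip, ip, ← K5_prod]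
  refine integral_congr_ae (Eventually.of_forall fun p => ?_)
  simp only [K5_t]
  ring

theorem K5_dd {f g : V → ℝ} {Φ Ψ : W → ℝ} (hf : H1 f) (hg : H1 g) (hΦ : H1 Φ) (hΨ : H1 Ψ) :
    ∫ p, ⟪D (K5_t f Φ) p, D (K5_t g Ψ) p⟫ =
      (∫ x, ⟪D f x, D g x⟫) * ip Φ Ψ + ip f g * ∫ y, ⟪D Φ y, D Ψ y⟫ := by
  rw [ip, ip, ← K5_prod, ← K5_prod, ← integral_add
    (K5_int (S11_int_inner hf.dl2 hg.dl2) (S11_int_mul hΦ.l2 hΨ.l2))
    (K5_int (S11_int_mul hf.l2 hg.l2) (S11_int_inner hΦ.dl2 hΨ.dl2))]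
  refine integral_congr_ae ?_
  filter_upwards [(hf.tensor hΦ).2, (hg.tensor hΨ).2] with p h1 h2
  have e1 : D (K5_t f Φ) p = pt (Φ p.snd • D f p.fst) (f p.fst • D Φ p.snd) := h1
  have e2 : D (K5_t g Ψ) p = pt (Ψ p.snd • D g p.fst) (g p.fst • D Ψ p.snd) := h2
  rw [e1, e2, S08_inner]
  show ⟪Φ p.snd • D f p.fst, Ψ p.snd • D g p.fst⟫ + ⟪f p.fst • D Φ p.snd, g p.fst • D Ψ p.snd⟫ = _
  simp only [real_inner_smul_left, real_inner_smul_right]
  ring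

theorem K5_pot {U f g : V → ℝ} {U' Φ Ψ : W → ℝ} (hf : H1 f) (hg : H1 g) (hΦ : H1 Φ) (hΨ : H1 Ψ)
    (h1 : Integrable fun x => U x * f x * g x) (h2 : Integrable fun y => U' y * Φ y * Ψ y) :
    (Integrable fun p : WithLp 2 (V × W) => (U p.fst + U' p.snd) * K5_t f Φ p * K5_t g Ψ p) ∧
    ∫ p : WithLp 2 (V × W), (U p.fst + U' p.snd) * K5_t f Φ p * K5_t g Ψ p =
      (∫ x, U x * f x * g x) * ip Φ Ψ + ip f g * ∫ y, U' y * Φ y * Ψ y := by
  have i1 := K5_int h1 (S11_int_mul hΦ.l2 hΨ.l2)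
  have i2 := K5_int (S11_int_mul hf.l2 hg.l2) h2
  have e : (fun p : WithLp 2 (V × W) => (U p.fst + U' p.snd) * K5_t f Φ p * K5_t g Ψ p) =
      fun p => (U p.fst * f p.fst * g p.fst) * (Φ p.snd * Ψ p.snd) +
        (f p.fst * g p.fst) * (U' p.snd * Φ p.snd * Ψ p.snd) := by
    funext p
    simp only [K5_t]
    ring
  rw [e]
  refine ⟨i1.add i2, ?_⟩
  rw [integral_add i1 i2, ip, ip, ← K5_prod, ← K5_prod]

theorem K5_polar {v f g : V → ℝ} (hf : H1 f) (hg : H1 g)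
    (hv : ∀ w : V → ℝ, H1 w → Integrable fun x => v x * w x ^ 2) :
    Integrable fun x => v x * f x * g x := by
  have := (((hv _ (hf.add hg)).sub (hv _ hf)).sub (hv _ hg)).const_mul (1 / 2)
  refine this.congr (Eventually.of_forall fun x => ?_)
  simp only [Pi.sub_apply]
  ring

theorem K5_ip_self (u : V → ℝ) : ip u u = nsq u := by
  simp only [ip, nsq, sq]

theorem K5_ip_comm (u w : V → ℝ) : ip u w = ip w u := by
  simp only [ip, mul_comm]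

theorem K5_dd_self (u : V → ℝ) : ∫ x, ⟪D u x, D u x⟫ = dir u := by
  simp only [dir, real_inner_self_eq_norm_sq]

end generic

/-- all matrix elements between two triple products -/
theorem K5_triple {v f g χ f' g' χ' : E → ℝ} (hf : H1 f) (hg : H1 g) (hχ : H1 χ) (hf' : H1 f')
    (hg' : H1 g') (hχ' : H1 χ') (hv : ∀ w : E → ℝ, H1 w → Integrable fun x => v x * w x ^ 2) :
    ip (K5_t f (K5_t g χ)) (K5_t f' (K5_t g' χ')) = ip f f' * (ip g g' * ip χ χ') ∧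
    (∫ p, ⟪D (K5_t f (K5_t g χ)) p, D (K5_t f' (K5_t g' χ')) p⟫ =
      (∫ x, ⟪D f x, D f' x⟫) * (ip g g' * ip χ χ') + ip f f' *
        ((∫ x, ⟪D g x, D g' x⟫) * ip χ χ' + ip g g' * ∫ y, ⟪D χ y, D χ' y⟫)) ∧
    (Integrable fun p : E9 => V3 v p * K5_t f (K5_t g χ) p * K5_t f' (K5_t g' χ') p) ∧
    ∫ p : E9, V3 v p * K5_t f (K5_t g χ) p * K5_t f' (K5_t g' χ') p =
      (∫ x, v x * f x * f' x) * (ip g g' * ip χ χ') + ip f f' *
        ((∫ x, v x * g x * g' x) * ip χ χ' + ip g g' * ∫ y, v y * χ y * χ' y) := by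
  have h2 := K5_pot hg hg' hχ hχ' (K5_polar hg hg' hv) (K5_polar hχ hχ' hv)
  have h3 := K5_pot (U' := fun y : E6 => v y.fst + v y.snd) hf hf' (K5_h1 hg hχ) (K5_h1 hg' hχ')
    (K5_polar hf hf' hv) h2.1
  have e : ∀ p : E9, V3 v p = v p.fst + (v p.snd.fst + v p.snd.snd) := fun p => by
    rw [V3, add_assoc]
  refine ⟨by rw [K5_ip, K5_ip], ?_, ?_, ?_⟩
  · rw [K5_dd hf hf' (K5_h1 hg hχ) (K5_h1 hg' hχ'), K5_dd hg hg' hχ hχ', K5_ip]
  · simp_rw [e]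
    exact h3.1
  · simp_rw [e]
    rw [h3.2, h2.2, K5_ip]

theorem K_slater {v f g χ : E → ℝ} (hf : H1 f) (hg : H1 g) (hχ : H1 χ) (nf : nsq f = 1)
    (ng : nsq g = 1) (nχ : nsq χ = 1) (ho : ip f g = 0)
    (hv : ∀ w : E → ℝ, H1 w → Integrable fun x => v x * w x ^ 2) :
    H1 (K_sl f g χ) ∧ Anti (K_sl f g χ) ∧ nsq (K_sl f g χ) = 1 ∧
      Q (V3 v) (K_sl f g χ) = Q v f + Q v g + Q v χ := by
  have ho' : ip g f = 0 := by rw [K5_ip_comm, ho]
  have e : K_sl f g χ =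
      fun p => (√2)⁻¹ * K5_t f (K5_t g χ) p + -(√2)⁻¹ * K5_t g (K5_t f χ) p := by
    funext p
    simp only [K_sl, K5_t]
    ring
  have hs : ((√2)⁻¹ : ℝ) ^ 2 = 1 / 2 := by
    rw [inv_pow, Real.sq_sqrt (by norm_num)]
    norm_num
  have hA := K5_h1 hf (K5_h1 hg hχ)
  have hB := K5_h1 hg (K5_h1 hf hχ)
  obtain ⟨a1, a2, a3, a4⟩ := K5_triple hf hg hχ hf hg hχ hv
  obtain ⟨b1, b2, b3, b4⟩ := K5_triple hg hf hχ hg hf hχ hv
  obtain ⟨c1, c2, c3, c4⟩ := K5_triple hf hg hχ hg hf hχ hv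
  simp only [K5_ip_self, K5_dd_self, nf, ng, nχ, ho, ho', mul_one, one_mul, zero_mul, mul_zero,
    add_zero] at a1 a2 a4 b1 b2 b4 c1 c2 c4
  refine ⟨?_, ?_, ?_, ?_⟩
  · rw [e]
    exact S11_h1_lc hA hB _ _
  · intro p
    show (f p.snd.fst * g p.fst - g p.snd.fst * f p.fst) * χ p.snd.snd / √2 =
      -((f p.fst * g p.snd.fst - g p.fst * f p.snd.fst) * χ p.snd.snd / √2)
    ring
  · rw [e, S11_nsq_lc hA.l2 hB.l2, a1, b1, c1, neg_sq, hs]
    ring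
  · have e2 : ∫ p, V3 v p * K_sl f g χ p ^ 2 =
        ∫ p, ((1 / 2) * (V3 v p * K5_t f (K5_t g χ) p * K5_t f (K5_t g χ) p) +
          (-1) * (V3 v p * K5_t f (K5_t g χ) p * K5_t g (K5_t f χ) p) +
          (1 / 2) * (V3 v p * K5_t g (K5_t f χ) p * K5_t g (K5_t f χ) p)) := by
      refine integral_congr_ae (Eventually.of_forall fun p => ?_)
      rw [e]
      simp only
      linear_combination (V3 v p * (K5_t f (K5_t g χ) p - K5_t g (K5_t f χ) p) ^ 2) * hs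
    have e3 : ∀ w : E → ℝ, ∫ x, v x * w x * w x = ∫ x, v x * w x ^ 2 := fun w => by
      simp only [sq, mul_assoc]
    rw [Q, e2, S11_int3 a3 c3 b3, a4, b4, c4, e, S11_dir_lc hA hB, a2, b2, c2, neg_sq, hs,
      e3, e3, e3, Q, Q, Q]
    ring

end

end Crest.Agent.R335
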