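import Crest.Agent.R335.Defs3
import Crest.Agent.R335.S13
import Crest.Agent.R335.S11
import Crest.Agent.R335.S09

set_option autoImplicit false

open MeasureTheory Set Filter Topology Metric
open scoped Gradient ContDiff RealInnerProductSpace ENNReal

namespace Crest.Agent.R335

noncomputable section

/-! module K: countable mixtures of densities -/

theorem K_mix {p : ℕ → ℝ≥0∞} (hp : ∑' k, p k = 1) {ρ : E → ℝ} {n : ℕ → E → ℝ}
    (h0 : ∀ x, 0 ≤ ρ x) (hρ : AEStronglyMeasurable ρ volume) (hn0 : ∀ k x, 0 ≤ n k x)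
    (hn : ∀ k, AEStronglyMeasurable (n k) volume)
    (h : ∀ A : Set E, MeasurableSet A → ∫⁻ x in A, ENNReal.ofReal (ρ x) =
      ∑' k, p k * ∫⁻ x in A, ENNReal.ofReal (n k x))
    {g : E → ℝ} (hg : Integrable fun x => g x * ρ x) :
    (∀ k, p k ≠ 0 → Integrable fun x => g x * n k x) ∧
      HasSum (fun k => (p k).toReal * ∫ x, g x * n k x) (∫ x, g x * ρ x) := by
  have hm : volume.withDensity (fun x => ENNReal.ofReal (ρ x)) =
      Measure.sum fun k => p k • volume.withDensity (fun x => ENNReal.ofReal (n k x)) := by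
    ext A hA
    rw [withDensity_apply _ hA, Measure.sum_apply _ hA, h A hA]
    simp only [Measure.smul_apply, withDensity_apply _ hA, smul_eq_mul]
  have hpk : ∀ k, p k ≠ ⊤ := fun k =>
    ne_top_of_le_ne_top ENNReal.one_ne_top (hp ▸ ENNReal.le_tsum k)
  have key : ∀ f : E → ℝ, (∀ x, 0 ≤ f x) → AEStronglyMeasurable f volume →
      (Integrable g (volume.withDensity fun x => ENNReal.ofReal (f x)) ↔
        Integrable fun x => g x * f x) ∧
      ∫ x, g x ∂(volume.withDensity fun x => ENNReal.ofReal (f x)) = ∫ x, g x * f x := by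
    intro f f0 fm
    have e : (fun x => (ENNReal.ofReal (f x)).toReal • g x) = fun x => g x * f x := by
      funext x
      rw [ENNReal.toReal_ofReal (f0 x), smul_eq_mul, mul_comm]
    have m : AEMeasurable (fun x => ENNReal.ofReal (f x)) volume := fm.aemeasurable.ennreal_ofReal
    have t : ∀ᵐ x : E, ENNReal.ofReal (f x) < ⊤ := Eventually.of_forall fun x =>
      ENNReal.ofReal_lt_top
    rw [integrable_withDensity_iff_integrable_smul₀' m t,
      integral_withDensity_eq_integral_toReal_smul₀ m t, e]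
    exact ⟨Iff.rfl, rfl⟩
  have i0 := (key ρ h0 hρ).1.2 hg
  rw [← (key ρ h0 hρ).2]
  rw [hm] at i0 ⊢
  refine ⟨fun k hk => ?_, ?_⟩
  · have := i0.mono_measure (Measure.le_sum _ k)
    rw [integrable_smul_measure hk (hpk k)] at this
    exact (key _ (hn0 k) (hn k)).1.1 this
  · have := hasSum_integral_measure i0
    simpa only [integral_smul_measure, (key _ (hn0 _) (hn _)).2, smul_eq_mul] using this

theorem K6_pack {F : ℕ → E → E} (hF : ∀ k, Integrable (F k))
    (hs : Summable fun k => ∫ x, ‖F k x‖) :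
    ∃ S : E → E, Integrable S ∧ ∀ᵐ x, HasSum (fun k => F k x) (S x) := by
  have h1 : Summable fun k => ‖(hF k).toL1 (F k)‖ := by
    simpa only [L1.norm_of_fun_eq_integral_norm] using hs
  refine ⟨_, L1.integrable_coeFn (∑' k, (hF k).toL1 (F k)), ?_⟩
  filter_upwards [Lp.hasSum_coeFn_tsum (tsum_enorm_ne_top_iff_summable_norm.2 h1),
    ae_all_iff.2 fun k => (hF k).coeFn_toL1] with x h1 h2
  simpa only [h2] using h1

theorem K6_amgm {j n τ s : ℝ} (hn : 0 ≤ n) (hτ : 0 ≤ τ) (h : j ^ 2 ≤ n * τ) :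
    j * s ≤ (1 / 2) * τ + (1 / 2) * (s ^ 2 * n) := by
  refine (abs_le_of_sq_le_sq' ?_ (by positivity)).2
  have := mul_le_mul_of_nonneg_right h (sq_nonneg s)
  nlinarith [sq_nonneg (τ - s ^ 2 * n)]

set_option maxHeartbeats 1000000 in
/-- the currents add up to the current of the mixture -/
theorem K_mixJ {p : ℕ → ℝ≥0∞} (hp : ∑' k, p k = 1) {ρ : E → ℝ} {n τ : ℕ → E → ℝ}
    (h0 : ∀ x, 0 ≤ ρ x) (hρ : Integrable ρ) (hn0 : ∀ k x, 0 ≤ n k x) (hτ0 : ∀ k x, 0 ≤ τ k x)
    (h : ∀ A : Set E, MeasurableSet A → ∫⁻ x in A, ENNReal.ofReal (ρ x) =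
      ∑' k, p k * ∫⁻ x in A, ENNReal.ofReal (n k x))
    {G a : E → E} {J : ℕ → E → E} {M : ℝ} (hW : IsW ρ fun x => (2 : ℝ) • G x)
    (hWk : ∀ k, IsW (n k) fun x => (2 : ℝ) • J k x) (hτ : ∀ k, Integrable (τ k))
    (hM : ∀ k, ∫ x, τ k x ≤ M) (hJ : ∀ k, ∀ᵐ x, ‖J k x‖ ^ 2 ≤ n k x * τ k x)
    (ha : AEStronglyMeasurable a volume) (hi : Integrable fun x => ‖a x‖ ^ 2 * ρ x) :
    HasSum (fun k => (p k).toReal * ∫ x, ⟪J k x, a x⟫) (∫ x, ⟪G x, a x⟫) := by
  have hn : ∀ k, AEStronglyMeasurable (n k) volume := fun k => (hWk k).lu.aestronglyMeasurable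
  have mJ : ∀ k, AEStronglyMeasurable (J k) volume := fun k => by
    have := (hWk k).lg.aestronglyMeasurable.const_smul (1 / 2 : ℝ)
    refine this.congr (Eventually.of_forall fun x => ?_)
    simp only [Pi.smul_apply, smul_smul]
    norm_num
  have mix := fun {g : E → ℝ} (hg : Integrable fun x => g x * ρ x) =>
    K_mix hp h0 hρ.aestronglyMeasurable hn0 hn h hg
  have s1 : Summable fun k => (p k).toReal := ENNReal.summable_toReal (by simp [hp])
  -- a scalar family dominated by `‖J k‖ s`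
  have gen : ∀ {X : Type} [NormedAddCommGroup X] [NormedSpace ℝ X] (F : ℕ → E → X) (s : E → ℝ),
      (∀ k, AEStronglyMeasurable (F k) volume) → (∀ k x, ‖F k x‖ ≤ ‖J k x‖ * s x) →
      (Integrable fun x => s x ^ 2 * ρ x) →
      (∀ k, Integrable fun x => (p k).toReal • F k x) ∧
        Summable fun k => ∫ x, ‖(p k).toReal • F k x‖ := by
    intro X _ _ F s hF hb hs
    obtain ⟨m1, m2⟩ := mix hs
    have b : ∀ k, ∀ᵐ x, ‖F k x‖ ≤ (1 / 2) * τ k x + (1 / 2) * (s x ^ 2 * n k x) := fun k => by
      filter_upwards [hJ k] with x hx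
      exact (hb k x).trans (K6_amgm (hn0 k x) (hτ0 k x) hx)
    have i : ∀ k, p k ≠ 0 → Integrable (F k) := fun k hk =>
      (((hτ k).const_mul _).add ((m1 k hk).const_mul _)).mono' (hF k) (b k)
    refine ⟨fun k => ?_, ?_⟩
    · by_cases hk : p k = 0
      · simp [hk]
      · exact (i k hk).smul (p k).toReal
    · refine Summable.of_nonneg_of_le (fun k => integral_nonneg fun x => norm_nonneg _)
        (fun k => ?_) ((s1.mul_right (1 / 2 * M)).add (m2.summable.mul_left (1 / 2)))
      by_cases hk : p k = 0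
      · simp [hk]
      simp only [norm_smul, Real.norm_of_nonneg ENNReal.toReal_nonneg]
      rw [integral_const_mul, mul_left_comm (1 / 2 : ℝ), ← mul_add]
      refine mul_le_mul_of_nonneg_left ?_ ENNReal.toReal_nonneg
      have := integral_mono_ae (i k hk).norm
        (((hτ k).const_mul _).add ((m1 k hk).const_mul _)) (b k)
      rw [integral_add' ((hτ k).const_mul _) ((m1 k hk).const_mul _), integral_const_mul,
        integral_const_mul] at this
      linarith [hM k]
  obtain ⟨j1, j2⟩ := gen J (fun _ => 1) mJ (fun k x => by simp) (by simpa using hρ)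
  obtain ⟨S, hS, hsum⟩ := K6_pack j1 j2
  have pair : ∀ b : E → E, AEStronglyMeasurable b volume →
      (Integrable fun x => ‖b x‖ ^ 2 * ρ x) →
      HasSum (fun k => (p k).toReal * ∫ x, ⟪J k x, b x⟫) (∫ x, ⟪S x, b x⟫) := by
    intro b hb hbi
    obtain ⟨i1, i2⟩ := gen (fun k x => ⟪J k x, b x⟫) (fun x => ‖b x‖) (fun k => (mJ k).inner hb)
      (fun k x => norm_inner_le_norm _ _) hbi
    have := hasSum_integral_of_summable_integral_norm i1 i2
    simp only [smul_eq_mul, integral_const_mul] at this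
    have e : ∫ x, ⟪S x, b x⟫ = ∫ x, ∑' k, (p k).toReal * ⟪J k x, b x⟫ := by
      refine integral_congr_ae ?_
      filter_upwards [hsum] with x hx
      have := (innerSL ℝ (b x)).hasSum hx
      simp only [innerSL_apply_apply, real_inner_smul_right] at this
      simp only [← real_inner_comm (b x)] at this
      exact this.tsum_eq.symm
    rwa [e]
  have hWS : IsW ρ fun x => (2 : ℝ) • S x := by
    have hS2 : Integrable fun x => (2 : ℝ) • S x := hS.smul (2 : ℝ)
    refine ⟨hρ.locallyIntegrable, hS2.locallyIntegrable, fun φ hφ v => ?_⟩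
    have l1 := (mix (g := fun x => ⟪∇ φ x, v⟫)
      (by simpa only [mul_comm] using s01_int1 hρ.locallyIntegrable hφ v)).2
    have c2 : Continuous fun x => ‖φ x • v‖ ^ 2 := (hφ.1.continuous.smul continuous_const).norm.pow 2
    have s2 : HasCompactSupport fun x => ‖φ x • v‖ ^ 2 := by
      refine hφ.2.mono fun x hx => ?_
      intro h0
      apply hx
      simp [h0]
    have l2 := pair (fun x => φ x • v) (hφ.1.continuous.smul continuous_const).aestronglyMeasurable
      (s05_int_mul hρ.locallyIntegrable c2 s2)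
    have e : ∀ (w : E → E), -∫ x, ⟪(2 : ℝ) • w x, v⟫ * φ x = -2 * ∫ x, ⟪w x, φ x • v⟫ := by
      intro w
      rw [← integral_const_mul, ← integral_neg]
      congr 1
      funext x
      rw [real_inner_smul_left, real_inner_smul_right]
      ring
    have l3 := l2.mul_left (-2)
    have e2 : (fun k => (p k).toReal * ∫ x, ⟪∇ φ x, v⟫ * n k x) =
        fun k => -2 * ((p k).toReal * ∫ x, ⟪J k x, φ x • v⟫) := by
      funext k
      have := (hWk k).ibp φ hφ v
      rw [e] at this
      simp only [mul_comm ⟪∇ φ _, v⟫]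
      rw [this]
      ring
    rw [e2] at l1
    rw [e, ← l1.unique l3]
    simp only [mul_comm]
  have eGS : ∀ᵐ x, G x = S x := by
    filter_upwards [hW.unique hWS] with x hx
    exact smul_right_injective E (two_ne_zero) hx
  have e : ∫ x, ⟪G x, a x⟫ = ∫ x, ⟪S x, a x⟫ := by
    refine integral_congr_ae ?_
    filter_upwards [eGS] with x hx
    rw [hx]
  rw [e]
  exact pair a ha hi

end

end Crest.Agent.R335
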