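import Crest.Agent.R335.Defs3
import Crest.Agent.R335.S13
import Crest.Agent.R335.S12
import Crest.Agent.R335.S11
import Crest.Agent.R335.S09
import Crest.Agent.R335.S08
import Crest.Agent.R335.S07
import Crest.Agent.R335.K1
import Crest.Agent.R335.K2
import Crest.Agent.R335.K3
import Crest.Agent.R335.K4
import Crest.Agent.R335.K5
import Crest.Agent.R335.K6

set_option autoImplicit false

open MeasureTheory Set Filter Topology Metric
open scoped Gradient ContDiff RealInnerProductSpace ENNReal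

namespace Crest.Agent.R335

noncomputable section

theorem KM_pot {v : E → ℝ} {C : ℝ}
    (hs : ∀ P : E9 → ℝ, H1 P → Integrable (fun p : E9 => v p.fst * P p ^ 2) ∧
      ∫ p : E9, |v p.fst| * P p ^ 2 ≤ (1 / 4) * (∫ p : E9, ‖(D P p).fst‖ ^ 2) + C * nsq P)
    {ι : Type} [Fintype ι] {P : ι → E9 → ℝ} (hP : ∀ i, H1 (P i)) :
    -((1 / 4) * (∫ x, s13H P x) + C * ∑ i, nsq (P i)) ≤ ∫ x, v x * s13N P x := by
  have e : ∀ i x, ∫ y, v x * P i (pt x y) ^ 2 = v x * ∫ y, P i (pt x y) ^ 2 := fun i x =>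
    integral_const_mul _ _
  have hi : ∀ i, Integrable fun x => v x * ∫ y, P i (pt x y) ^ 2 := fun i => by
    have := (integrable_pt (hs _ (hP i)).1).2
    simp only [← e]
    exact this
  have e1 : ∫ x, v x * s13N P x = ∑ i, ∫ p : E9, v p.fst * P i p ^ 2 := by
    unfold s13N
    simp only [Finset.mul_sum]
    rw [integral_finsetSum _ fun i _ => hi i]
    refine Finset.sum_congr rfl fun i _ => ?_
    rw [integral_pt (hs _ (hP i)).1]
    simp only [← e]
    rfl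
  have e2 : ∫ x, s13H P x = ∑ i, ∫ p : E9, ‖(D (P i) p).fst‖ ^ 2 := by
    unfold s13H
    rw [integral_finsetSum _ fun i _ => (s13_intg (s13_sqn_int (s13_fst2 (hP i).dl2))).2]
    exact Finset.sum_congr rfl fun i _ => (integral_pt (s13_sqn_int (s13_fst2 (hP i).dl2))).symm
  rw [e1, e2, Finset.mul_sum, Finset.mul_sum, ← Finset.sum_add_distrib, ← Finset.sum_neg_distrib]
  refine Finset.sum_le_sum fun i _ => ?_
  refine (neg_le_neg (hs _ (hP i)).2).trans ?_
  have h1 := neg_abs_le (∫ p : E9, v p.fst * P i p ^ 2)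
  refine le_trans (neg_le_neg ?_) h1
  refine abs_integral_le_integral_abs.trans (le_of_eq ?_)
  congr 1
  funext p
  rw [abs_mul, abs_of_nonneg (sq_nonneg (P i p))]

/-- the family of all real components of one state of the ensemble -/
def KM_fam (c : Fin 16 → E9 → ℝ) : Fin 16 × Fin 2 → E9 → ℝ := fun ji => comp (c ji.1) ji.2

theorem KM_N (c : Fin 16 → E9 → ℝ) (x : E) : s13N (KM_fam c) x = ∑ j, dens (c j) x := by
  unfold s13N dens KM_fam
  rw [Fintype.sum_prod_type]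

theorem KM_H (c : Fin 16 → E9 → ℝ) (x : E) : s13H (KM_fam c) x = ∑ j, s13H (comp (c j)) x := by
  unfold s13H KM_fam
  rw [Fintype.sum_prod_type]

theorem KM_h1 {c : Fin 16 → E9 → ℝ} (h : ∀ j, H1 (c j)) (ji : Fin 16 × Fin 2) :
    H1 (KM_fam c ji) := K_comp_h1 (h ji.1) ji.2

theorem KM_energy {v : E → ℝ} {c : Fin 16 → E9 → ℝ} (h : ∀ j, H1 (c j) ∧ Anti (c j))
    (hs : ∀ P : E9 → ℝ, H1 P → Integrable (fun p : E9 => v p.fst * P p ^ 2)) :
    ∑ j, Q (V3 v) (c j) =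
      (1 / 2) * (∫ x, s13H (KM_fam c) x) + ∫ x, v x * s13N (KM_fam c) x := by
  have hp := fun j => K_comp_pot (h j).2 (v := v) fun i => hs _ (K_comp_h1 (h j).1 i)
  simp only [KM_N, KM_H, Finset.mul_sum]
  rw [integral_finsetSum _ fun j _ => s13H_int (K_comp_h1 (h j).1),
    integral_finsetSum _ fun j _ => (hp j).1, Finset.mul_sum, ← Finset.sum_add_distrib]
  refine Finset.sum_congr rfl fun j _ => ?_
  rw [K_comp_dir (h j).1 (h j).2, ← (hp j).2]
  rfl

theorem KM_lint {c : Fin 16 → E9 → ℝ} (h : ∀ j, H1 (c j)) (A : Set E) :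
    ∑ j, ∫⁻ x in A, ENNReal.ofReal (dens (c j) x) =
      ∫⁻ x in A, ENNReal.ofReal (s13N (KM_fam c) x) := by
  have hm : ∀ j, AEMeasurable (fun x => ENNReal.ofReal (dens (c j) x)) (volume.restrict A) :=
    fun j => (s13N_int (K_comp_h1 (h j))).aestronglyMeasurable.aemeasurable.restrict.ennreal_ofReal
  rw [← lintegral_finsetSum' _ fun j _ => hm j]
  refine lintegral_congr fun x => ?_
  rw [KM_N]
  exact (ENNReal.ofReal_sum_of_nonneg fun j _ => s13N_nonneg (comp (c j)) x).symm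

theorem KM_Q_smul {v f : E → ℝ} (hf : H1 f) (t : ℝ) :
    Q v (fun x => t * f x) = t ^ 2 * Q v f ∧ nsq (fun x => t * f x) = t ^ 2 * nsq f := by
  constructor
  · unfold Q dir
    have e1 : ∫ x, ‖D (fun x => t * f x) x‖ ^ 2 = t ^ 2 * ∫ x, ‖D f x‖ ^ 2 := by
      rw [← integral_const_mul]
      refine integral_congr_ae ?_
      filter_upwards [D_smul t hf.hl] with x hx
      rw [hx, norm_smul, mul_pow, Real.norm_eq_abs, sq_abs]
    have e2 : ∫ x, v x * (t * f x) ^ 2 = t ^ 2 * ∫ x, v x * f x ^ 2 := by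
      rw [← integral_const_mul]
      congr 1
      funext x
      ring
    rw [e1, e2]
    ring
  · unfold nsq
    rw [← integral_const_mul]
    congr 1
    funext x
    ring

set_option maxHeartbeats 1000000 in
theorem K_main {r u v ρ : E → ℝ} {δ : ℝ} (hδ : 0 ≤ δ) (hA : Ang r u δ) (hC : Cert r u δ)
    (hv : Cls v) (hρ : ∀ᵐ x, r x ^ 2 = ρ x) (hE : Ens v ρ) :
    ∃ e, Eig v e fun x => r x * Real.cos (u x) := by
  obtain ⟨p, c, hp, hc, hn1, hmin, hdens⟩ := hE
  obtain ⟨C, -, hs⟩ := K_small hv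
  obtain ⟨C9, -, hs9⟩ := K_small9 hv
  have hφ := hA.hφ
  have hψ := hA.hψ
  have nψ := hA.n1
  have kin := hA.kin
  set φ : E → ℝ := fun x => r x * Real.cos (u x) with hφd
  set ψ : E → ℝ := fun x => r x * Real.sin (u x) with hψd
  have pyth : ∀ x, φ x ^ 2 + ψ x ^ 2 = r x ^ 2 := fun x => by
    simp only [hφd, hψd]
    linear_combination (r x ^ 2) * Real.cos_sq_add_sin_sq (u x)
  have nφ : nsq φ = 2 := by
    have : nsq φ + nsq ψ = nsq r := by
      unfold nsq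
      rw [← integral_add hφ.l2.integrable_sq hψ.l2.integrable_sq]
      simp only [pyth]
    linarith [hA.nr]
  have orth : ip φ ψ = 0 := by
    refine Od.integral (u := fun x => φ x * ψ x) ?_
    filter_upwards [hA.evr, hA.od] with x h1 h2
    simp only [hφd, hψd, h1, h2, Real.cos_neg, Real.sin_neg]
    ring
  have h2 : ((√2)⁻¹ : ℝ) ^ 2 = 1 / 2 := by
    rw [inv_pow, Real.sq_sqrt (by norm_num)]; norm_num
  have hf : H1 fun x => (√2)⁻¹ * φ x := hφ.smul _
  obtain ⟨Qf, nf⟩ := KM_Q_smul (v := v) hφ (√2)⁻¹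
  rw [h2] at Qf nf
  have nf1 : nsq (fun x => (√2)⁻¹ * φ x) = 1 := by rw [nf, nφ]; norm_num
  have orth' : ip (fun x => (√2)⁻¹ * φ x) ψ = 0 := by
    unfold ip at orth ⊢
    simp only [mul_assoc]
    rw [integral_const_mul, orth, mul_zero]
  have hup : ∀ k χ, H1 χ → nsq χ = 1 →
      (1 / 2) * (∫ x, s13H (KM_fam (c k)) x) + ∫ x, v x * s13N (KM_fam (c k)) x ≤
        1 / 2 * Q v φ + Q v ψ + Q v χ := by
    intro k χ hχ nχ
    obtain ⟨a1, a2, a3, a4⟩ := K_slater (v := v) hf hψ hχ nf1 nψ nχ orth' fun w hw => (hs w hw).1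
    rw [← KM_energy (hc k) fun P hP => (hs9 P hP).1, ← Qf, ← a4]
    exact hmin k _ a1 a2 a3
  have hP : ∀ k ji, H1 (KM_fam (c k) ji) := fun k => KM_h1 fun j => (hc k j).1
  have hn3 : ∀ k, ∑ ji, nsq (KM_fam (c k) ji) = 3 := fun k => by
    unfold KM_fam
    rw [Fintype.sum_prod_type]
    simp only [fun j => K_comp_nsq (hc k j).1]
    rw [← Finset.mul_sum, hn1 k, mul_one]
  have hM : ∀ k, ∫ x, s13H (KM_fam (c k)) x ≤ 4 * (1 / 2 * Q v φ + Q v ψ + Q v ψ + C9 * 3) := by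
    intro k
    have a := hup k ψ hψ nψ
    have b := KM_pot hs9 (hP k)
    rw [hn3 k] at b
    linarith
  have hd : ∀ A : Set E, MeasurableSet A → ∫⁻ x in A, ENNReal.ofReal (r x ^ 2) =
      ∑' k, p k * ∫⁻ x in A, ENNReal.ofReal (s13N (KM_fam (c k)) x) := by
    intro A hAm
    simp only [← KM_lint fun j => (hc _ j).1]
    rw [← hdens A hAm]
    refine lintegral_congr_ae (ae_restrict_of_ae ?_)
    filter_upwards [hρ] with x hx
    rw [hx]
  have hpos : ∀ᵐ x, 0 < r x := S04.ae_pos hA.lp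
  set a : E → E := fun x => (r x)⁻¹ • D r x with had
  have ea : ∀ᵐ x, ‖a x‖ ^ 2 * r x ^ 2 = ‖D r x‖ ^ 2 := by
    filter_upwards [hpos] with x hx
    simp only [had, norm_smul, mul_pow, Real.norm_eq_abs, sq_abs]
    field_simp
  have ia : Integrable fun x => ‖a x‖ ^ 2 * r x ^ 2 :=
    (S11_int_normsq hA.hr.dl2).congr (ea.mono fun x hx => hx.symm)
  have iu : Integrable fun x => ‖D u x‖ ^ 2 * r x ^ 2 := by
    simpa only [mul_comm] using hA.fin
  have ir : Integrable fun x => r x ^ 2 := hA.hr.l2.integrable_sq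
  have mix := fun {g : E → ℝ} (hg : Integrable fun x => g x * r x ^ 2) =>
    K_mix hp (fun x => sq_nonneg (r x)) ir.aestronglyMeasurable
      (fun k x => s13N_nonneg (KM_fam (c k)) x)
      (fun k => (s13N_int (hP k)).aestronglyMeasurable) hd hg
  have hW : IsW (fun x => r x ^ 2) fun x => (2 : ℝ) • (r x • D r x) := by
    obtain ⟨b1, b2⟩ := Bl.mul (⟨hA.hr.hl, hA.bd.lb⟩ : Bl r) ⟨hA.hr.hl, hA.bd.lb⟩
    refine b1.hl.isW.congr (Eventually.of_forall fun x => sq _) ?_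
    filter_upwards [b2] with x hx
    rw [hx, two_smul]
  have ma : AEStronglyMeasurable a volume :=
    (hA.hr.hl.aesm.aemeasurable.inv.aestronglyMeasurable).smul hA.hr.hl.aesm_D
  have sJ := K_mixJ hp (fun x => sq_nonneg (r x)) ir (fun k x => s13N_nonneg (KM_fam (c k)) x)
    (fun k x => s13H_nonneg (KM_fam (c k)) x) hd hW (fun k => s13N_isW (hP k))
    (fun k => s13H_int (hP k)) hM (fun k => s13G_sq (hP k)) ma ia
  have iw : Integrable fun x => (‖a x‖ ^ 2 + ‖D u x‖ ^ 2) * r x ^ 2 := by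
    simp only [add_mul]
    exact ia.add iu
  have eg : ∀ x, ((1 / 2) * ‖a x‖ ^ 2 - (1 / 2) * ‖D u x‖ ^ 2 - δ * Real.cos (u x) ^ 2) * r x ^ 2 =
      (1 / 2) * (‖a x‖ ^ 2 * r x ^ 2) + (-(1 / 2)) * (‖D u x‖ ^ 2 * r x ^ 2) + (-δ) * φ x ^ 2 :=
    fun x => by simp only [hφd]; ring
  have ig : Integrable fun x =>
      ((1 / 2) * ‖a x‖ ^ 2 - (1 / 2) * ‖D u x‖ ^ 2 - δ * Real.cos (u x) ^ 2) * r x ^ 2 := by
    simp only [eg]
    exact ((ia.const_mul _).add (iu.const_mul _)).add (hφ.l2.integrable_sq.const_mul _)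
  have sg := (mix ig).2
  have sv := (mix (hs r hA.hr).1).2
  have s1 : HasSum (fun k => (p k).toReal) 1 := by
    have := ENNReal.hasSum_toReal (f := p) (by rw [hp]; exact ENNReal.one_ne_top)
    rwa [← ENNReal.tsum_toReal_eq fun k => ne_top_of_le_ne_top ENNReal.one_ne_top
      (hp ▸ ENNReal.le_tsum k), hp, ENNReal.toReal_one] at this
  have v1 : ∫ x, ⟪r x • D r x, a x⟫ = dir r := by
    refine integral_congr_ae ?_
    filter_upwards [hpos] with x hx
    simp only [had, real_inner_smul_left, real_inner_smul_right, real_inner_self_eq_norm_sq]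
    field_simp
  have v2 : ∫ x, ((1 / 2) * ‖a x‖ ^ 2 - (1 / 2) * ‖D u x‖ ^ 2 - δ * Real.cos (u x) ^ 2) * r x ^ 2 =
      (1 / 2) * dir r - (1 / 2) * (∫ x, r x ^ 2 * ‖D u x‖ ^ 2) - δ * 2 := by
    simp only [eg]
    rw [S11_int3 ia iu hφ.l2.integrable_sq, integral_congr_ae ea]
    have e1 : ∫ x, φ x ^ 2 = 2 := nφ
    have e2 : ∫ x, ‖D u x‖ ^ 2 * r x ^ 2 = ∫ x, r x ^ 2 * ‖D u x‖ ^ 2 := by simp only [mul_comm]
    rw [e1, e2]
    unfold dir
    ring
  have v3 : ∫ x, v x * r x ^ 2 = (∫ x, v x * φ x ^ 2) + ∫ x, v x * ψ x ^ 2 := by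
    rw [← integral_add (hs φ hφ).1 (hs ψ hψ).1]
    simp only [← mul_add, pyth]
  refine ⟨Q v φ / 2, K_eig hφ (fun w hw => (hs w hw).1) (by rw [nφ]; ring) fun χ hχ nχ => ?_⟩
  have key := hasSum_le (fun k => ?_) ((sJ.sub sg).add sv)
    (s1.mul_right (1 / 2 * Q v φ + Q v ψ + Q v χ + 2 * δ))
  · rw [v1, v2, v3] at key
    have q1 : Q v φ = (1 / 2) * dir φ + ∫ x, v x * φ x ^ 2 := rfl
    have q2 : Q v ψ = (1 / 2) * dir ψ + ∫ x, v x * ψ x ^ 2 := rfl
    linarith
  · rw [← mul_sub, ← mul_add]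
    by_cases hk : p k = 0
    · simp [hk]
    refine mul_le_mul_of_nonneg_left ?_ ENNReal.toReal_nonneg
    have b1 := K_cert hA hC (hP k) ((mix iw).1 k hk)
    have b2 : ∑ ji, ∫ y, (∫ x, φ x * KM_fam (c k) ji (pt x y)) ^ 2 ≤ 4 := by
      unfold KM_fam
      rw [Fintype.sum_prod_type]
      calc _ ≤ ∑ j, 2 * nsq φ * nsq (c k j) :=
            Finset.sum_le_sum fun j _ => K_pauli (hc k j).1.l2 (hc k j).2 hφ.l2
        _ = 4 := by rw [← Finset.mul_sum, hn1 k, nφ]; norm_num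
    have b3 := mul_le_mul_of_nonneg_left b2 (show 0 ≤ δ / 2 by linarith)
    have b4 := hup k χ hχ nχ
    simp only [hφd] at b3
    simp only [had]
    linarith

end

end Crest.Agent.R335
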