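import Crest.Agent.R335.MA4

/-! Row 335, module MA: the Pauli principle. -/

set_option autoImplicit false
set_option linter.unusedSectionVars false

open MeasureTheory Set Filter Topology Metric
open scoped Gradient ContDiff RealInnerProductSpace ENNReal

namespace Crest.Agent.R335

noncomputable section

variable {V : Type*} [NormedAddCommGroup V] [InnerProductSpace ℝ V] [FiniteDimensional ℝ V]
  [MeasurableSpace V] [BorelSpace V]
variable {W : Type*} [NormedAddCommGroup W] [InnerProductSpace ℝ W] [FiniteDimensional ℝ W]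
  [MeasurableSpace W] [BorelSpace W]

theorem MA5_slice {P : E6 → ℝ} (ha : Anti2 P) (f : E → ℝ) (x : E) :
    ip f (fun y => P (pt x y)) = -ip f fun y => P (pt y x) := by
  unfold ip
  rw [← integral_neg]
  congr 1
  funext y
  have : P (pt x y) = -P (pt y x) := ha (pt y x)
  beta_reduce
  rw [this, mul_neg]

theorem MA5_nsq_slice {P : E6 → ℝ} (ha : Anti2 P) (f : E → ℝ) :
    nsq (fun x => ip f fun y => P (pt x y)) = nsq fun y => ip f fun x => P (pt x y) := by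
  unfold nsq
  congr 1
  funext x
  beta_reduce
  rw [MA5_slice ha, neg_sq]

theorem MA5_ip_swap {P : E6 → ℝ} (ha : Anti2 P) (f k : E → ℝ) :
    ip (fun p : E6 => f p.fst * k p.snd) P = -ip (fun p : E6 => k p.fst * f p.snd) P := by
  obtain ⟨L, hL⟩ := exists_sw6
  rw [← ip_iso L (fun p : E6 => f p.fst * k p.snd) P]
  unfold ip
  rw [← integral_neg]
  congr 1
  funext y
  beta_reduce
  rw [hL, ha]
  change f y.snd * k y.fst * -P y = _
  ring

theorem MA5_int {Y : Type*} [MeasurableSpace Y] {μ : Measure Y} {n a b q : Y → ℝ} {α β γ : ℝ}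
    (hn : Integrable n μ) (ha : Integrable a μ) (hb : Integrable b μ) (hq : Integrable q μ)
    (h : ∀ᵐ y ∂μ, α * n y - β * a y - γ * b y ≤ q y) :
    α * (∫ y, n y ∂μ) - β * (∫ y, a y ∂μ) - γ * ∫ y, b y ∂μ ≤ ∫ y, q y ∂μ := by
  have h1 : Integrable (fun y => α * n y - β * a y) μ := (hn.const_mul α).sub (ha.const_mul β)
  rw [← integral_const_mul, ← integral_const_mul, ← integral_const_mul,
    ← integral_sub (hn.const_mul α) (ha.const_mul β), ← integral_sub h1 (hb.const_mul γ)]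
  exact integral_mono_ae (h1.sub (hb.const_mul γ)) hq h

/-- Let `a y = ⟨g, P(·,y)⟩`, `b y = ⟨u, P(·,y)⟩`, `N = nsq P`, `t = ⟨g ⊗ u, P⟩ = -⟨u ⊗ g, P⟩`,
`⟨g ⊗ g, P⟩ = ⟨u ⊗ u, P⟩ = 0` (antisymmetry, `ip_iso` with `sw6`), `⟨g, P(x,·)⟩ = -a x`,
`⟨u, P(x,·)⟩ = -b x`.  `Q_split` and `OK0.gap` give `Q ≥ 2 e3 N - 2 (B + δ) nsq a - 2 B nsq b`,
`B = e3 - eu ≥ δ`.  `proj_ineq` for the family `![g, u]`: `2 nsq a + 2 nsq b ≤ N + 2 t²`; for the family
`![g]`: `2 nsq a ≤ N`; Cauchy-Schwarz: `⟨w0, P⟩² = 2 t² ≤ N`; the difference is `≥ (B - δ)(N - 2 t²)`. -/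
theorem OD.OK.gap_anti2 {o : OD} (h : o.OK) {P : E6 → ℝ} (hP : H1 P) (ha : Anti2 P) :
    2 * o.eu * nsq P - o.δ0 * ip (w0 o.g0 o.u0) P ^ 2 ≤ Q (V2 o.v) P := by
  have h0 := h.toOK0
  have hg : MemLp o.g0 2 volume := h0.sg.h1.l2
  have hu : MemLp o.u0 2 volume := h0.su.h1.l2
  have hv : OpB 16 o.v := opB_vx o.d
  obtain ⟨i1, i2, e⟩ := Q_split hv hv hP
  have e' : Q (V2 o.v) P =
      (∫ y, Q o.v fun x => P (pt x y)) + ∫ x, Q o.v fun y => P (pt x y) := e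
  obtain ⟨n1, n1'⟩ := nsq_slice_fst hP.l2
  obtain ⟨n2, n2'⟩ := nsq_slice_snd hP.l2
  have q1 := MA5_int n1 (memLp_pair_fst hg hP.l2).integrable_sq
    (memLp_pair_fst hu hP.l2).integrable_sq i1 (hP.slice_fst.mono fun y hy => h0.gap _ hy.1)
  have q2 := MA5_int n2 (memLp_pair_snd hg hP.l2).integrable_sq
    (memLp_pair_snd hu hP.l2).integrable_sq i2 (hP.slice_snd.mono fun y hy => h0.gap _ hy.1)
  rw [← n1'] at q1
  rw [← n2'] at q2
  change o.e3 * nsq P - (o.e3 - o.eg) * nsq (fun y => ip o.g0 fun x => P (pt x y)) -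
    (o.e3 - o.eu) * nsq (fun y => ip o.u0 fun x => P (pt x y)) ≤ _ at q1
  change o.e3 * nsq P - (o.e3 - o.eg) * nsq (fun x => ip o.g0 fun y => P (pt x y)) -
    (o.e3 - o.eu) * nsq (fun x => ip o.u0 fun y => P (pt x y)) ≤ _ at q2
  rw [MA5_nsq_slice ha, MA5_nsq_slice ha] at q2
  have zgg : ip (fun p : E6 => o.g0 p.fst * o.g0 p.snd) P = 0 := by
    have := MA5_ip_swap ha o.g0 o.g0
    linarith
  have zuu : ip (fun p : E6 => o.u0 p.fst * o.u0 p.snd) P = 0 := by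
    have := MA5_ip_swap ha o.u0 o.u0
    linarith
  have zug := MA5_ip_swap ha o.u0 o.g0
  have m2 : ∀ i : Fin 2, MemLp (![o.g0, o.u0] i) 2 volume := by
    intro i
    fin_cases i
    · exact hg
    · exact hu
  have o2 : ∀ i j : Fin 2, ip (![o.g0, o.u0] i) (![o.g0, o.u0] j) = if i = j then 1 else 0 := by
    intro i j
    fin_cases i <;> fin_cases j
    · exact (ip_self _).trans h0.ng
    · exact h0.ip_gu
    · exact (ip_comm _ _).trans h0.ip_gu
    · exact (ip_self _).trans h0.nu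
  have p2 := proj_ineq m2 o2 m2 o2 hP.l2
  simp only [Fin.sum_univ_two, Matrix.cons_val_zero, Matrix.cons_val_one] at p2
  rw [MA5_nsq_slice ha, MA5_nsq_slice ha, zgg, zuu, zug] at p2
  have o1 : ∀ i j : Unit, ip o.g0 o.g0 = if i = j then 1 else 0 := fun i j => by
    rw [if_pos (Subsingleton.elim i j)]
    exact (ip_self _).trans h0.ng
  have p1 := proj_ineq (a := fun _ : Unit => o.g0) (b := fun _ : Unit => o.g0) (fun _ => hg) o1
    (fun _ => hg) o1 hP.l2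
  simp only [Finset.univ_unique, Finset.sum_singleton] at p1
  rw [MA5_nsq_slice ha, zgg] at p1
  have w1 : ip (w0 o.g0 o.u0) P ^ 2 = 2 * ip (fun p : E6 => o.g0 p.fst * o.u0 p.snd) P ^ 2 := by
    have h1 := S11_ip_lc hP.l2 (memLp_tensor hu hg) (memLp_tensor hg hu) (1 / √2) (-(1 / √2))
    have h2 : (fun y : E6 => 1 / √2 * (o.u0 y.fst * o.g0 y.snd) +
        -(1 / √2) * (o.g0 y.fst * o.u0 y.snd)) = w0 o.g0 o.u0 := by
      funext y
      unfold w0
      ring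
    rw [h2, ip_comm P, ip_comm P, ip_comm P, zug] at h1
    have h3 : (1 / √2 : ℝ) ^ 2 = 1 / 2 := by
      rw [div_pow, Real.sq_sqrt (by norm_num), one_pow]
    rw [h1]
    linear_combination 4 * ip (fun p : E6 => o.g0 p.fst * o.u0 p.snd) P ^ 2 * h3
  have c1 := S11_cs h0.l2_w0.1 hP.l2
  rw [h0.l2_w0.2, one_mul, w1] at c1
  have d1 := h.δ_le
  have d0 := h.δ.1
  have d2 : o.eg = o.eu - o.δ0 := by unfold OD.δ0; ring
  rw [e', w1]
  rw [d2] at q1 q2
  nlinarith [mul_nonneg (sub_nonneg.2 d1) (sub_nonneg.2 c1),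
    mul_nonneg (d0.le.trans d1) (sub_nonneg.2 p2), mul_nonneg d0.le (sub_nonneg.2 p1)]

/-- apply `tensor_gap` to `χ ∘ cyc` (its slices are `Anti2`); `psi0 ∘ cyc = g ⊗ w0`,
`V3 ∘ cyc = v ⊕ V2` -/
theorem OD.OK.gap_three {o : OD} (h : o.OK) {χ : E9 → ℝ} (hχ : H1 χ) (ha : Anti χ) :
    (o.eg + 2 * o.eu) * nsq χ - o.δ0 * ip (psi0 o.g0 o.u0) χ ^ 2 ≤ Q (V3 o.v) χ := by
  have h0 := h.toOK0
  obtain ⟨L, hL⟩ := exists_cyc
  have hv : OpB 16 o.v := opB_vx o.d
  have hv2 : OpB 64 (V2 o.v) := opB_V2 o.d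
  have key := tensor_gap hv hv2 h0.sg.h1.l2 h0.ng h0.l2_w0.1 h0.l2_w0.2 h.δ.1.le (P := Anti2)
    (fun f hf => h0.gap1 hf) (fun F hF hF' => h.gap_anti2 hF hF') (hχ.iso L).1 (fun x y => by
      change χ (L (pt x (sw6 y))) = -χ (L (pt x y))
      rw [hL, hL]
      exact ha (cyc (pt x y)))
  have e1 : (fun p : E9 => o.g0 p.fst * w0 o.g0 o.u0 p.snd) =
      fun p => psi0 o.g0 o.u0 (L p) := by
    funext p
    rw [hL]
    change o.g0 p.fst * ((o.u0 p.snd.fst * o.g0 p.snd.snd - o.g0 p.snd.fst * o.u0 p.snd.snd) / √2) =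
      (o.u0 p.snd.fst * o.g0 p.snd.snd - o.g0 p.snd.fst * o.u0 p.snd.snd) * o.g0 p.fst / √2
    ring
  have e2 : (fun p : E9 => o.v p.fst + V2 o.v p.snd) = fun p => V3 o.v (L p) := by
    funext p
    rw [hL]
    change o.v p.fst + (o.v p.snd.fst + o.v p.snd.snd) =
      o.v p.snd.fst + o.v p.snd.snd + o.v p.fst
    ring
  rw [e1, e2, ip_iso, nsq_iso, Q_iso L _ hχ] at key
  have d2 : o.eu + 2 * o.eu - o.δ0 = o.eg + 2 * o.eu := by unfold OD.δ0; ring
  rwa [d2] at key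

end

end Crest.Agent.R335
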