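import Crest.Agent.R335.MA1

/-! Row 335, module MA: first order perturbation of an isolated ground state. -/

set_option autoImplicit false
set_option linter.unusedSectionVars false

open MeasureTheory Set Filter Topology Metric
open scoped Gradient ContDiff RealInnerProductSpace ENNReal

namespace Crest.Agent.R335

noncomputable section

variable {V : Type*} [NormedAddCommGroup V] [InnerProductSpace ℝ V] [FiniteDimensional ℝ V]
  [MeasurableSpace V] [BorelSpace V]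
variable {W : Type*} [NormedAddCommGroup W] [InnerProductSpace ℝ W] [FiniteDimensional ℝ W]
  [MeasurableSpace W] [BorelSpace W]

theorem MA6_el {U u χ : V → ℝ} {En : ℝ} (hu : H1 u) (hχ : H1 χ)
    (hU : MemLp (fun x => U x * u x) 2 volume)
    (h : ∫ x, (1 / 2) * ⟪D u x, D χ x⟫ = ∫ x, (En - U x) * u x * χ x) :
    S11_B U u χ = En * ip u χ := by
  unfold S11_B ip
  rw [integral_const_mul] at h
  have h1 : ∫ x, (En - U x) * u x * χ x = En * (∫ x, u x * χ x) - ∫ x, U x * u x * χ x := by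
    rw [← integral_const_mul, ← integral_sub ((S11_int_mul hu.l2 hχ.l2).const_mul En)
      (S11_int_mul hU hχ.l2)]
    refine integral_congr_ae (Eventually.of_forall fun x => ?_)
    ring
  rw [h, h1]; ring

theorem MA6_B_self (U u : V → ℝ) : S11_B U u u = Q U u := by
  unfold S11_B Q dir
  congr 1
  · congr 1
    refine integral_congr_ae (Eventually.of_forall fun x => ?_)
    exact real_inner_self_eq_norm_sq _
  · refine integral_congr_ae (Eventually.of_forall fun x => ?_)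
    ring

/-- `exists_min` with a sign convention -/
theorem MA6_min {P : (V → ℝ) → Prop} {U b : V → ℝ} {C K m : ℝ} (hP : ∀ u, P u → H1 u)
    (hlin : ∀ u w (s t : ℝ), P u → P w → P fun x => s * u x + t * w x)
    (hcl : ∀ (u : V → ℝ) (w : ℕ → V → ℝ), H1 u → (∀ n, P (w n)) →
      Tendsto (fun n => nsq fun x => u x - w n x) atTop (𝓝 0) → ∃ u', P u' ∧ ∀ᵐ x, u' x = u x)
    (hU : OpB C U) (hb : MemLp b 2 volume) (hK : 0 ≤ K)
    (h1 : ∀ u, P u → m * nsq u - K * ip b u ^ 2 ≤ Q U u)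
    (h0 : ∃ u, P u ∧ Q U u < m * nsq u) :
    ∃ ψ, P ψ ∧ nsq ψ = 1 ∧ Q U ψ < m ∧ (∀ u, P u → Q U ψ * nsq u ≤ Q U u) ∧
      (∀ χ, P χ → ∫ x, (1 / 2) * ⟪D ψ x, D χ x⟫ = ∫ x, (Q U ψ - U x) * ψ x * χ x) ∧
      0 ≤ ip b ψ := by
  obtain ⟨ψ, p1, p2, p3, p4, p5⟩ := exists_min (k := 1) (b := fun _ => b) (K := K) (m := m) hP hlin hcl
    hU.bd (fun _ => hb) hK hU.nn (fun u hu => by simpa using h1 u hu) h0
  by_cases hs : 0 ≤ ip b ψ
  · exact ⟨ψ, p1, p2, p3, p4, p5, hs⟩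
  · have hψ := hP ψ p1
    have hUψ := (hU.bd ψ hψ).1
    have q1 : Q U (fun x => (-1) * ψ x + 0 * ψ x) = Q U ψ := by
      rw [S11_Q_lc hψ hψ hUψ hUψ]; ring
    refine ⟨fun x => (-1) * ψ x + 0 * ψ x, hlin _ _ _ _ p1 p1, ?_, ?_, ?_, ?_, ?_⟩
    · rw [S11_nsq_lc hψ.l2 hψ.l2, p2]; ring
    · rw [q1]; exact p3
    · rw [q1]; exact p4
    · intro χ hχ
      rw [q1]
      have e1 : ∀ᵐ x, D (fun x => (-1) * ψ x + 0 * ψ x) x = D (fun x => (-1) * ψ x) x :=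
        D_congr (Eventually.of_forall fun x => by ring)
      have e2 : ∫ x, (1 / 2) * ⟪D (fun x => (-1) * ψ x + 0 * ψ x) x, D χ x⟫ =
          ∫ x, -((1 / 2) * ⟪D ψ x, D χ x⟫) := by
        refine integral_congr_ae ?_
        filter_upwards [e1, D_smul (-1) hψ.hl] with x h1 h2
        rw [h1, h2, real_inner_smul_left]; ring
      rw [e2, integral_neg, p5 χ hχ, ← integral_neg]
      refine integral_congr_ae (Eventually.of_forall fun x => ?_)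
      ring
    · rw [S11_ip_lc hb hψ.l2 hψ.l2]
      linarith [not_le.1 hs]

theorem MA6_num {e0 δ J C l t q n d : ℝ} (hδ : 0 < δ) (hC : 0 ≤ C) (t0 : 0 ≤ t)
    (t1 : t ^ 2 ≤ 1) (h : δ * (1 - t ^ 2) ≤ l * J) (hn : n = 2 - 2 * t)
    (hq : q ≤ 2 * e0 * (1 - t) + l * J) (hd : d ≤ 4 * q + (1 + 4 * C) * n) :
    n + d ≤ J * (8 * |e0| / δ + 4 + (4 + 8 * C) / δ) * l := by
  have t2 : t ≤ 1 := by nlinarith
  have h1 : 1 - t ≤ l * J / δ := by
    rw [le_div_iff₀ hδ]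
    have : 1 - t ≤ 1 - t ^ 2 := by nlinarith
    nlinarith
  have h2 : e0 * (1 - t) ≤ |e0| * (l * J / δ) :=
    (mul_le_mul_of_nonneg_right (le_abs_self e0) (by linarith)).trans
      (mul_le_mul_of_nonneg_left h1 (abs_nonneg _))
  have h3 : (2 + 4 * C) * n ≤ (2 + 4 * C) * (2 * (l * J / δ)) :=
    mul_le_mul_of_nonneg_left (by linarith) (by linarith)
  have h4 : J * (8 * |e0| / δ + 4 + (4 + 8 * C) / δ) * l =
      8 * (|e0| * (l * J / δ)) + 4 * (l * J) + (2 + 4 * C) * (2 * (l * J / δ)) := by ring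
  rw [h4]
  linarith

/-- `exists_min` with `m = e0 + δ`, `K = δ`, `k = 1`; `J = ∫ W b²`, `Q (U0 + l W) b = e0 + l J`; replace
`ψ` by `-ψ` so that `t = ⟨b, ψ⟩ ≥ 0`; `δ (1 - t²) ≤ l J`, `nsq (ψ - b) = 2 - 2 t ≤ 2 (1 - t²)`,
`Q U0 (ψ - b) = Q U0 ψ - 2 e0 t + e0 ≤ 2 e0 (1 - t) + l J`, `OpB.coer`.  `gap`: apply `gapb` to
`u - s ψ`, `s = ⟨b,u⟩ / ⟨b,ψ⟩` (`⟨b,ψ⟩ ≠ 0` because `En < e0 + δ`). -/
theorem exists_PT {P : (V → ℝ) → Prop} {U0 U1 b : V → ℝ} {C e0 δ : ℝ} (hP : ∀ u, P u → H1 u)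
    (hlin : ∀ u w (s t : ℝ), P u → P w → P fun x => s * u x + t * w x)
    (hcl : ∀ (u : V → ℝ) (w : ℕ → V → ℝ), H1 u → (∀ n, P (w n)) →
      Tendsto (fun n => nsq fun x => u x - w n x) atTop (𝓝 0) → ∃ u', P u' ∧ ∀ᵐ x, u' x = u x)
    (h0 : OpB C U0) (h1 : OpB C U1) (hpos : ∀ x, 0 ≤ U1 x) (hδ : 0 < δ) (hb : P b) (nb : nsq b = 1)
    (sb : Sol b fun x => (e0 - U0 x) * b x)
    (gap : ∀ u, P u → (e0 + δ) * nsq u - δ * ip b u ^ 2 ≤ Q U0 u) :
    ∃ c l0 : ℝ, 0 ≤ c ∧ 0 < l0 ∧ ∀ l, 0 < l → l ≤ l0 →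
      ∃ En ψ, PT P (fun x => U0 x + l * U1 x) b e0 δ (c * l) En ψ := by
  have hbH := hP b hb
  obtain ⟨J, hJ⟩ : ∃ J : ℝ, J = ∫ x, U1 x * b x ^ 2 := ⟨_, rfl⟩
  have J0 : 0 ≤ J := by
    rw [hJ]; exact integral_nonneg fun x => mul_nonneg (hpos x) (sq_nonneg _)
  have hC := h0.nn
  have hB : ∀ χ, H1 χ → S11_B U0 b χ = e0 * ip b χ := fun χ hχ =>
    MA6_el hbH hχ (h0.bd b hbH).1 (sb.eq χ hχ)
  have hQb : Q U0 b = e0 := by rw [← MA6_B_self, hB b hbH, ip_self, nb, mul_one]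
  have hc : 4 ≤ 8 * |e0| / δ + 4 + (4 + 8 * C) / δ := by
    have a1 : 0 ≤ 8 * |e0| / δ := by positivity
    have a2 : 0 ≤ (4 + 8 * C) / δ := by positivity
    linarith
  refine ⟨J * (8 * |e0| / δ + 4 + (4 + 8 * C) / δ), min 1 (δ / (J + 1)), by positivity,
    lt_min one_pos (by positivity), fun l l0 hl => ?_⟩
  have l1 : l ≤ 1 := hl.trans (min_le_left _ _)
  have l2 : l * J < δ := by
    have := (le_div_iff₀ (by positivity : 0 < J + 1)).1 (hl.trans (min_le_right _ _))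
    nlinarith
  have hU : OpB (2 * C + 2 * C) fun x => U0 x + l * U1 x :=
    h0.add (h1.smul (by rw [abs_of_pos l0]; exact l1))
  have hle : ∀ u, P u → Q U0 u ≤ Q (fun x => U0 x + l * U1 x) u := fun u hu =>
    Q_le_add_pot h0 h1 (hP u hu) l0.le hpos
  have hQ1 : Q (fun x => U0 x + l * U1 x) b = e0 + l * J := by
    rw [Q_add_pot h0 h1 hbH, hQb, hJ]
  obtain ⟨ψ, p1, p2, p3, p4, p5, p6⟩ := MA6_min (K := δ) (m := e0 + δ) hP hlin hcl hU hbH.l2 hδ.le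
    (fun u hu => (gap u hu).trans (hle u hu)) ⟨b, hb, by rw [hQ1, nb]; linarith⟩
  have hψ := hP ψ p1
  have t1 : ip b ψ ^ 2 ≤ 1 := by
    have := S11_cs hbH.l2 hψ.l2
    rwa [nb, p2, mul_one] at this
  have g1 := gap ψ p1
  rw [p2, mul_one] at g1
  have g2 := hle ψ p1
  have g3 := p4 b hb
  rw [nb, mul_one, hQ1] at g3
  have gb : ∀ u, P u → ip b u = 0 → (e0 + δ) * nsq u ≤ Q (fun x => U0 x + l * U1 x) u := by
    intro u hu h
    have := (gap u hu).trans (hle u hu)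
    rw [h] at this
    linarith
  refine ⟨_, ψ, p1, hψ, p2, rfl, ⟨by nlinarith, ?_, p3⟩, p4, p5, ?_, gb, ?_⟩
  · have : J * 4 * l ≤ J * (8 * |e0| / δ + 4 + (4 + 8 * C) / δ) * l :=
      mul_le_mul_of_nonneg_right (mul_le_mul_of_nonneg_left hc J0) l0.le
    have := mul_nonneg l0.le J0
    linarith
  · intro u hu h
    have huH := hP u hu
    have t0 : ip b ψ ≠ 0 := by
      intro h0
      rw [h0] at g1
      linarith
    have a1 := gb _ (hlin ψ u (-(ip b u / ip b ψ)) 1 p1 hu) (by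
      rw [S11_ip_lc hbH.l2 hψ.l2 huH.l2]; field_simp; ring)
    rw [S11_nsq_lc hψ.l2 huH.l2, S11_Q_lc hψ huH (hU.bd _ hψ).1 (hU.bd _ huH).1,
      MA6_el hψ huH (hU.bd _ hψ).1 (p5 u hu), h, p2] at a1
    have a2 := mul_nonneg (sq_nonneg (-(ip b u / ip b ψ))) (sub_nonneg.2 p3.le)
    linarith
  · have e1 : (fun x => ψ x - b x) = fun x => (-1) * b x + 1 * ψ x := by
      funext x; ring
    rw [e1]
    refine MA6_num (t := ip b ψ) (q := Q U0 fun x => (-1) * b x + 1 * ψ x) hδ hC p6 t1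
      (by linarith) ?_ ?_ (h0.coer (S11_h1_lc hbH hψ _ _))
    · rw [S11_nsq_lc hbH.l2 hψ.l2, nb, p2]; ring
    · rw [S11_Q_lc hbH hψ (h0.bd _ hbH).1 (h0.bd _ hψ).1, hB ψ hψ, hQb]
      linarith

theorem PT.congr {P : (V → ℝ) → Prop} {U b ψ ψ' : V → ℝ} {e0 δ ε En : ℝ}
    (h : PT P U b e0 δ ε En ψ) (hP : P ψ') (e : ∀ᵐ x, ψ' x = ψ x) : PT P U b e0 δ ε En ψ' := by
  have e' : ∀ᵐ x, ψ' x - b x = ψ x - b x := by
    filter_upwards [e] with x hx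
    rw [hx]
  refine ⟨hP, h.h1.congr e, (S11_nsq_congr e).trans h.norm, h.eE.trans (Q_congr U e).symm, h.bd,
    h.low, fun χ hχ => ?_, fun u hu h0 => h.gap u hu ?_, h.gapb, ?_⟩
  · have e1 : ∫ x, (1 / 2) * ⟪D ψ' x, D χ x⟫ = ∫ x, (1 / 2) * ⟪D ψ x, D χ x⟫ := by
      refine integral_congr_ae ?_
      filter_upwards [D_congr e] with x hx
      rw [hx]
    rw [e1, h.el χ hχ]
    refine integral_congr_ae ?_
    filter_upwards [e] with x hx
    rw [hx]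
  · rw [← h0]
    exact (ip_congr e (Eventually.of_forall fun _ => rfl)).symm
  · rw [S11_nsq_congr e', S11_dir_congr e']
    exact h.close

theorem PT.mono {P : (V → ℝ) → Prop} {U b ψ : V → ℝ} {e0 δ ε ε' En : ℝ}
    (h : PT P U b e0 δ ε En ψ) (hε : ε ≤ ε') : PT P U b e0 δ ε' En ψ :=
  ⟨h.mem, h.h1, h.norm, h.eE, ⟨h.bd.1, by linarith [h.bd.2.1], h.bd.2.2⟩, h.low, h.el, h.gap, h.gapb,
    h.close.trans hε⟩

/-- `φ = ψ ∘ L - s ψ` is orthogonal to `b` and `Q U φ = En * nsq φ` -/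
theorem PT.symm {P : (V → ℝ) → Prop} {U b ψ : V → ℝ} {C e0 δ ε En : ℝ}
    (h : PT P U b e0 δ ε En ψ) (hU : OpB C U) (hb : MemLp b 2 volume)
    (hlin : ∀ u w (s t : ℝ), P u → P w → P fun x => s * u x + t * w x)
    (L : V ≃ₗᵢ[ℝ] V) (hL : ∀ x, L (L x) = x) (hUL : ∀ x, U (L x) = U x) {s : ℝ} (hs : s ^ 2 = 1)
    (hbL : ∀ x, b (L x) = s * b x) (hψL : P fun x => ψ (L x)) : ∀ᵐ x, ψ (L x) = s * ψ x := by
  have hψ := h.h1
  obtain ⟨hL1, -, hL3⟩ := hψ.iso L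
  have i1 : ip b (fun x => ψ (L x)) = s * ip b ψ := by
    have a1 := ip_iso L (fun x => b (L x)) ψ
    simp only [hL] at a1
    rw [a1]
    unfold ip
    rw [← integral_const_mul]
    refine integral_congr_ae (Eventually.of_forall fun x => ?_)
    simp only [hbL]; ring
  have q1 : Q U (fun x => ψ (L x)) = En := by
    have a1 := Q_iso L U hψ
    simp only [hUL] at a1
    rw [h.eE, ← a1]
  have a1 := h.gapb _ (hlin ψ _ (-s) 1 h.mem hψL) (by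
    rw [S11_ip_lc hb hψ.l2 hL1.l2, i1]; ring)
  have a2 : Q U (fun x => -s * ψ x + 1 * ψ (L x)) = En * nsq fun x => -s * ψ x + 1 * ψ (L x) := by
    rw [S11_nsq_lc hψ.l2 hL1.l2, S11_Q_lc hψ hL1 (hU.bd _ hψ).1 (hU.bd _ hL1).1,
      MA6_el hψ hL1 (hU.bd _ hψ).1 (h.el _ hψL), q1, hL3, h.norm, ← h.eE]
    ring
  rw [a2] at a1
  have a3 : nsq (fun x => -s * ψ x + 1 * ψ (L x)) ≤ 0 := by
    by_contra hc
    have := mul_lt_mul_of_pos_right h.bd.2.2 (not_le.1 hc)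
    linarith
  filter_upwards [ae_zero_of_nsq (S11_h1_lc hψ hL1 (-s) 1).l2 a3] with x hx
  linarith

end

end Crest.Agent.R335
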