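import Crest.Agent.R335.MA1

/-! Row 335, module MA: symmetry sectors; Agmon decay. -/

set_option autoImplicit false
set_option linter.unusedSectionVars false

open MeasureTheory Set Filter Topology Metric
open scoped Gradient ContDiff RealInnerProductSpace ENNReal

namespace Crest.Agent.R335

noncomputable section

variable {V : Type*} [NormedAddCommGroup V] [InnerProductSpace ℝ V] [FiniteDimensional ℝ V]
  [MeasurableSpace V] [BorelSpace V]
variable {W : Type*} [NormedAddCommGroup W] [InnerProductSpace ℝ W] [FiniteDimensional ℝ W]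
  [MeasurableSpace W] [BorelSpace W]

theorem MA7_sym (L : V ≃ₗᵢ[ℝ] V) (hL : ∀ x, L (L x) = x) {s : ℝ} (hs : s ^ 2 = 1) {u : V → ℝ}
    (hu : H1 u) : H1 (fun x => 1 / 2 * u x + s / 2 * u (L x)) ∧
      ∀ x, 1 / 2 * u (L x) + s / 2 * u (L (L x)) = s * (1 / 2 * u x + s / 2 * u (L x)) :=
  ⟨S11_h1_lc hu (hu.iso L).1 _ _, fun x => by
    rw [hL]
    linear_combination (-u (L x) / 2) * hs⟩

theorem MA7_l2 {C En : ℝ} {U ψ : V → ℝ} (hU : OpB C U) (hψ : H1 ψ) :
    MemLp (fun x => (En - U x) * ψ x) 2 volume := by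
  simp only [sub_mul]
  exact (hψ.l2.const_mul En).sub (hU.bd ψ hψ).1

/-- the sector is closed: `u' = (u + s u ∘ L) / 2` -/
theorem sector_closed (L : V ≃ₗᵢ[ℝ] V) (hL : ∀ x, L (L x) = x) {s : ℝ} (hs : s ^ 2 = 1)
    (u : V → ℝ) (w : ℕ → V → ℝ) (hu : H1 u) (hw : ∀ n, H1 (w n) ∧ ∀ x, w n (L x) = s * w n x)
    (hc : Tendsto (fun n => nsq fun x => u x - w n x) atTop (𝓝 0)) :
    ∃ u', (H1 u' ∧ ∀ x, u' (L x) = s * u' x) ∧ ∀ᵐ x, u' x = u x := by
  refine ⟨_, MA7_sym L hL hs hu, ?_⟩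
  have huL := (hu.iso L).1
  have hv : H1 fun x => 1 * u x + -s * u (L x) := S11_h1_lc hu huL _ _
  have hb : ∀ n, nsq (fun x => 1 * u x + -s * u (L x)) ≤ 4 * nsq fun x => u x - w n x := fun n => by
    have he : MemLp (fun x => u x - w n x) 2 volume := hu.l2.sub (hw n).1.l2
    have heL := memLp_iso L he
    have h1 := S11_nsq_lc he heL 1 (-s)
    have h2 := S11_nsq_lc he heL 1 s
    have h3 := nsq_iso L fun x => u x - w n x
    have h4 := S11_nsq_nonneg fun x => 1 * (u x - w n x) + s * (u (L x) - w n (L x))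
    have e : (fun x => 1 * u x + -s * u (L x)) =
        fun x => 1 * (u x - w n x) + -s * (u (L x) - w n (L x)) := by
      funext x
      rw [(hw n).2 x]
      linear_combination (-w n x) * hs
    rw [e, h1]
    rw [h2] at h4
    rw [neg_sq]
    rw [h3, hs] at *
    linarith
  have h0 : nsq (fun x => 1 * u x + -s * u (L x)) ≤ 0 := by
    have := hc.const_mul 4
    rw [mul_zero] at this
    exact ge_of_tendsto' this hb
  filter_upwards [ae_zero_of_nsq hv.l2 h0] with x hx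
  linarith

/-- the Euler-Lagrange equation in a sector holds against all test functions: test with
`(χ + s χ ∘ L) / 2` and change variables (`Hl.iso`) -/
theorem sol_of_sector (L : V ≃ₗᵢ[ℝ] V) (hL : ∀ x, L (L x) = x) {s : ℝ} (hs : s ^ 2 = 1)
    {C En : ℝ} {U ψ : V → ℝ} (hU : OpB C U) (hUL : ∀ x, U (L x) = U x) (hψ : H1 ψ)
    (hψL : ∀ x, ψ (L x) = s * ψ x)
    (el : ∀ χ, (H1 χ ∧ ∀ x, χ (L x) = s * χ x) →
      ∫ x, (1 / 2) * ⟪D ψ x, D χ x⟫ = ∫ x, (En - U x) * ψ x * χ x) :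
    Sol ψ fun x => (En - U x) * ψ x := by
  have hA := MA7_l2 (En := En) hU hψ
  refine ⟨hψ, hA, fun χ hχ => ?_⟩
  have hχL := (hχ.iso L).1
  have key := el _ (MA7_sym L hL hs hχ)
  have hD : ∀ᵐ x, L.symm (D ψ (L x)) = s • D ψ x := by
    filter_upwards [(hψ.hl.iso L).2, D_smul s hψ.hl] with x h1 h2
    rw [← h1, ← h2]
    simp only [hψL]
  have i1 : Integrable fun x => (1 / 2) * ⟪D ψ x, D χ x⟫ :=
    (S11_int_inner hψ.dl2 hχ.dl2).const_mul _
  have i2 : Integrable fun x => (1 / 2) * ⟪D ψ (L x), D χ (L x)⟫ :=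
    (L.measurePreserving.integrable_comp_emb L.toHomeomorph.measurableEmbedding).2 i1
  have e1 : ∫ x, (1 / 2) * ⟪D ψ x, D (fun x => 1 / 2 * χ x + s / 2 * χ (L x)) x⟫ =
      ∫ x, (1 / 2) * ⟪D ψ x, D χ x⟫ := by
    have e : ∫ x, (1 / 2) * ⟪D ψ x, D (fun x => 1 / 2 * χ x + s / 2 * χ (L x)) x⟫ =
        ∫ x, (1 / 2 * ((1 / 2) * ⟪D ψ x, D χ x⟫) + 1 / 2 * ((1 / 2) * ⟪D ψ (L x), D χ (L x)⟫)) := by
      refine integral_congr_ae ?_
      filter_upwards [D_add (hχ.smul (1 / 2)).hl (hχL.smul (s / 2)).hl, D_smul (1 / 2) hχ.hl,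
        D_smul (s / 2) hχL.hl, (hχ.hl.iso L).2, hD] with x h1 h2 h3 h4 h5
      rw [h1, h2, h3, h4, ← L.symm.inner_map_map (D ψ (L x)), h5, inner_add_right,
        real_inner_smul_right, real_inner_smul_right, real_inner_smul_left]
      ring
    rw [e, integral_add (i1.const_mul _) (i2.const_mul _), integral_const_mul (1 / 2) fun x =>
      (1 / 2) * ⟪D ψ x, D χ x⟫, integral_const_mul (1 / 2) fun x =>
      (1 / 2) * ⟪D ψ (L x), D χ (L x)⟫, integral_iso L fun x => (1 / 2) * ⟪D ψ x, D χ x⟫]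
    ring
  have j1 : Integrable fun x => (En - U x) * ψ x * χ x := S11_int_mul hA hχ.l2
  have j2 : Integrable fun x => (En - U (L x)) * ψ (L x) * χ (L x) :=
    (L.measurePreserving.integrable_comp_emb L.toHomeomorph.measurableEmbedding).2 j1
  have e2 : ∫ x, (En - U x) * ψ x * (1 / 2 * χ x + s / 2 * χ (L x)) =
      ∫ x, (En - U x) * ψ x * χ x := by
    have e : ∫ x, (En - U x) * ψ x * (1 / 2 * χ x + s / 2 * χ (L x)) =
        ∫ x, (1 / 2 * ((En - U x) * ψ x * χ x) +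
          1 / 2 * ((En - U (L x)) * ψ (L x) * χ (L x))) := by
      refine integral_congr_ae (Eventually.of_forall fun x => ?_)
      simp only [hUL, hψL]
      ring
    rw [e, integral_add (j1.const_mul _) (j2.const_mul _), integral_const_mul, integral_const_mul,
      integral_iso L fun x => (En - U x) * ψ x * χ x]
    ring
  rw [← e1, ← e2, key]

theorem sol_of_el {C En : ℝ} {U ψ : V → ℝ} (hU : OpB C U) (hψ : H1 ψ)
    (el : ∀ χ, H1 χ → ∫ x, (1 / 2) * ⟪D ψ x, D χ x⟫ = ∫ x, (En - U x) * ψ x * χ x) :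
    Sol ψ fun x => (En - U x) * ψ x := by
  exact ⟨hψ, MA7_l2 hU hψ, el⟩


end

end Crest.Agent.R335
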