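import Crest.Agent.R335.MA1

/-! Row 335, module MA: Agmon decay. -/

set_option autoImplicit false
set_option linter.unusedSectionVars false

open MeasureTheory Set Filter Topology Metric
open scoped Gradient ContDiff RealInnerProductSpace ENNReal

namespace Crest.Agent.R335

noncomputable section

variable {V : Type*} [NormedAddCommGroup V] [InnerProductSpace ℝ V] [FiniteDimensional ℝ V]
  [MeasurableSpace V] [BorelSpace V]
variable {W : Type*} [NormedAddCommGroup W] [InnerProductSpace ℝ W] [FiniteDimensional ℝ W]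
  [MeasurableSpace W] [BorelSpace W]

theorem MA8_wt (n : ℝ) :
    Hl (fun x : V => Real.exp (min ‖x‖ n / 2)) ∧ Bd (fun x : V => Real.exp (min ‖x‖ n / 2)) ∧
      (Bd fun x : V => ‖D (fun x : V => Real.exp (min ‖x‖ n / 2)) x‖) ∧
      ∀ᵐ x : V, ‖D (fun x : V => Real.exp (min ‖x‖ n / 2)) x‖ ≤ Real.exp (min ‖x‖ n / 2) / 2 := by
  obtain ⟨g1, g2⟩ := lip_D_le' (u := fun x : V => min ‖x‖ n / 2) (L := 1 / 2) (by norm_num)
    fun x y => by
      rw [← sub_div, abs_div, abs_of_pos (by norm_num : (0 : ℝ) < 2)]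
      have h1 := abs_min_sub_min_le_max ‖x‖ n ‖y‖ n
      rw [sub_self, abs_zero] at h1
      have h2 := abs_norm_sub_norm_le x y
      have h3 : max |‖x‖ - ‖y‖| 0 ≤ ‖x - y‖ := max_le h2 (norm_nonneg _)
      linarith
  obtain ⟨c1, c2⟩ := g1.comp (β := Real.exp) Real.contDiff_exp
  have hb : ∀ x : V, Real.exp (min ‖x‖ n / 2) ≤ Real.exp (n / 2) := fun x =>
    Real.exp_le_exp.2 (by linarith [min_le_right ‖x‖ n])
  have hd : ∀ᵐ x : V, ‖D (fun x : V => Real.exp (min ‖x‖ n / 2)) x‖ ≤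
      Real.exp (min ‖x‖ n / 2) / 2 := by
    filter_upwards [g2, c2] with x e1 e2
    rw [e2, norm_smul, Real.deriv_exp, Real.norm_eq_abs, abs_of_pos (Real.exp_pos _)]
    nlinarith [Real.exp_pos (min ‖x‖ n / 2)]
  refine ⟨c1.hl, ⟨Real.exp (n / 2), Eventually.of_forall fun x => ?_⟩,
    ⟨Real.exp (n / 2), hd.mono fun x hx => ?_⟩, hd⟩
  · rw [abs_of_pos (Real.exp_pos _)]; exact hb x
  · rw [abs_of_nonneg (norm_nonneg _)]
    linarith [hb x, Real.exp_pos (min ‖x‖ n / 2)]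

theorem MA8_est {C c En : ℝ} (hc : 0 ≤ c) {U ψ a : V → ℝ} (hU : OpB C U) (hE : |En| ≤ 2)
    (hs : Sol ψ (fun x => (En - U x) * ψ x)) (hn : nsq ψ = 1)
    (hQ : ∀ P, H1 P → (En + 1 / 3) * nsq P - c * ∫ y in closedBall (0 : V) c, P y ^ 2 ≤ Q U P)
    (ha : Hl a) (hb : Bd a) (hg : Bd fun x => ‖D a x‖) (hd : ∀ᵐ x, ‖D a x‖ ≤ a x / 2)
    (hc' : ∀ x ∈ closedBall (0 : V) c, a x ^ 2 ≤ Real.exp c) :
    Integrable (fun y => a y ^ 2 * (ψ y ^ 2 + ‖D ψ y‖ ^ 2)) ∧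
      ∫ y, a y ^ 2 * (ψ y ^ 2 + ‖D ψ y‖ ^ 2) ≤ (22 + 8 * C) * (5 * c * Real.exp c) := by
  obtain ⟨hP, hloc⟩ := hs.loc ha hb hg
  obtain ⟨-, hDP⟩ := hs.h1.mul_lip ha hb hg
  set P : V → ℝ := fun x => a x * ψ x with hPdef
  have iP : Integrable (fun x => P x ^ 2) := hP.l2.integrable_sq
  have iψ : Integrable (fun x => ψ x ^ 2) := hs.h1.l2.integrable_sq
  have iU : Integrable (fun x => U x * P x ^ 2) := hU.int hP
  have iD : Integrable (fun x => ‖D P x‖ ^ 2) := S11_int_normsq hP.dl2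
  have iA : Integrable (fun x => ‖D a x‖ ^ 2 * ψ x ^ 2) := S11_int_bd ha hg hs.h1.l2
  have hda : ∀ᵐ x, ‖D a x‖ ^ 2 * ψ x ^ 2 ≤ (1 / 4) * P x ^ 2 := by
    filter_upwards [hd] with x hx
    have h1 : ‖D a x‖ ^ 2 ≤ (a x / 2) ^ 2 := pow_le_pow_left₀ (norm_nonneg _) hx 2
    have h2 := mul_le_mul_of_nonneg_right h1 (sq_nonneg (ψ x))
    calc _ ≤ (a x / 2) ^ 2 * ψ x ^ 2 := h2
      _ = _ := by simp only [hPdef]; ring
  have e1 : ∫ x, (En - U x) * ψ x * a x ^ 2 * ψ x = En * nsq P - ∫ x, U x * P x ^ 2 := by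
    have : (fun x => (En - U x) * ψ x * a x ^ 2 * ψ x) =
        fun x => En * P x ^ 2 - U x * P x ^ 2 := by
      funext x; simp only [hPdef]; ring
    rw [this, integral_sub (iP.const_mul En) iU, integral_const_mul]
    rfl
  have e2 : ∫ x, ‖D a x‖ ^ 2 * ψ x ^ 2 ≤ (1 / 4) * nsq P := by
    have := integral_mono_ae iA (iP.const_mul (1 / 4)) hda
    rwa [integral_const_mul] at this
  have hQ1 : Q U P ≤ (En + 1 / 8) * nsq P := by
    have : Q U P = (1 / 2) * dir P + ∫ x, U x * P x ^ 2 := rfl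
    rw [this, hloc, e1]
    linarith
  have e3 : ∫ y in closedBall (0 : V) c, P y ^ 2 ≤ Real.exp c := by
    calc ∫ y in closedBall (0 : V) c, P y ^ 2
        ≤ ∫ y in closedBall (0 : V) c, Real.exp c * ψ y ^ 2 := by
          refine setIntegral_mono_on iP.integrableOn (iψ.const_mul _).integrableOn
            measurableSet_closedBall fun y hy => ?_
          have := mul_le_mul_of_nonneg_right (hc' y hy) (sq_nonneg (ψ y))
          simp only [hPdef]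
          rw [mul_pow]; exact this
      _ ≤ ∫ y, Real.exp c * ψ y ^ 2 :=
          setIntegral_le_integral (iψ.const_mul _)
            (Eventually.of_forall fun y => by positivity)
      _ = Real.exp c := by
          rw [integral_const_mul]
          have : ∫ y, ψ y ^ 2 = 1 := hn
          rw [this, mul_one]
  have hN : nsq P ≤ 5 * c * Real.exp c := by
    have h1 := hQ P hP
    have h2 := mul_le_mul_of_nonneg_left e3 hc
    have h3 := mul_nonneg hc (Real.exp_pos c).le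
    nlinarith
  have hN0 := S11_nsq_nonneg P
  have hC := hU.nn
  have hdir : dir P ≤ (10 + 4 * C) * nsq P := by
    have h1 := hU.coer hP
    have h2 : En ≤ 2 := (abs_le.1 hE).2
    nlinarith
  have hpt : ∀ᵐ y, a y ^ 2 * (ψ y ^ 2 + ‖D ψ y‖ ^ 2) ≤ (3 / 2) * P y ^ 2 + 2 * ‖D P y‖ ^ 2 := by
    filter_upwards [hDP, hda] with y e h
    have h1 : a y • D ψ y = D P y - ψ y • D a y := by rw [e]; abel
    have h2 : ‖a y • D ψ y‖ ≤ ‖D P y‖ + ‖ψ y • D a y‖ := by rw [h1]; exact norm_sub_le _ _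
    have h3 : ‖a y • D ψ y‖ ^ 2 = a y ^ 2 * ‖D ψ y‖ ^ 2 := by
      rw [norm_smul, mul_pow, Real.norm_eq_abs, sq_abs]
    have h4 : ‖ψ y • D a y‖ ^ 2 = ‖D a y‖ ^ 2 * ψ y ^ 2 := by
      rw [norm_smul, mul_pow, Real.norm_eq_abs, sq_abs, mul_comm]
    have h5 : ‖a y • D ψ y‖ ^ 2 ≤ (‖D P y‖ + ‖ψ y • D a y‖) ^ 2 :=
      pow_le_pow_left₀ (norm_nonneg _) h2 2
    have h6 : P y ^ 2 = a y ^ 2 * ψ y ^ 2 := by simp only [hPdef]; ring
    nlinarith [sq_nonneg (‖D P y‖ - ‖ψ y • D a y‖)]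
  have iR : Integrable (fun y => (3 / 2) * P y ^ 2 + 2 * ‖D P y‖ ^ 2) :=
    (iP.const_mul _).add (iD.const_mul _)
  have hm : AEStronglyMeasurable (fun y => a y ^ 2 * (ψ y ^ 2 + ‖D ψ y‖ ^ 2)) volume :=
    (ha.aesm.pow 2).mul ((hs.h1.hl.aesm.pow 2).add (hs.h1.hl.aesm_D.norm.pow 2))
  have iL : Integrable (fun y => a y ^ 2 * (ψ y ^ 2 + ‖D ψ y‖ ^ 2)) :=
    iR.mono' hm (hpt.mono fun y hy => by
      rw [Real.norm_eq_abs, abs_of_nonneg (by positivity)]; exact hy)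
  refine ⟨iL, (integral_mono_ae iL iR hpt).trans ?_⟩
  rw [integral_add (iP.const_mul _) (iD.const_mul _), integral_const_mul, integral_const_mul]
  have h1 : ∫ y, P y ^ 2 = nsq P := rfl
  have h2 : ∫ y, ‖D P y‖ ^ 2 = dir P := rfl
  rw [h1, h2]
  have h3 := mul_le_mul_of_nonneg_left hN (by positivity : 0 ≤ 22 + 8 * C)
  nlinarith

theorem MA8_fatou {f : ℕ → V → ℝ} {g : V → ℝ} {M : ℝ} (hi : ∀ n, Integrable (f n))
    (h0 : ∀ n x, 0 ≤ f n x) (hM : ∀ n, ∫ x, f n x ≤ M)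
    (ht : ∀ x, Tendsto (fun n => f n x) atTop (𝓝 (g x))) : Integrable g ∧ ∫ x, g x ≤ M := by
  have hM0 : 0 ≤ M := (integral_nonneg (h0 0)).trans (hM 0)
  have g0 : ∀ x, 0 ≤ g x := fun x => ge_of_tendsto' (ht x) fun n => h0 n x
  have hg : AEStronglyMeasurable g volume :=
    aestronglyMeasurable_of_tendsto_ae atTop (fun n => (hi n).1) (Eventually.of_forall ht)
  have hl : ∫⁻ x, ENNReal.ofReal (g x) ≤ ENNReal.ofReal M := by
    have e : ∀ x, ENNReal.ofReal (g x) = liminf (fun n => ENNReal.ofReal (f n x)) atTop :=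
      fun x => ((ENNReal.tendsto_ofReal (ht x)).liminf_eq).symm
    simp_rw [e]
    refine (lintegral_liminf_le' fun n => (hi n).1.aemeasurable.ennreal_ofReal).trans ?_
    refine liminf_le_of_frequently_le' (Frequently.of_forall fun n => ?_)
    rw [← ofReal_integral_eq_lintegral_ofReal (hi n) (Eventually.of_forall (h0 n))]
    exact ENNReal.ofReal_le_ofReal (hM n)
  have ig : Integrable g :=
    ⟨hg, (hasFiniteIntegral_iff_ofReal (Eventually.of_forall g0)).2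
      (hl.trans_lt ENNReal.ofReal_lt_top)⟩
  refine ⟨ig, ?_⟩
  rw [← ofReal_integral_eq_lintegral_ofReal ig (Eventually.of_forall g0)] at hl
  exact (ENNReal.ofReal_le_ofReal_iff hM0).1 hl

/-- weights `a = exp (min ‖y‖ n / 2)` (`lip_D_le'`, `Bl.comp`: `‖D a‖ ≤ a / 2`); `Sol.loc` gives
`Q U (a ψ) ≤ (En + 1/8) nsq (a ψ)`, so `(1/3 - 1/8) nsq (a ψ) ≤ c e^c`; `OpB.coer` bounds `dir (a ψ)`,
`a D ψ = D (a ψ) - ψ D a` (`H1.mul_lip`); monotone convergence -/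
theorem agmon (C c : ℝ) (hc : 0 ≤ c) : ∃ c' : ℝ, ∀ (U ψ : V → ℝ) (En : ℝ), OpB C U → |En| ≤ 2 →
    Sol ψ (fun x => (En - U x) * ψ x) → nsq ψ = 1 →
    (∀ P, H1 P → (En + 1 / 3) * nsq P - c * ∫ y in closedBall (0 : V) c, P y ^ 2 ≤ Q U P) →
    Integrable (fun y => Real.exp ‖y‖ * (ψ y ^ 2 + ‖D ψ y‖ ^ 2)) ∧
      ∫ y, Real.exp ‖y‖ * (ψ y ^ 2 + ‖D ψ y‖ ^ 2) ≤ c' := by
  refine ⟨(22 + 8 * C) * (5 * c * Real.exp c), fun U ψ En hU hE hs hn hQ => ?_⟩
  have key : ∀ n : ℕ,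
      Integrable (fun y : V => Real.exp (min ‖y‖ (n : ℝ) / 2) ^ 2 * (ψ y ^ 2 + ‖D ψ y‖ ^ 2)) ∧
      ∫ y : V, Real.exp (min ‖y‖ (n : ℝ) / 2) ^ 2 * (ψ y ^ 2 + ‖D ψ y‖ ^ 2) ≤
        (22 + 8 * C) * (5 * c * Real.exp c) := fun n => by
    obtain ⟨h1, h2, h3, h4⟩ := MA8_wt (V := V) (n : ℝ)
    refine MA8_est hc hU hE hs hn hQ h1 h2 h3 h4 fun x hx => ?_
    rw [← Real.exp_nat_mul]
    refine Real.exp_le_exp.2 ?_
    have h5 : ‖x‖ ≤ c := by simpa using hx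
    have h6 := min_le_left ‖x‖ (n : ℝ)
    push_cast
    linarith
  refine MA8_fatou (fun n => (key n).1) (fun n x => by positivity) (fun n => (key n).2) fun x => ?_
  refine tendsto_const_nhds.congr' ?_
  obtain ⟨N, hN⟩ := exists_nat_ge ‖x‖
  filter_upwards [eventually_ge_atTop N] with n hn'
  have h1 : ‖x‖ ≤ (n : ℝ) := hN.trans (by exact_mod_cast hn')
  rw [min_eq_left h1, ← Real.exp_nat_mul]
  congr 2
  push_cast
  ring

end

end Crest.Agent.R335
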