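import Crest.Agent.R335.MA4

/-! Row 335, module MA: the bottom of the essential spectrum. -/

set_option autoImplicit false
set_option linter.unusedSectionVars false

open MeasureTheory Set Filter Topology Metric
open scoped Gradient ContDiff RealInnerProductSpace ENNReal

namespace Crest.Agent.R335

noncomputable section

variable {V : Type*} [NormedAddCommGroup V] [InnerProductSpace ℝ V] [FiniteDimensional ℝ V]
  [MeasurableSpace V] [BorelSpace V]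
variable {W : Type*} [NormedAddCommGroup W] [InnerProductSpace ℝ W] [FiniteDimensional ℝ W]
  [MeasurableSpace W] [BorelSpace W]

/-- lower bound for the one-body form by a step potential -/
def Lam (e ε ρ : ℝ) (x : E) : ℝ := if ‖x‖ ≤ ρ then e - ε else -ε

theorem MA9_norm_ez : ‖ez‖ = 1 := by
  simp [ez]

theorem MA9_vx_far (d : ℝ) {ε : ℝ} (hε : 0 < ε) {x : E} (hx : |d| + 4 / ε ≤ ‖x‖) :
    -(ε / 2) ≤ vx d x := by
  have hn : ‖d • ez‖ = |d| := by rw [norm_smul, MA9_norm_ez, mul_one, Real.norm_eq_abs]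
  have key : ∀ t : ℝ, 4 / ε ≤ t → 1 / t ≤ ε / 4 := fun t ht => by
    have := one_div_le_one_div_of_le (by positivity) ht
    rwa [one_div_div] at this
  have h1 := key ‖x - d • ez‖ (by linarith [norm_sub_norm_le x (d • ez)])
  have h2 := key ‖x + d • ez‖ (by
    have h := norm_sub_le (x + d • ez) (d • ez)
    rw [add_sub_cancel_right] at h
    linarith)
  unfold vx
  linarith

theorem MA9_meas (e ε ρ : ℝ) : Measurable (Lam e ε ρ) :=
  Measurable.ite (measurableSet_le measurable_norm measurable_const) measurable_const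
    measurable_const

theorem MA9_ge {e : ℝ} (he : e ≤ 0) (ε ρ : ℝ) (x : E) : e - ε ≤ Lam e ε ρ x := by
  unfold Lam
  split_ifs <;> linarith

theorem MA9_far (e ε : ℝ) {ρ : ℝ} {x : E} (hx : ρ < ‖x‖) : Lam e ε ρ x = -ε := if_neg hx.not_ge

theorem MA9_abs (e ε ρ : ℝ) (x : E) : |Lam e ε ρ x| ≤ |e| + |ε| := by
  unfold Lam
  split_ifs
  · exact abs_sub e ε
  · rw [abs_neg]
    linarith [abs_nonneg e]

theorem MA9_norm_le (p : WithLp 2 (V × W)) : ‖p‖ ≤ ‖p.fst‖ + ‖p.snd‖ := by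
  refine abs_le_of_sq_le_sq' ?_ (by positivity) |>.2
  rw [WithLp.prod_norm_sq_eq_of_L2]
  nlinarith [mul_nonneg (norm_nonneg p.fst) (norm_nonneg p.snd)]

theorem MA9_step {Λ P : V → ℝ} {M e c : ℝ} (hΛ : OpB M Λ) (hP : H1 P)
    (h1 : ∀ y, e - c ≤ Λ y) (h2 : ∀ y, c < ‖y‖ → e ≤ Λ y) :
    e * nsq P - c * ∫ y in closedBall (0 : V) c, P y ^ 2 ≤ ∫ y, Λ y * P y ^ 2 := by
  have hi := hP.l2.integrable_sq
  have hi' := (hi.indicator (measurableSet_closedBall (x := (0 : V)) (ε := c))).const_mul c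
  rw [← integral_indicator measurableSet_closedBall, nsq, ← integral_const_mul,
    ← integral_const_mul, ← integral_sub (hi.const_mul e) hi']
  refine integral_mono ((hi.const_mul e).sub hi') (hΛ.int hP) fun y => ?_
  by_cases hy : y ∈ closedBall (0 : V) c
  · simp only [indicator_of_mem hy]
    nlinarith [h1 y, sq_nonneg (P y)]
  · simp only [indicator_of_notMem hy]
    nlinarith [h2 y (by simpa using hy), sq_nonneg (P y)]

theorem MA9_eg {o : OD} (h : o.OK0) : -(11 / 20) ≤ o.eg ∧ o.eg ≤ 0 :=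
  ⟨h.en.1, by linarith [h.en.2.1, h.en.2.2, h.γ0.2]⟩

theorem MA9_opB1 (e ε ρ : ℝ) : OpB ((2 * (|e| + |ε|)) ^ 2) (Lam e ε ρ) :=
  opB_bdd (MA9_meas e ε ρ).aestronglyMeasurable fun x => by
    linarith [MA9_abs e ε ρ x, abs_nonneg e, abs_nonneg ε]

theorem MA9_opB2 (e ε ρ : ℝ) : OpB ((2 * (|e| + |ε|)) ^ 2) (V2 (Lam e ε ρ)) := by
  have h1 : Continuous fun y : E6 => y.fst := by fun_prop
  have h2 : Continuous fun y : E6 => y.snd := by fun_prop
  refine opB_bdd (((MA9_meas e ε ρ).comp h1.measurable).add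
    ((MA9_meas e ε ρ).comp h2.measurable)).aestronglyMeasurable fun y => ?_
  linarith [MA9_abs e ε ρ y.fst, MA9_abs e ε ρ y.snd,
    show |V2 (Lam e ε ρ) y| ≤ _ from abs_add_le _ _]

/-- one-body IMS (`exists_ims` with `d x = ‖x‖`, `ims`): `Q v f = Q v (a f) + Q v (b f) - err`,
`Q v (a f) ≥ eg ∫ a² f²` (`low1`), `v ≥ -ε/2` on the support of `b`, `err ≤ ε/2 · nsq f`; `eg ≤ 0` -/
theorem OD.OK0.far1 {o : OD} (h : o.OK0) {ε : ℝ} (hε : 0 < ε) : ∃ ρ : ℝ, 0 ≤ ρ ∧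
    ∀ f, H1 f → ∫ x, Lam o.eg ε ρ x * f x ^ 2 ≤ Q o.v f := by
  have hs : 0 < 1 + 3 / ε := by positivity
  have hs2 : 3 / (1 + 3 / ε) ^ 2 ≤ ε := by
    rw [div_le_iff₀ (by positivity)]
    have h3 : ε * (3 / ε) = 3 := by field_simp
    have h4 : 0 < 3 / ε := by positivity
    nlinarith [mul_pos hε h4, mul_pos (mul_pos hε h4) h4]
  obtain ⟨a, b, -, -, ha, hb, h01, hb0, ha0, hab, hD⟩ :=
    exists_ims (d := fun x : E => ‖x‖) (fun x y => abs_norm_sub_norm_le x y)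
      (r := |o.d| + 4 / ε) hs
  refine ⟨|o.d| + 4 / ε + (1 + 3 / ε), by positivity, fun f hf => ?_⟩
  have ha1 : Bd a := ⟨1, Eventually.of_forall fun x =>
    abs_le.2 ⟨by linarith [(h01 x).1], (h01 x).2.1⟩⟩
  have hb1 : Bd b := ⟨1, Eventually.of_forall fun x =>
    abs_le.2 ⟨by linarith [(h01 x).2.2.1], (h01 x).2.2.2⟩⟩
  have ha2 : Bd fun x => ‖D a x‖ := ⟨1 + ε, hD.mono fun x hx => by
    rw [abs_norm]
    nlinarith [sq_nonneg ‖D b x‖, sq_nonneg (‖D a x‖ - 1), sq_nonneg ‖D a x‖]⟩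
  have hb2 : Bd fun x => ‖D b x‖ := ⟨1 + ε, hD.mono fun x hx => by
    rw [abs_norm]
    nlinarith [sq_nonneg ‖D a x‖, sq_nonneg (‖D b x‖ - 1), sq_nonneg ‖D b x‖]⟩
  have e1 := ims hf ha.hl ha1 ha2 hb.hl hb1 hb2 (Eventually.of_forall hab)
  have haf := (hf.mul_lip ha.hl ha1 ha2).1
  have hbf := (hf.mul_lip hb.hl hb1 hb2).1
  have hi := hf.l2.integrable_sq
  have e2 : ∫ x, (‖D a x‖ ^ 2 + ‖D b x‖ ^ 2) * f x ^ 2 ≤ ε * nsq f := by
    rw [nsq, ← integral_const_mul]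
    refine integral_mono_of_nonneg (Eventually.of_forall fun x => by positivity)
      (hi.const_mul ε) (hD.mono fun x hx => ?_)
    exact mul_le_mul_of_nonneg_right (hx.trans hs2) (sq_nonneg _)
  have e3 := h.low1 haf
  have i1 : Integrable fun x => o.v x * (a x * f x) ^ 2 := (opB_vx o.d).int haf
  have i2 : Integrable fun x => o.v x * (b x * f x) ^ 2 := (opB_vx o.d).int hbf
  have e4 : ∫ x, o.v x * f x ^ 2 =
      (∫ x, o.v x * (a x * f x) ^ 2) + ∫ x, o.v x * (b x * f x) ^ 2 := by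
    rw [← integral_add i1 i2]
    refine integral_congr_ae (Eventually.of_forall fun x => ?_)
    simp only
    rw [← one_mul (f x ^ 2), ← hab x]
    ring
  have i3 := haf.l2.integrable_sq.const_mul o.eg
  have i4 : Integrable fun x => o.eg * (a x * f x) ^ 2 + o.v x * (b x * f x) ^ 2 := i3.add i2
  have e5 : ∫ x, Lam o.eg ε (|o.d| + 4 / ε + (1 + 3 / ε)) x * f x ^ 2 ≤
      o.eg * nsq (fun x => a x * f x) + (∫ x, o.v x * (b x * f x) ^ 2) - ε / 2 * nsq f := by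
    rw [nsq, nsq, ← integral_const_mul, ← integral_const_mul, ← integral_add i3 i2,
      ← integral_sub i4 (hi.const_mul _)]
    refine integral_mono ((MA9_opB1 _ _ _).int hf) (i4.sub (hi.const_mul _)) fun x => ?_
    have hv : -(ε / 2) ≤ o.v x * b x ^ 2 := by
      by_cases hx : ‖x‖ ≤ |o.d| + 4 / ε
      · rw [hb0 x hx]
        linarith
      · have h1 : -(ε / 2) ≤ o.v x := MA9_vx_far o.d hε (not_le.1 hx).le
        nlinarith [hab x, sq_nonneg (a x), sq_nonneg (b x)]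
    have hl : Lam o.eg ε (|o.d| + 4 / ε + (1 + 3 / ε)) x ≤ o.eg * a x ^ 2 - ε := by
      unfold Lam
      split_ifs with hx
      · nlinarith [hab x, sq_nonneg (b x), (MA9_eg h).2]
      · rw [ha0 x (not_le.1 hx).le]
        linarith
    have := mul_le_mul_of_nonneg_right (add_le_add hl hv) (sq_nonneg (f x))
    simp only
    linarith
  have e6 : 0 ≤ dir fun x => b x * f x := integral_nonneg fun _ => sq_nonneg _
  unfold Q at e3 ⊢
  linarith

theorem MA9_two {o : OD} {ε ρ : ℝ}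
    (h : ∀ f, H1 f → ∫ x, Lam o.eg ε ρ x * f x ^ 2 ≤ Q o.v f) (F : E6 → ℝ) (hF : H1 F) :
    ∫ y, V2 (Lam o.eg ε ρ) y * F y ^ 2 ≤ Q (V2 o.v) F :=
  tensor_pot (opB_vx o.d) (opB_vx o.d) (MA9_opB1 _ _ _) (MA9_opB1 _ _ _) h h hF

/-- `tensor_pot`: outside `closedBall 0 (2 ρ)` one of the electrons is outside `closedBall 0 ρ` -/
theorem OD.OK0.far2 {o : OD} (h : o.OK0) : ∃ c0 : ℝ, ∀ c, c0 ≤ c → ∀ l, 0 ≤ l → ∀ P, H1 P →
    (o.eg - 1 / 20) * nsq P - c * ∫ y in closedBall (0 : E6) c, P y ^ 2 ≤ Q (U2 o.d l) P := by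
  obtain ⟨ρ, hρ, h1⟩ := h.far1 (ε := 1 / 40) (by norm_num)
  obtain ⟨he1, he⟩ := MA9_eg h
  refine ⟨2 * ρ + 1, fun c hc l hl P hP => ?_⟩
  rw [U2_eq]
  refine ((MA9_step (MA9_opB2 o.eg (1 / 40) ρ) hP (fun y => ?_) fun y hy => ?_).trans
    (MA9_two h1 P hP)).trans (Q_le_add_pot (opB_V2 o.d) opB_W2 hP hl W2_nonneg)
  · unfold V2
    linarith [MA9_ge he (1 / 40) ρ y.fst, MA9_ge he (1 / 40) ρ y.snd]
  · unfold V2
    have hn := MA9_norm_le y
    by_cases h2 : ρ < ‖y.fst‖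
    · linarith [MA9_far o.eg (1 / 40) h2, MA9_ge he (1 / 40) ρ y.snd]
    · linarith [MA9_far o.eg (1 / 40) (show ρ < ‖y.snd‖ by linarith), MA9_ge he (1 / 40) ρ y.fst]

theorem OD.OK0.far3 {o : OD} (h : o.OK0) : ∃ c0 : ℝ, ∀ c, c0 ≤ c → ∀ l, 0 ≤ l → ∀ P, H1 P →
    (2 * o.eg - 1 / 20) * nsq P - c * ∫ p in closedBall (0 : E9) c, P p ^ 2 ≤ Q (U3 o.d l) P := by
  obtain ⟨ρ, hρ, h1⟩ := h.far1 (ε := 1 / 60) (by norm_num)
  obtain ⟨he1, he⟩ := MA9_eg h
  refine ⟨3 * ρ + 1, fun c hc l hl P hP => ?_⟩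
  have h3 := tensor_pot (opB_vx o.d) (opB_V2 o.d) (MA9_opB1 o.eg (1 / 60) ρ)
    (MA9_opB2 o.eg (1 / 60) ρ) h1 (MA9_two h1) hP
  have e : (fun p : E9 => vx o.d p.fst + V2 (vx o.d) p.snd) = V3 (vx o.d) :=
    funext fun p => (add_assoc _ _ _).symm
  rw [e] at h3
  rw [U3_eq]
  refine ((MA9_step ((MA9_opB1 o.eg (1 / 60) ρ).fst.add (MA9_opB2 o.eg (1 / 60) ρ).snd) hP
    (fun p => ?_) fun p hp => ?_).trans h3).trans
      (Q_le_add_pot (opB_V3 o.d) opB_W3 hP hl W3_nonneg)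
  · unfold V2
    linarith [MA9_ge he (1 / 60) ρ p.fst, MA9_ge he (1 / 60) ρ p.snd.fst,
      MA9_ge he (1 / 60) ρ p.snd.snd]
  · unfold V2
    have hn := MA9_norm_le p
    have hn' := MA9_norm_le p.snd
    have g1 := MA9_ge he (1 / 60) ρ p.fst
    have g2 := MA9_ge he (1 / 60) ρ p.snd.fst
    have g3 := MA9_ge he (1 / 60) ρ p.snd.snd
    by_cases h2 : ρ < ‖p.fst‖
    · linarith [MA9_far o.eg (1 / 60) h2]
    by_cases h4 : ρ < ‖p.snd.fst‖
    · linarith [MA9_far o.eg (1 / 60) h4]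
    · linarith [MA9_far o.eg (1 / 60) (show ρ < ‖p.snd.snd‖ by linarith)]

end

end Crest.Agent.R335
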