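import Crest.Agent.R335.S06
import Crest.Agent.R335.S07

set_option autoImplicit false

open MeasureTheory Set Filter Topology Metric
open scoped Gradient ContDiff RealInnerProductSpace ENNReal

namespace Crest.Agent.R335

noncomputable section

/-! Auxiliary lemmas for the two-point Poincare inequality on balls. -/

theorem s10_sq_int {h : ℝ → ℝ} (hc : Continuous h) :
    (∫ t in (0:ℝ)..1, h t) ^ 2 ≤ ∫ t in (0:ℝ)..1, h t ^ 2 := by
  set m : ℝ := ∫ t in (0:ℝ)..1, h t with hm
  have h0 : 0 ≤ ∫ t in (0:ℝ)..1, (h t - m) ^ 2 :=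
    intervalIntegral.integral_nonneg zero_le_one fun t _ => sq_nonneg _
  have e : (∫ t in (0:ℝ)..1, (h t - m) ^ 2) = (∫ t in (0:ℝ)..1, h t ^ 2) - m ^ 2 := by
    have e1 : (fun t => (h t - m) ^ 2) = fun t => (h t ^ 2 - 2 * m * h t) + m ^ 2 := by
      funext t; ring
    rw [e1, intervalIntegral.integral_add, intervalIntegral.integral_sub,
      intervalIntegral.integral_const_mul, ← hm]
    · simp; ring
    · exact (hc.pow 2).intervalIntegrable _ _
    · exact (continuous_const.mul hc).intervalIntegrable _ _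
    · exact ((hc.pow 2).sub (continuous_const.mul hc)).intervalIntegrable _ _
    · exact continuous_const.intervalIntegrable _ _
  linarith

theorem s10_cont_grad {φ : E → ℝ} (h : ContDiff ℝ 1 φ) : Continuous (∇ φ) := by
  have : Continuous (fderiv ℝ φ) := h.continuous_fderiv (by simp)
  exact (InnerProductSpace.toDual ℝ E).symm.continuous.comp this

theorem s10_seg {φ : E → ℝ} (h : ContDiff ℝ 1 φ) (x y : E) :
    (φ x - φ y) ^ 2 ≤ ‖x - y‖ ^ 2 * ∫ t in (0:ℝ)..1, ‖∇ φ (y + t • (x - y))‖ ^ 2 := by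
  have hg := s10_cont_grad h
  have hl : Continuous fun t : ℝ => y + t • (x - y) := by fun_prop
  have hd : ∀ t : ℝ, HasDerivAt (fun t : ℝ => φ (y + t • (x - y)))
      ⟪∇ φ (y + t • (x - y)), x - y⟫ t := by
    intro t
    have h1 : HasDerivAt (fun t : ℝ => y + t • (x - y)) (x - y) t := by
      simpa using ((hasDerivAt_id t).smul_const (x - y)).const_add y
    have h2 : HasFDerivAt φ (fderiv ℝ φ (y + t • (x - y))) (y + t • (x - y)) :=
      (h.differentiable (by simp) _).hasFDerivAt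
    have h3 := h2.comp_hasDerivAt t h1
    have e : ⟪∇ φ (y + t • (x - y)), x - y⟫ = fderiv ℝ φ (y + t • (x - y)) (x - y) := by
      rw [gradient, InnerProductSpace.toDual_symm_apply]
    rw [e]
    exact h3
  have hc : Continuous fun t : ℝ => ⟪∇ φ (y + t • (x - y)), x - y⟫ :=
    (hg.comp hl).inner continuous_const
  have e := intervalIntegral.integral_eq_sub_of_hasDerivAt (a := 0) (b := 1)
    (fun t _ => hd t) (hc.intervalIntegrable _ _)
  simp only [one_smul, zero_smul, add_zero, add_sub_cancel] at e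
  rw [← e]
  refine (s10_sq_int hc).trans ?_
  rw [← intervalIntegral.integral_const_mul]
  refine intervalIntegral.integral_mono_on zero_le_one ((hc.pow 2).intervalIntegrable _ _)
    ((continuous_const.mul ((hg.comp hl).norm.pow 2)).intervalIntegrable _ _) fun t _ => ?_
  have := abs_real_inner_le_norm (∇ φ (y + t • (x - y))) (x - y)
  calc ⟪∇ φ (y + t • (x - y)), x - y⟫ ^ 2 = |⟪∇ φ (y + t • (x - y)), x - y⟫| ^ 2 := (sq_abs _).symm
    _ ≤ (‖∇ φ (y + t • (x - y))‖ * ‖x - y‖) ^ 2 := by gcongr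
    _ = _ := by ring

/-- translation trick -/
theorem s10_shift {G : E → ℝ≥0∞} (hG : Measurable G) (c : E) (r t : ℝ) (ht0 : 0 ≤ t) (ht1 : t ≤ 1) :
    ∫⁻ p : E × E, G (p.2 + t • (p.1 - p.2))
        ∂((volume.restrict (ball c r)).prod (volume.restrict (ball c r))) ≤
      volume (ball (0 : E) (2 * r)) * ∫⁻ x in ball c r, G x := by
  have hm : Measurable fun p : E × E => G (p.2 + t • (p.1 - p.2)) := hG.comp (by fun_prop)
  set GB : E → ℝ≥0∞ := (ball c r).indicator G with hGB
  have hGBm : Measurable GB := hG.indicator measurableSet_ball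
  rw [lintegral_prod_symm _ hm.aemeasurable]
  have step : ∀ y ∈ ball c r, ∫⁻ x in ball c r, G (y + t • (x - y)) ≤
      ∫⁻ z in ball (0 : E) (2 * r), GB (y + t • z) := by
    intro y hy
    rw [← lintegral_indicator measurableSet_ball, ← lintegral_indicator measurableSet_ball,
      ← lintegral_add_left_eq_self (μ := volume) _ y]
    refine lintegral_mono fun z => ?_
    by_cases hz : y + z ∈ ball c r
    · have h1 : z ∈ ball (0 : E) (2 * r) := by
        rw [mem_ball_zero_iff]
        have a1 := mem_ball_iff_norm.1 hz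
        have a2 := mem_ball_iff_norm.1 hy
        calc ‖z‖ = ‖(y + z - c) - (y - c)‖ := by congr 1; abel
          _ ≤ ‖y + z - c‖ + ‖y - c‖ := norm_sub_le _ _
          _ < 2 * r := by linarith
      have h2 : y + t • z ∈ ball c r := by
        have := (convex_ball c r).add_smul_mem hy hz ⟨ht0, ht1⟩
        exact this
      simp [indicator_of_mem hz, indicator_of_mem h1, hGB, indicator_of_mem h2]
    · simp [indicator_of_notMem hz]
  calc ∫⁻ y in ball c r, ∫⁻ x in ball c r, G (y + t • (x - y))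
      ≤ ∫⁻ y in ball c r, ∫⁻ z in ball (0 : E) (2 * r), GB (y + t • z) :=
        setLIntegral_mono' measurableSet_ball step
    _ ≤ ∫⁻ y, ∫⁻ z in ball (0 : E) (2 * r), GB (y + t • z) := setLIntegral_le_lintegral _ _
    _ = ∫⁻ z in ball (0 : E) (2 * r), ∫⁻ y, GB (y + t • z) := by
        refine lintegral_lintegral_swap ?_
        exact (hGBm.comp (by fun_prop : Measurable fun p : E × E => p.1 + t • p.2)).aemeasurable
    _ = ∫⁻ _z in ball (0 : E) (2 * r), ∫⁻ x in ball c r, G x := by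
        refine lintegral_congr fun z => ?_
        rw [lintegral_add_right_eq_self GB (t • z), hGB, lintegral_indicator measurableSet_ball]
    _ = _ := by rw [setLIntegral_const, mul_comm]

theorem s10_smooth {φ : E → ℝ} (h : ContDiff ℝ 1 φ) (c : E) (r : ℝ) :
    ∫⁻ p : E × E, ENNReal.ofReal ((φ p.1 - φ p.2) ^ 2)
        ∂((volume.restrict (ball c r)).prod (volume.restrict (ball c r))) ≤
      ENNReal.ofReal (4 * r ^ 2) * (volume (ball (0 : E) (2 * r)) *
        ∫⁻ x in ball c r, ENNReal.ofReal (‖∇ φ x‖ ^ 2)) := by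
  have hg := s10_cont_grad h
  set G : E → ℝ≥0∞ := fun x => ENNReal.ofReal (‖∇ φ x‖ ^ 2) with hG
  have hGm : Measurable G := (hg.norm.pow 2).measurable.ennreal_ofReal
  set μ : Measure (E × E) := (volume.restrict (ball c r)).prod (volume.restrict (ball c r)) with hμ
  have hae : ∀ᵐ p : E × E ∂μ, p.1 ∈ ball c r ∧ p.2 ∈ ball c r := by
    have h1 : ∀ᵐ x ∂(volume.restrict (ball c r)), x ∈ ball c r := ae_restrict_mem measurableSet_ball
    filter_upwards [Measure.quasiMeasurePreserving_fst.ae h1,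
      Measure.quasiMeasurePreserving_snd.ae h1] with p a b using ⟨a, b⟩
  have hm2 : Measurable fun q : (E × E) × ℝ => G (q.1.2 + q.2 • (q.1.1 - q.1.2)) :=
    hGm.comp (by fun_prop)
  calc ∫⁻ p : E × E, ENNReal.ofReal ((φ p.1 - φ p.2) ^ 2) ∂μ
      ≤ ∫⁻ p : E × E, ENNReal.ofReal (4 * r ^ 2) *
          (∫⁻ t in Ioc (0:ℝ) 1, G (p.2 + t • (p.1 - p.2))) ∂μ := by
        refine lintegral_mono_ae ?_
        filter_upwards [hae] with p hp
        have hs := s10_seg h p.1 p.2
        have hl : Continuous fun t : ℝ => ‖∇ φ (p.2 + t • (p.1 - p.2))‖ ^ 2 :=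
          (hg.comp (by fun_prop)).norm.pow 2
        have hn : ‖p.1 - p.2‖ ^ 2 ≤ 4 * r ^ 2 := by
          have a1 := mem_ball_iff_norm.1 hp.1
          have a2 := mem_ball_iff_norm.1 hp.2
          have : ‖p.1 - p.2‖ ≤ 2 * r := by
            calc ‖p.1 - p.2‖ = ‖(p.1 - c) - (p.2 - c)‖ := by congr 1; abel
              _ ≤ ‖p.1 - c‖ + ‖p.2 - c‖ := norm_sub_le _ _
              _ ≤ 2 * r := by linarith
          nlinarith [norm_nonneg (p.1 - p.2)]
        have hi : 0 ≤ ∫ t in (0:ℝ)..1, ‖∇ φ (p.2 + t • (p.1 - p.2))‖ ^ 2 :=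
          intervalIntegral.integral_nonneg zero_le_one fun t _ => sq_nonneg _
        calc ENNReal.ofReal ((φ p.1 - φ p.2) ^ 2)
            ≤ ENNReal.ofReal (4 * r ^ 2 * ∫ t in (0:ℝ)..1, ‖∇ φ (p.2 + t • (p.1 - p.2))‖ ^ 2) :=
              ENNReal.ofReal_le_ofReal (hs.trans (mul_le_mul_of_nonneg_right hn hi))
          _ = _ := by
              rw [ENNReal.ofReal_mul (by positivity), intervalIntegral.integral_of_le zero_le_one,
                ofReal_integral_eq_lintegral_ofReal
                  (hl.integrableOn_Icc.mono_set Ioc_subset_Icc_self)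
                  (Eventually.of_forall fun t => sq_nonneg _)]
    _ = ENNReal.ofReal (4 * r ^ 2) *
          ∫⁻ t in Ioc (0:ℝ) 1, ∫⁻ p : E × E, G (p.2 + t • (p.1 - p.2)) ∂μ := by
        rw [lintegral_const_mul' _ _ ENNReal.ofReal_ne_top]
        congr 1
        exact lintegral_lintegral_swap hm2.aemeasurable
    _ ≤ ENNReal.ofReal (4 * r ^ 2) *
          ∫⁻ _t in Ioc (0:ℝ) 1, (volume (ball (0 : E) (2 * r)) * ∫⁻ x in ball c r, G x) := by
        gcongr 1
        exact setLIntegral_mono' measurableSet_Ioc fun t ht => s10_shift hGm c r t ht.1.le ht.2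
    _ = _ := by simp

theorem s10_vol (c : E) {r : ℝ} (hr : 0 < r) :
    volume (ball c r) = ENNReal.ofReal (r ^ 3) * volume (ball (0 : E) 1) := by
  rw [Measure.addHaar_ball_of_pos volume c hr]
  simp

/-- the constant -/
def s10w : ℝ := (volume (ball (0 : E) 1)).toReal

theorem s10w_pos : 0 < s10w :=
  ENNReal.toReal_pos (measure_ball_pos _ _ one_pos).ne' measure_ball_lt_top.ne

theorem s10_vol' (c : E) {r : ℝ} (hr : 0 < r) :
    volume (ball c r) = ENNReal.ofReal (r ^ 3 * s10w) := by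
  rw [s10_vol c hr, ENNReal.ofReal_mul (by positivity), s10w,
    ENNReal.ofReal_toReal measure_ball_lt_top.ne]

theorem s10_h1 {u : E → ℝ} (h : H1 u) (c : E) {r : ℝ} (hr : 0 < r) :
    ∫⁻ p : E × E, ENNReal.ofReal ((u p.1 - u p.2) ^ 2)
        ∂((volume.restrict (ball c r)).prod (volume.restrict (ball c r))) ≤
      ENNReal.ofReal (64 * s10w * r ^ 5 * ∫ x in ball c r, ‖D u x‖ ^ 2) := by
  obtain ⟨φ, h1, -, h3, h4, -⟩ := h.approx_seq
  set μ : Measure (E × E) := (volume.restrict (ball c r)).prod (volume.restrict (ball c r)) with hμ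
  set I : ℝ := ∫ x in ball c r, ‖D u x‖ ^ 2 with hI
  have hI0 : 0 ≤ I := integral_nonneg fun x => sq_nonneg _
  have hw := s10w_pos
  have hDi : Integrable (fun x => ‖D u x‖ ^ 2) := h.dl2.norm.integrable_sq
  have hb : ∀ n, ∫⁻ p : E × E, ENNReal.ofReal ((φ n p.1 - φ n p.2) ^ 2) ∂μ ≤
      ENNReal.ofReal (64 * s10w * r ^ 5 * (I + (1 / 4) ^ n)) := by
    intro n
    have hc1 : ContDiff ℝ 1 (φ n) := (h1 n).1.of_le (by exact_mod_cast le_top)
    have hg := s10_cont_grad hc1
    have hgl : MemLp (∇ (φ n)) 2 volume := by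
      refine hg.memLp_of_hasCompactSupport ?_
      exact ((h1 n).2.fderiv (𝕜 := ℝ)).comp_left
        (g := fun L => (InnerProductSpace.toDual ℝ E).symm L) (by simp)
    have hdi : Integrable (fun x => ‖D u x - ∇ (φ n) x‖ ^ 2) := (h.dl2.sub hgl).norm.integrable_sq
    have hgi : Integrable (fun x => ‖∇ (φ n) x‖ ^ 2) := hgl.norm.integrable_sq
    have hJ : ∫ x in ball c r, ‖∇ (φ n) x‖ ^ 2 ≤ 2 * (I + (1 / 4) ^ n) := by
      have a1 : ∫ x in ball c r, ‖∇ (φ n) x‖ ^ 2 ≤
          ∫ x in ball c r, (2 * ‖D u x‖ ^ 2 + 2 * ‖D u x - ∇ (φ n) x‖ ^ 2) := by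
        refine integral_mono hgi.integrableOn
          ((hDi.integrableOn.const_mul 2).add (hdi.integrableOn.const_mul 2)) fun x => ?_
        have : ‖∇ (φ n) x‖ ≤ ‖D u x‖ + ‖D u x - ∇ (φ n) x‖ := by
          calc ‖∇ (φ n) x‖ = ‖D u x - (D u x - ∇ (φ n) x)‖ := by congr 1; abel
            _ ≤ _ := norm_sub_le _ _
        have h0 := norm_nonneg (∇ (φ n) x)
        simp only
        nlinarith [sq_nonneg (‖D u x‖ - ‖D u x - ∇ (φ n) x‖), norm_nonneg (D u x),
          norm_nonneg (D u x - ∇ (φ n) x)]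
      rw [integral_add (hDi.integrableOn.const_mul 2) (hdi.integrableOn.const_mul 2),
        integral_const_mul, integral_const_mul] at a1
      have a2 : ∫ x in ball c r, ‖D u x - ∇ (φ n) x‖ ^ 2 ≤ ∫ x, ‖D u x - ∇ (φ n) x‖ ^ 2 :=
        setIntegral_le_integral hdi (Eventually.of_forall fun x => sq_nonneg _)
      linarith [h3 n]
    refine (s10_smooth hc1 c r).trans ?_
    rw [← ofReal_integral_eq_lintegral_ofReal hgi.integrableOn
      (Eventually.of_forall fun x => sq_nonneg _), s10_vol' 0 (by positivity : 0 < 2 * r),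
      ← ENNReal.ofReal_mul (by positivity), ← ENNReal.ofReal_mul (by positivity)]
    refine ENNReal.ofReal_le_ofReal ?_
    calc 4 * r ^ 2 * ((2 * r) ^ 3 * s10w * ∫ x in ball c r, ‖∇ (φ n) x‖ ^ 2)
        ≤ 4 * r ^ 2 * ((2 * r) ^ 3 * s10w * (2 * (I + (1 / 4) ^ n))) := by gcongr
      _ = _ := by ring
  have hlim : ∀ᵐ p : E × E ∂μ, Tendsto (fun n => ENNReal.ofReal ((φ n p.1 - φ n p.2) ^ 2)) atTop
      (𝓝 (ENNReal.ofReal ((u p.1 - u p.2) ^ 2))) := by
    have h5 : ∀ᵐ x ∂(volume.restrict (ball c r)), Tendsto (fun n => φ n x) atTop (𝓝 (u x)) :=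
      ae_restrict_of_ae h4
    filter_upwards [Measure.quasiMeasurePreserving_fst.ae h5,
      Measure.quasiMeasurePreserving_snd.ae h5] with p a b
    exact ENNReal.tendsto_ofReal ((a.sub b).pow 2)
  have hmeas : ∀ n, AEMeasurable (fun p : E × E => ENNReal.ofReal ((φ n p.1 - φ n p.2) ^ 2)) μ := by
    intro n
    have hc := (h1 n).1.continuous
    exact (((hc.comp continuous_fst).sub
      (hc.comp continuous_snd)).pow 2).measurable.ennreal_ofReal.aemeasurable
  have hT : Tendsto (fun n : ℕ => ENNReal.ofReal (64 * s10w * r ^ 5 * (I + (1 / 4) ^ n))) atTop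
      (𝓝 (ENNReal.ofReal (64 * s10w * r ^ 5 * I))) := by
    refine ENNReal.tendsto_ofReal ?_
    have : Tendsto (fun n : ℕ => ((1:ℝ) / 4) ^ n) atTop (𝓝 0) :=
      tendsto_pow_atTop_nhds_zero_of_lt_one (by norm_num) (by norm_num)
    simpa using (this.const_add I).const_mul (64 * s10w * r ^ 5)
  calc ∫⁻ p : E × E, ENNReal.ofReal ((u p.1 - u p.2) ^ 2) ∂μ
      = ∫⁻ p : E × E, liminf (fun n => ENNReal.ofReal ((φ n p.1 - φ n p.2) ^ 2)) atTop ∂μ := by
        refine lintegral_congr_ae ?_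
        filter_upwards [hlim] with p hp using hp.liminf_eq.symm
    _ ≤ liminf (fun n => ∫⁻ p : E × E, ENNReal.ofReal ((φ n p.1 - φ n p.2) ^ 2) ∂μ) atTop :=
        lintegral_liminf_le' hmeas
    _ ≤ liminf (fun n : ℕ => ENNReal.ofReal (64 * s10w * r ^ 5 * (I + (1 / 4) ^ n))) atTop :=
        liminf_le_liminf (Eventually.of_forall hb)
    _ = _ := hT.liminf_eq

theorem s10_hl {u : E → ℝ} (h : Hl u) (c : E) {r : ℝ} (hr : 0 < r) :
    ∫⁻ p : E × E, ENNReal.ofReal ((u p.1 - u p.2) ^ 2)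
        ∂((volume.restrict (ball c r)).prod (volume.restrict (ball c r))) ≤
      ENNReal.ofReal (64 * s10w * r ^ 5 * ∫ x in ball c r, ‖D u x‖ ^ 2) := by
  obtain ⟨j, j1, j2, -, j4, -⟩ := exists_cutoff c hr.le one_pos
  have ht : Tst j := ⟨j1.of_le (by exact_mod_cast le_top), j2⟩
  have hv : H1 fun x => j x * u x := h.mul_tst ht
  have he : ∀ x ∈ ball c r, j x * u x = u x := fun x hx => by
    rw [j4 x (mem_ball_iff_norm.1 hx).le, one_mul]
  have hD := D_eqOn hv.hl h isOpen_ball (Eventually.of_forall he)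
  have := s10_h1 hv c hr
  have e1 : ∫ x in ball c r, ‖D (fun x => j x * u x) x‖ ^ 2 = ∫ x in ball c r, ‖D u x‖ ^ 2 := by
    refine setIntegral_congr_ae measurableSet_ball ?_
    filter_upwards [hD] with x hx hb
    rw [hx hb]
  rw [e1] at this
  refine le_of_eq_of_le (lintegral_congr_ae ?_) this
  have h1 : ∀ᵐ x ∂(volume.restrict (ball c r)), x ∈ ball c r := ae_restrict_mem measurableSet_ball
  filter_upwards [Measure.quasiMeasurePreserving_fst.ae h1,
    Measure.quasiMeasurePreserving_snd.ae h1] with p a b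
  rw [he _ a, he _ b]

end

end Crest.Agent.R335
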