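import Crest.Agent.R335.S06
import Crest.Agent.R335.S07
import Crest.Agent.R335.S10Aux1

set_option autoImplicit false

open MeasureTheory Set Filter Topology Metric
open scoped Gradient ContDiff RealInnerProductSpace ENNReal

namespace Crest.Agent.R335

noncomputable section

variable {V : Type*} [NormedAddCommGroup V] [InnerProductSpace ℝ V] [FiniteDimensional ℝ V]
  [MeasurableSpace V] [BorelSpace V]

private theorem s10_l2 {u : E → ℝ} (h : Hl u) (c : E) (r : ℝ) :
    MemLp u 2 (volume.restrict (ball c r)) :=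
  (h.l2 _ (isCompact_closedBall c r)).mono_measure
    (Measure.restrict_mono ball_subset_closedBall le_rfl)

private theorem s10_int2 {u : E → ℝ} (h : Hl u) (c : E) (r : ℝ) :
    Integrable (fun p : E × E => (u p.1 - u p.2) ^ 2)
      ((volume.restrict (ball c r)).prod (volume.restrict (ball c r))) := by
  have : IsFiniteMeasure (volume.restrict (ball c r)) :=
    isFiniteMeasure_restrict.2 measure_ball_lt_top.ne
  have hl := s10_l2 h c r
  exact ((hl.comp_fst _).sub (hl.comp_snd _)).integrable_sq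

private theorem s10_two {u : E → ℝ} (h : Hl u) (c : E) {r : ℝ} (hr : 0 < r) :
    ∫ x in ball c r, ∫ y in ball c r, (u x - u y) ^ 2 ≤
      64 * s10w * r ^ 5 * ∫ x in ball c r, ‖D u x‖ ^ 2 := by
  have hi := s10_int2 h c r
  have hw := s10w_pos
  rw [← integral_prod _ hi]
  have h1 := s10_hl h c hr
  rw [← ofReal_integral_eq_lintegral_ofReal hi (Eventually.of_forall fun p => sq_nonneg _)] at h1
  have hI0 : 0 ≤ ∫ x in ball c r, ‖D u x‖ ^ 2 := integral_nonneg fun x => sq_nonneg _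
  exact (ENNReal.ofReal_le_ofReal_iff (by positivity)).1 h1

/-! Poincare on balls, strong positivity -/
theorem poincare_two : ∃ C : ℝ, 0 < C ∧ ∀ (u : E → ℝ) (c : E) (r : ℝ), 0 < r → Hl u →
    ∫ x in ball c r, ∫ y in ball c r, (u x - u y) ^ 2 ≤ C * r ^ 5 * ∫ x in ball c r, ‖D u x‖ ^ 2 :=
  ⟨64 * s10w, by have := s10w_pos; positivity, fun _ c _ hr h => s10_two h c hr⟩
theorem poincare_ball : ∃ C : ℝ, 0 < C ∧ ∀ (u : E → ℝ) (c : E) (r : ℝ), 0 < r → Hl u →
    ∫ x in ball c r, (u x - ⨍ y in ball c r, u y) ^ 2 ≤ C * r ^ 2 * ∫ x in ball c r, ‖D u x‖ ^ 2 := by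
  refine ⟨64, by norm_num, fun u c r hr h => ?_⟩
  have : IsFiniteMeasure (volume.restrict (ball c r)) :=
    isFiniteMeasure_restrict.2 measure_ball_lt_top.ne
  have hw := s10w_pos
  have hl := s10_l2 h c r
  have hi1 : Integrable u (volume.restrict (ball c r)) := hl.integrable one_le_two
  have hi2 : Integrable (fun x => u x ^ 2) (volume.restrict (ball c r)) := hl.integrable_sq
  set m : ℝ := ⨍ y in ball c r, u y with hm
  set B : ℝ := r ^ 3 * s10w with hB
  have hB0 : 0 < B := by positivity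
  have hvol : (volume.restrict (ball c r)).real univ = B := by
    rw [Measure.real, Measure.restrict_apply_univ, s10_vol' c hr, ENNReal.toReal_ofReal hB0.le]
  have hint : ∫ y in ball c r, u y = B * m := by
    rw [hm, average_eq, hvol, smul_eq_mul, ← mul_assoc, mul_inv_cancel₀ hB0.ne', one_mul]
  have hsq : ∀ a : ℝ, ∫ y in ball c r, (a - u y) ^ 2 =
      B * a ^ 2 - 2 * a * (B * m) + ∫ y in ball c r, u y ^ 2 := by
    intro a
    have e : (fun y => (a - u y) ^ 2) = fun y => (a ^ 2 - 2 * a * u y) + u y ^ 2 := by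
      funext y; ring
    have i1 : Integrable (fun y => a ^ 2 - 2 * a * u y) (volume.restrict (ball c r)) :=
      (integrable_const _).sub (hi1.const_mul _)
    rw [e, integral_add i1 hi2,
      integral_sub (integrable_const _) (hi1.const_mul _), integral_const, integral_const_mul,
      hvol, hint, smul_eq_mul]
  have h0 : B * m ^ 2 ≤ ∫ y in ball c r, u y ^ 2 := by
    have h1 : 0 ≤ ∫ y in ball c r, (m - u y) ^ 2 := integral_nonneg fun y => sq_nonneg _
    rw [hsq m] at h1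
    nlinarith
  have hpt : ∀ x, B * (u x - m) ^ 2 ≤ ∫ y in ball c r, (u x - u y) ^ 2 := by
    intro x
    rw [hsq (u x)]
    nlinarith
  have hi3 : Integrable (fun x => (u x - m) ^ 2) (volume.restrict (ball c r)) :=
    (hl.sub (memLp_const m)).integrable_sq
  have h2 : ∫ x in ball c r, B * (u x - m) ^ 2 ≤ ∫ x in ball c r, ∫ y in ball c r, (u x - u y) ^ 2 :=
    integral_mono (hi3.const_mul B) (s10_int2 h c r).integral_prod_left hpt
  rw [integral_const_mul] at h2
  have h3 := h2.trans (s10_two h c hr)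
  refine le_of_mul_le_mul_left (h3.trans (le_of_eq ?_)) hB0
  rw [hB]; ring

/-- uniform bound for the gradient of `log (p⁺ + ε)` on a smaller ball -/
private theorem s10_log {w p : E → ℝ} {c : E} {r a : ℝ} (hw : AEStronglyMeasurable w volume)
    (hw1 : LB w) (hw2 : LP w) (hp : Bl p) (ha : 0 ≤ a) (h0 : ∀ᵐ x, x ∈ ball c r → 0 ≤ p x)
    (h : WSub w (ball c r) (fun x => -p x) (fun x => a * w x * p x)) {ρ : ℝ} (hρ : 0 < ρ)
    (hρr : ρ < r) : ∃ C₀ : ℝ, ∀ ε : ℝ, 0 < ε →
      Hl (fun x => Real.log (max (p x) 0 + ε)) ∧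
      ∫ x in ball c ρ, ‖D (fun x => Real.log (max (p x) 0 + ε)) x‖ ^ 2 ≤ C₀ := by
  set s : ℝ := (r - ρ) / 2 with hs
  have hs0 : 0 < s := by rw [hs]; linarith
  set K : Set E := closedBall c (ρ + s) with hK
  have hKc : IsCompact K := isCompact_closedBall _ _
  have hKm : MeasurableSet K := measurableSet_closedBall
  have hKB : K ⊆ ball c r := closedBall_subset_ball (by rw [hs]; linarith)
  obtain ⟨j, j1, j2, j3, j4, j5, j6, -⟩ := exists_cutoff c hρ.le hs0
  obtain ⟨M, hM⟩ := hw1 K hKc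
  obtain ⟨m, hm0, hm⟩ := hw2 K hKc
  set L : ℝ := 4 / s with hL
  have hL0 : 0 ≤ L := by positivity
  have hjK : ∀ x, x ∉ K → j x = 0 := fun x hx => j5 x (by
    rw [hK, mem_closedBall_iff_norm, not_le] at hx; exact hx.le)
  have hj1 : ContDiff ℝ 1 j := j1.of_le (by exact_mod_cast le_top)
  have hKfin : volume K ≠ ⊤ := hKc.measure_lt_top.ne
  refine ⟨4 / m * ((|M| * L ^ 2 + a * |M|) * volume.real K), fun ε hε => ?_⟩
  set q : E → ℝ := fun x => max (p x) 0 + ε with hq
  have hqε : ∀ x, ε ≤ q x := fun x => by simp [hq]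
  have hq0 : ∀ x, 0 < q x := fun x => hε.trans_le (hqε x)
  have hcb : Bl fun _ : E => ε := bl_c1 contDiff_const
  have hqb : Bl q := hp.pos.add hcb
  have hqp : LP q := fun _ _ => ⟨ε, hε, Eventually.of_forall fun x _ => hqε x⟩
  have hDq : ∀ᵐ x, x ∈ ball c r → D q x = D p x := by
    have e1 := D_add hp.pos.hl hcb.hl
    have e2 := D_eqOn hp.pos.hl hp.hl isOpen_ball (U := ball c r) (by
      filter_upwards [h0] with x hx hb
      exact max_eq_left (hx hb))
    filter_upwards [e1, e2, D_const (V := E) ε] with x a1 a2 a3 hb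
    rw [hq, a1, a3, a2 hb, add_zero]
  obtain ⟨hf, hDf⟩ := hqb.comp_pos hqp (β := Real.log)
    (Real.contDiffOn_log.mono fun x hx => ne_of_gt hx)
  refine ⟨hf.hl, ?_⟩
  set f : E → ℝ := fun x => Real.log (q x) with hfdef
  obtain ⟨hi, hDi⟩ := hqb.inv hqp
  have hjb : Bl j := bl_c1 hj1
  obtain ⟨hjj, hDjj⟩ := hjb.mul hjb
  obtain ⟨hχ, hDχ⟩ := hjj.mul hi
  set χ : E → ℝ := fun x => j x * j x * (q x)⁻¹ with hχdef
  have hχ0 : ∀ x, 0 ≤ χ x := fun x => mul_nonneg (mul_self_nonneg _) (inv_nonneg.2 (hq0 x).le)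
  have htf : TF (ball c r) χ := hχ.tf ⟨K, hKc, hKB, Eventually.of_forall fun x hx => by
    simp [hχdef, hjK x hx]⟩
  have hle := h.le χ htf (Eventually.of_forall hχ0)
  have hDn : ∀ᵐ x, D (fun x => -p x) x = -D p x := by
    have := D_smul (-1) hp.hl
    simpa using this
  -- pointwise formula
  have hform : ∀ᵐ x, (1 / 2) * w x * ⟪D (fun x => -p x) x, D χ x⟫ =
      w x * ((1 / 2) * j x ^ 2 * ‖D f x‖ ^ 2 - j x * ⟪D f x, ∇ j x⟫) := by
    filter_upwards [hDq, hDf, hDi, hDjj, hDχ, hDn, D_c1 hj1] with x a1 a2 a3 a4 a5 a6 a7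
    by_cases hx : x ∈ K
    · rw [a6, a5, a3, a4, a7, a2, ← a1 (hKB hx), Real.deriv_log]
      have hqx := (hq0 x).ne'
      simp only [inner_add_right, inner_neg_left, inner_smul_right, inner_smul_left, norm_smul,
        real_inner_self_eq_norm_sq, RCLike.conj_to_real, mul_pow, Real.norm_eq_abs, sq_abs,
        neg_smul, inner_neg_right, smul_neg]
      field_simp
      ring
    · rw [a5, a4, hjK x hx]
      simp
  have hDf2 : IntegrableOn (fun x => ‖D f x‖ ^ 2) K volume :=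
    (hf.hl.dl2 K hKc).norm.integrable_sq
  have hconst : ∀ b : ℝ, Integrable (K.indicator fun _ => b) volume := fun b =>
    (integrable_indicator_iff hKm).2 (integrableOn_const hKfin)
  have hind : Integrable (K.indicator fun x => ‖D f x‖ ^ 2) volume :=
    (integrable_indicator_iff hKm).2 hDf2
  have hBK : ball c ρ ⊆ K := ball_subset_closedBall.trans (closedBall_subset_closedBall (by linarith))
  have hind' : Integrable ((ball c ρ).indicator fun x => ‖D f x‖ ^ 2) volume :=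
    (integrable_indicator_iff measurableSet_ball).2 (hDf2.mono_set hBK)
  have hcross : ∀ x, |j x * ⟪D f x, ∇ j x⟫| ≤ (1 / 4) * j x ^ 2 * ‖D f x‖ ^ 2 + L ^ 2 := by
    intro x
    have b1 := abs_real_inner_le_norm (D f x) (∇ j x)
    have b2 : |⟪D f x, ∇ j x⟫| ≤ ‖D f x‖ * L :=
      b1.trans (mul_le_mul_of_nonneg_left (j6 x) (norm_nonneg _))
    rw [abs_mul, abs_of_nonneg (j3 x).1]
    have b3 := mul_le_mul_of_nonneg_left b2 (j3 x).1
    nlinarith [sq_nonneg (j x * ‖D f x‖ / 2 - L)]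
  have hLi : Integrable (fun x => (1 / 2) * w x * ⟪D (fun x => -p x) x, D χ x⟫) volume := by
    refine Integrable.mono' ((hind.const_mul |M|).add (hconst (|M| * L ^ 2))) ?_ ?_
    · exact (aestronglyMeasurable_const.mul hw).mul (h.hl.aesm_D.inner hχ.hl.aesm_D)
    · filter_upwards [hform, hM] with x a1 a2
      rw [a1, Real.norm_eq_abs]
      by_cases hx : x ∈ K
      · simp only [Pi.add_apply, indicator_of_mem hx]
        have b1 := hcross x
        have b2 : j x ^ 2 ≤ 1 := by nlinarith [(j3 x).1, (j3 x).2]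
        have b3 : j x ^ 2 * ‖D f x‖ ^ 2 ≤ ‖D f x‖ ^ 2 := by nlinarith [sq_nonneg ‖D f x‖]
        have b4 : |(1 / 2) * j x ^ 2 * ‖D f x‖ ^ 2 - j x * ⟪D f x, ∇ j x⟫| ≤ ‖D f x‖ ^ 2 + L ^ 2 := by
          have b5 : 0 ≤ j x ^ 2 * ‖D f x‖ ^ 2 := by positivity
          have b6 := abs_le.1 b1
          rw [abs_le]
          constructor <;> nlinarith [sq_nonneg ‖D f x‖, sq_nonneg L]
        rw [abs_mul]
        calc |w x| * |(1 / 2) * j x ^ 2 * ‖D f x‖ ^ 2 - j x * ⟪D f x, ∇ j x⟫|
            ≤ |M| * (‖D f x‖ ^ 2 + L ^ 2) :=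
              mul_le_mul ((a2 hx).trans (le_abs_self _)) b4 (abs_nonneg _) (abs_nonneg _)
          _ = _ := by ring
      · simp [indicator_of_notMem hx, hjK x hx]
  have hlow : ∫ x, (m / 4 * (ball c ρ).indicator (fun x => ‖D f x‖ ^ 2) x -
      K.indicator (fun _ => |M| * L ^ 2) x) ≤
      ∫ x, (1 / 2) * w x * ⟪D (fun x => -p x) x, D χ x⟫ := by
    refine integral_mono_ae ((hind'.const_mul _).sub (hconst _)) hLi ?_
    filter_upwards [hform, hM, hm] with x a1 a2 a3
    rw [a1]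
    by_cases hx : x ∈ K
    · have b1 := (abs_le.1 (hcross x)).2
      have b2 : w x ≤ |M| := ((le_abs_self _).trans (a2 hx)).trans (le_abs_self _)
      have b3 := a3 hx
      have b4 : (ball c ρ).indicator (fun x => ‖D f x‖ ^ 2) x ≤ j x ^ 2 * ‖D f x‖ ^ 2 := by
        by_cases hb : x ∈ ball c ρ
        · rw [indicator_of_mem hb, j4 x (mem_ball_iff_norm.1 hb).le]; simp
        · rw [indicator_of_notMem hb]; positivity
      have b5 : 0 ≤ j x ^ 2 * ‖D f x‖ ^ 2 := by positivity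
      rw [indicator_of_mem hx]
      have b6 : m / 4 * (ball c ρ).indicator (fun x => ‖D f x‖ ^ 2) x ≤
          w x * ((1 / 4) * (j x ^ 2 * ‖D f x‖ ^ 2)) := by
        calc _ ≤ m / 4 * (j x ^ 2 * ‖D f x‖ ^ 2) := by gcongr
          _ = m * ((1 / 4) * (j x ^ 2 * ‖D f x‖ ^ 2)) := by ring
          _ ≤ _ := by gcongr
      have b7 : w x * L ^ 2 ≤ |M| * L ^ 2 := by gcongr
      have b8 : 0 ≤ w x := hm0.le.trans b3
      have b9 : w x * ((1 / 4) * (j x ^ 2 * ‖D f x‖ ^ 2) - L ^ 2) ≤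
          w x * ((1 / 2) * j x ^ 2 * ‖D f x‖ ^ 2 - j x * ⟪D f x, ∇ j x⟫) :=
        mul_le_mul_of_nonneg_left (by linarith) b8
      nlinarith
    · have hb : x ∉ ball c ρ := fun hb => hx (hBK hb)
      simp [indicator_of_notMem hx, indicator_of_notMem hb, hjK x hx]
  have hup : ∫ x, a * w x * p x * χ x ≤ ∫ x, K.indicator (fun _ => a * |M|) x := by
    refine integral_mono_of_nonneg ?_ (hconst _) ?_
    · filter_upwards [hm, h0] with x a1 a2
      by_cases hx : x ∈ K
      · have := hm0.le.trans (a1 hx)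
        have := a2 (hKB hx)
        have := hχ0 x
        simp only [Pi.zero_apply]
        positivity
      · simp [hχdef, hjK x hx]
    · filter_upwards [hM, hm, h0] with x a1 a2 a3
      by_cases hx : x ∈ K
      · rw [indicator_of_mem hx]
        have b1 : w x ≤ |M| := ((le_abs_self _).trans (a1 hx)).trans (le_abs_self _)
        have b2 := hm0.le.trans (a2 hx)
        have b3 := a3 (hKB hx)
        have b4 : p x * χ x ≤ 1 := by
          have c1 : p x * (q x)⁻¹ ≤ 1 := by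
            rw [← div_eq_mul_inv, div_le_one (hq0 x)]
            have := le_max_left (p x) 0
            simp only [hq]; linarith
          have c2 : j x * j x ≤ 1 := by nlinarith [(j3 x).1, (j3 x).2]
          have c3 : 0 ≤ p x * (q x)⁻¹ := mul_nonneg b3 (inv_nonneg.2 (hq0 x).le)
          calc p x * χ x = (j x * j x) * (p x * (q x)⁻¹) := by simp only [hχdef]; ring
            _ ≤ 1 * 1 := mul_le_mul c2 c1 c3 zero_le_one
            _ = 1 := one_mul 1
        calc a * w x * p x * χ x = a * w x * (p x * χ x) := by ring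
          _ ≤ a * w x * 1 := mul_le_mul_of_nonneg_left b4 (mul_nonneg ha b2)
          _ ≤ a * |M| := by rw [mul_one]; gcongr
      · simp [indicator_of_notMem hx, hχdef, hjK x hx]
  rw [integral_sub (hind'.const_mul _) (hconst _), integral_const_mul,
    integral_indicator measurableSet_ball, integral_indicator_const _ hKm] at hlow
  rw [integral_indicator_const _ hKm] at hup
  have hfin := (hlow.trans hle).trans hup
  simp only [smul_eq_mul] at hfin
  rw [div_mul_eq_mul_div, le_div_iff₀ hm0]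
  nlinarith

private theorem s10_small {p : E → ℝ} {c : E} {ρ C₀ : ℝ} (hρ : 0 < ρ)
    (H : ∀ ε : ℝ, 0 < ε → Hl (fun x => Real.log (max (p x) 0 + ε)) ∧
      ∫ x in ball c ρ, ‖D (fun x => Real.log (max (p x) 0 + ε)) x‖ ^ 2 ≤ C₀) :
    (∀ᵐ x, x ∈ ball c ρ → 0 < p x) ∨ ∀ᵐ x, x ∈ ball c ρ → p x ≤ 0 := by
  by_contra hcon
  rw [not_or] at hcon
  obtain ⟨h1, h2⟩ := hcon
  set μ : Measure E := volume.restrict (ball c ρ) with hμ
  rw [← ae_restrict_iff' measurableSet_ball] at h1 h2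
  have hZ : μ {x | p x ≤ 0} ≠ 0 := by
    intro hz
    apply h1
    rw [ae_iff]
    simpa only [not_lt] using hz
  have hA : ∃ δ : ℝ, 0 < δ ∧ μ {x | δ ≤ p x} ≠ 0 := by
    by_contra hA
    push Not at hA
    apply h2
    have : ∀ n : ℕ, ∀ᵐ x ∂μ, p x < 1 / ((n : ℝ) + 1) := fun n => by
      rw [ae_iff]
      simpa only [not_lt] using hA _ Nat.one_div_pos_of_nat
    filter_upwards [ae_all_iff.2 this] with x hx
    by_contra hpos
    obtain ⟨n, hn⟩ := exists_nat_one_div_lt (not_le.1 hpos)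
    exact absurd (hx n) (not_lt.2 hn.le)
  obtain ⟨δ, hδ, hA⟩ := hA
  have hw := s10w_pos
  set κ : ℝ≥0∞ := μ {x | δ ≤ p x} * μ {x | p x ≤ 0} with hκ
  have hκ0 : κ ≠ 0 := mul_ne_zero hA hZ
  have key : ∀ n : ℕ, (n : ℝ≥0∞) * κ ≤ ENNReal.ofReal (64 * s10w * ρ ^ 5 * C₀) := by
    intro n
    set ε : ℝ := δ * Real.exp (-(n : ℝ)) with hε
    have hε0 : 0 < ε := by positivity
    obtain ⟨hl, hb⟩ := H ε hε0
    set f : E → ℝ := fun x => Real.log (max (p x) 0 + ε) with hf
    have h3 := s10_hl hl c hρ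
    have h4 : ENNReal.ofReal (64 * s10w * ρ ^ 5 * ∫ x in ball c ρ, ‖D f x‖ ^ 2) ≤
        ENNReal.ofReal (64 * s10w * ρ ^ 5 * C₀) := ENNReal.ofReal_le_ofReal (by gcongr)
    have hm : AEMeasurable (fun z : E × E => ENNReal.ofReal ((f z.1 - f z.2) ^ 2)) (μ.prod μ) :=
      (s10_int2 hl c ρ).aestronglyMeasurable.aemeasurable.ennreal_ofReal
    refine le_trans ?_ ((mul_meas_ge_le_lintegral₀ hm (n : ℝ≥0∞)).trans (h3.trans h4))
    gcongr
    rw [hκ, ← Measure.prod_prod]
    refine measure_mono fun z hz => ?_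
    obtain ⟨z1, z2⟩ := hz
    simp only [mem_ofPred_eq] at z1 z2 ⊢
    have e2 : f z.2 = Real.log δ - n := by
      simp only [hf, max_eq_right z2, zero_add, hε]
      rw [Real.log_mul hδ.ne' (Real.exp_pos _).ne', Real.log_exp]; ring
    have e1 : Real.log δ ≤ f z.1 := by
      refine Real.log_le_log hδ ?_
      have := le_max_left (p z.1) 0
      linarith
    have e3 : (n : ℝ) ≤ f z.1 - f z.2 := by linarith
    have e4 : (n : ℝ) ≤ (n : ℝ) ^ 2 := by exact_mod_cast Nat.le_self_pow two_ne_zero n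
    have e5 : (n : ℝ) ≤ (f z.1 - f z.2) ^ 2 :=
      e4.trans (pow_le_pow_left₀ (Nat.cast_nonneg n) e3 2)
    rw [← ENNReal.ofReal_natCast]
    exact ENNReal.ofReal_le_ofReal e5
  obtain ⟨n, hn⟩ := ENNReal.exists_nat_mul_gt hκ0
    (ENNReal.ofReal_ne_top (r := 64 * s10w * ρ ^ 5 * C₀))
  exact absurd (key n) (not_le.2 hn)

/-- test with `j² / (p + ε)`, Poincare for `log (p + ε)` -/
theorem pos_or_zero {w p : E → ℝ} {c : E} {r a : ℝ} (hr : 0 < r) (hw : AEStronglyMeasurable w volume)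
    (hw1 : LB w) (hw2 : LP w) (hp : Bl p) (ha : 0 ≤ a) (h0 : ∀ᵐ x, x ∈ ball c r → 0 ≤ p x)
    (h : WSub w (ball c r) (fun x => -p x) (fun x => a * w x * p x)) :
    (∀ᵐ x, x ∈ ball c r → 0 < p x) ∨ ∀ᵐ x, x ∈ ball c r → p x = 0 := by
  obtain ⟨u, hu1, hu2, hu3⟩ := exists_seq_strictMono_tendsto' hr
  have hd : ∀ n, (∀ᵐ x, x ∈ ball c (u n) → 0 < p x) ∨ ∀ᵐ x, x ∈ ball c (u n) → p x ≤ 0 := by
    intro n
    obtain ⟨C₀, H⟩ := s10_log hw hw1 hw2 hp ha h0 h (hu2 n).1 (hu2 n).2
    exact s10_small (hu2 n).1 H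
  have hcov : ∀ x ∈ ball c r, ∀ N : ℕ, ∃ n, N ≤ n ∧ x ∈ ball c (u n) := by
    intro x hx N
    have := (hu3.eventually (lt_mem_nhds (mem_ball.1 hx))).and (eventually_ge_atTop N)
    obtain ⟨n, a1, a2⟩ := this.exists
    exact ⟨n, a2, mem_ball.2 a1⟩
  by_cases hz : ∀ n, ∀ᵐ x, x ∈ ball c (u n) → p x ≤ 0
  · right
    filter_upwards [ae_all_iff.2 hz, h0] with x a1 a2 hx
    obtain ⟨n, -, hn⟩ := hcov x hx 0
    exact le_antisymm (a1 n hn) (a2 hx)
  · left
    push Not at hz
    obtain ⟨N, hN⟩ := hz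
    have hpos : ∀ n, ∀ᵐ x, N ≤ n → x ∈ ball c (u n) → 0 < p x := by
      intro n
      by_cases hn : N ≤ n
      · rcases hd n with a | a
        · filter_upwards [a] with x hx _ using hx
        · exfalso
          refine (not_frequently.2 ?_) hN
          filter_upwards [a] with x hx
          intro hc
          exact absurd (hx (ball_subset_ball (hu1.monotone hn) hc.1)) (not_le.2 hc.2)
      · exact Eventually.of_forall fun x a => absurd a hn
    filter_upwards [ae_all_iff.2 hpos] with x a1 hx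
    obtain ⟨n, b1, b2⟩ := hcov x hx N
    exact a1 n b1 b2

end

end Crest.Agent.R335
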