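import Crest.Agent.R335.Defs3
import Crest.Agent.R335.S13
import Crest.Agent.R335.S12
import Crest.Agent.R335.S11
import Crest.Agent.R335.S10
import Crest.Agent.R335.S09
import Crest.Agent.R335.S08
import Crest.Agent.R335.S07
import Crest.Agent.R335.MA5
import Crest.Agent.R335.MA6
import Crest.Agent.R335.MA7
import Crest.Agent.R335.MA8
import Crest.Agent.R335.MA9

set_option autoImplicit false

open MeasureTheory Set Filter Topology Metric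
open scoped Gradient ContDiff RealInnerProductSpace ENNReal

namespace Crest.Agent.R335

noncomputable section

theorem MA_two (o : OD) (ho : o.OK) : ∃ c l0 : ℝ, 0 ≤ c ∧ 0 < l0 ∧ ∀ l, 0 < l → l ≤ l0 → l ≤ 1 →
    ∃ E2 Φ, PT H1 (U2 o.d l) (gg o.g0) (2 * o.eg) o.δ0 (c * l) E2 Φ ∧
      ∀ y, Φ (R6 y) = Φ y ∧ Φ (sw6 y) = Φ y := by
  have h0 := ho.toOK0
  have hlin : ∀ (u w : E6 → ℝ) (s t : ℝ), H1 u → H1 w → H1 fun x => s * u x + t * w x :=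
    fun u w s t hu hw => S11_h1_lc hu hw s t
  obtain ⟨c, l0, hc, hl0, H⟩ := exists_PT (P := H1) (U0 := V2 (vx o.d)) (U1 := W2) (b := gg o.g0)
    (C := 64) (e0 := 2 * o.eg) (δ := o.δ0) (fun u hu => hu) hlin
    (fun u w hu _ _ => ⟨u, hu, Eventually.of_forall fun _ => rfl⟩) (opB_V2 o.d)
    (opB_W2.mono (by norm_num)) W2_nonneg ho.δ.1 h0.sol_gg.h1 h0.nsq_gg h0.sol_gg
    (fun u hu => by
      have := h0.gap_two hu
      have e : 2 * o.eg + o.δ0 = o.eg + o.eu := by unfold OD.δ0; ring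
      rw [e]; exact this)
  refine ⟨c, l0, hc, hl0, fun l hl hl' hl1 => ?_⟩
  obtain ⟨En, Φ, hΦ⟩ := H l hl hl'
  rw [← U2_eq] at hΦ
  obtain ⟨L1, hL1⟩ := exists_R6
  obtain ⟨L2, hL2⟩ := exists_sw6
  have hU := opB_U2 o.d hl.le hl1
  have s1 := hΦ.symm hU h0.sol_gg.h1.l2 hlin L1 (fun x => by rw [hL1, hL1, R6_R6])
    (fun x => by rw [hL1, U2_R6]) (s := 1) (by norm_num)
    (fun x => by rw [hL1, h0.gg_R6, one_mul]) (hΦ.h1.iso L1).1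
  have s2 := hΦ.symm hU h0.sol_gg.h1.l2 hlin L2 (fun x => by rw [hL2, hL2, sw6_sw6])
    (fun x => by rw [hL2, U2_sw6]) (s := 1) (by norm_num)
    (fun x => by rw [hL2, gg_sw6, one_mul]) (hΦ.h1.iso L2).1
  have s3 := ae_iso L2 s1
  set Φ1 : E6 → ℝ := fun y => (1 / 2) * Φ y + (1 / 2) * Φ (L1 y) with hΦ1
  have h1 : H1 Φ1 := hlin _ _ _ _ hΦ.h1 (hΦ.h1.iso L1).1
  set Φ2 : E6 → ℝ := fun y => (1 / 2) * Φ1 y + (1 / 2) * Φ1 (L2 y) with hΦ2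
  have h2 : H1 Φ2 := hlin _ _ _ _ h1 (h1.iso L2).1
  refine ⟨En, Φ2, hΦ.congr h2 ?_, fun y => ⟨?_, ?_⟩⟩
  · filter_upwards [s1, s2, s3] with y a1 a2 a3
    simp only [hΦ2, hΦ1, a1, a3, a2]
    ring
  · simp only [hΦ2, hΦ1, hL1, hL2, R6_R6, sw6_R6]
    ring
  · simp only [hΦ2, hΦ1, hL1, hL2, sw6_sw6]
    ring

theorem MA_three (o : OD) (ho : o.OK) : ∃ c l0 : ℝ, 0 ≤ c ∧ 0 < l0 ∧ ∀ l, 0 < l → l ≤ l0 → l ≤ 1 →
    ∃ E3 ψ, PT (fun u => H1 u ∧ Anti u) (U3 o.d l) (psi0 o.g0 o.u0) (2 * o.eg + o.eu) o.δ0 (c * l)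
      E3 ψ ∧ ∀ p, ψ (R9 p) = -ψ p := by
  have h0 := ho.toOK0
  obtain ⟨L1, hL1⟩ := exists_R9
  obtain ⟨L2, hL2⟩ := exists_sw12
  have hlin : ∀ (u w : E9 → ℝ) (s t : ℝ), (H1 u ∧ Anti u) → (H1 w ∧ Anti w) →
      (H1 fun x => s * u x + t * w x) ∧ Anti fun x => s * u x + t * w x := by
    intro u w s t hu hw
    refine ⟨S11_h1_lc hu.1 hw.1 s t, fun p => ?_⟩
    simp only [hu.2 p, hw.2 p]
    ring
  obtain ⟨c, l0, hc, hl0, H⟩ := exists_PT (P := fun u => H1 u ∧ Anti u) (U0 := V3 (vx o.d))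
    (U1 := W3) (b := psi0 o.g0 o.u0) (C := 160) (e0 := 2 * o.eg + o.eu) (δ := o.δ0)
    (fun u hu => hu.1) hlin
    (fun u w hu hw hc => by
      obtain ⟨u', a1, a2⟩ := sector_closed L2 (fun x => by rw [hL2, hL2, sw12_sw12]) (s := -1)
        (by norm_num) u w hu
        (fun n => ⟨(hw n).1, fun x => by rw [hL2, (hw n).2 x, neg_one_mul]⟩) hc
      exact ⟨u', ⟨a1.1, fun p => by rw [← hL2, a1.2 p, neg_one_mul]⟩, a2⟩)
    (opB_V3 o.d) (opB_W3.mono (by norm_num)) W3_nonneg ho.δ.1 ⟨h0.sol_psi0.h1, anti_psi0 _ _⟩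
    h0.nsq_psi0 h0.sol_psi0
    (fun u hu => by
      have := ho.gap_three hu.1 hu.2
      have e : 2 * o.eg + o.eu + o.δ0 = o.eg + 2 * o.eu := by unfold OD.δ0; ring
      rw [e]; exact this)
  refine ⟨c, l0, hc, hl0, fun l hl hl' hl1 => ?_⟩
  obtain ⟨En, ψ, hψ⟩ := H l hl hl'
  rw [← U3_eq] at hψ
  have hU := opB_U3 o.d hl.le hl1
  have hmem : H1 (fun x => ψ (L1 x)) ∧ Anti fun x => ψ (L1 x) :=
    ⟨(hψ.h1.iso L1).1, fun p => by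
      simp only [hL1]
      rw [← sw12_R9, hψ.mem.2]⟩
  have s1 := hψ.symm hU h0.sol_psi0.h1.l2 hlin L1 (fun x => by rw [hL1, hL1, R9_R9])
    (fun x => by rw [hL1, U3_R9]) (s := -1) (by norm_num)
    (fun x => by rw [hL1, h0.psi0_R9, neg_one_mul]) hmem
  refine ⟨En, fun p => (1 / 2) * ψ p + (-(1 / 2)) * ψ (L1 p),
    hψ.congr (hlin _ _ _ _ hψ.mem hmem) ?_, fun p => ?_⟩
  · filter_upwards [s1] with p a1
    rw [a1]
    ring
  · simp only [hL1, R9_R9]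
    ring

theorem MA_main (o : OD) (ho : o.OK) : ∃ c l0 : ℝ, 1 ≤ c ∧ 0 < l0 ∧ ∀ l, 0 < l → l ≤ l0 →
    ∃ (E2 E3 : ℝ) (Φ : E6 → ℝ) (ψ : E9 → ℝ), MB o c l E2 E3 Φ ψ := by
  have h0 := ho.toOK0
  obtain ⟨c2, l2, hc2, hl2, H2⟩ := MA_two o ho
  obtain ⟨c3, l3, hc3, hl3, H3⟩ := MA_three o ho
  obtain ⟨f2, F2⟩ := h0.far2
  obtain ⟨f3, F3⟩ := h0.far3
  obtain ⟨a2, A2⟩ := agmon (V := E6) 400 (max f2 0) (le_max_right _ _)
  obtain ⟨a3, A3⟩ := agmon (V := E9) 400 (max f3 0) (le_max_right _ _)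
  obtain ⟨L2, hL2⟩ := exists_sw12
  set c : ℝ := 1 + c2 + c3 + |f2| + |a2| + |a3| with hc
  have p1 := abs_nonneg f2
  have p2 := abs_nonneg a2
  have p3 := abs_nonneg a3
  have q1 := le_abs_self f2
  have q2 := le_abs_self a2
  have q3 := le_abs_self a3
  have hc1 : 1 ≤ c := by linarith
  have hγ := h0.γ0
  have hen := h0.en
  refine ⟨c, min (min l2 l3) (1 / (10 * c)), hc1, by positivity, fun l hl hl0 => ?_⟩
  have hl2' : l ≤ l2 := hl0.trans ((min_le_left _ _).trans (min_le_left _ _))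
  have hl3' : l ≤ l3 := hl0.trans ((min_le_left _ _).trans (min_le_right _ _))
  have hcl : c * l ≤ 1 / 10 := by
    have := hl0.trans (min_le_right _ _)
    rw [le_div_iff₀ (by positivity)] at this
    linarith
  have hl1 : l ≤ 1 := by nlinarith
  obtain ⟨E2, Φ, hΦ, sΦ⟩ := H2 l hl hl2' hl1
  obtain ⟨E3, ψ, hψ, sψ⟩ := H3 l hl hl3' hl1
  replace hΦ := hΦ.mono (ε' := c * l) (mul_le_mul_of_nonneg_right (by linarith) hl.le)
  replace hψ := hψ.mono (ε' := c * l) (mul_le_mul_of_nonneg_right (by linarith) hl.le)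
  have hU2 := opB_U2 o.d hl.le hl1
  have hU3 := opB_U3 o.d hl.le hl1
  have b2 := hΦ.bd
  have b3 := hψ.bd
  have solΦ : Sol Φ fun y => (E2 - U2 o.d l y) * Φ y := sol_of_el hU2 hΦ.h1 hΦ.el
  have solψ : Sol ψ fun p => (E3 - U3 o.d l p) * ψ p :=
    sol_of_sector L2 (fun x => by rw [hL2, hL2, sw12_sw12]) (s := -1) (by norm_num) hU3
      (fun x => by rw [hL2, U3_sw12]) hψ.h1 (fun x => by rw [hL2, hψ.mem.2 x, neg_one_mul])
      (fun χ hχ => hψ.el χ ⟨hχ.1, fun p => by rw [← hL2, hχ.2 p, neg_one_mul]⟩)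
  have far2 : ∀ c', f2 ≤ c' → ∀ P, H1 P →
      (E2 + 1 / 3) * nsq P - c' * ∫ y in closedBall (0 : E6) c', P y ^ 2 ≤ Q (U2 o.d l) P := by
    intro c' hc' P hP
    have := F2 c' hc' l hl.le P hP
    have h2 : (E2 + 1 / 3) * nsq P ≤ (o.eg - 1 / 20) * nsq P :=
      mul_le_mul_of_nonneg_right (by linarith [b2.2.1, hγ.2, hen.2.1, hen.2.2]) (S11_nsq_nonneg P)
    linarith
  have far3 : ∀ c', f3 ≤ c' → ∀ P, H1 P →
      (E3 + 1 / 3) * nsq P - c' * ∫ y in closedBall (0 : E9) c', P y ^ 2 ≤ Q (U3 o.d l) P := by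
    intro c' hc' P hP
    have := F3 c' hc' l hl.le P hP
    have h2 : (E3 + 1 / 3) * nsq P ≤ (2 * o.eg - 1 / 20) * nsq P :=
      mul_le_mul_of_nonneg_right (by linarith [b3.2.1, hγ.2, hen.2.1, hen.2.2]) (S11_nsq_nonneg P)
    linarith
  have dΦ := A2 _ Φ E2 hU2 (abs_le.2 ⟨by linarith [b2.1, hen.1], by
    linarith [b2.2.1, hγ.2, hen.2.1, hen.2.2]⟩) solΦ hΦ.norm (far2 _ (le_max_left _ _))
  have dψ := A3 _ ψ E3 hU3 (abs_le.2 ⟨by linarith [b3.1, hen.1, hen.2.1], by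
    linarith [b3.2.1, hγ.2, hen.2.1, hen.2.2]⟩) solψ hψ.norm (far3 _ (le_max_left _ _))
  have eδ : 2 * o.eg + o.δ0 = o.eg + o.eu := by unfold OD.δ0; ring
  exact ⟨E2, E3, Φ, ψ,
    { l0 := ⟨hl, hl1⟩
      sΦ := solΦ
      nΦ := hΦ.norm
      symΦ := sΦ
      E2b := ⟨b2.1, b2.2.1⟩
      low2 := hΦ.low
      gap2 := fun P hP h => eδ ▸ hΦ.gap P hP h
      far2 := far2 c (by linarith)
      clΦ := hΦ.close
      decΦ := ⟨dΦ.1, dΦ.2.trans (by linarith)⟩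
      gs := ⟨hψ.h1, hψ.mem.2, hψ.norm, fun χ h1 h2 => hψ.eE ▸ hψ.low χ ⟨h1, h2⟩⟩
      sψ := solψ
      E3e := hψ.eE
      odd := sψ
      E3b := ⟨b3.1, b3.2.1⟩
      clψ := hψ.close
      decψ := ⟨dψ.1, dψ.2.trans (by linarith)⟩ }⟩

end

end Crest.Agent.R335
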