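import Crest.Agent.R335.MB12Aux

/-! Row 335, module MB: the field `close`. -/

set_option autoImplicit false
set_option linter.unusedSectionVars false

open MeasureTheory Set Filter Topology Metric
open scoped Gradient ContDiff RealInnerProductSpace ENNReal

namespace Crest.Agent.R335

noncomputable section

/-- `f - u = ⟨F 0 - F0 0, Φ⟩ + ⟨F0 0, Φ - g⊗g⟩`, `s - g = -⟨F 0 - F0 0, ug⟩`; a.e. bounds of continuous
functions hold everywhere -/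
theorem close1 : Un fun C a =>
    ∀ x, |a.f x - a.o.u0 x| ≤ C * √a.l ∧ |a.s x - a.o.g0 x| ≤ C * √a.l := by
  refine hh_bd.imp (fun o c C₁ => C₁ + c * o.C0) fun C₁ C a h h1 hc hC hφ hP => ?_
  obtain ⟨q0, q1, q2⟩ := h.MB12_sqrt
  obtain ⟨e0, e1⟩ := h.MB12_e
  have key : ∀ᵐ x, |a.f x - a.o.u0 x| ≤ C * √a.l ∧ |a.s x - a.o.g0 x| ≤ C * √a.l := by
    filter_upwards [hP, h.MB12_key, h.MB12_sl] with x b1 b2 b3
    have p1 := MB12_pair_le (b3 0) h.MB12_lΦ h.mb.nΦ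
    have p2 := MB12_pair_le (b3 0) h.MB12_lu h.sol_ug.2
    rw [← Dat.MB12_hh] at p1 p2
    have b4 := (h.ho.bd x).2
    have b5 : 0 ≤ a.c := by linarith [h.hc]
    have b6 : 0 ≤ a.o.C0 := (abs_nonneg _).trans b4
    constructor
    · rw [b2.1, one_mul]
      refine (abs_add_le _ _).trans ?_
      rw [abs_mul, abs_neg, abs_of_nonneg (by linarith : 0 ≤ a.MB12e / 2)]
      have k1 : a.MB12e / 2 ≤ a.c * √a.l := by nlinarith [mul_le_mul_of_nonneg_left q1 b5]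
      have k2 : a.MB12e / 2 * |a.o.u0 x| ≤ a.c * √a.l * a.o.C0 :=
        mul_le_mul k1 b4 (abs_nonneg _) (by positivity)
      have k3 := mul_le_mul_of_nonneg_right hφ q0.le
      nlinarith
    · rw [b2.2, abs_neg]
      exact p2.trans (b1.trans (mul_le_mul_of_nonneg_right hC q0.le))
  intro x
  exact ⟨MB12_all (h.cf.1.sub h.ho.cu) (key.mono fun _ hx => hx.1) x,
    MB12_all (h.cf.2.1.sub h.ho.cg) (key.mono fun _ hx => hx.2) x⟩
/-- the odd part of `F0` has slice norm `√2 g`, its even part is `(u g⊗g, 0)`; `snorm_parity` -/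
theorem close2 : Un fun C a =>
    ∀ᵐ x, |a.md.G x - √2 * a.o.g0 x| ≤ C * √a.l ∧ a.md.n x ≤ C * √a.l := by
  refine (hh_bd.and close1).imp (fun o c C₁ => 3 * C₁ + 2 * (o.C0 * c))
    fun C₁ C a h h1 hc hC hφ hP => ?_
  obtain ⟨q0, q1, q2⟩ := h.MB12_sqrt
  obtain ⟨e0, e1⟩ := h.MB12_e
  filter_upwards [hP.1, h.MB12_g] with x b1 b2
  refine ⟨b2.1.trans (b1.trans (mul_le_mul_of_nonneg_right hC q0.le)), b2.2.1.trans ?_⟩
  have b3 := (hP.2 x).1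
  have b4 := (h.ho.bd x).2
  have b5 := h.hc
  have b6 : 0 ≤ a.o.C0 := (abs_nonneg _).trans b4
  have k1 : (a.f x - a.o.u0 x) ^ 2 ≤ C₁ ^ 2 * a.l := by
    have := pow_le_pow_left₀ (abs_nonneg _) b3 2
    rwa [sq_abs, mul_pow, q2] at this
  have k2 : a.o.u0 x ^ 2 ≤ a.o.C0 ^ 2 := by
    have := pow_le_pow_left₀ (abs_nonneg _) b4 2
    rwa [sq_abs] at this
  have l0 := h.mb.l0.1
  have k3 : a.MB12e ≤ a.c ^ 2 * a.l :=
    e1.trans (mul_le_mul_of_nonneg_right (by nlinarith) l0.le)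
  have k4 : a.o.u0 x ^ 2 * a.MB12e ≤ a.o.C0 ^ 2 * (a.c ^ 2 * a.l) :=
    mul_le_mul k2 k3 e0 (sq_nonneg _)
  have k5 : snorm a.MB12Y x ≤ (2 * C₁ + 2 * (a.o.C0 * a.c)) * √a.l := by
    refine (abs_le_of_sq_le_sq' ((h.MB12_sY x).trans ?_) (by positivity)).2
    rw [mul_pow, q2]
    have k6 : 0 ≤ C₁ * (a.o.C0 * a.c) * a.l := by positivity
    have k7 : 0 ≤ C₁ ^ 2 * a.l := by positivity
    have k8 : 0 ≤ a.o.C0 ^ 2 * (a.c ^ 2 * a.l) := by positivity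
    nlinarith
  have k9 := mul_le_mul_of_nonneg_right hφ q0.le
  nlinarith
/-- `H1.pair`; `⟨F0 0, Φ - g⊗g⟩ = u ⟨g⊗g, Φ - g⊗g⟩ - g ⟨ug, Φ - g⊗g⟩` -/
theorem close3 : Un fun C a =>
    nsq (fun x => a.f x - a.o.u0 x) + dir (fun x => a.f x - a.o.u0 x) ≤ C * a.l := by
  refine Un.of (fun o c => 4 * c + c ^ 2 * (1 + dir o.u0)) fun C a h h1 hc hφ => ?_
  obtain ⟨e0, e1⟩ := h.MB12_e
  obtain ⟨l0, l1⟩ := h.mb.l0
  have e := h.MB12_key.mono fun _ hx => hx.1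
  have hP := ((h.MB12_h1 0).pair h.MB12_lΦ).1
  obtain ⟨p1, p2⟩ := MB12_pair (h.MB12_h1 0) h.MB12_lΦ h.mb.nΦ
  have k1 := MB12_nsq_le hP.l2 h.ho.su.h1.l2 1 (-(a.MB12e / 2))
  have k2 := MB12_dir_le hP h.ho.su.h1 1 (-(a.MB12e / 2))
  have k3 : nsq (a.MB12H 0) + dir (a.MB12H 0) ≤ 2 * a.c * a.l := h.clF 0
  rw [h.ho.nu] at k1
  rw [S11_nsq_congr e, S11_dir_congr e]
  have k4 := S11_dir_nonneg a.o.u0
  have k5 : a.MB12e ^ 2 ≤ a.c ^ 2 * a.l := by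
    refine (pow_le_pow_left₀ e0 e1 2).trans ?_
    rw [mul_pow]
    exact mul_le_mul_of_nonneg_left (by nlinarith) (sq_nonneg _)
  have k6 : a.MB12e ^ 2 * (1 + dir a.o.u0) ≤ a.c ^ 2 * a.l * (1 + dir a.o.u0) :=
    mul_le_mul_of_nonneg_right k5 (by linarith)
  have k7 := mul_le_mul_of_nonneg_right hφ l0.le
  have k8 : 0 ≤ a.MB12e ^ 2 * (1 + dir a.o.u0) := by positivity
  nlinarith
/-- `|g - √2 g0| ≤ hh + |f - u| + |u| ‖Φ - g⊗g‖` -/
theorem close4 : Un fun C a => nsq (fun x => a.md.g x - √2 * a.o.g0 x) ≤ C * a.l := by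
  refine close3.imp (fun _ c C₁ => 12 * c + 4 * C₁) fun C₁ C a h h1 hc hC hφ hP => ?_
  obtain ⟨e0, e1⟩ := h.MB12_e
  obtain ⟨l0, l1⟩ := h.mb.l0
  obtain ⟨m1, m2⟩ := snorm_l2 fun i => (h.MB12_h1 i).l2
  rw [← Dat.MB12_hh] at m1 m2
  have m3 : MemLp (fun x => a.f x - a.o.u0 x) 2 volume := h.sol_f.h1.l2.sub h.ho.su.h1.l2
  have i1 := m1.integrable_sq
  have i2 := m3.integrable_sq
  have i3 := h.ho.su.h1.l2.integrable_sq
  have k1 : nsq (fun x => a.md.g x - √2 * a.o.g0 x) ≤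
      ∫ x, (2 * a.hh x ^ 2 + 4 * (a.f x - a.o.u0 x) ^ 2 + 4 * a.MB12e * a.o.u0 x ^ 2) := by
    refine integral_mono_of_nonneg (ae_of_all _ fun _ => sq_nonneg _)
      (((i1.const_mul 2).add (i2.const_mul 4)).add (i3.const_mul _)) ?_
    filter_upwards [h.MB12_g] with x hx
    have b1 := pow_le_pow_left₀ (abs_nonneg _) hx.2.2 2
    rw [sq_abs] at b1
    have b2 := h.MB12_sY x
    nlinarith [sq_nonneg (a.hh x - snorm a.MB12Y x)]
  rw [S11_int3 i1 i2 i3] at k1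
  have n1 : ∫ x, a.hh x ^ 2 = nsq (a.MB12H 0) + nsq (a.MB12H 1) := by
    rw [← Fin.sum_univ_two fun i => nsq (a.MB12H i)]
    exact m2
  have n2 : ∫ x, a.o.u0 x ^ 2 = 1 := h.ho.nu
  have n3 : ∫ x, (a.f x - a.o.u0 x) ^ 2 ≤ C₁ * a.l :=
    le_trans (le_add_of_nonneg_right (S11_dir_nonneg _)) hP
  have c0 : nsq (a.MB12H 0) + dir (a.MB12H 0) ≤ 2 * a.c * a.l := h.clF 0
  have c1 : nsq (a.MB12H 1) + dir (a.MB12H 1) ≤ 2 * a.c * a.l := h.clF 1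
  have d0 := S11_dir_nonneg (a.MB12H 0)
  have d1 := S11_dir_nonneg (a.MB12H 1)
  have k7 := mul_le_mul_of_nonneg_right hφ l0.le
  rw [n1, n2] at k1
  nlinarith

end

end Crest.Agent.R335
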