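import Crest.Agent.R335.MB5

/-! Row 335, module MB: the fields `sN`, `bd`. -/

set_option autoImplicit false
set_option linter.unusedSectionVars false

open MeasureTheory Set Filter Topology Metric
open scoped Gradient ContDiff RealInnerProductSpace ENNReal

namespace Crest.Agent.R335

noncomputable section

/-- `wt_sol` with `A = rhs V F BF` (`wt * A = rhs V Pw (-l W Pw)`), `srem_eq`, `far2`
(`wt² ≤ e^{⟨c⟩/2}` on the ball), `r ≤ N`, `1/3 - 1/32 ≥ 1/4` -/
theorem f_sN : Un fun C a => Sub univ a.md.N fun x =>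
    -((a.o.v x + a.md.I + 1 / 4) * a.md.N x) + C * a.md.r x := by
  refine Un.of (fun _ c => c * Real.exp (√(1 + c ^ 2) / 2)) fun C a h hC1 _ hC => ?_
  have hl := h.mb.l0
  have hPw : ∀ i, H1 (a.Pw i) := fun i => (h.h1_Pw i).1
  have hB1 : ∀ i, MemLp (fun p : E9 => -(a.l * (Wx p.fst p.snd * a.Pw i p))) 2 volume := fun i =>
    (((opB_W9 measurable_id).bd _ (hPw i)).1.const_mul a.l).neg
  have hA : ∀ i, MemLp (fun p : E9 => wt p.snd * a.rhs a.V (a.F i) (a.BF i) p) 2 volume := by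
    intro i
    have m1 := ((opB_vx a.o.d).fst (W := E6)).bd _ (hPw i) |>.1
    have m2 := ((opB_U2 a.o.d hl.1.le hl.2).snd (V := E)).bd _ (hPw i) |>.1
    have m3 := ((((hPw i).l2.const_mul a.E3).sub m1).sub m2).add (hB1 i)
    refine m3.ae_eq (Eventually.of_forall fun p => ?_)
    simp only [Dat.rhs, Dat.V, Dat.BF, Dat.Pw, OD.v, Pi.add_apply, Pi.sub_apply]
    ring
  choose B hB2 hsol hBle using fun i => wt_sol (h.solF i) (h.decF i).1 (hA i)
  set B' : Fin 2 → E9 → ℝ := fun i p => -(a.l * (Wx p.fst p.snd * a.Pw i p)) + B i p with hB'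
  have hB'2 : ∀ i, MemLp (B' i) 2 volume := fun i => (hB1 i).add (hB2 i)
  have hsol' : ∀ i, Sol (a.Pw i) (a.rhs a.V (a.Pw i) (B' i)) := fun i =>
    (hsol i).congr (Eventually.of_forall fun _ => rfl) (Eventually.of_forall fun p => by
      simp only [Dat.rhs, Dat.BF, Dat.Pw, hB']
      ring)
  obtain ⟨hr, -, -, -, hN⟩ := h.h1
  refine snorm_sub hsol' (fun K hK _ => S12_intOn hK (MemLp.restrict K ?_)) ?_
  · have m1 := (opB_vx a.o.d).bd _ hN |>.1
    have m3 := (m1.add (hN.l2.const_mul (a.md.I + 1 / 4))).neg.add (hr.l2.const_mul C)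
    refine m3.ae_eq (Eventually.of_forall fun p => ?_)
    simp only [OD.v, Pi.add_apply, Pi.neg_apply]
    ring
  filter_upwards [a.srem_eq hl.1.le hl.2 a.V hPw hB'2, h.chain, ae_all_iff.2 hBle,
    ae_all_iff.2 fun i => memLp_slice_snd (hB1 i), ae_all_iff.2 fun i => memLp_slice_snd (hB2 i),
    ae_all_iff.2 fun i => memLp_slice_snd (h.solF i).h1.l2] with x h1 h2 h3 h4 h5 h6 _
  obtain ⟨h1a, h1b⟩ := h1
  have hr0 : 0 ≤ a.md.r x := (Dat.nn x).1
  have hN0 : 0 ≤ a.md.N x := (Dat.nn x).2.2.2.2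
  refine ⟨?_, fun h0 => ?_⟩
  swap
  · have h0' : a.md.N x = 0 := h0
    rw [h0', mul_zero, neg_zero, zero_add]
    positivity
  set M : ℝ := Real.exp (√(1 + a.c ^ 2) / 2) with hM
  have hc0 : 0 ≤ a.c := by linarith [h.hc]
  have k1 : ∀ i, ∫ y, B' i (pt x y) * a.Pw i (pt x y) ≤
      (1 / 32) * nsq fun y => a.Pw i (pt x y) := by
    intro i
    have i1 : Integrable fun y => -(a.l * (Wx x y * a.Pw i (pt x y))) * a.Pw i (pt x y) :=
      S11_int_mul (h4 i) (h1a i).1.l2
    have i2 := S11_int_mul (h5 i) (h1a i).1.l2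
    have e : ∫ y, B' i (pt x y) * a.Pw i (pt x y) =
        (∫ y, -(a.l * (Wx x y * a.Pw i (pt x y))) * a.Pw i (pt x y)) +
          ∫ y, B i (pt x y) * a.Pw i (pt x y) := by
      rw [← integral_add i1 i2]
      refine integral_congr_ae (Eventually.of_forall fun y => ?_)
      simp only [hB', WithLp.toLp_fst, WithLp.toLp_snd]
      ring
    have n1 : ∫ y, -(a.l * (Wx x y * a.Pw i (pt x y))) * a.Pw i (pt x y) ≤ 0 := by
      refine integral_nonpos fun y => ?_
      have := mul_nonneg (mul_nonneg hl.1.le (Wx_nonneg x y)) (sq_nonneg (a.Pw i (pt x y)))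
      simp only [Pi.zero_apply]
      nlinarith
    have n2 : ∫ y, B i (pt x y) * a.Pw i (pt x y) ≤ (1 / 32) * nsq fun y => a.Pw i (pt x y) :=
      h3 i
    linarith
  have k2 : ∀ i, (a.E2 + 1 / 3) * (nsq fun y => a.Pw i (pt x y)) -
      a.c * M * (nsq fun y => a.F i (pt x y)) ≤ Q (U2 a.o.d a.l) fun y => a.Pw i (pt x y) := by
    intro i
    have f1 := h.mb.far2 _ (h1a i).1
    have f2 : ∫ y in closedBall (0 : E6) a.c, a.Pw i (pt x y) ^ 2 ≤
        M * nsq fun y => a.F i (pt x y) := by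
      calc ∫ y in closedBall (0 : E6) a.c, a.Pw i (pt x y) ^ 2
          ≤ ∫ y in closedBall (0 : E6) a.c, M * a.F i (pt x y) ^ 2 := by
            refine setIntegral_mono_on (h1a i).1.l2.integrable_sq.integrableOn
              ((h6 i).integrable_sq.const_mul M).integrableOn measurableSet_closedBall
              fun y hy => ?_
            have hy' : ‖y‖ ≤ a.c := by simpa using hy
            have w1 : wt y ^ 2 ≤ M := by
              rw [wt, ← Real.exp_nat_mul, hM]
              refine Real.exp_le_exp.2 ?_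
              have : √(1 + ‖y‖ ^ 2) ≤ √(1 + a.c ^ 2) :=
                Real.sqrt_le_sqrt (by gcongr)
              push_cast
              linarith
            simp only [Dat.Pw, WithLp.toLp_snd, mul_pow]
            exact mul_le_mul_of_nonneg_right w1 (sq_nonneg _)
        _ ≤ ∫ y, M * a.F i (pt x y) ^ 2 :=
            setIntegral_le_integral ((h6 i).integrable_sq.const_mul M)
              (Eventually.of_forall fun y => by positivity)
        _ = _ := integral_const_mul _ _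
    have := mul_le_mul_of_nonneg_left f2 hc0
    linarith
  have s1 := Finset.sum_le_sum fun i (_ : i ∈ Finset.univ) => k1 i
  have s2 := Finset.sum_le_sum fun i (_ : i ∈ Finset.univ) => k2 i
  rw [Finset.sum_sub_distrib, ← Finset.mul_sum, ← Finset.mul_sum, ← snorm_sq, ← snorm_sq] at s2
  rw [← Finset.mul_sum, ← snorm_sq] at s1
  rw [h1b]
  change _ ≤ (-((a.o.v x + (a.E2 - a.E3) + 1 / 4) * snorm a.Pw x) + C * snorm a.F x) * snorm a.Pw x
  have hr1 : 0 ≤ snorm a.F x := hr0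
  have hN1 : 0 ≤ snorm a.Pw x := hN0
  have hrN : snorm a.F x ≤ snorm a.Pw x := h2.1
  have t1 : a.c * M * snorm a.F x ^ 2 ≤ C * snorm a.F x * snorm a.Pw x := by
    rw [sq, ← mul_assoc]
    exact mul_le_mul (mul_le_mul_of_nonneg_right hC hr1) hrN hr1 (by positivity)
  unfold Dat.Q2 Dat.V
  nlinarith [sq_nonneg (snorm a.Pw x)]

/-- `yukawa_le` with `k = 1`, `YP_integrable`, `opB_vx` -/
theorem yuk_bd : ∃ K : ℝ, 1 ≤ K ∧ ∀ (p T : E → ℝ) (d e : ℝ), H1 p → MemLp T 2 volume →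
    Sub univ p (fun x => (e - vx d x) * p x + T x) →
    ∀ᵐ x, p x ≤ K * ((1 + |e|) * √(dir p + nsq p) + √(nsq T)) := by
  refine ⟨8, by norm_num, fun p T d e hp hT hs => ?_⟩
  obtain ⟨m1, m2⟩ := (opB_vx d).bd _ hp
  set S : E → ℝ := fun x => (e + 1 / 2) * p x + (-1) * (vx d x * p x) + 1 * T x with hS
  have hS2 : MemLp S 2 volume :=
    ((hp.l2.const_mul _).add (m1.const_mul _)).add (hT.const_mul _)
  have hs' : Sub univ p fun x => S x - 1 ^ 2 / 2 * p x := by
    have : (fun x => S x - 1 ^ 2 / 2 * p x) = fun x => (e - vx d x) * p x + T x := by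
      funext x
      simp only [hS]
      ring
    rw [this]
    exact hs
  have hnsq : nsq S ≤ 3 * (e + 1 / 2) ^ 2 * nsq p + 3 * (-1) ^ 2 * nsq (fun x => vx d x * p x) +
      3 * 1 ^ 2 * nsq T := by
    obtain ⟨i4, e4⟩ := Y3_int3 hp.l2.integrable_sq m1.integrable_sq hT.integrable_sq
      (3 * (e + 1 / 2) ^ 2) (3 * (-1) ^ 2) (3 * 1 ^ 2)
    unfold nsq
    rw [← e4]
    exact Y3_int_le i4 (Eventually.of_forall fun x => by positivity)
      (Eventually.of_forall fun x => Y3_sq3 _ _ _ _ _ _)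
  have p1 := S11_nsq_nonneg p
  have p2 := S11_dir_nonneg p
  have p3 := S11_nsq_nonneg T
  have q1 := Real.sq_sqrt (add_nonneg p2 p1)
  have q2 := Real.sq_sqrt p3
  have q3 := Real.sqrt_nonneg (dir p + nsq p)
  have q4 := Real.sqrt_nonneg (nsq T)
  have ae := abs_nonneg e
  have e1 : (e + 1 / 2) ^ 2 ≤ (1 + |e|) ^ 2 :=
    sq_le_sq' (by linarith [neg_abs_le e]) (by linarith [le_abs_self e])
  have e2 : 1 ≤ (1 + |e|) ^ 2 := one_le_pow₀ (by linarith)
  have hfin : nsq S ≤ (8 * ((1 + |e|) * √(dir p + nsq p) + √(nsq T))) ^ 2 := by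
    have a1 : (e + 1 / 2) ^ 2 * nsq p ≤ (1 + |e|) ^ 2 * (dir p + nsq p) :=
      mul_le_mul e1 (by linarith) p1 (by positivity)
    have a2 : dir p + nsq p ≤ (1 + |e|) ^ 2 * (dir p + nsq p) :=
      le_mul_of_one_le_left (by linarith) e2
    have a3 : 0 ≤ (1 + |e|) * √(dir p + nsq p) * √(nsq T) := by positivity
    have a4 : (8 * ((1 + |e|) * √(dir p + nsq p) + √(nsq T))) ^ 2 =
        64 * ((1 + |e|) ^ 2 * √(dir p + nsq p) ^ 2) +
          128 * ((1 + |e|) * √(dir p + nsq p) * √(nsq T)) + 64 * √(nsq T) ^ 2 := by ring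
    rw [a4, q1, q2]
    nlinarith
  filter_upwards [yukawa_le one_pos hp hS2 hs'] with x hx
  refine hx.trans ?_
  have r1 := (YP_integrable one_pos hS2 x).2
  have r2 : nsq S / (2 * Real.pi * 1) ≤ nsq S :=
    div_le_self (S11_nsq_nonneg S) (by linarith [Real.pi_gt_three])
  exact (abs_le_of_sq_le_sq' (by linarith) (by positivity)).2

theorem f_bd : Un fun C a => ∀ᵐ x, a.md.r x ≤ C ∧ a.md.N x ≤ C := by
  obtain ⟨K, hK, hy⟩ := yuk_bd
  refine f_sN.imp (fun _ c C₁ => K * ((3 + c) * √(40 * c) + √(C₁ ^ 2 * 3)))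
    fun C₁ C a h h1 _ _ hC hs => ?_
  obtain ⟨hr, -, -, -, hN⟩ := h.h1
  have hs' : Sub univ a.md.N fun x =>
      (-(a.md.I + 1 / 4) - vx a.o.d x) * a.md.N x + C₁ * a.md.r x := by
    have : (fun x => (-(a.md.I + 1 / 4) - vx a.o.d x) * a.md.N x + C₁ * a.md.r x) =
        fun x => -((a.o.v x + a.md.I + 1 / 4) * a.md.N x) + C₁ * a.md.r x := by
      funext x
      simp only [OD.v]
      ring
    rw [this]
    exact hs
  have e1 : nsq (fun x => C₁ * a.md.r x) = C₁ ^ 2 * 3 := by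
    rw [← h.nr]
    unfold nsq
    rw [← integral_const_mul]
    simp only [mul_pow]
  have e2 : dir a.md.N + nsq a.md.N ≤ 40 * a.c := by
    obtain ⟨-, a1, -, -, a2⟩ := snorm_h1 fun i => (h.h1_Pw i).1
    have b0 := (h.h1_Pw 0).2
    have b1 := (h.h1_Pw 1).2
    rw [Fin.sum_univ_two] at a1 a2
    change dir (snorm a.Pw) + nsq (snorm a.Pw) ≤ _
    linarith
  have e3 : 1 + |-(a.md.I + 1 / 4)| ≤ 3 + a.c := by
    have n1 := abs_le.1 h.num.1
    have hl := h.mb.l0
    have hc := h.hc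
    have n2 : a.c * a.l ≤ a.c := mul_le_of_le_one_right (by linarith) hl.2
    have en := h.ho.en
    have hγ := h.ho.γ0
    have : |-(a.md.I + 1 / 4)| ≤ 2 + a.c :=
      abs_le.2 ⟨by linarith [en.1, en.2.1, n1.2], by linarith [en.2.2, n1.1, hγ.2]⟩
    linarith
  filter_upwards [hy _ _ _ _ hN (hr.l2.const_mul C₁) hs', h.chain] with x hx h2
  have : a.md.N x ≤ C := by
    refine hx.trans (le_trans ?_ hC)
    rw [e1]
    have hc := h.hc
    gcongr
  exact ⟨h2.1.trans this, this⟩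

end

end Crest.Agent.R335
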