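import Crest.Agent.R335.MB7

/-! Row 335, module MB: Caccioppoli inequality. -/

set_option autoImplicit false
set_option linter.unusedSectionVars false

open MeasureTheory Set Filter Topology Metric
open scoped Gradient ContDiff RealInnerProductSpace ENNReal

namespace Crest.Agent.R335

noncomputable section

theorem MB14_vx {d : ℝ} {x₀ x : E} (h1 : 1 / 8 ≤ ‖x₀ - d • ez‖) (h2 : 1 / 8 ≤ ‖x₀ + d • ez‖)
    (hx : x ∈ ball x₀ (1 / 10)) : -80 ≤ vx d x := by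
  rw [mem_ball, dist_eq_norm] at hx
  have key : ∀ z : E, 1 / 8 ≤ ‖x₀ - z‖ → 1 / ‖x - z‖ ≤ 40 := by
    intro z hz
    have h3 : ‖x₀ - z‖ ≤ ‖x - z‖ + ‖x - x₀‖ := by
      have := norm_sub_le (x - z) (x - x₀)
      rwa [show x - z - (x - x₀) = x₀ - z by abel] at this
    rw [div_le_iff₀ (by linarith)]
    linarith
  have a1 := key _ h1
  have a2 := key (-(d • ez)) (by rwa [sub_neg_eq_add])
  rw [sub_neg_eq_add] at a2
  unfold vx
  linarith

/-- `srem_eq`, `Q2_coer`, `Bp_pair`, `|v| ≤ 80` on the ball, `MB_jb_near` -/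
theorem Fp_srem : Un fun C a => ∀ (x₀ : E) (M : ℝ), a.LipH x₀ M → ∀ᵐ x, x ∈ ball x₀ (1 / 10) →
    srem a.Fp (fun i => a.rhs a.V (a.Fp i) (a.Bp i)) x ≤ C * M ^ 2 - (1 / 4) * sdir a.Fp x := by
  refine Bp_pair.imp (fun _ _ C₁ => 483 + 5 * C₁) fun C₁ C a h hC1 hc _ hC hB x₀ M hL => ?_
  obtain ⟨d1, d2, hM, hg, hf⟩ := hL
  obtain ⟨l0, l1⟩ := h.mb.l0
  filter_upwards [hB, hg, a.srem_eq l0.le l1 a.V (fun i => (h.sol_Fp i).1.h1)
    fun i => (h.sol_Fp i).2] with x e1 e2 ⟨e3, e4⟩ hx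
  have q := a.Q2_coer l0.le l1 fun i => (e3 i).1
  have g0 : 0 ≤ snorm a.Fp x := snorm_nonneg _ _
  have g1 : snorm a.Fp x ≤ M := e2 hx
  have eg : a.md.g x = snorm a.Fp x := rfl
  rw [eg] at e1
  have v1 : a.V x ≤ 82 + C₁ := by
    have := MB14_vx d1 d2 hx
    have h3 := (abs_le.1 h.abs_E.2).2
    show a.E3 - vx a.o.d x ≤ _
    linarith
  have g2 : snorm a.Fp x ^ 2 ≤ M ^ 2 := pow_le_pow_left₀ g0 g1 2
  have j1 := MB_one_le_jb x
  have j2 : jb x₀ ≤ 2 * jb x := by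
    refine MB_jb_near ?_
    rw [mem_ball, dist_comm, dist_eq_norm] at hx
    linarith
  have j3 : jb x₀ ^ 2 ≤ (2 * jb x) ^ 2 :=
    pow_le_pow_left₀ (by linarith [MB_one_le_jb x₀]) j2 2
  have f1 : a.l * |a.f x| / jb x ^ 2 ≤ 4 * M := by
    rw [div_le_iff₀ (by positivity)]
    have := (hf x hx).1
    nlinarith
  have f2 : C₁ * a.l / jb x ^ 2 * |a.f x| * snorm a.Fp x ≤ C₁ * (4 * M) * M := by
    rw [show C₁ * a.l / jb x ^ 2 * |a.f x| = C₁ * (a.l * |a.f x| / jb x ^ 2) by ring]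
    exact mul_le_mul (mul_le_mul_of_nonneg_left f1 (by linarith)) g1 g0 (by positivity)
  have v2 : a.V x * snorm a.Fp x ^ 2 ≤ (82 + C₁) * M ^ 2 :=
    (mul_le_mul_of_nonneg_right v1 (sq_nonneg _)).trans
      (mul_le_mul_of_nonneg_left g2 (by linarith))
  have c2 : (483 + 5 * C₁) * M ^ 2 ≤ C * M ^ 2 := mul_le_mul_of_nonneg_right hC (sq_nonneg _)
  rw [e4]
  nlinarith

theorem MB14_fub {F : E9 → ℝ} (hF : Integrable F) {b : E → ℝ} (hb : Continuous b) {M : ℝ}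
    (hM : ∀ x, ‖b x‖ ≤ M) :
    Integrable (fun p : E9 => b p.fst * F p) ∧ Integrable (fun x => b x * ∫ y, F (pt x y)) ∧
      ∫ p : E9, b p.fst * F p = ∫ x, b x * ∫ y, F (pt x y) := by
  have i1 : Integrable fun p : E9 => b p.fst * F p :=
    hF.bdd_mul (c := M) (hb.comp (WithLp.continuous_fst 2 _ _)).aestronglyMeasurable
      (Eventually.of_forall fun p => hM _)
  have e : ∀ x, ∫ y, b (pt x y : E9).fst * F (pt x y) = b x * ∫ y, F (pt x y) :=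
    fun x => integral_const_mul (b x) fun y => F (pt x y)
  refine ⟨i1, ?_, ?_⟩
  · simpa only [e] using (integrable_pt i1).2
  · rw [integral_pt i1]
    simp only [e]

theorem MB14_one {P A : E9 → ℝ} (h : Sol P A) {j : E → ℝ} (hj : ContDiff ℝ 1 j)
    (hj1 : ∀ x, 0 ≤ j x ∧ j x ≤ 1) {L : ℝ} (hL : ∀ x, ‖∇ j x‖ ≤ L) :
    H1 (fun p : E9 => j p.fst * P p) ∧
    Integrable (fun x => j x ^ 2 * (∫ y, (A (pt x y) * P (pt x y) -
        (1 / 2) * ‖(D P (pt x y)).snd‖ ^ 2)) +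
      (1 / 4) * (j x ^ 2 * ∫ y, ‖(D P (pt x y)).snd‖ ^ 2) +
      (1 / 2) * (‖∇ j x‖ ^ 2 * ∫ y, P (pt x y) ^ 2)) ∧
    (1 / 4) * dir (fun p : E9 => j p.fst * P p) ≤
      ∫ x, (j x ^ 2 * (∫ y, (A (pt x y) * P (pt x y) - (1 / 2) * ‖(D P (pt x y)).snd‖ ^ 2)) +
        (1 / 4) * (j x ^ 2 * ∫ y, ‖(D P (pt x y)).snd‖ ^ 2) +
        (1 / 2) * (‖∇ j x‖ ^ 2 * ∫ y, P (pt x y) ^ 2)) := by
  obtain ⟨hla, hDa⟩ := Hl.lift_fst (W := E6) (bl_c1 hj).hl
  have hDa' : ∀ᵐ p : E9, D (fun p : E9 => j p.fst) p = pt (∇ j p.fst) 0 := by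
    filter_upwards [hDa, ae_fst (W := E6) (D_c1 hj)] with p h1 h2
    rw [h1, h2]
  have hn : ∀ p : E9, ‖(pt (∇ j p.fst) 0 : E9)‖ = ‖∇ j p.fst‖ := fun p => by simp
  have hb1 : Bd fun p : E9 => j p.fst :=
    ⟨1, Eventually.of_forall fun p => by
      rw [abs_of_nonneg (hj1 _).1]
      exact (hj1 _).2⟩
  have hb2 : Bd fun p : E9 => ‖D (fun p : E9 => j p.fst) p‖ := by
    refine ⟨L, ?_⟩
    filter_upwards [hDa'] with p hp
    rw [hp, abs_norm, hn]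
    exact hL _
  obtain ⟨h1, hD⟩ := h.h1.mul_lip hla hb1 hb2
  obtain ⟨-, hloc⟩ := h.loc hla hb1 hb2
  have iAP : Integrable fun p => A p * P p := h.l2.integrable_mul h.h1.l2
  have i2 : Integrable fun p => ‖(D P p).snd‖ ^ 2 := s13_sqn_int (s13_snd2 h.h1.dl2)
  have i1 : Integrable fun p => A p * P p - (1 / 2) * ‖(D P p).snd‖ ^ 2 := iAP.sub (i2.const_mul _)
  have i3 : Integrable fun p => P p ^ 2 := h.h1.l2.integrable_sq
  have b1 : ∀ x, ‖j x ^ 2‖ ≤ 1 := fun x => by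
    rw [Real.norm_eq_abs, abs_of_nonneg (sq_nonneg _)]
    exact pow_le_one₀ (hj1 x).1 (hj1 x).2
  have b2 : ∀ x, ‖‖∇ j x‖ ^ 2‖ ≤ L ^ 2 := fun x => by
    rw [Real.norm_eq_abs, abs_of_nonneg (sq_nonneg _)]
    exact pow_le_pow_left₀ (norm_nonneg _) (hL x) 2
  have c1 : Continuous fun x => j x ^ 2 := hj.continuous.pow 2
  have c2 : Continuous fun x => ‖∇ j x‖ ^ 2 := (s13_grad_cont hj).norm.pow 2
  obtain ⟨p0, -, -⟩ := MB14_fub iAP c1 b1
  obtain ⟨-, q1, r1⟩ := MB14_fub i1 c1 b1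
  obtain ⟨p2, q2, r2⟩ := MB14_fub i2 c1 b1
  obtain ⟨-, q3, r3⟩ := MB14_fub i3 c2 b2
  have q4 : Integrable fun x => j x ^ 2 * (∫ y, (A (pt x y) * P (pt x y) -
      (1 / 2) * ‖(D P (pt x y)).snd‖ ^ 2)) +
      (1 / 4) * (j x ^ 2 * ∫ y, ‖(D P (pt x y)).snd‖ ^ 2) := q1.add (q2.const_mul _)
  refine ⟨h1, q4.add (q3.const_mul _), ?_⟩
  rw [integral_add q4 (q3.const_mul _), integral_add q1 (q2.const_mul _),
    integral_const_mul, integral_const_mul, ← r1, ← r2, ← r3]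
  have e1 : ∫ p : E9, j p.fst ^ 2 * (A p * P p - (1 / 2) * ‖(D P p).snd‖ ^ 2) =
      (∫ p : E9, A p * j p.fst ^ 2 * P p) - (1 / 2) * ∫ p : E9, j p.fst ^ 2 * ‖(D P p).snd‖ ^ 2 := by
    rw [← integral_const_mul, show (∫ p : E9, A p * j p.fst ^ 2 * P p) =
      ∫ p : E9, j p.fst ^ 2 * (A p * P p) from integral_congr_ae
        (Eventually.of_forall fun p => by ring), ← integral_sub p0 (p2.const_mul _)]
    exact integral_congr_ae (Eventually.of_forall fun p => by ring)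
  have e2 : ∫ p : E9, ‖D (fun p : E9 => j p.fst) p‖ ^ 2 * P p ^ 2 =
      ∫ p : E9, ‖∇ j p.fst‖ ^ 2 * P p ^ 2 := by
    refine integral_congr_ae ?_
    filter_upwards [hDa'] with p hp
    rw [hp, hn]
  have e3 : ∫ p : E9, j p.fst ^ 2 * ‖(D P p).snd‖ ^ 2 ≤ dir fun p : E9 => j p.fst * P p := by
    refine integral_mono_ae p2 (s13_sqn_int h1.dl2) ?_
    filter_upwards [hD, hDa'] with p hp hq
    have e4 : (D (fun p : E9 => j p.fst * P p) p).snd = j p.fst • (D P p).snd := by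
      rw [hp, hq]
      simp
    have e5 := pow_le_pow_left₀ (norm_nonneg _)
      (WithLp.norm_snd_le _ (D (fun p : E9 => j p.fst * P p) p)) 2
    rw [e4, norm_smul, mul_pow, Real.norm_eq_abs, sq_abs] at e5
    exact e5
  rw [e2] at hloc
  rw [e1]
  linarith

theorem MB14_cacc {ι : Type} [Fintype ι] {P A : ι → E9 → ℝ} (h : ∀ i, Sol (P i) (A i))
    {j : E → ℝ} (hj : ContDiff ℝ 1 j) (hj1 : ∀ x, 0 ≤ j x ∧ j x ≤ 1) {L : ℝ}
    (hL : ∀ x, ‖∇ j x‖ ≤ L) {B : Set E} (hB : MeasurableSet B) (hBf : volume B ≠ ⊤)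
    (hj0 : ∀ x, x ∉ B → j x = 0 ∧ ∇ j x = 0) {K M : ℝ} (hK : 0 ≤ K)
    (h1 : ∀ᵐ x, x ∈ B → srem P A x ≤ K - (1 / 4) * sdir P x) (h2 : ∀ᵐ x, x ∈ B → snorm P x ≤ M) :
    ∑ i, dir (fun p : E9 => j p.fst * P i p) ≤ volume.real B * (4 * K + 2 * L ^ 2 * M ^ 2) := by
  have k := fun i => (MB14_one (h i) hj hj1 hL).2
  have s1 := Finset.sum_le_sum fun i (_ : i ∈ Finset.univ) => (k i).2
  rw [← Finset.mul_sum, ← integral_finsetSum _ fun i _ => (k i).1] at s1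
  have hi : Integrable (B.indicator fun _ : E => K + (1 / 2) * (L ^ 2 * M ^ 2)) :=
    (integrable_indicator_iff hB).2 (integrableOn_const hBf)
  have s2 := integral_mono_ae (integrable_finsetSum Finset.univ fun i _ => (k i).1) hi (by
    filter_upwards [h1, h2, ae_all_iff.2 fun i => (h i).h1.slice_snd] with x e1 e2 e3
    have e4 : sdir P x = ∑ i, ∫ y, ‖(D (P i) (pt x y)).snd‖ ^ 2 := by
      refine Finset.sum_congr rfl fun i _ => integral_congr_ae ?_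
      filter_upwards [(e3 i).2] with y hy
      rw [hy]
    rw [Finset.sum_add_distrib, Finset.sum_add_distrib, ← Finset.mul_sum, ← Finset.mul_sum,
      ← Finset.mul_sum, ← Finset.mul_sum, ← Finset.mul_sum, ← e4]
    change j x ^ 2 * srem P A x + 1 / 4 * (j x ^ 2 * sdir P x) +
      1 / 2 * (‖∇ j x‖ ^ 2 * s13N P x) ≤ _
    rw [← s13_snorm_sq]
    by_cases hx : x ∈ B
    · rw [indicator_of_mem hx]
      have a1 : j x ^ 2 ≤ 1 := pow_le_one₀ (hj1 x).1 (hj1 x).2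
      have a2 := mul_le_mul_of_nonneg_left (e1 hx) (sq_nonneg (j x))
      have a3 := mul_le_mul_of_nonneg_right a1 hK
      have a4 : ‖∇ j x‖ ^ 2 * snorm P x ^ 2 ≤ L ^ 2 * M ^ 2 :=
        mul_le_mul (pow_le_pow_left₀ (norm_nonneg _) (hL x) 2)
          (pow_le_pow_left₀ (snorm_nonneg P x) (e2 hx) 2) (sq_nonneg _) (sq_nonneg _)
      linarith
    · rw [indicator_of_notMem hx, (hj0 x hx).1, (hj0 x hx).2]
      simp)
  rw [integral_indicator_const _ hB, smul_eq_mul] at s2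
  linarith

/-- cutoff `j(x)` equal to `1` on radius `1/25`, `0` outside radius `1/12`; `Sol.loc` with `a = j ∘ fst`:
`½ Σ dir(j Fp) = ∫ j²(srem + ½ sdir) + ½∫|∇j|²g² ≤ C M² + ¼ Σ dir(j Fp)`; `H1.diff_le` with `pt k 0` -/
theorem Yq_l2 : Un fun C a => ∀ (x₀ : E) (M : ℝ), a.LipH x₀ M → ∀ k : E, k ≠ 0 → ‖k‖ ≤ 1 / 100 →
    ∫ x in ball x₀ (1 / 50), snorm (a.Yq k) x ^ 2 ≤ C * M ^ 2 := by
  refine Fp_srem.imp (fun _ _ C₁ => volume.real (ball (0 : E) (1 / 10)) * (4 * C₁ + 2 * 100 ^ 2))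
    fun C₁ C a h hC1 _ _ hC hS x₀ M hL k hk0 hk => ?_
  have s1 := hS x₀ M hL
  obtain ⟨-, -, -, hg, -⟩ := hL
  obtain ⟨j, j1, -, j3, j4, j5, j6, -⟩ := exists_cutoff x₀ (r := 1 / 25) (s := 1 / 25)
    (by norm_num) (by norm_num)
  have hj : ContDiff ℝ 1 j := j1.of_le (by exact_mod_cast le_top)
  have hL' : ∀ x, ‖∇ j x‖ ≤ 100 := fun x => (j6 x).trans (by norm_num)
  have hj0 : ∀ x, x ∉ ball x₀ (1 / 10) → j x = 0 ∧ ∇ j x = 0 := by
    intro x hx
    rw [mem_ball, dist_eq_norm, not_lt] at hx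
    refine ⟨j5 x (by linarith), ?_⟩
    have e : j =ᶠ[𝓝 x] fun _ => 0 := by
      have o : IsOpen {z : E | 1 / 25 + 1 / 25 < ‖z - x₀‖} :=
        isOpen_lt continuous_const (by fun_prop)
      filter_upwards [o.mem_nhds (show 1 / 25 + 1 / 25 < ‖x - x₀‖ by linarith)] with z hz
      exact j5 z (le_of_lt hz)
    rw [e.gradient_eq, gradient_fun_const]
  have s2 := MB14_cacc (fun i => (h.sol_Fp i).1) hj j3 hL' measurableSet_ball
    measure_ball_lt_top.ne hj0 (K := C₁ * M ^ 2) (M := M) (by positivity) s1 hg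
  have hu : ∀ i, H1 fun p : E9 => j p.fst * a.Fp i p := fun i =>
    (MB14_one (h.sol_Fp i).1 hj j3 hL').1
  obtain ⟨u, hu'⟩ : ∃ u : Fin 2 → E9 → ℝ, u = fun i p => j p.fst * a.Fp i p := ⟨_, rfl⟩
  have hu1 : ∀ i, H1 (u i) := by
    rw [hu']
    exact hu
  have s3 : ∑ i, dir (u i) ≤ C * M ^ 2 := by
    rw [hu']
    refine s2.trans ?_
    rw [Measure.addHaar_real_ball_center]
    refine le_trans (le_of_eq ?_) (mul_le_mul_of_nonneg_right hC (sq_nonneg M))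
    ring
  have k0 : 0 < ‖k‖ := norm_pos_iff.2 hk0
  have m : ∀ i, MemLp (fun p : E9 => (u i (p + pt k 0) - u i p) / ‖k‖) 2 volume := fun i => by
    simp only [div_eq_mul_inv]
    exact (((hu1 i).shift _).l2.sub (hu1 i).l2).mul_const _
  obtain ⟨m1, m2⟩ := snorm_l2 m
  have s4 : ∫ x in ball x₀ (1 / 50), snorm (a.Yq k) x ^ 2 =
      ∫ x in ball x₀ (1 / 50), snorm (fun i (p : E9) => (u i (p + pt k 0) - u i p) / ‖k‖) x ^ 2 := by
    refine setIntegral_congr_fun measurableSet_ball fun x hx => ?_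
    rw [mem_ball, dist_eq_norm] at hx
    have a1 : j x = 1 := j4 x (by linarith)
    have a2 : j (x + k) = 1 := by
      refine j4 _ ?_
      have := norm_add_le (x - x₀) k
      rw [show x - x₀ + k = x + k - x₀ by abel] at this
      linarith
    have a3 : ∀ i y, a.Yq k i (pt x y) = (u i (pt x y + pt k 0) - u i (pt x y)) / ‖k‖ := by
      intro i y
      rw [hu', Dat.Yq, pt_add_pt]
      show _ = (j (x + k) * _ - j x * _) / _
      rw [a1, a2, one_mul, one_mul]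
    show snorm _ x ^ 2 = snorm _ x ^ 2
    unfold snorm
    simp only [a3]
  rw [s4]
  refine (setIntegral_le_integral m1.integrable_sq
    (Eventually.of_forall fun x => sq_nonneg _)).trans ?_
  refine (le_of_eq m2).trans (le_trans (Finset.sum_le_sum fun i _ => ?_) s3)
  have s5 := (hu1 i).diff_le (pt k 0)
  have hn : ‖(pt k 0 : E9)‖ = ‖k‖ := by simp
  rw [hn] at s5
  unfold nsq
  simp only [div_pow]
  rw [integral_div, div_le_iff₀ (by positivity)]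
  linarith

end

end Crest.Agent.R335
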