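import Crest.Agent.R335.MB13
import Crest.Agent.R335.MB14
import Crest.Agent.R335.MB10b

/-! Row 335, module MB: the field `lip`. -/

set_option autoImplicit false
set_option linter.unusedSectionVars false

open MeasureTheory Set Filter Topology Metric
open scoped Gradient ContDiff RealInnerProductSpace ENNReal

namespace Crest.Agent.R335

noncomputable section

theorem MB15_slices {ι : Type} [Fintype ι] {P : ι → E9 → ℝ} (h : ∀ i, MemLp (P i) 2 volume) (k : E) :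
    ∀ᵐ x, (∀ i, MemLp (fun y => P i (pt x y)) 2 volume) ∧
      ∀ i, MemLp (fun y => P i (pt x y + pt k 0)) 2 volume := by
  have h1 : ∀ᵐ x, ∀ i, MemLp (fun y => P i (pt x y)) 2 volume :=
    ae_all_iff.2 fun i => memLp_slice_snd (h i)
  filter_upwards [h1, (measurePreserving_add_right volume k).quasiMeasurePreserving.ae h1]
    with x hx hx'
  refine ⟨hx, fun i => ?_⟩
  simp only [pt_add_pt]
  exact hx' i

theorem MB15_shift {ι : Type} [Fintype ι] (P : ι → E9 → ℝ) (k x : E) :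
    snorm (fun i p => P i (p + pt k 0)) x = snorm P (x + k) := by
  change √(∑ i, ∫ y, P i (pt x y + pt k 0) ^ 2) = √(∑ i, ∫ y, P i (pt (x + k) y) ^ 2)
  simp only [pt_add_pt]

theorem MB15_diff {ι : Type} [Fintype ι] {P : ι → E9 → ℝ} (h : ∀ i, MemLp (P i) 2 volume) (k : E) :
    ∀ᵐ x, |snorm P (x + k) - snorm P x| ≤ snorm (fun i p => P i (p + pt k 0) - P i p) x := by
  filter_upwards [MB15_slices h k] with x hx
  rw [← MB15_shift]
  exact snorm_sub_abs (P := fun i p => P i (p + pt k 0)) hx.2 hx.1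

theorem MB15_Yq (a : Dat) {k : E} (hk : k ≠ 0) (x : E) :
    snorm (fun i p => a.Fp i (p + pt k 0) - a.Fp i p) x = ‖k‖ * snorm (a.Yq k) x := by
  have hk' : ‖k‖ ≠ 0 := norm_ne_zero_iff.2 hk
  have e : (fun i p => a.Fp i (p + pt k 0) - a.Fp i p) = fun i p => ‖k‖ * a.Yq k i p := by
    funext i p
    change _ = ‖k‖ * ((a.Fp i (p + pt k 0) - a.Fp i p) / ‖k‖)
    rw [mul_div_cancel₀ _ hk']
  rw [e, snorm_smul, abs_norm]

theorem MB15_Ry (p : E9) (k : E) : Ry (p + pt k 0) = Ry p + pt k 0 := by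
  change pt (p.fst + k) (R6 (p.snd + 0)) = pt p.fst (R6 p.snd) + pt k 0
  rw [pt_add_pt, add_zero]

theorem MB15_smul {p A : E9 → ℝ} (h : Sol p A) (t : ℝ) :
    Sol (fun x => t * p x) (fun x => t * A x) :=
  (h.lin h t 0).congr (Eventually.of_forall fun x => by ring) (Eventually.of_forall fun x => by ring)

theorem MB15_srem {P A : Fin 2 → E9 → ℝ} (h : ∀ i, H1 (P i)) (t : ℝ) :
    ∀ᵐ x, srem (fun i p => t * P i p) (fun i p => t * A i p) x = t ^ 2 * srem P A x := by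
  have h1 : ∀ᵐ x : E, ∀ i, ∀ᵐ y : E6, D (fun p => t * P i p) (pt x y) = t • D (P i) (pt x y) :=
    ae_all_iff.2 fun i => ae_pt (D_smul t (h i).hl)
  filter_upwards [h1] with x hx
  change ∑ i, ∫ y, (t * A i (pt x y) * (t * P i (pt x y)) -
      (1 / 2) * ‖(D (fun p => t * P i p) (pt x y)).snd‖ ^ 2) =
    t ^ 2 * ∑ i, ∫ y, (A i (pt x y) * P i (pt x y) - (1 / 2) * ‖(D (P i) (pt x y)).snd‖ ^ 2)
  rw [Finset.mul_sum]
  refine Finset.sum_congr rfl fun i _ => ?_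
  rw [← integral_const_mul]
  refine integral_congr_ae ?_
  filter_upwards [hx i] with y hy
  rw [hy, WithLp.smul_snd, norm_smul, mul_pow, Real.norm_eq_abs, sq_abs]
  ring

theorem MB15_lap (M : ℝ) (x : E) : lap (fun _ : E => M) x = 0 := by
  have e : (∇ (fun _ : E => M)) = fun _ => 0 := by
    funext y
    exact gradient_fun_const y M
  change LinearMap.trace ℝ E (fderiv ℝ (∇ (fun _ : E => M)) x : E →ₗ[ℝ] E) = 0
  rw [e]
  simp

theorem MB15_elim_srem (P A P' A' : Fin 2 → E9 → ℝ) (x : E) :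
    srem (Sum.elim P P') (Sum.elim A A') x = srem P A x + srem P' A' x :=
  Fintype.sum_sum_type _

theorem MB15_elim_snorm (P P' : Fin 2 → E9 → ℝ) (x : E) :
    snorm (Sum.elim P P') x ^ 2 = snorm P x ^ 2 + snorm P' x ^ 2 := by
  rw [snorm_sq, snorm_sq, snorm_sq]
  exact Fintype.sum_sum_type _

/-- `P = Sum.elim (Yq k) (√(4C) Fp)`, `snorm_sub_tau` with the constant `τ = M`, `local_sup (1/100)`
(`LB` from `f_bd`), `Yq_l2` -/
theorem Yq_sup : Un fun C a => ∀ (x₀ : E) (M : ℝ), a.LipH x₀ M → ∀ k : E, k ≠ 0 → ‖k‖ ≤ 1 / 100 →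
    ∀ᵐ x, x ∈ ball x₀ (1 / 100) → snorm (a.Yq k) x ≤ C * M := by
  choose! K hK0 hK using fun (B : ℝ) (hB : 0 ≤ B) => local_sup (1 / 100) B (by norm_num) hB
  obtain ⟨v, hv⟩ : ∃ v : ℝ, v = volume.real (ball (0 : E) (1 / 50)) := ⟨_, rfl⟩
  have hv0 : 0 ≤ v := hv ▸ measureReal_nonneg
  refine (((Yq_sol.and Fp_srem).and Yq_l2).and f_bd).imp
    (fun _ _ C₁ => K (C₁ + 4 * C₁ ^ 2) * √(C₁ + (4 * C₁ + 1) * v)) ?_
  rintro C₁ C a ha h1 - - hC ⟨⟨⟨k1, k2⟩, k3⟩, k4⟩ x₀ M hL k hk0 hk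
  have hM : 0 < M := hL.2.2.1
  have hB : 0 ≤ C₁ + 4 * C₁ ^ 2 := by positivity
  obtain ⟨A, hA, hAle⟩ := k1 x₀ M hL k hk0 hk
  obtain ⟨t, ht⟩ : ∃ t : ℝ, t ^ 2 = 4 * C₁ := ⟨√(4 * C₁), Real.sq_sqrt (by positivity)⟩
  have hFp : ∀ i, H1 (a.Fp i) := fun i => (ha.sol_Fp i).1.h1
  obtain ⟨P, hP⟩ : ∃ P : Fin 2 ⊕ Fin 2 → E9 → ℝ,
      P = Sum.elim (a.Yq k) (fun i p => t * a.Fp i p) := ⟨_, rfl⟩
  obtain ⟨A', hA'⟩ : ∃ A' : Fin 2 ⊕ Fin 2 → E9 → ℝ,
      A' = Sum.elim A (fun i p => t * a.rhs a.V (a.Fp i) (a.Bp i) p) := ⟨_, rfl⟩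
  have hsol : ∀ i, Sol (P i) (A' i) := by
    rw [hP, hA']
    rintro (i | i)
    · exact hA i
    · exact MB15_smul (ha.sol_Fp i).1 t
  have hPsq : ∀ x, snorm P x ^ 2 = snorm (a.Yq k) x ^ 2 + 4 * C₁ * a.md.g x ^ 2 := by
    intro x
    rw [hP, MB15_elim_snorm, snorm_smul, mul_pow, sq_abs, ht]
    rfl
  have hτ : ContDiff ℝ 2 (fun _ : E => M) := contDiff_const
  have hl : Hl fun x => √(snorm P x ^ 2 + M ^ 2) :=
    (snorm_sub_tau hsol hτ (fun _ => hM) (Ω := ∅) (S := fun _ => 0)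
      (fun K _ _ => integrableOn_zero) (Eventually.of_forall fun x hx => hx.elim)).hl
  obtain ⟨p, hp⟩ : ∃ p : E → ℝ, p = fun x => √(snorm P x ^ 2 + M ^ 2) := ⟨_, rfl⟩
  have hp0 : ∀ x, 0 ≤ p x := fun x => by rw [hp]; exact Real.sqrt_nonneg _
  have hp2 : ∀ x, p x ^ 2 = snorm (a.Yq k) x ^ 2 + 4 * C₁ * a.md.g x ^ 2 + M ^ 2 := by
    intro x
    rw [hp, ← hPsq]
    exact Real.sq_sqrt (by positivity)
  have e50 : (2 * (1 / 100) : ℝ) = 1 / 50 := by norm_num
  have hsub : Sub (ball x₀ (2 * (1 / 100))) p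
      (fun x => (C₁ + 4 * C₁ ^ 2) * p x + (C₁ + 4 * C₁ ^ 2) * ‖D p x‖ + 0) := by
    have hlp : Hl p := hp ▸ hl
    have key := snorm_sub_tau hsol hτ (fun _ => hM) (Ω := ball x₀ (2 * (1 / 100)))
      (S := fun x => (C₁ + 4 * C₁ ^ 2) * p x + (C₁ + 4 * C₁ ^ 2) * ‖D p x‖ + 0) ?_ ?_
    · rw [← hp] at key
      exact key
    · intro K hK _
      exact (((hlp.isW.lu.integrableOn_isCompact hK).const_mul _).add
        ((hlp.isW.lg.integrableOn_isCompact hK).norm.const_mul _)).add integrableOn_zero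
    · filter_upwards [hAle, k2 x₀ M hL, MB15_srem (A := fun i => a.rhs a.V (a.Fp i) (a.Bp i)) hFp t]
        with x b1 b2 b3 hx
      have c1 := b1 (ball_subset_ball (by norm_num) hx)
      have c2 := b2 (ball_subset_ball (by norm_num) hx)
      have c3 : srem P A' x = srem (a.Yq k) A x +
          4 * C₁ * srem a.Fp (fun i => a.rhs a.V (a.Fp i) (a.Bp i)) x := by
        rw [hP, hA', MB15_elim_srem, b3, ht]
      have c4 : √(snorm P x ^ 2 + M ^ 2) = p x := by rw [hp]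
      have c5 := mul_le_mul_of_nonneg_left c2 (show 0 ≤ 4 * C₁ by positivity)
      have c6 : 0 ≤ (C₁ + 4 * C₁ ^ 2) * ‖D p x‖ * p x := mul_nonneg (by positivity) (hp0 x)
      have c7 : 0 ≤ 4 * C₁ ^ 2 * snorm (a.Yq k) x ^ 2 := by positivity
      have c8 : 0 ≤ (C₁ + 4 * C₁ ^ 2) * (4 * C₁ * a.md.g x ^ 2) := by positivity
      have c9 : (C₁ + 4 * C₁ ^ 2) * p x ^ 2 = (C₁ + 4 * C₁ ^ 2) *
          (snorm (a.Yq k) x ^ 2 + 4 * C₁ * a.md.g x ^ 2 + M ^ 2) := by rw [hp2]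
      rw [MB15_lap, c3, c4]
      nlinarith
  have hg : ∀ᵐ x, a.md.g x ≤ C₁ := by
    filter_upwards [k4, ha.chain] with x b1 b2 using b2.2.1.trans b1.1
  have hLB : LB p := by
    intro K _
    refine ⟨√((2 * C₁ / ‖k‖) ^ 2 + 4 * C₁ * C₁ ^ 2 + M ^ 2), ?_⟩
    filter_upwards [hg, (measurePreserving_add_right volume k).quasiMeasurePreserving.ae hg,
      MB15_slices (fun i => (hFp i).l2) k] with x b1 b2 b3 _
    have hkp : 0 < ‖k‖ := norm_pos_iff.2 hk0
    have c1 := snorm_add_le (P := fun i p => a.Fp i (p + pt k 0)) (B := fun i p => (-1) * a.Fp i p)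
      b3.2 (fun i => (b3.1 i).const_mul (-1))
    have e : (fun i p => a.Fp i (p + pt k 0) + (-1) * a.Fp i p) =
        fun i p => a.Fp i (p + pt k 0) - a.Fp i p := by
      funext i p
      ring
    rw [e, MB15_Yq a hk0, MB15_shift, snorm_smul, abs_neg, abs_one, one_mul] at c1
    have c2 : snorm (a.Yq k) x ≤ 2 * C₁ / ‖k‖ := by
      rw [le_div_iff₀ hkp]
      have d1 : snorm a.Fp (x + k) ≤ C₁ := b2
      have d2 : snorm a.Fp x ≤ C₁ := b1
      linarith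
    have c3 := pow_le_pow_left₀ (snorm_nonneg _ _) c2 2
    have c4 := pow_le_pow_left₀ (Dat.nn (a := a) x).2.2.2.1 b1 2
    have c5 := mul_le_mul_of_nonneg_left c4 (show 0 ≤ 4 * C₁ by positivity)
    rw [abs_of_nonneg (hp0 x)]
    refine Real.le_sqrt_of_sq_le ?_
    rw [hp2]
    linarith
  have hint : ∫ y in ball x₀ (2 * (1 / 100)), p y ^ 2 ≤ (C₁ + (4 * C₁ + 1) * v) * M ^ 2 := by
    rw [e50]
    have i1 : IntegrableOn (fun x => snorm (a.Yq k) x ^ 2) (ball x₀ (1 / 50)) volume :=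
      (snorm_h1 fun i => (hA i).h1).1.l2.integrable_sq.integrableOn
    have i2 : IntegrableOn (fun _ : E => (4 * C₁ + 1) * M ^ 2) (ball x₀ (1 / 50)) volume :=
      integrableOn_const measure_ball_lt_top.ne
    have c1 : ∫ y in ball x₀ (1 / 50), p y ^ 2 ≤
        ∫ y in ball x₀ (1 / 50), (snorm (a.Yq k) y ^ 2 + (4 * C₁ + 1) * M ^ 2) := by
      refine integral_mono_of_nonneg (Eventually.of_forall fun y => sq_nonneg _) (i1.add i2) ?_
      refine (ae_restrict_iff' measurableSet_ball).2 ?_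
      filter_upwards [hL.2.2.2.1] with y hy hy'
      have d1 := pow_le_pow_left₀ (Dat.nn (a := a) y).2.2.2.1
        (hy (ball_subset_ball (by norm_num) hy')) 2
      have d2 := mul_le_mul_of_nonneg_left d1 (show 0 ≤ 4 * C₁ by positivity)
      rw [hp2]
      linarith
    have c2 : volume.real (ball x₀ (1 / 50)) = v := by
      rw [hv, Measure.real, Measure.real, Measure.addHaar_ball_center]
    rw [integral_add i1 i2, setIntegral_const, c2, smul_eq_mul] at c1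
    have c3 := k3 x₀ M hL k hk0 hk
    linarith
  filter_upwards [hK _ hB p x₀ 0 le_rfl (Eventually.of_forall fun x _ => hp0 x) hLB hsub]
    with x hx hx'
  have c1 := hx hx'
  have c2 : √(∫ y in ball x₀ (2 * (1 / 100)), p y ^ 2) ≤ √(C₁ + (4 * C₁ + 1) * v) * M := by
    refine (Real.sqrt_le_sqrt hint).trans (le_of_eq ?_)
    rw [Real.sqrt_mul (by positivity), Real.sqrt_sq hM.le]
  have c3 : snorm (a.Yq k) x ≤ p x := by
    refine le_of_sq_le_sq ?_ (hp0 x)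
    rw [hp2]
    have : 0 ≤ 4 * C₁ * a.md.g x ^ 2 := by positivity
    nlinarith [sq_nonneg M]
  have c4 := mul_le_mul_of_nonneg_left c2 (hK0 _ hB).le
  have c5 := mul_le_mul_of_nonneg_right hC hM.le
  rw [add_zero] at c1
  linarith

/-- `snorm_sub_abs`, `snorm_parity`, `Fe_eq`, `Fo_eq`, `Hl.D_le_of_diff` -/
theorem f_lip0 : Un fun C a => ∀ (x₀ : E) (M : ℝ), a.LipH x₀ M →
    ∀ᵐ y, y ∈ ball x₀ (1 / 100) →
      ‖D a.md.G y‖ ≤ C * M ∧ ‖D a.md.n y‖ ≤ C * M ∧ ‖D a.md.g y‖ ≤ C * M := by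
  refine Yq_sup.imp (fun _ _ _ => 0) ?_
  intro C₁ C a ha h1 _ hC _ H x₀ M hL
  have hM : 0 < M := hL.2.2.1
  have hFp : ∀ i, MemLp (a.Fp i) 2 volume := fun i => (ha.sol_Fp i).1.h1.l2
  have hFe : ∀ i, MemLp (a.Fe i) 2 volume := fun i => (ha.sol_Fe i).1.h1.l2
  have hFo : ∀ i, MemLp (a.Fo i) 2 volume := fun i => (ha.h1_Fo i).l2
  have key : ∀ k : E, ‖k‖ ≤ 1 / 100 → ∀ᵐ x, x ∈ ball x₀ (1 / 100) →
      |a.md.G (x + k) - a.md.G x| ≤ C * M * ‖k‖ ∧ |a.md.n (x + k) - a.md.n x| ≤ C * M * ‖k‖ ∧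
        |a.md.g (x + k) - a.md.g x| ≤ C * M * ‖k‖ := by
    intro k hk
    by_cases hk0 : k = 0
    · subst hk0
      refine Eventually.of_forall fun x _ => ?_
      simp
    filter_upwards [H x₀ M hL k hk0 hk, MB15_diff hFp k, MB15_diff hFe k, MB15_diff hFo k,
      MB15_slices hFp k] with x b1 b2 b3 b4 b5 hx
    have c1 : snorm (fun i p => a.Fp i (p + pt k 0) - a.Fp i p) x ≤ C * M * ‖k‖ := by
      rw [MB15_Yq a hk0, mul_comm]
      exact mul_le_mul_of_nonneg_right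
        ((b1 hx).trans (mul_le_mul_of_nonneg_right hC hM.le)) (norm_nonneg _)
    have c2 := snorm_parity (P := fun i p => a.Fp i (p + pt k 0) - a.Fp i p) (x := x)
      (fun i => (b5.2 i).sub (b5.1 i))
    have e1 : (fun i p => a.Fe i (p + pt k 0) - a.Fe i p) = fun i p =>
        ((a.Fp i (p + pt k 0) - a.Fp i p) - (a.Fp i (Ry p + pt k 0) - a.Fp i (Ry p))) / 2 := by
      funext i p
      rw [ha.Fe_eq, ha.Fe_eq, MB15_Ry]
      ring
    have e2 : (fun i p => a.Fo i (p + pt k 0) - a.Fo i p) = fun i p =>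
        ((a.Fp i (p + pt k 0) - a.Fp i p) + (a.Fp i (Ry p + pt k 0) - a.Fp i (Ry p))) / 2 := by
      funext i p
      rw [ha.Fo_eq, ha.Fo_eq, MB15_Ry]
      ring
    rw [← e1, ← e2] at c2
    have c3 : snorm (fun i p => a.Fe i (p + pt k 0) - a.Fe i p) x ≤
        snorm (fun i p => a.Fp i (p + pt k 0) - a.Fp i p) x := by
      refine le_of_sq_le_sq ?_ (snorm_nonneg _ _)
      rw [c2]
      exact le_add_of_nonneg_right (sq_nonneg _)
    have c4 : snorm (fun i p => a.Fo i (p + pt k 0) - a.Fo i p) x ≤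
        snorm (fun i p => a.Fp i (p + pt k 0) - a.Fp i p) x := by
      refine le_of_sq_le_sq ?_ (snorm_nonneg _ _)
      rw [c2]
      exact le_add_of_nonneg_left (sq_nonneg _)
    exact ⟨(b3.trans c3).trans c1, (b4.trans c4).trans c1, b2.trans c1⟩
  obtain ⟨-, hG, hn, hg, -⟩ := ha.h1
  have r0 : (0 : ℝ) < 1 / 100 := by norm_num
  have d1 := hG.hl.D_le_of_diff (M := fun _ => C * M) (U := ball x₀ (1 / 100)) isOpen_ball
    continuous_const r0 fun k hk => by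
      filter_upwards [key k hk] with x hx hx' using (hx hx').1
  have d2 := hn.hl.D_le_of_diff (M := fun _ => C * M) (U := ball x₀ (1 / 100)) isOpen_ball
    continuous_const r0 fun k hk => by
      filter_upwards [key k hk] with x hx hx' using (hx hx').2.1
  have d3 := hg.hl.D_le_of_diff (M := fun _ => C * M) (U := ball x₀ (1 / 100)) isOpen_ball
    continuous_const r0 fun k hk => by
      filter_upwards [key k hk] with x hx hx' using (hx hx').2.2
  filter_upwards [d1, d2, d3] with y b1 b2 b3 hy using ⟨b1 hy, b2 hy, b3 hy⟩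

end

end Crest.Agent.R335
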