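import Crest.Agent.R335.MB5

/-! Row 335, module MB: the field `nh`. -/

set_option autoImplicit false
set_option linter.unusedSectionVars false

open MeasureTheory Set Filter Topology Metric
open scoped Gradient ContDiff RealInnerProductSpace ENNReal

namespace Crest.Agent.R335

noncomputable section

/-- a function that is small near the plane can be cut to the half space -/
theorem MB16_half {u : E → ℝ} (h : H1 u) {K : ℝ}
    (hK : ∀ s, 0 < s → ∫ x in {x : E | |x 2| ≤ s}, u x ^ 2 ≤ s ^ 2 * K) : H1 (Hp.indicator u) := by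
  obtain ⟨a, ha⟩ : ∃ a : ℕ → E → ℝ, a = fun (n : ℕ) (x : E) => min (max (((n : ℝ) + 1) * x 2) 0) 1 :=
    ⟨_, rfl⟩
  have hn : ∀ n : ℕ, (0 : ℝ) < (n : ℝ) + 1 := fun n => by positivity
  have a01 : ∀ n x, 0 ≤ a n x ∧ a n x ≤ 1 := fun n x => by
    rw [ha]; exact ⟨le_min (le_max_right _ _) zero_le_one, min_le_right _ _⟩
  have alip : ∀ n x y, |a n x - a n y| ≤ ((n : ℝ) + 1) * ‖x - y‖ := by
    intro n x y
    rw [ha]
    have h1 := abs_min_sub_min_le_max (max (((n : ℝ) + 1) * x 2) 0) 1 (max (((n : ℝ) + 1) * y 2) 0) 1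
    have h2 := abs_max_sub_max_le_abs (((n : ℝ) + 1) * x 2) (((n : ℝ) + 1) * y 2) 0
    have h3 : |x 2 - y 2| ≤ ‖x - y‖ := by
      have := PiLp.norm_apply_le (x - y) 2
      simpa using this
    rw [sub_self, abs_zero] at h1
    replace h1 := h1.trans (max_le le_rfl (abs_nonneg _))
    rw [← mul_sub, abs_mul, abs_of_pos (hn n)] at h2
    exact h1.trans (h2.trans (mul_le_mul_of_nonneg_left h3 (hn n).le))
  have aout : ∀ (n : ℕ) (x : E), x ∉ {x : E | |x 2| ≤ 1 / ((n : ℝ) + 1)} →
      (x ∈ Hp ∧ a n x = 1) ∨ (x ∉ Hp ∧ a n x = 0) := by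
    intro n x hx
    simp only [mem_ofPred_eq, not_le] at hx
    have p := one_div_pos.2 (hn n)
    rcases lt_abs.1 hx with h1 | h1
    · refine Or.inl ⟨show 0 ≤ x 2 by linarith, ?_⟩
      rw [div_lt_iff₀ (hn n)] at h1
      rw [ha]
      exact min_eq_right (le_max_of_le_left (by linarith))
    · refine Or.inr ⟨fun h' : 0 ≤ x 2 => by linarith, ?_⟩
      have : ((n : ℝ) + 1) * x 2 ≤ 0 := mul_nonpos_of_nonneg_of_nonpos (hn n).le (by linarith)
      rw [ha]
      dsimp only
      rw [max_eq_right this, min_eq_left zero_le_one]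
  have abl := fun n : ℕ => lip_D_le' (hn n).le (alip n)
  have hw := fun n : ℕ => h.mul_lip (abl n).1.hl
    ⟨1, Eventually.of_forall fun x => abs_le.2 ⟨by linarith [(a01 n x).1], (a01 n x).2⟩⟩
    ⟨(n : ℝ) + 1, (abl n).2.mono fun x hx => by rwa [abs_norm]⟩
  have iu : Integrable fun x => u x ^ 2 := h.l2.integrable_sq
  have iS : ∀ s : ℝ, Integrable ({x : E | |x 2| ≤ s}.indicator fun x => u x ^ 2) :=
    fun s => iu.indicator (S07.mSlab s)
  refine (h1_of_limit (M := 2 * dir u + 2 * K) (h.l2.indicator S07.mHp) (fun n => (hw n).1) ?_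
    fun n => ?_).1
  · refine squeeze_zero (g := fun n : ℕ => (1 / ((n : ℝ) + 1)) ^ 2 * K)
      (fun n => integral_nonneg fun x => sq_nonneg _) (fun n => ?_) ?_
    · refine le_trans ?_ (hK _ (one_div_pos.2 (hn n)))
      rw [← integral_indicator (S07.mSlab _)]
      refine integral_mono_of_nonneg (Eventually.of_forall fun x => sq_nonneg _) (iS _)
        (Eventually.of_forall fun x => ?_)
      by_cases hx : x ∈ {x : E | |x 2| ≤ 1 / ((n : ℝ) + 1)}
      · rw [indicator_of_mem hx]
        obtain ⟨b0, b1⟩ := a01 n x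
        dsimp only
        by_cases hp : x ∈ Hp
        · rw [indicator_of_mem hp]
          have : (u x - a n x * u x) ^ 2 = (1 - a n x) ^ 2 * u x ^ 2 := by ring
          rw [this]
          exact mul_le_of_le_one_left (sq_nonneg _) (by nlinarith)
        · rw [indicator_of_notMem hp]
          have : (0 - a n x * u x) ^ 2 = a n x ^ 2 * u x ^ 2 := by ring
          rw [this]
          exact mul_le_of_le_one_left (sq_nonneg _) (by nlinarith)
      · rw [indicator_of_notMem hx]
        dsimp only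
        rcases aout n x hx with ⟨h1, h2⟩ | ⟨h1, h2⟩
        · rw [indicator_of_mem h1, h2]; simp
        · rw [indicator_of_notMem h1, h2]; simp
    · have := ((tendsto_one_div_add_atTop_nhds_zero_nat (𝕜 := ℝ)).pow 2).mul_const K
      simpa using this
  · have h1 := hK _ (one_div_pos.2 (hn n))
    rw [← integral_indicator (S07.mSlab _)] at h1
    have i1 := S11_int_normsq h.dl2
    have h2 : dir (fun x => a n x * u x) ≤ ∫ x, (2 * ‖D u x‖ ^ 2 + 2 * ((n : ℝ) + 1) ^ 2 *
        {x : E | |x 2| ≤ 1 / ((n : ℝ) + 1)}.indicator (fun x => u x ^ 2) x) := by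
      refine integral_mono_of_nonneg (Eventually.of_forall fun x => sq_nonneg _)
        ((i1.const_mul _).add ((iS _).const_mul _)) ?_
      filter_upwards [(hw n).2, (abl n).2, (abl n).1.hl.D_level 0, (abl n).1.hl.D_level 1]
        with x e1 e2 e3 e4
      rw [e1]
      obtain ⟨b0, b1⟩ := a01 n x
      have c1 : ‖a n x • D u x‖ ≤ ‖D u x‖ := by
        rw [norm_smul, Real.norm_of_nonneg b0]
        exact mul_le_of_le_one_left (norm_nonneg _) b1
      have c0 := norm_add_le (a n x • D u x) (u x • D (a n) x)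
      have c2 : ‖u x • D (a n) x‖ ^ 2 ≤ ((n : ℝ) + 1) ^ 2 *
          {x : E | |x 2| ≤ 1 / ((n : ℝ) + 1)}.indicator (fun x => u x ^ 2) x := by
        by_cases hx : x ∈ {x : E | |x 2| ≤ 1 / ((n : ℝ) + 1)}
        · rw [indicator_of_mem hx, norm_smul, mul_pow, Real.norm_eq_abs, sq_abs, mul_comm]
          exact mul_le_mul_of_nonneg_right (pow_le_pow_left₀ (norm_nonneg _) e2 2) (sq_nonneg _)
        · have : D (a n) x = 0 := by
            rcases aout n x hx with ⟨-, h2⟩ | ⟨-, h2⟩
            · exact e4 h2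
            · exact e3 h2
          rw [indicator_of_notMem hx, this]
          simp
      have c3 := pow_le_pow_left₀ (norm_nonneg _) (c0.trans (add_le_add c1 le_rfl)) 2
      nlinarith [sq_nonneg (‖D u x‖ - ‖u x • D (a n) x‖)]
    rw [integral_add (i1.const_mul _) ((iS _).const_mul _), integral_const_mul,
      integral_const_mul] at h2
    have h3 := mul_le_mul_of_nonneg_left h1 (show 0 ≤ 2 * ((n : ℝ) + 1) ^ 2 by positivity)
    have h4 : 2 * ((n : ℝ) + 1) ^ 2 * ((1 / ((n : ℝ) + 1)) ^ 2 * K) = 2 * K := by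
      field_simp
    rw [h4] at h3
    exact h2.trans (add_le_add le_rfl h3)

/-- slab estimate for a function odd in the first variable -/
theorem MB16_slab {P : E9 → ℝ} (h : H1 P) (ho : ∀ x y, P (pt (R x) y) = -P (pt x y)) {s : ℝ}
    (hs : 0 < s) : ∫ x in {x : E | |x 2| ≤ s}, ∫ y, P (pt x y) ^ 2 ≤ s ^ 2 * dir P := by
  have hS := S07.mSlab s
  have i0 : Integrable fun p => P p ^ 2 := h.l2.integrable_sq
  have mS : MeasurableSet {p : E9 | |p.fst 2| ≤ s} :=
    (isClosed_le (by fun_prop) continuous_const).measurableSet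
  have i1 := i0.indicator mS
  have i2 := S11_int_normsq h.dl2
  have e1 : ∫ x in {x : E | |x 2| ≤ s}, ∫ y, P (pt x y) ^ 2 =
      ∫ y, ∫ x in {x : E | |x 2| ≤ s}, P (pt x y) ^ 2 := by
    rw [← integral_indicator hS]
    have a1 := integral_pt i1
    have a2 := integral_pt' i1
    calc _ = ∫ x, ∫ y, {p : E9 | |p.fst 2| ≤ s}.indicator (fun p => P p ^ 2) (pt x y) := by
          refine integral_congr_ae (Eventually.of_forall fun x => ?_)
          by_cases hx : x ∈ {x : E | |x 2| ≤ s}
          · rw [indicator_of_mem hx]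
            exact integral_congr_ae (Eventually.of_forall fun y =>
              (indicator_of_mem (s := {p : E9 | |p.fst 2| ≤ s}) (a := pt x y) hx
                fun p => P p ^ 2).symm)
          · rw [indicator_of_notMem hx]
            dsimp only
            rw [← integral_zero E6 ℝ]
            exact integral_congr_ae (Eventually.of_forall fun y =>
              (indicator_of_notMem (s := {p : E9 | |p.fst 2| ≤ s}) (a := pt x y) hx
                fun p => P p ^ 2).symm)
      _ = _ := by
          rw [← a1, a2]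
          refine integral_congr_ae (Eventually.of_forall fun y => ?_)
          dsimp only
          rw [← integral_indicator hS]
          rfl
  rw [e1, dir, integral_pt' i2, ← integral_const_mul]
  refine integral_mono_of_nonneg (Eventually.of_forall fun y => integral_nonneg fun x => sq_nonneg _)
    ((integrable_pt' i2).2.const_mul _) ?_
  filter_upwards [h.slice_fst, (integrable_pt' i2).1] with y hy hy'
  refine (hy.1.odd_slab (Eventually.of_forall fun x => ho x y) hs).trans
    (mul_le_mul_of_nonneg_left ?_ (sq_nonneg _))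
  refine integral_mono_of_nonneg (Eventually.of_forall fun x => sq_nonneg _) hy' ?_
  filter_upwards [hy.2] with x hx
  rw [hx, WithLp.prod_norm_sq_eq_of_L2]
  exact le_add_of_nonneg_right (sq_nonneg _)

theorem Dat.OK.Fo_odd {a : Dat} (h : a.OK) (i : Fin 2) (x : E) (y : E6) :
    a.Fo i (pt (R x) y) = -a.Fo i (pt x y) := by
  have e1 : a.fv i (R x) = -a.fv i x := by
    fin_cases i
    · exact h.cf.2.2 x
    · exact neg_zero.symm
  have e2 : a.F i (pt (R x) (R6 y)) = -a.F i (pt x y) := h.F_R9 i (pt x y)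
  have e3 : a.F i (pt (R x) y) = -a.F i (pt x (R6 y)) := by
    have := h.F_R9 i (pt x (R6 y))
    rwa [R9_pt, R6_R6] at this
  change a.F i (pt (R x) y) - a.fv i (R x) * a.Φ y - (a.F i (pt (R x) y) - a.F i (pt (R x) (R6 y))) / 2 =
    -(a.F i (pt x y) - a.fv i x * a.Φ y - (a.F i (pt x y) - a.F i (pt x (R6 y))) / 2)
  rw [e1, e2, e3]
  ring

theorem Dat.OK.nh {a : Dat} (h : a.OK) : H1 (Hp.indicator a.md.n) := by
  refine MB16_half h.h1.2.2.1 (K := ∑ i, dir (a.Fo i)) fun s hs => ?_
  have e : ∀ x, a.md.n x ^ 2 = ∑ i, ∫ y, a.Fo i (pt x y) ^ 2 := fun x => snorm_sq a.Fo x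
  simp only [e]
  rw [integral_finsetSum _ fun i _ =>
    ((integrable_pt (h.h1_Fo i).l2.integrable_sq).2).integrableOn, Finset.mul_sum]
  exact Finset.sum_le_sum fun i _ => MB16_slab (h.h1_Fo i) (h.Fo_odd i) hs

end

end Crest.Agent.R335
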