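import Crest.Agent.R335.MB5

/-! Row 335, module MB: moments and tails. -/

set_option autoImplicit false
set_option linter.unusedSectionVars false

open MeasureTheory Set Filter Topology Metric
open scoped Gradient ContDiff RealInnerProductSpace ENNReal

namespace Crest.Agent.R335

noncomputable section

theorem MB3c_prod {A B : E → ℝ} (hA : Integrable A) (hB : Integrable B) :
    Integrable (fun y : E6 => A y.fst * B y.snd) ∧
      ∫ y : E6, A y.fst * B y.snd = (∫ x, A x) * ∫ x, B x := by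
  have h1 : Integrable (fun y : E6 => A y.fst * B y.snd) := S08_int.1 (hA.mul_prod hB)
  refine ⟨h1, ?_⟩
  rw [integral_pt h1]
  show ∫ x, ∫ y, A x * B y = _
  simp_rw [integral_const_mul]
  rw [integral_mul_const]

theorem MB3c_norm_sq (y : E6) : ‖y‖ ^ 2 = ‖y.fst‖ ^ 2 + ‖y.snd‖ ^ 2 :=
  WithLp.prod_norm_sq_eq_of_L2 y

theorem MB3c_norm_le (y : E6) : ‖y‖ ≤ ‖y.fst‖ + ‖y.snd‖ := by
  have h := MB3c_norm_sq y
  have h1 := norm_nonneg y.fst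
  have h2 := norm_nonneg y.snd
  exact abs_le_of_sq_le_sq' (by nlinarith [mul_nonneg h1 h2]) (by positivity) |>.2

theorem MB3c_exp_le (d : ℝ) (y : E6) : Real.exp ‖y‖ ≤ Real.exp (4 * d) *
    (Real.exp (max (‖y.fst‖ - 2 * d) 0) * Real.exp (max (‖y.snd‖ - 2 * d) 0)) := by
  rw [← Real.exp_add, ← Real.exp_add]
  refine Real.exp_le_exp.2 ?_
  have h1 := le_max_left (‖y.fst‖ - 2 * d) 0
  have h2 := le_max_left (‖y.snd‖ - 2 * d) 0
  have h3 := MB3c_norm_le y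
  linarith

theorem MB3c_aesm {Φ : E6 → ℝ} (h : H1 Φ) :
    AEStronglyMeasurable (fun y => Real.exp ‖y‖ * (Φ y ^ 2 + ‖D Φ y‖ ^ 2)) volume :=
  (Real.continuous_exp.comp continuous_norm).aestronglyMeasurable.mul
    ((h.l2.1.pow 2).add (h.dl2.1.norm.pow 2))

theorem MB3c_tail {d t : ℝ} (hd : 100 ≤ d) (ht : 3 * d < t) :
    t ^ 2 ≤ Real.exp (max (t - 2 * d) 0) := by
  have h1 : 0 ≤ t - 2 * d := by linarith
  rw [max_eq_left h1]
  have h2 := Real.pow_div_factorial_le_exp (t - 2 * d) h1 4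
  have h3 : ((Nat.factorial 4 : ℕ) : ℝ) = 24 := by norm_num [Nat.factorial]
  rw [h3] at h2
  set s := t - 2 * d with hs
  have h4 : t ≤ 3 * s := by linarith
  have h5 : 100 ≤ s := by linarith
  have h6 : t ^ 2 ≤ 9 * s ^ 2 := by nlinarith
  have h7 : 10000 ≤ s ^ 2 := by nlinarith
  have h8 : s ^ 4 = s ^ 2 * s ^ 2 := by ring
  nlinarith

theorem MB3c_mom1 {o : OD} (h : o.OK) :
    Integrable (fun x => ‖x‖ ^ 2 * o.g0 x ^ 2) ∧ ∫ x, ‖x‖ ^ 2 * o.g0 x ^ 2 ≤ 10 * o.d ^ 2 := by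
  obtain ⟨hi, hb⟩ := h.decay o.g0 (Or.inl rfl)
  obtain ⟨c1, -, c3⟩ := h.C0
  have hd : 100 ≤ o.d := c1.trans c3
  have hg : Integrable fun x => o.g0 x ^ 2 := h.sg.h1.l2.integrable_sq
  have hm : Integrable fun x => 9 * o.d ^ 2 * o.g0 x ^ 2 +
      Real.exp (max (‖x‖ - 2 * o.d) 0) * (o.g0 x ^ 2 + ‖D o.g0 x‖ ^ 2) := (hg.const_mul _).add hi
  have hp : ∀ x, ‖x‖ ^ 2 * o.g0 x ^ 2 ≤ 9 * o.d ^ 2 * o.g0 x ^ 2 +
      Real.exp (max (‖x‖ - 2 * o.d) 0) * (o.g0 x ^ 2 + ‖D o.g0 x‖ ^ 2) := by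
    intro x
    have e0 := Real.exp_pos (max (‖x‖ - 2 * o.d) 0)
    have g0 := sq_nonneg (o.g0 x)
    have D0 := sq_nonneg ‖D o.g0 x‖
    rcases le_or_gt ‖x‖ (3 * o.d) with hx | hx
    · have h1 : ‖x‖ ^ 2 ≤ 9 * o.d ^ 2 := by nlinarith [norm_nonneg x]
      have h2 := mul_le_mul_of_nonneg_right h1 g0
      have h3 : 0 ≤ Real.exp (max (‖x‖ - 2 * o.d) 0) * (o.g0 x ^ 2 + ‖D o.g0 x‖ ^ 2) := by positivity
      linarith
    · have h2 := mul_le_mul_of_nonneg_right (MB3c_tail hd hx) g0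
      have h3 : 0 ≤ Real.exp (max (‖x‖ - 2 * o.d) 0) * ‖D o.g0 x‖ ^ 2 := by positivity
      have h4 : 0 ≤ 9 * o.d ^ 2 * o.g0 x ^ 2 := by positivity
      nlinarith
  have hI : Integrable (fun x => ‖x‖ ^ 2 * o.g0 x ^ 2) := by
    refine hm.mono' ((continuous_norm.pow 2).mul (h.cg.pow 2)).aestronglyMeasurable
      (Eventually.of_forall fun x => ?_)
    rw [Real.norm_of_nonneg (by positivity)]
    exact hp x
  refine ⟨hI, (integral_mono hI hm hp).trans ?_⟩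
  rw [integral_add (hg.const_mul _) hi, integral_const_mul]
  have hn : ∫ x, o.g0 x ^ 2 = 1 := h.ng
  rw [hn]
  nlinarith

theorem MB3c_mom2 {o : OD} (h : o.OK) :
    Integrable (fun y : E6 => ‖y‖ ^ 2 * (o.g0 y.fst * o.g0 y.snd) ^ 2) ∧
      ∫ y : E6, ‖y‖ ^ 2 * (o.g0 y.fst * o.g0 y.snd) ^ 2 ≤ 20 * o.d ^ 2 := by
  obtain ⟨hi, hb⟩ := MB3c_mom1 h
  have hg : Integrable fun x => o.g0 x ^ 2 := h.sg.h1.l2.integrable_sq
  have hn : ∫ x, o.g0 x ^ 2 = 1 := h.ng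
  obtain ⟨i1, e1⟩ := MB3c_prod hi hg
  obtain ⟨i2, e2⟩ := MB3c_prod hg hi
  have e : (fun y : E6 => ‖y‖ ^ 2 * (o.g0 y.fst * o.g0 y.snd) ^ 2) = fun y : E6 =>
      ‖y.fst‖ ^ 2 * o.g0 y.fst ^ 2 * o.g0 y.snd ^ 2 +
        o.g0 y.fst ^ 2 * (‖y.snd‖ ^ 2 * o.g0 y.snd ^ 2) := by
    funext y
    rw [MB3c_norm_sq]
    ring
  rw [e]
  refine ⟨i1.add i2, ?_⟩
  rw [integral_add i1 i2, e1, e2, hn]
  linarith

theorem MB3c_cube {T t : ℝ} (hT : 0 < T) (ht : T < t) : t ^ 2 ≤ 6 / T * Real.exp t := by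
  have h2 := Real.pow_div_factorial_le_exp t (by linarith) 3
  have h3 : ((Nat.factorial 3 : ℕ) : ℝ) = 6 := by norm_num [Nat.factorial]
  rw [h3] at h2
  rw [div_mul_eq_mul_div, le_div_iff₀ hT]
  have h4 : t ^ 2 * T ≤ t ^ 3 := by nlinarith [sq_nonneg t]
  linarith

theorem MB3c_wt {ρ : ℝ} {y : E6} (hy : ρ ≤ ‖y‖) (t : ℝ) :
    t ^ 2 ≤ Real.exp (-(ρ / 2)) * (wt y * t) ^ 2 := by
  have h1 : ‖y‖ ≤ √(1 + ‖y‖ ^ 2) := Real.le_sqrt_of_sq_le (by linarith)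
  have h2 : 1 ≤ Real.exp (-(ρ / 2)) * wt y ^ 2 := by
    unfold wt
    rw [← Real.exp_nat_mul, ← Real.exp_add]
    refine Real.one_le_exp ?_
    push_cast
    linarith
  rw [mul_pow, ← mul_assoc]
  exact le_mul_of_one_le_left (sq_nonneg t) h2

/-- `e^{‖y‖} ≤ e^{4d} e^{(‖y₁‖-2d)₊} e^{(‖y₂‖-2d)₊}`, `H1.tensor` -/
theorem Dat.OK.dec_ug {a : Dat} (h : a.OK) : Dec a.ug (Real.exp (4 * a.o.d) * a.o.C0 ^ 2) := by
  obtain ⟨h1, hD⟩ := H1.tensor h.ho.su.h1 h.ho.sg.h1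
  obtain ⟨iu, bu⟩ := h.ho.decay a.o.u0 (Or.inr rfl)
  obtain ⟨ig, bg⟩ := h.ho.decay a.o.g0 (Or.inl rfl)
  obtain ⟨ip', ep⟩ := MB3c_prod iu ig
  have hp : ∀ᵐ y : E6, Real.exp ‖y‖ * (a.ug y ^ 2 + ‖D a.ug y‖ ^ 2) ≤ Real.exp (4 * a.o.d) *
      (Real.exp (max (‖y.fst‖ - 2 * a.o.d) 0) * (a.o.u0 y.fst ^ 2 + ‖D a.o.u0 y.fst‖ ^ 2) *
        (Real.exp (max (‖y.snd‖ - 2 * a.o.d) 0) * (a.o.g0 y.snd ^ 2 + ‖D a.o.g0 y.snd‖ ^ 2))) := by
    filter_upwards [hD] with y hy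
    have e1 : ‖D a.ug y‖ ^ 2 = a.o.g0 y.snd ^ 2 * ‖D a.o.u0 y.fst‖ ^ 2 +
        a.o.u0 y.fst ^ 2 * ‖D a.o.g0 y.snd‖ ^ 2 := by
      have e0 : D a.ug y = _ := hy
      rw [e0, MB3c_norm_sq]
      show ‖a.o.g0 y.snd • D a.o.u0 y.fst‖ ^ 2 + ‖a.o.u0 y.fst • D a.o.g0 y.snd‖ ^ 2 = _
      simp only [norm_smul, mul_pow, Real.norm_eq_abs, sq_abs]
    have e2 : a.ug y ^ 2 + ‖D a.ug y‖ ^ 2 ≤ (a.o.u0 y.fst ^ 2 + ‖D a.o.u0 y.fst‖ ^ 2) *
        (a.o.g0 y.snd ^ 2 + ‖D a.o.g0 y.snd‖ ^ 2) := by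
      rw [e1]
      unfold Dat.ug
      have : 0 ≤ ‖D a.o.u0 y.fst‖ ^ 2 * ‖D a.o.g0 y.snd‖ ^ 2 := by positivity
      nlinarith
    refine (mul_le_mul (MB3c_exp_le a.o.d y) e2 (by positivity) (by positivity)).trans_eq ?_
    ring
  have hI : Integrable fun y => Real.exp ‖y‖ * (a.ug y ^ 2 + ‖D a.ug y‖ ^ 2) := by
    refine (ip'.const_mul (Real.exp (4 * a.o.d))).mono' (MB3c_aesm h1) ?_
    filter_upwards [hp] with y hy
    rw [Real.norm_of_nonneg (by positivity)]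
    exact hy
  refine ⟨h1, hI, (integral_mono_ae hI (ip'.const_mul _) hp).trans ?_⟩
  rw [integral_const_mul, ep, sq]
  refine mul_le_mul_of_nonneg_left (mul_le_mul bu bg (integral_nonneg fun x => by positivity) ?_)
    (Real.exp_pos _).le
  linarith [h.ho.C0.1]

/-- `∫|x|²g² ≤ 9d² + 9d²e^{-d}C0 ≤ 10d²`, so `∫‖y‖²(g⊗g)² ≤ 20d²`; on `‖y‖ ≤ T` use `clΦ`, on `‖y‖ > T`
use `decΦ` (`T = T(c)` large, then `l` small) -/
theorem moment_Φ : Un fun _ a => ∫ y, ‖y‖ ^ 2 * a.Φ y ^ 2 ≤ (7 * a.o.d) ^ 2 := by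
  intro o c ho hc
  refine ⟨1, 1 / (72 * c ^ 3), le_rfl, by positivity, fun a h e1 e2 hl C _ => ?_⟩
  subst e1 e2
  obtain ⟨im, bm⟩ := MB3c_mom2 ho
  obtain ⟨id', bd'⟩ := h.mb.decΦ
  have hd : 100 ≤ a.o.d := ho.C0.1.trans ho.C0.2.2
  have hT : 0 < 6 * a.c := by linarith
  have ie : Integrable fun y : E6 => (a.Φ y - a.o.g0 y.fst * a.o.g0 y.snd) ^ 2 :=
    (h.mb.sΦ.h1.l2.sub (memLp_tensor ho.sg.h1.l2 ho.sg.h1.l2)).integrable_sq
  have be : ∫ y : E6, (a.Φ y - a.o.g0 y.fst * a.o.g0 y.snd) ^ 2 ≤ a.c * a.l := by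
    have h1 := h.mb.clΦ
    have h2 : 0 ≤ dir fun y : E6 => a.Φ y - a.o.g0 y.fst * a.o.g0 y.snd :=
      integral_nonneg fun y => by positivity
    unfold nsq at h1
    linarith
  have hp : ∀ y : E6, ‖y‖ ^ 2 * a.Φ y ^ 2 ≤ 2 * (‖y‖ ^ 2 * (a.o.g0 y.fst * a.o.g0 y.snd) ^ 2) +
      2 * (6 * a.c) ^ 2 * (a.Φ y - a.o.g0 y.fst * a.o.g0 y.snd) ^ 2 +
      6 / (6 * a.c) * (Real.exp ‖y‖ * (a.Φ y ^ 2 + ‖D a.Φ y‖ ^ 2)) := by
    intro y
    set G := a.o.g0 y.fst * a.o.g0 y.snd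
    rcases le_or_gt ‖y‖ (6 * a.c) with hy | hy
    · have h1 : ‖y‖ ^ 2 ≤ (6 * a.c) ^ 2 := pow_le_pow_left₀ (norm_nonneg _) hy 2
      have h2 : a.Φ y ^ 2 ≤ 2 * G ^ 2 + 2 * (a.Φ y - G) ^ 2 := by nlinarith [sq_nonneg (a.Φ y - 2 * G)]
      have h3 := mul_le_mul_of_nonneg_left h2 (sq_nonneg ‖y‖)
      have h4 := mul_le_mul_of_nonneg_right h1 (sq_nonneg (a.Φ y - G))
      have h5 : 0 ≤ 6 / (6 * a.c) * (Real.exp ‖y‖ * (a.Φ y ^ 2 + ‖D a.Φ y‖ ^ 2)) := by positivity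
      nlinarith
    · have h1 := mul_le_mul_of_nonneg_right (MB3c_cube hT hy) (sq_nonneg (a.Φ y))
      have h2 : 0 ≤ 6 / (6 * a.c) * (Real.exp ‖y‖ * ‖D a.Φ y‖ ^ 2) := by positivity
      have h3 : 0 ≤ ‖y‖ ^ 2 * G ^ 2 := by positivity
      have h4 : 0 ≤ 2 * (6 * a.c) ^ 2 * (a.Φ y - G) ^ 2 := by positivity
      nlinarith
  have i1 : Integrable fun y : E6 => 2 * (‖y‖ ^ 2 * (a.o.g0 y.fst * a.o.g0 y.snd) ^ 2) +
      2 * (6 * a.c) ^ 2 * (a.Φ y - a.o.g0 y.fst * a.o.g0 y.snd) ^ 2 :=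
    (im.const_mul 2).add (ie.const_mul (2 * (6 * a.c) ^ 2))
  refine (integral_mono_of_nonneg (Eventually.of_forall fun y => by positivity)
    (i1.add (id'.const_mul (6 / (6 * a.c)))) (Eventually.of_forall hp)).trans ?_
  simp only [Pi.add_apply]
  rw [integral_add i1 (id'.const_mul _), integral_add (im.const_mul 2) (ie.const_mul _),
    integral_const_mul, integral_const_mul, integral_const_mul]
  have h1 : 2 * (6 * a.c) ^ 2 * ∫ y : E6, (a.Φ y - a.o.g0 y.fst * a.o.g0 y.snd) ^ 2 ≤ 1 := by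
    refine (mul_le_mul_of_nonneg_left be (by positivity)).trans ?_
    rw [le_div_iff₀ (by positivity)] at hl
    nlinarith
  have h2 : 6 / (6 * a.c) * ∫ y, Real.exp ‖y‖ * (a.Φ y ^ 2 + ‖D a.Φ y‖ ^ 2) ≤ 1 := by
    refine (mul_le_mul_of_nonneg_left bd' (by positivity)).trans_eq ?_
    field_simp
  nlinarith

/-- `Fo = (F + F∘Ry)/2 - fv Φ`, `F² ≤ e^{-‖y‖/2} Pw²`, `|fv| ≤ r ≤ N`, `Dec.far` -/
theorem far_mass : Un fun C a => ∀ᵐ x,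
    ∑ i, ∫ y in {y : E6 | ‖x‖ / 2 - 1 / 2 ≤ ‖y‖}, a.Fo i (pt x y) ^ 2 ≤
      C * Real.exp (-(‖x‖ / 4)) * a.md.N x ^ 2 := by
  refine Un.of (fun _ c => 2 * Real.exp (1 / 4) + 4 * c * Real.exp (1 / 2)) fun C a h _ _ hC => ?_
  have hs : ∀ᵐ x, ∀ i, MemLp (fun y => a.Pw i (pt x y)) 2 volume :=
    ae_all_iff.2 fun i => memLp_slice_snd (h.h1_Pw i).1.l2
  filter_upwards [hs, h.chain] with x hx hc
  set ρ := ‖x‖ / 2 - 1 / 2 with hρ
  have hS : MeasurableSet {y : E6 | ρ ≤ ‖y‖} := measurableSet_le measurable_const measurable_norm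
  have hf : ∀ i, a.fv i x ^ 2 ≤ a.md.N x ^ 2 := by
    intro i
    fin_cases i
    · show a.f x ^ 2 ≤ _
      exact sq_le_sq' (by linarith [neg_abs_le (a.f x), hc.1, hc.2.2.1])
        ((le_abs_self _).trans (hc.2.2.1.trans hc.1))
    · show (0 : ℝ) ^ 2 ≤ _
      rw [zero_pow two_ne_zero]
      positivity
  have hΦ := (h.decΦ.far x ρ).1
  have iΦ : Integrable fun y => a.Φ y ^ 2 := h.mb.sΦ.h1.l2.integrable_sq
  have key : ∀ i, ∫ y in {y : E6 | ρ ≤ ‖y‖}, a.Fo i (pt x y) ^ 2 ≤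
      2 * Real.exp (-(ρ / 2)) * (nsq fun y => a.Pw i (pt x y)) +
        2 * a.md.N x ^ 2 * (a.c * Real.exp (-ρ)) := by
    intro i
    have i1 : Integrable fun y => a.Pw i (pt x y) ^ 2 := (hx i).integrable_sq
    have i2 : Integrable fun y => a.Pw i (pt x (R6 y)) ^ 2 := (memLp_R6 (hx i)).integrable_sq
    have i3 : Integrable fun y =>
        Real.exp (-(ρ / 2)) * (a.Pw i (pt x y) ^ 2 + a.Pw i (pt x (R6 y)) ^ 2) :=
      (i1.add i2).const_mul (Real.exp (-(ρ / 2)))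
    have hp : ∀ y ∈ {y : E6 | ρ ≤ ‖y‖}, a.Fo i (pt x y) ^ 2 ≤
        Real.exp (-(ρ / 2)) * (a.Pw i (pt x y) ^ 2 + a.Pw i (pt x (R6 y)) ^ 2) +
          2 * a.md.N x ^ 2 * a.Φ y ^ 2 := by
      intro y hy
      have e : a.Fo i (pt x y) =
          (a.F i (pt x y) + a.F i (pt x (R6 y))) / 2 - a.fv i x * a.Φ y := by
        show a.F i (pt x y) - a.fv i x * a.Φ y - (a.F i (pt x y) - a.F i (pt x (R6 y))) / 2 = _
        ring
      have h1 : a.F i (pt x y) ^ 2 ≤ Real.exp (-(ρ / 2)) * a.Pw i (pt x y) ^ 2 := MB3c_wt hy _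
      have h2 : a.F i (pt x (R6 y)) ^ 2 ≤ Real.exp (-(ρ / 2)) * a.Pw i (pt x (R6 y)) ^ 2 :=
        MB3c_wt (y := R6 y) (by rw [norm_R6]; exact hy) _
      have h3 := mul_le_mul_of_nonneg_right (hf i) (sq_nonneg (a.Φ y))
      rw [e]
      nlinarith [sq_nonneg (a.F i (pt x y) - a.F i (pt x (R6 y))),
        sq_nonneg ((a.F i (pt x y) + a.F i (pt x (R6 y))) / 2 + a.fv i x * a.Φ y)]
    refine (integral_mono_of_nonneg (Eventually.of_forall fun y => sq_nonneg _)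
      (i3.add (iΦ.const_mul (2 * a.md.N x ^ 2))).integrableOn
      ((ae_restrict_iff' hS).2 (Eventually.of_forall hp))).trans ?_
    simp only [Pi.add_apply]
    rw [integral_add i3.integrableOn (iΦ.const_mul _).integrableOn, integral_const_mul,
      integral_const_mul]
    refine add_le_add ?_ (mul_le_mul_of_nonneg_left hΦ (by positivity))
    have h1 : ∫ y in {y : E6 | ρ ≤ ‖y‖}, (a.Pw i (pt x y) ^ 2 + a.Pw i (pt x (R6 y)) ^ 2) ≤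
        ∫ y, (a.Pw i (pt x y) ^ 2 + a.Pw i (pt x (R6 y)) ^ 2) :=
      setIntegral_le_integral (i1.add i2) (Eventually.of_forall fun y => by positivity)
    rw [integral_add i1 i2, integral_R6 fun y => a.Pw i (pt x y) ^ 2] at h1
    refine (mul_le_mul_of_nonneg_left h1 (Real.exp_pos _).le).trans_eq ?_
    unfold nsq
    ring
  refine (Finset.sum_le_sum fun i _ => key i).trans ?_
  rw [Finset.sum_add_distrib, ← Finset.mul_sum, ← snorm_sq]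
  have eN : snorm a.Pw x = a.md.N x := rfl
  have e1 : Real.exp (-(ρ / 2)) = Real.exp (1 / 4) * Real.exp (-(‖x‖ / 4)) := by
    rw [← Real.exp_add]
    congr 1
    rw [hρ]
    ring
  have e2 : Real.exp (-ρ) ≤ Real.exp (1 / 2) * Real.exp (-(‖x‖ / 4)) := by
    rw [← Real.exp_add]
    refine Real.exp_le_exp.2 ?_
    rw [hρ]
    linarith [norm_nonneg x]
  have hc0 : 0 ≤ a.c := by linarith [h.hc]
  have h4 := mul_le_mul_of_nonneg_left e2 (show 0 ≤ 4 * a.c * a.md.N x ^ 2 by positivity)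
  have h5 := mul_le_mul_of_nonneg_right hC
    (show 0 ≤ Real.exp (-(‖x‖ / 4)) * a.md.N x ^ 2 by positivity)
  rw [eN, e1, Finset.sum_const, Finset.card_univ, Fintype.card_fin, nsmul_eq_mul]
  push_cast
  nlinarith


end

end Crest.Agent.R335
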