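import Crest.Agent.R335.MB3b
import Crest.Agent.R335.MB3c

/-! Row 335, module MB: the field `es_bd`. -/

set_option autoImplicit false
set_option linter.unusedSectionVars false

open MeasureTheory Set Filter Topology Metric
open scoped Gradient ContDiff RealInnerProductSpace ENNReal

namespace Crest.Agent.R335

noncomputable section

theorem MB8_cs {u w : E6 → ℝ} (hu : MemLp u 2 volume) (hw : MemLp w 2 volume) :
    |ip u w| ≤ √(nsq u) * √(nsq w) := by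
  rw [← Real.sqrt_mul (S11_nsq_nonneg u)]
  exact Real.abs_le_sqrt (S11_cs hu hw)

theorem MB8_par {T S P : E6 → ℝ} (hT : MemLp T 2 volume) (hS : MemLp S 2 volume)
    (hP : MemLp P 2 volume) (h : ∀ y, T (R6 y) - S (R6 y) = -(T y - S y))
    (hp : ∀ y, P (R6 y) = P y) : ip T P = ip S P := by
  have h1 : ∫ y, (T y * P y - S y * P y) = 0 := integral_odd6 fun y => by
    rw [hp, ← sub_mul, h]
    ring
  rw [integral_sub (S11_int_mul hT hP) (S11_int_mul hS hP)] at h1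
  exact sub_eq_zero.1 h1

theorem MB8_coul (x : E) {u : E → ℝ} (hu : H1 u) :
    MemLp (fun y => 1 / ‖x - y‖ * u y) 2 volume := by
  have h := ((opB_coul x).bd u hu).1
  simpa only [norm_sub_rev x] using h

theorem MB8_U {a : Dat} (h : a.OK) (x : E) :
    ip (fun y => Wo x y * a.ug y) (gg a.o.g0) = a.o.U x := by
  have hg := h.ho.sg.h1
  have hu := h.ho.su.h1
  have hug := h.sol_ug.1.h1
  have hgg : MemLp (gg a.o.g0) 2 volume := memLp_tensor hg.l2 hg.l2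
  rw [← MB8_par ((opB_Wx x).bd _ hug).1 ((opB_Wo x).bd _ hug).1 hgg ?_ ?_]
  · have e : (fun y => Wx x y * a.ug y) = fun y : E6 =>
        1 * ((1 / ‖x - y.fst‖ * a.o.u0 y.fst) * a.o.g0 y.snd) +
          1 * (a.o.u0 y.fst * (1 / ‖x - y.snd‖ * a.o.g0 y.snd)) := by
      funext y
      change (1 / ‖x - y.fst‖ + 1 / ‖x - y.snd‖) * (a.o.u0 y.fst * a.o.g0 y.snd) = _
      ring
    have h1 := ip_tensor (MB8_coul x hu) hg.l2 hg.l2 hg.l2
    have h2 := ip_tensor hu.l2 hg.l2 (MB8_coul x hg) hg.l2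
    have h3 : ip a.o.u0 a.o.g0 = 0 := by
      have h4 := S07.integral_R fun y => a.o.u0 y * a.o.g0 y
      simp only [h.ho.odu, h.ho.evg, neg_mul, integral_neg] at h4
      change ∫ y, a.o.u0 y * a.o.g0 y = 0
      linarith
    rw [e, ip_comm, S11_ip_lc hgg (memLp_tensor (MB8_coul x hu) hg.l2)
      (memLp_tensor hu.l2 (MB8_coul x hg)), ip_comm, ip_comm (gg a.o.g0)]
    refine (congrArg₂ (fun s t : ℝ => 1 * s + 1 * t) h1 h2).trans ?_
    rw [h3, ip_self, h.ho.ng]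
    simp only [one_mul, mul_one, zero_mul, add_zero]
    refine integral_congr_ae (Eventually.of_forall fun y => ?_)
    ring
  · intro y
    rw [h.ug_R6, Wx_eq, Wx_eq x y, We_R6, Wo_R6]
    ring
  · intro y
    change a.o.g0 (R y.fst) * a.o.g0 (R y.snd) = a.o.g0 y.fst * a.o.g0 y.snd
    rw [h.ho.evg, h.ho.evg]

theorem MB8_split {a : Dat} (h : a.OK) {x : E} (hF : MemLp (fun y => a.F 0 (pt x y)) 2 volume) :
    MemLp (fun y => a.Fe 0 (pt x y)) 2 volume ∧ MemLp (fun y => a.Fo 0 (pt x y)) 2 volume ∧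
    a.es x = a.l * (a.f x * ip (fun y => Wo x y * a.ug y) (fun y => a.Φ y - gg a.o.g0 y) +
      ip (fun y => (W2 y + Wx x y) * a.ug y) (fun y => a.Fe 0 (pt x y)) +
      ip (fun y => Wo x y * a.ug y) (fun y => a.Fo 0 (pt x y))) := by
  have hg := h.ho.sg.h1
  have hug := h.sol_ug.1.h1
  have hΦ := h.mb.sΦ.h1.l2
  have hgg : MemLp (gg a.o.g0) 2 volume := memLp_tensor hg.l2 hg.l2
  have hT := ((opB_W2.add (opB_Wx x)).bd _ hug).1
  have hS := ((opB_Wo x).bd _ hug).1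
  have he : MemLp (fun y => a.Fe 0 (pt x y)) 2 volume := by
    have h1 := (hF.sub (memLp_R6 hF)).const_mul (1 / 2)
    refine h1.ae_eq (Eventually.of_forall fun y => ?_)
    change 1 / 2 * (a.F 0 (pt x y) - a.F 0 (pt x (R6 y))) =
      (a.F 0 (pt x y) - a.F 0 (pt x (R6 y))) / 2
    ring
  have ho : MemLp (fun y => a.Fo 0 (pt x y)) 2 volume :=
    (hF.sub (hΦ.const_mul (a.f x))).sub he
  refine ⟨he, ho, ?_⟩
  have hTS : ∀ y, (W2 (R6 y) + Wx x (R6 y)) * a.ug (R6 y) - Wo x (R6 y) * a.ug (R6 y) =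
      -((W2 y + Wx x y) * a.ug y - Wo x y * a.ug y) := by
    intro y
    rw [h.ug_R6, Wx_eq, Wx_eq x y, We_R6, Wo_R6, W2_R6]
    ring
  have h1 := MB8_par hT hS hΦ hTS fun y => (h.mb.symΦ y).1
  have h2 := MB8_par hT hS ho hTS fun y => h.Fo_Ry 0 (pt x y)
  have h3 : ip (fun y => Wo x y * a.ug y) (fun y => a.Φ y - gg a.o.g0 y) =
      ip (fun y => Wo x y * a.ug y) a.Φ - a.o.U x := by
    have h4 := S11_ip_lc hS hΦ hgg 1 (-1)
    rw [MB8_U h] at h4
    simpa only [one_mul, neg_mul, ← sub_eq_add_neg] using h4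
  have h5 : ∫ y, (W2 y + Wx x y) * a.F 0 (pt x y) * a.ug y =
      a.f x * ip (fun y => (W2 y + Wx x y) * a.ug y) a.Φ +
        1 * ip (fun y => (W2 y + Wx x y) * a.ug y) (fun y => a.Fe 0 (pt x y)) +
        1 * ip (fun y => (W2 y + Wx x y) * a.ug y) (fun y => a.Fo 0 (pt x y)) := by
    refine Eq.trans ?_ (S11_int3 (S11_int_mul hT hΦ) (S11_int_mul hT he) (S11_int_mul hT ho) _ _ _)
    refine integral_congr_ae (Eventually.of_forall fun y => ?_)
    have e : a.Fo 0 (pt x y) = a.F 0 (pt x y) - a.f x * a.Φ y - a.Fe 0 (pt x y) := rfl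
    simp only [e]
    ring
  change a.l * ((∫ y, (W2 y + Wx x y) * a.F 0 (pt x y) * a.ug y) - a.o.U x * a.f x) = _
  rw [h5, h1, h2, h3]
  ring

/-- `F 0 = f Φ + Fe 0 + Fo 0`; by parity and `∫ u g = 0`, `∫ g² = 1`:
`es = l (f ⟨Wo ug, Φ - g⊗g⟩ + ⟨(W2 + W) ug, Fe 0⟩ + ⟨Wo ug, Fo 0⟩)`; `Dec_Wo_le` for `ug`, `clΦ` -/
theorem f_es_bd : Un fun C a => ∀ᵐ x, |a.es x| ≤
    C * a.l * (a.md.G x + (1 + |x 2|) / jb x ^ 3 * (a.md.n x + √a.l * |a.f x|)) := by
  obtain ⟨K, hK, hWo⟩ := Dec_Wo_le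
  refine Un.of (fun o c => max (√(40 * (Real.exp (4 * o.d) * o.C0 ^ 2)))
    (K * √(Real.exp (4 * o.d) * o.C0 ^ 2) * √c)) fun C a h _ _ hC => ?_
  have hd := h.dec_ug
  set A := Real.exp (4 * a.o.d) * a.o.C0 ^ 2 with hA
  have hC1 : √(40 * A) ≤ C := (le_max_left _ _).trans hC
  have hC2 : K * √A * √a.c ≤ C := (le_max_right _ _).trans hC
  have hc1 : 1 ≤ √a.c := Real.one_le_sqrt.2 h.hc
  have hKA : 0 ≤ K * √A := mul_nonneg (by linarith) (Real.sqrt_nonneg _)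
  have hC3 : K * √A ≤ C := (le_mul_of_one_le_right hKA hc1).trans hC2
  have hl := h.mb.l0.1
  have hg := h.ho.sg.h1
  have hug := h.sol_ug.1.h1
  have hΦ := h.mb.sΦ.h1.l2
  have hgg : MemLp (gg a.o.g0) 2 volume := memLp_tensor hg.l2 hg.l2
  have hcl : √(nsq fun y => a.Φ y - gg a.o.g0 y) ≤ √a.c * √a.l := by
    rw [← Real.sqrt_mul (by linarith [h.hc])]
    refine Real.sqrt_le_sqrt (le_trans ?_ h.mb.clΦ)
    exact le_add_of_nonneg_right (S11_dir_nonneg _)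
  filter_upwards [memLp_slice_snd (h.solF 0).h1.l2] with x hF
  obtain ⟨he, ho, e⟩ := MB8_split h hF
  obtain ⟨hT, hT'⟩ := (opB_W2.add (opB_Wx x)).bd _ hug
  have hS := ((opB_Wo x).bd _ hug).1
  have hS' := hWo _ _ hd x
  set j := (1 + |x 2|) / jb x ^ 3 with hj
  have hj0 : 0 ≤ j := div_nonneg (by positivity) (pow_nonneg (by linarith [MB_one_le_jb x]) _)
  have hT2 : √(nsq fun y => (W2 y + Wx x y) * a.ug y) ≤ C := by
    refine le_trans (Real.sqrt_le_sqrt (hT'.trans ?_)) hC1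
    have := hd.h1_le
    linarith
  have hG : √(nsq fun y => a.Fe 0 (pt x y)) ≤ a.md.G x := snorm_comp_le a.Fe x 0
  have hn : √(nsq fun y => a.Fo 0 (pt x y)) ≤ a.md.n x := snorm_comp_le a.Fo x 0
  have hC0 : 0 ≤ C := hKA.trans hC3
  have b1 : |ip (fun y => Wo x y * a.ug y) (fun y => a.Φ y - gg a.o.g0 y)| ≤ C * j * √a.l := by
    refine (MB8_cs hS (hΦ.sub hgg)).trans ?_
    refine (mul_le_mul hS' hcl (Real.sqrt_nonneg _) (mul_nonneg hKA hj0)).trans ?_
    have := mul_le_mul_of_nonneg_right hC2 (mul_nonneg hj0 (Real.sqrt_nonneg a.l))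
    linarith
  have b2 : |ip (fun y => (W2 y + Wx x y) * a.ug y) (fun y => a.Fe 0 (pt x y))| ≤
      C * a.md.G x :=
    (MB8_cs hT he).trans (mul_le_mul hT2 hG (Real.sqrt_nonneg _) hC0)
  have b3 : |ip (fun y => Wo x y * a.ug y) (fun y => a.Fo 0 (pt x y))| ≤ C * j * a.md.n x :=
    (MB8_cs hS ho).trans (mul_le_mul (hS'.trans (mul_le_mul_of_nonneg_right hC3 hj0)) hn
      (Real.sqrt_nonneg _) (mul_nonneg hC0 hj0))
  rw [e, abs_mul, abs_of_pos hl, mul_comm C, mul_assoc]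
  refine mul_le_mul_of_nonneg_left ?_ hl.le
  refine (abs_add_three _ _ _).trans ?_
  rw [abs_mul]
  have b4 := mul_le_mul_of_nonneg_left b1 (abs_nonneg (a.f x))
  linarith

end

end Crest.Agent.R335
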