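import Crest.Agent.R335.MB3b
import Crest.Agent.R335.MB3c

/-! Row 335, module MB: the field `sG`. -/

set_option autoImplicit false
set_option linter.unusedSectionVars false

open MeasureTheory Set Filter Topology Metric
open scoped Gradient ContDiff RealInnerProductSpace ENNReal

namespace Crest.Agent.R335

noncomputable section

theorem MB9_cs {u w : E6 → ℝ} (hu : MemLp u 2 volume) (hw : MemLp w 2 volume) :
    |∫ y, u y * w y| ≤ √(nsq u) * √(nsq w) := by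
  rw [← Real.sqrt_mul (S11_nsq_nonneg u)]
  exact Real.abs_le_sqrt (S11_cs hu hw)

theorem MB9_amgm {p q : ℝ} (hp : 0 ≤ p) (hq : 0 ≤ q) : 8 * √p * √q ≤ 4 * p + 4 * q := by
  nlinarith [sq_nonneg (√p - √q), Real.sq_sqrt hp, Real.sq_sqrt hq]

/-- the source term of one slice -/
theorem MB9_slice {l t : ℝ} (x : E) {Pe Po Φ : E6 → ℝ} (hl : 0 ≤ l) (he : H1 Pe)
    (ho : MemLp Po 2 volume) (hΦ : H1 Φ) :
    ∫ y, -(l * (We x y * Pe y + Wo x y * (t * Φ y + Po y))) * Pe y ≤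
      l * (|t| * √(nsq fun y => Wo x y * Φ y) * √(nsq Pe) +
        12 * |x 2| / jb x ^ 2 * √(nsq Po) * √(nsq Pe) + 4 * (dir Pe + nsq Pe) +
        4 * ∫ y in {y : E6 | ‖x‖ / 2 - 1 / 2 ≤ ‖y‖}, Po y ^ 2) := by
  have i1 : Integrable fun y => We x y * Pe y ^ 2 := (opB_We x).int he
  have m2 : MemLp (fun y => Wo x y * Φ y) 2 volume := ((opB_Wo x).bd Φ hΦ).1
  have i2 : Integrable fun y => Wo x y * Φ y * Pe y := S11_int_mul m2 he.l2
  have i3 : Integrable fun y => Wo x y * Po y * Pe y := by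
    have := S11_int_mul ho ((opB_Wo x).bd Pe he).1
    refine this.congr (ae_of_all _ fun y => ?_)
    ring
  have e : (fun y => -(l * (We x y * Pe y + Wo x y * (t * Φ y + Po y))) * Pe y) =
      fun y => (-l) * (We x y * Pe y ^ 2) + (-(l * t)) * (Wo x y * Φ y * Pe y) +
        (-l) * (Wo x y * Po y * Pe y) := by
    funext y; ring
  rw [e, S11_int3 i1 i2 i3]
  have h1 : 0 ≤ ∫ y, We x y * Pe y ^ 2 :=
    integral_nonneg fun y => mul_nonneg (We_nonneg x y) (sq_nonneg _)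
  have h2 := MB9_cs m2 he.l2
  have h3 := Wo_pair ho he x
  have h4 := MB9_amgm (p := dir Pe + nsq Pe)
    (q := ∫ y in {y : E6 | ‖x‖ / 2 - 1 / 2 ≤ ‖y‖}, Po y ^ 2)
    (add_nonneg (S11_dir_nonneg _) (S11_nsq_nonneg _)) (integral_nonneg fun y => sq_nonneg _)
  have h5 : -(t * ∫ y, Wo x y * Φ y * Pe y) ≤ |t| * √(nsq fun y => Wo x y * Φ y) * √(nsq Pe) := by
    refine (neg_le_abs _).trans ?_
    rw [abs_mul, mul_assoc]
    exact mul_le_mul_of_nonneg_left h2 (abs_nonneg _)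
  have h6 := neg_le_abs (∫ y, Wo x y * Po y * Pe y)
  have h7 : -(∫ y, We x y * Pe y ^ 2) - t * (∫ y, Wo x y * Φ y * Pe y) - ∫ y, Wo x y * Po y * Pe y
      ≤ |t| * √(nsq fun y => Wo x y * Φ y) * √(nsq Pe) +
        12 * |x 2| / jb x ^ 2 * √(nsq Po) * √(nsq Pe) + 4 * (dir Pe + nsq Pe) +
        4 * ∫ y in {y : E6 | ‖x‖ / 2 - 1 / 2 ≤ ‖y‖}, Po y ^ 2 := by linarith
  have h8 := mul_le_mul_of_nonneg_left h7 hl
  linarith

theorem MB9_small : Un fun _ a => a.l ≤ 1 / 16 :=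
  fun _ _ _ _ => ⟨1, 1 / 16, le_rfl, by norm_num, fun _ _ _ _ hl _ _ => hl⟩

/-- the final bookkeeping -/
theorem MB9_alg {l V e Q S G n N f B u v w C C₁ K far : ℝ} (hl : 0 ≤ l) (hl1 : l ≤ 1 / 16)
    (he : e ≤ 0) (hG : 0 ≤ G) (hn : 0 ≤ n) (hf : 0 ≤ f) (hv : 0 ≤ v) (hw : 0 ≤ w)
    (hu : 0 ≤ u) (q1 : e * G ^ 2 ≤ Q) (q2 : (1 / 4) * S - 401 * G ^ 2 ≤ Q) {A : ℝ}
    (hB : B ≤ l * (f * (A + K * v) * G + 24 * u * n * G + 4 * (S + G ^ 2) + 4 * far))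
    (hfar : far ≤ C₁ * w * N ^ 2) (c1 : 6420 ≤ C) (c2 : K ≤ C) (c3 : 4 * C₁ ≤ C) :
    V * G ^ 2 - Q + B ≤ -((e - V - C * l) * G ^ 2) + l * (A + C * v) * f * G + C * l * u * n * G +
      C * l * w * N ^ 2 := by
  have a1 : (1 - 16 * l) * (e * G ^ 2) ≤ (1 - 16 * l) * Q :=
    mul_le_mul_of_nonneg_left q1 (by linarith)
  have a2 : (16 * l) * ((1 / 4) * S - 401 * G ^ 2) ≤ (16 * l) * Q :=
    mul_le_mul_of_nonneg_left q2 (by linarith)
  have a3 : l * G ^ 2 * e ≤ 0 := mul_nonpos_of_nonneg_of_nonpos (by positivity) he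
  have a4 : l * G ^ 2 * 6420 ≤ l * G ^ 2 * C := mul_le_mul_of_nonneg_left c1 (by positivity)
  have a5 : l * v * f * G * K ≤ l * v * f * G * C := mul_le_mul_of_nonneg_left c2 (by positivity)
  have a6 : l * u * n * G * 24 ≤ l * u * n * G * C :=
    mul_le_mul_of_nonneg_left (by linarith) (by positivity)
  have a7 : l * w * N ^ 2 * (4 * C₁) ≤ l * w * N ^ 2 * C :=
    mul_le_mul_of_nonneg_left c3 (by positivity)
  have a8 : l * far ≤ l * (C₁ * w * N ^ 2) := mul_le_mul_of_nonneg_left hfar hl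
  nlinarith

/-- `srem_eq` for `Fe`; `Q2 ≥ (1-θ)(eg+eu)G² + θ(¼ sdir - 401 G²)` with `θ = K l` (`gap2`, `orth_e`,
`Q2_coer`); `We ≥ 0`; `Dec_Wo_sharp` + `moment_Φ` (`14·7 ≤ C0`); `Wo_pair` + `far_mass` -/
theorem srem_Fe : Un fun C a => ∀ᵐ x, srem a.Fe (fun i => a.rhs a.V (a.Fe i) (a.Be i)) x ≤
    -((a.o.v x + a.md.I + a.md.dt - C * a.l) * a.md.G x ^ 2) +
      a.l * (a.o.C0 * a.o.d * |x 2| / jb x ^ 3 + C * Real.exp (-(‖x‖ / 8))) * |a.f x| * a.md.G x +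
      C * a.l * |x 2| / jb x ^ 2 * a.md.n x * a.md.G x +
      C * a.l * Real.exp (-(‖x‖ / 4)) * a.md.N x ^ 2 := by
  obtain ⟨K, hK, HK⟩ := Dec_Wo_sharp
  refine ((far_mass.and moment_Φ).and MB9_small).imp
    (fun _ c C₁ => max 6420 (max (K * √c) (4 * C₁))) ?_
  intro C₁ C a ha _ _ _ hC ⟨⟨hfar, hmom⟩, hl1⟩
  have c1 : 6420 ≤ C := (le_max_left _ _).trans hC
  have c2 : K * √a.c ≤ C := ((le_max_left _ _).trans (le_max_right _ _)).trans hC
  have c3 : 4 * C₁ ≤ C := ((le_max_right _ _).trans (le_max_right _ _)).trans hC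
  have hl := ha.mb.l0.1.le
  have hC0 := ha.ho.C0.1
  have hd : 0 ≤ a.o.d := by linarith [ha.ho.C0.2.2]
  have he : a.o.eg + a.o.eu ≤ 0 := by
    linarith [ha.ho.en.2.1, ha.ho.en.2.2, ha.ho.γ0.2]
  have hFo : ∀ᵐ x, ∀ i, MemLp (fun y => a.Fo i (pt x y)) 2 volume :=
    ae_all_iff.2 fun i => memLp_slice_snd (ha.h1_Fo i).l2
  filter_upwards [hfar, hFo, a.srem_eq hl ha.mb.l0.2 a.V (fun i => (ha.sol_Fe i).1.h1)
    (fun i => (ha.sol_Fe i).2)] with x hx1 hx2 ⟨hx3, hx4⟩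
  have hjb : 0 < jb x := lt_of_lt_of_le one_pos (MB_one_le_jb x)
  have hG : a.md.G x = snorm a.Fe x := rfl
  have hn : a.md.n x = snorm a.Fo x := rfl
  have G0 := snorm_nonneg a.Fe x
  have n0 := snorm_nonneg a.Fo x
  have q1 : (a.o.eg + a.o.eu) * snorm a.Fe x ^ 2 ≤ a.Q2 a.Fe x := by
    rw [snorm_sq, Finset.mul_sum]
    exact Finset.sum_le_sum fun i _ => ha.mb.gap2 _ (hx3 i).1 (ha.orth_e x i)
  have q2 := a.Q2_coer hl ha.mb.l0.2 fun i => (hx3 i).1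
  have w1 := HK a.Φ a.c (7 * a.o.d) ha.decΦ (by positivity) hmom x
  have w2 : √(nsq fun y => Wo x y * a.Φ y) ≤
      a.o.C0 * a.o.d * |x 2| / jb x ^ 3 + K * √a.c * Real.exp (-(‖x‖ / 8)) := by
    refine w1.trans (add_le_add_left ?_ _)
    refine div_le_div_of_nonneg_right (mul_le_mul_of_nonneg_right ?_ (abs_nonneg _)) (by positivity)
    nlinarith
  have u0 : 0 ≤ |x 2| / jb x ^ 2 := by positivity
  have s0 := MB9_slice (t := a.f x) x hl (hx3 0).1 (hx2 0) ha.mb.sΦ.h1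
  have s1 := MB9_slice (t := 0) x hl (hx3 1).1 (hx2 1) ha.mb.sΦ.h1
  have p : ∀ i, 12 * |x 2| / jb x ^ 2 * √(nsq fun y => a.Fo i (pt x y)) *
      √(nsq fun y => a.Fe i (pt x y)) ≤ 12 * (|x 2| / jb x ^ 2) * snorm a.Fo x * snorm a.Fe x := by
    intro i
    rw [mul_div_assoc]
    exact mul_le_mul (mul_le_mul_of_nonneg_left (snorm_comp_le _ x i) (by positivity))
      (snorm_comp_le _ x i) (Real.sqrt_nonneg _) (by positivity)
  have p0 : |a.f x| * √(nsq fun y => Wo x y * a.Φ y) * √(nsq fun y => a.Fe 0 (pt x y)) ≤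
      |a.f x| * (a.o.C0 * a.o.d * |x 2| / jb x ^ 3 + K * √a.c * Real.exp (-(‖x‖ / 8))) *
        snorm a.Fe x :=
    mul_le_mul (mul_le_mul_of_nonneg_left w2 (abs_nonneg _)) (snorm_comp_le _ x 0)
      (Real.sqrt_nonneg _) (mul_nonneg (abs_nonneg _) ((Real.sqrt_nonneg _).trans w2))
  have hB : ∑ i, ∫ y, a.Be i (pt x y) * a.Fe i (pt x y) ≤ a.l *
      (|a.f x| * (a.o.C0 * a.o.d * |x 2| / jb x ^ 3 + K * √a.c * Real.exp (-(‖x‖ / 8))) *
        snorm a.Fe x + 24 * (|x 2| / jb x ^ 2) * snorm a.Fo x * snorm a.Fe x +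
        4 * (sdir a.Fe x + snorm a.Fe x ^ 2) +
        4 * ∑ i, ∫ y in {y : E6 | ‖x‖ / 2 - 1 / 2 ≤ ‖y‖}, a.Fo i (pt x y) ^ 2) := by
    rw [Fin.sum_univ_two]
    refine (add_le_add s0 s1).trans ?_
    rw [← mul_add]
    refine mul_le_mul_of_nonneg_left ?_ hl
    rw [snorm_sq, sdir]
    simp only [Fin.sum_univ_two, abs_zero, zero_mul]
    linarith [p 0, p 1]
  have key := MB9_alg (V := a.V x) (N := a.md.N x) hl hl1 he G0 n0 (abs_nonneg _)
    (Real.exp_pos _).le (Real.exp_pos _).le u0 q1 q2 hB hx1 c1 c2 c3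
  rw [hx4, hG, hn]
  refine key.trans (le_of_eq ?_)
  have e1 : a.o.v x + a.md.I + a.md.dt = a.o.eg + a.o.eu - a.V x := by
    simp only [Dat.md, Dat.V]; ring
  rw [e1]
  ring

end

end Crest.Agent.R335
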