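import Crest.Agent.R335.Y1

/-! Pointwise kernel estimates for the Yukawa kernel with `k = 8`. -/

set_option autoImplicit false

open MeasureTheory Set Filter Topology Metric
open scoped Gradient ContDiff RealInnerProductSpace ENNReal

namespace Crest.Agent.R335

noncomputable section

def Y2psi (r : ℝ) : ℝ := Real.exp (-(8 * r)) / (2 * Real.pi * r)
def Y2phi (r : ℝ) : ℝ := Real.exp (-(8 * r)) * (8 * r + 1) / (2 * Real.pi * r ^ 3)
def Y2dphi (r : ℝ) : ℝ := -(Real.exp (-(8 * r)) * (64 * r ^ 2 + 24 * r + 3) / (2 * Real.pi * r ^ 4))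
def Y2A (r : ℝ) : ℝ := Real.exp (-(6 * r)) / (r ^ 2 * √r)
def Y2G (z : E) : E := (-(Y2phi ‖z‖)) • z

theorem Y2_Yk (z : E) : Yk 8 z = Y2psi ‖z‖ := rfl

theorem Y2A_nonneg (r : ℝ) : 0 ≤ Y2A r := by unfold Y2A; positivity

theorem Y2psi_nonneg {r : ℝ} (hr : 0 ≤ r) : 0 ≤ Y2psi r := by
  unfold Y2psi; have := Real.pi_pos; positivity

theorem Y2phi_nonneg {r : ℝ} (hr : 0 ≤ r) : 0 ≤ Y2phi r := by
  unfold Y2phi; have := Real.pi_pos; positivity

theorem Y2_exp8 (r : ℝ) : Real.exp (-(8 * r)) = Real.exp (-(6 * r)) * Real.exp (-(2 * r)) := by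
  rw [← Real.exp_add]; ring_nf

theorem Y2_exp2 {r : ℝ} (hr : 0 ≤ r) : Real.exp (-(2 * r)) * (1 + r) ^ 2 ≤ 1 := by
  have h1 : 1 + r ≤ Real.exp r := by linarith [Real.add_one_le_exp r]
  have h2 : (1 + r) ^ 2 ≤ Real.exp r ^ 2 := pow_le_pow_left₀ (by linarith) h1 2
  have h3 : Real.exp (-(2 * r)) * Real.exp r ^ 2 = 1 := by
    rw [sq, ← Real.exp_add, ← Real.exp_add]; ring_nf; simp
  calc _ ≤ Real.exp (-(2 * r)) * Real.exp r ^ 2 :=
        mul_le_mul_of_nonneg_left h2 (Real.exp_pos _).le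
    _ = 1 := h3

theorem Y2_sqrt_le {r : ℝ} (hr : 0 ≤ r) : √r ≤ 1 + r := by
  have := Real.sq_sqrt hr
  nlinarith [Real.sqrt_nonneg r, sq_nonneg (√r - 1)]

theorem Y2psi_eq {r : ℝ} (hr : 0 ≤ r) :
    Y2psi r = Y2A r * (Real.exp (-(2 * r)) * (r * √r) / (2 * Real.pi)) := by
  rcases hr.eq_or_lt with rfl | hr
  · simp [Y2psi, Y2A]
  · have h1 : 0 < √r := Real.sqrt_pos.2 hr
    have := Real.pi_pos
    unfold Y2psi Y2A
    rw [Y2_exp8]
    field_simp

theorem Y2phi_eq {r : ℝ} (hr : 0 ≤ r) :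
    Y2phi r * r = Y2A r * (Real.exp (-(2 * r)) * (8 * r + 1) * √r / (2 * Real.pi)) := by
  rcases hr.eq_or_lt with rfl | hr
  · simp [Y2phi, Y2A]
  · have h1 : 0 < √r := Real.sqrt_pos.2 hr
    have := Real.pi_pos
    unfold Y2phi Y2A
    rw [Y2_exp8]
    field_simp

theorem Y2_div_pi {a b : ℝ} (hb : 0 ≤ b) (h : a ≤ 6 * b) : a / (2 * Real.pi) ≤ b := by
  have := Real.pi_gt_three
  rw [div_le_iff₀ (by linarith)]
  nlinarith

theorem Y2psi_le {r : ℝ} (hr : 0 ≤ r) : Y2psi r ≤ Y2A r := by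
  rw [Y2psi_eq hr]
  refine mul_le_of_le_one_right (Y2A_nonneg r) (Y2_div_pi zero_le_one ?_)
  have h1 := Y2_exp2 hr
  have h2 := Y2_sqrt_le hr
  have h3 : r * √r ≤ (1 + r) ^ 2 := by nlinarith [Real.sqrt_nonneg r]
  have h4 := mul_le_mul_of_nonneg_left h3 (Real.exp_pos (-(2 * r))).le
  linarith

theorem Y2_sqrt3 {r t : ℝ} (hrt : r ≤ 3 * t) (ht : 0 ≤ t) : √r ≤ 2 * √t := by
  have : (2 : ℝ) * √t = √(4 * t) := by
    rw [Real.sqrt_mul (by norm_num), show (4 : ℝ) = 2 ^ 2 by norm_num, Real.sqrt_sq (by norm_num)]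
  rw [this]
  exact Real.sqrt_le_sqrt (by linarith)

theorem Y2psi_le' {r t : ℝ} (hr : 0 ≤ r) (hrt : r ≤ 3 * t) : Y2psi r ≤ t * √t * Y2A r := by
  have ht : 0 ≤ t := by linarith
  rw [Y2psi_eq hr, mul_comm (t * √t)]
  refine mul_le_mul_of_nonneg_left (Y2_div_pi (by positivity) ?_) (Y2A_nonneg r)
  have h1 : Real.exp (-(2 * r)) ≤ 1 := Real.exp_le_one_iff.2 (by linarith)
  have h2 := Y2_sqrt3 hrt ht
  have h3 : r * √r ≤ (3 * t) * (2 * √t) := mul_le_mul hrt h2 (Real.sqrt_nonneg _) (by linarith)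
  have h4 : Real.exp (-(2 * r)) * (r * √r) ≤ r * √r := mul_le_of_le_one_left (by positivity) h1
  linarith

theorem Y2phi_le {r : ℝ} (hr : 0 ≤ r) : Y2phi r * r ≤ 2 * Y2A r := by
  rw [Y2phi_eq hr, mul_comm 2 (Y2A r)]
  refine mul_le_mul_of_nonneg_left (Y2_div_pi (by positivity) ?_) (Y2A_nonneg r)
  have h1 := Y2_exp2 hr
  have h2 := Y2_sqrt_le hr
  have h3 : (8 * r + 1) * √r ≤ 8 * (1 + r) ^ 2 := by nlinarith [Real.sqrt_nonneg r]
  have h4 := mul_le_mul_of_nonneg_left h3 (Real.exp_pos (-(2 * r))).le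
  nlinarith

theorem Y2phi_le' {r t : ℝ} (hr : 0 ≤ r) (hrt : r ≤ 3 * t) : Y2phi r * r ≤ 3 * √t * Y2A r := by
  have ht : 0 ≤ t := by linarith
  rw [Y2phi_eq hr, mul_comm (3 * √t)]
  refine mul_le_mul_of_nonneg_left (Y2_div_pi (by positivity) ?_) (Y2A_nonneg r)
  have h1 := Y2_exp2 hr
  have h2 := Y2_sqrt3 hrt ht
  have h3 : 8 * r + 1 ≤ 8 * (1 + r) ^ 2 := by nlinarith
  have h4 := mul_le_mul_of_nonneg_left h3 (Real.exp_pos (-(2 * r))).le
  have h5 : Real.exp (-(2 * r)) * (8 * r + 1) ≤ 8 := by nlinarith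
  have h6 : Real.exp (-(2 * r)) * (8 * r + 1) * √r ≤ 8 * (2 * √t) :=
    mul_le_mul h5 h2 (Real.sqrt_nonneg _) (by norm_num)
  nlinarith [Real.sqrt_nonneg t]

theorem Y2G_norm (z : E) : ‖Y2G z‖ = Y2phi ‖z‖ * ‖z‖ := by
  rw [Y2G, norm_smul, norm_neg, Real.norm_of_nonneg (Y2phi_nonneg (norm_nonneg z))]

theorem Y2psi_deriv {r : ℝ} (hr : 0 < r) : HasDerivAt Y2psi (-(Y2phi r * r)) r := by
  have hpi := Real.pi_pos
  have h1 : HasDerivAt (fun r : ℝ => Real.exp (-(8 * r))) (Real.exp (-(8 * r)) * (-(8 * 1))) r :=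
    (((hasDerivAt_id r).const_mul 8).neg).exp
  have h2 : HasDerivAt (fun r : ℝ => 2 * Real.pi * r) (2 * Real.pi * 1) r :=
    (hasDerivAt_id r).const_mul _
  have h3 := h1.div h2 (by positivity)
  refine h3.congr_deriv ?_
  unfold Y2phi
  field_simp
  ring

theorem Y2phi_deriv {r : ℝ} (hr : 0 < r) : HasDerivAt Y2phi (Y2dphi r) r := by
  have hpi := Real.pi_pos
  have h1 : HasDerivAt (fun r : ℝ => Real.exp (-(8 * r))) (Real.exp (-(8 * r)) * (-(8 * 1))) r :=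
    (((hasDerivAt_id r).const_mul 8).neg).exp
  have h1' : HasDerivAt (fun r : ℝ => 8 * r + 1) (8 * 1) r :=
    ((hasDerivAt_id r).const_mul 8).add_const 1
  have h2 : HasDerivAt (fun r : ℝ => 2 * Real.pi * r ^ 3) (2 * Real.pi * (3 * r ^ 2)) r := by
    have := (hasDerivAt_pow 3 r).const_mul (2 * Real.pi)
    simpa using this
  have h3 := (h1.mul h1').div h2 (by positivity)
  refine h3.congr_deriv ?_
  unfold Y2dphi
  simp only [Pi.mul_apply]
  field_simp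
  ring

theorem Y2_norm_fderiv {z : E} (hz : z ≠ 0) :
    HasFDerivAt (fun w : E => ‖w‖) ((‖z‖⁻¹) • innerSL ℝ z) z := by
  have h0 : 0 < ‖z‖ := norm_pos_iff.2 hz
  have h1 := (hasStrictFDerivAt_norm_sq z).hasFDerivAt.sqrt (by positivity)
  simp only [Real.sqrt_sq (norm_nonneg _)] at h1
  refine h1.congr_fderiv ?_
  rw [two_smul, ← two_smul ℝ, smul_smul]
  congr 1
  field_simp

theorem Y2_Yk_fderiv {z : E} (hz : z ≠ 0) : HasFDerivAt (Yk 8) (innerSL ℝ (Y2G z)) z := by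
  have h0 : 0 < ‖z‖ := norm_pos_iff.2 hz
  have h1 := (Y2psi_deriv h0).comp_hasFDerivAt z (Y2_norm_fderiv hz)
  refine HasFDerivAt.congr_fderiv (f := Yk 8) h1 ?_
  rw [Y2G, map_smul, smul_smul]
  congr 1
  field_simp

/-- the constant of the far Hölder estimate -/
def Y2c : ℝ := 384 * Real.exp 16

theorem Y2c_ge : 384 ≤ Y2c := by
  have : 1 ≤ Real.exp 16 := Real.one_le_exp (by norm_num)
  unfold Y2c; linarith

theorem Y2dphi_le {r s : ℝ} (hr : 0 < r) (h1 : r / 2 ≤ s) (h2 : r - 2 ≤ s) :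
    ‖Y2dphi s‖ ≤ Real.exp 16 * Real.exp (-(8 * r)) * (256 * r ^ 2 + 192 * r + 48) /
      (2 * Real.pi * r ^ 4) := by
  have hs : 0 < s := by linarith
  have hpi := Real.pi_pos
  rw [Y2dphi, norm_neg, Real.norm_of_nonneg (by positivity)]
  have e1 : Real.exp (-(8 * s)) ≤ Real.exp 16 * Real.exp (-(8 * r)) := by
    rw [← Real.exp_add]; exact Real.exp_le_exp.2 (by linarith)
  have hu : s⁻¹ ≤ 2 * r⁻¹ := by
    rw [← div_eq_mul_inv, inv_eq_one_div, div_le_div_iff₀ hs hr]; linarith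
  have hu0 : 0 ≤ s⁻¹ := by positivity
  have e2 : (64 * s ^ 2 + 24 * s + 3) / s ^ 4 ≤ (256 * r ^ 2 + 192 * r + 48) / r ^ 4 := by
    have a1 : (64 * s ^ 2 + 24 * s + 3) / s ^ 4 = 64 * s⁻¹ ^ 2 + 24 * s⁻¹ ^ 3 + 3 * s⁻¹ ^ 4 := by
      field_simp
    have a2 : (256 * r ^ 2 + 192 * r + 48) / r ^ 4 =
        64 * (2 * r⁻¹) ^ 2 + 24 * (2 * r⁻¹) ^ 3 + 3 * (2 * r⁻¹) ^ 4 := by
      field_simp; ring
    rw [a1, a2]
    gcongr
  calc Real.exp (-(8 * s)) * (64 * s ^ 2 + 24 * s + 3) / (2 * Real.pi * s ^ 4)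
      = Real.exp (-(8 * s)) * ((64 * s ^ 2 + 24 * s + 3) / s ^ 4) / (2 * Real.pi) := by
        field_simp
    _ ≤ (Real.exp 16 * Real.exp (-(8 * r))) * ((256 * r ^ 2 + 192 * r + 48) / r ^ 4) /
        (2 * Real.pi) := by gcongr
    _ = _ := by field_simp

/-- far Hölder estimate -/
theorem Y2G_far {z w : E} {t : ℝ} (hwz : ‖w - z‖ ≤ t) (ht : t ≤ 2) (hz : 2 * t < ‖z‖) :
    ‖Y2G w - Y2G z‖ ≤ Y2c * √t * Y2A ‖z‖ := by
  have ht0 : 0 ≤ t := (norm_nonneg _).trans hwz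
  set r := ‖z‖ with hr
  have hr0 : 0 < r := by linarith
  have hpi := Real.pi_pos
  have habs : |‖w‖ - r| ≤ t := (abs_norm_sub_norm_le w z).trans hwz
  have hw1 := (abs_le.1 habs).1
  have hw2 := (abs_le.1 habs).2
  set B := Real.exp 16 * Real.exp (-(8 * r)) * (256 * r ^ 2 + 192 * r + 48) /
      (2 * Real.pi * r ^ 4) with hB
  have hB0 : 0 ≤ B := by positivity
  have hmv : ‖Y2phi ‖w‖ - Y2phi r‖ ≤ B * ‖‖w‖ - r‖ := by
    refine (convex_Ici (r - t)).norm_image_sub_le_of_norm_hasDerivWithin_le (f := Y2phi)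
      (f' := Y2dphi) (fun s hs => (Y2phi_deriv ?_).hasDerivWithinAt)
      (fun s hs => Y2dphi_le hr0 ?_ ?_) ?_ ?_
    · have : r - t ≤ s := hs
      linarith
    · have : r - t ≤ s := hs
      linarith
    · have : r - t ≤ s := hs
      linarith
    · show r - t ≤ r
      linarith
    · show r - t ≤ ‖w‖
      linarith
  have hmv' : |Y2phi ‖w‖ - Y2phi r| ≤ B * t :=
    hmv.trans (mul_le_mul_of_nonneg_left habs hB0)
  have e1 : Y2G w - Y2G z = (-(Y2phi r)) • (w - z) + (-(Y2phi ‖w‖ - Y2phi r)) • w := by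
    simp only [Y2G, ← hr]; module
  have e2 : ‖Y2G w - Y2G z‖ ≤ Y2phi r * t + B * t * (3 * r / 2) := by
    rw [e1]
    refine (norm_add_le _ _).trans (add_le_add ?_ ?_)
    · rw [norm_smul, norm_neg, Real.norm_of_nonneg (Y2phi_nonneg hr0.le)]
      exact mul_le_mul_of_nonneg_left hwz (Y2phi_nonneg hr0.le)
    · rw [norm_smul, norm_neg, Real.norm_eq_abs]
      exact mul_le_mul hmv' (by linarith) (norm_nonneg _) (by positivity)
  refine e2.trans ?_
  have hq : 0 < √r := Real.sqrt_pos.2 hr0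
  have hqq : √r * √r = r := Real.mul_self_sqrt hr0.le
  have he : 1 ≤ Real.exp 16 := Real.one_le_exp (by norm_num)
  have e3 : Y2phi r * t + B * t * (3 * r / 2) = Y2A r * ((t / √r) * (Real.exp (-(2 * r)) *
      ((8 * r + 1) + Real.exp 16 * (384 * r ^ 2 + 288 * r + 72)) / (2 * Real.pi))) := by
    rw [hB]
    unfold Y2phi Y2A
    rw [Y2_exp8]
    have : r ^ 2 * √r = r ^ 3 / √r := by
      rw [eq_div_iff hq.ne', mul_assoc, hqq]; ring
    rw [this]
    field_simp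
    ring
  have e4 : t / √r ≤ √t := by
    rw [div_le_iff₀ hq]
    calc t = √t * √t := (Real.mul_self_sqrt ht0).symm
      _ ≤ √t * √r := mul_le_mul_of_nonneg_left (Real.sqrt_le_sqrt (by linarith)) (Real.sqrt_nonneg _)
  have e5 : Real.exp (-(2 * r)) * ((8 * r + 1) + Real.exp 16 * (384 * r ^ 2 + 288 * r + 72)) /
      (2 * Real.pi) ≤ Y2c := by
    refine Y2_div_pi (by linarith [Y2c_ge]) ?_
    have a1 : (8 * r + 1) + Real.exp 16 * (384 * r ^ 2 + 288 * r + 72) ≤ Y2c * (1 + r) ^ 2 := by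
      unfold Y2c; nlinarith
    have a2 := mul_le_mul_of_nonneg_left a1 (Real.exp_pos (-(2 * r))).le
    have a3 := Y2_exp2 hr0.le
    have a4 : Real.exp (-(2 * r)) * (Y2c * (1 + r) ^ 2) ≤ Y2c := by
      nlinarith [Y2c_ge]
    linarith [Y2c_ge]
  rw [e3, mul_comm (Y2c * √t), mul_comm Y2c]
  exact mul_le_mul_of_nonneg_left (mul_le_mul e4 e5 (by positivity) (Real.sqrt_nonneg _))
    (Y2A_nonneg r)

/-- Hölder estimate of the kernel gradient -/
theorem Y2G_holder {z w : E} (h : ‖w - z‖ ≤ 2) :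
    ‖Y2G w - Y2G z‖ ≤ Y2c * √‖w - z‖ * (Y2A ‖z‖ + Y2A ‖w‖) := by
  set t := ‖w - z‖ with ht
  have ht0 : 0 ≤ t := norm_nonneg _
  have hq := Real.sqrt_nonneg t
  have hAz := Y2A_nonneg ‖z‖
  have hAw := Y2A_nonneg ‖w‖
  have hc := Y2c_ge
  by_cases hz : 2 * t < ‖z‖
  · refine (Y2G_far le_rfl h hz).trans ?_
    exact mul_le_mul_of_nonneg_left (by linarith) (by positivity)
  · push Not at hz
    have hw : ‖w‖ ≤ 3 * t := by
      have := norm_add_le (w - z) z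
      rw [sub_add_cancel] at this
      linarith
    have h1 := Y2phi_le' (norm_nonneg z) (t := t) (by linarith)
    have h2 := Y2phi_le' (norm_nonneg w) hw
    refine (norm_sub_le _ _).trans ?_
    rw [Y2G_norm, Y2G_norm]
    have h3 : 3 * √t * (Y2A ‖z‖ + Y2A ‖w‖) ≤ Y2c * √t * (Y2A ‖z‖ + Y2A ‖w‖) := by
      gcongr; linarith
    linarith

/-- Taylor estimate of the kernel -/
theorem Y2_taylor {z w : E} (h : ‖w - z‖ ≤ 2) :
    |Yk 8 w - Yk 8 z - ⟪Y2G z, w - z⟫| ≤ Y2c * (‖w - z‖ * √‖w - z‖) * (Y2A ‖z‖ + Y2A ‖w‖) := by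
  set t := ‖w - z‖ with ht
  have ht0 : 0 ≤ t := norm_nonneg _
  have hq := Real.sqrt_nonneg t
  have hAz := Y2A_nonneg ‖z‖
  have hAw := Y2A_nonneg ‖w‖
  have hc := Y2c_ge
  by_cases hz : 2 * t < ‖z‖
  · have key := (convex_closedBall z t).norm_image_sub_le_of_norm_hasFDerivWithin_le'
      (f := Yk 8) (f' := fun v => innerSL ℝ (Y2G v)) (φ := innerSL ℝ (Y2G z))
      (C := Y2c * √t * Y2A ‖z‖) (x := z) (y := w)
      (fun v hv => (Y2_Yk_fderiv (by
        rintro rfl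
        rw [mem_closedBall, dist_zero_left] at hv
        linarith)).hasFDerivWithinAt)
      (fun v hv => by
        rw [← map_sub, innerSL_apply_norm]
        exact Y2G_far (by rwa [mem_closedBall, dist_eq_norm] at hv) h hz)
      (mem_closedBall_self ht0) (by rw [mem_closedBall, dist_eq_norm])
    rw [Real.norm_eq_abs, innerSL_apply_apply] at key
    refine key.trans ?_
    rw [← ht]
    have : Y2c * √t * Y2A ‖z‖ * t = Y2c * (t * √t) * Y2A ‖z‖ := by ring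
    rw [this]
    exact mul_le_mul_of_nonneg_left (by linarith) (by positivity)
  · push Not at hz
    have hw : ‖w‖ ≤ 3 * t := by
      have := norm_add_le (w - z) z
      rw [sub_add_cancel] at this
      linarith
    have h1 := Y2phi_le' (norm_nonneg z) (t := t) (by linarith)
    have h2 := Y2psi_le' (norm_nonneg w) hw
    have h3 := Y2psi_le' (norm_nonneg z) (t := t) (by linarith)
    have h4 : |⟪Y2G z, w - z⟫| ≤ 3 * √t * Y2A ‖z‖ * t := by
      refine (abs_real_inner_le_norm _ _).trans ?_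
      rw [Y2G_norm]
      exact mul_le_mul_of_nonneg_right h1 ht0
    have h5 := Y2psi_nonneg (norm_nonneg w)
    have h6 := Y2psi_nonneg (norm_nonneg z)
    rw [Y2_Yk, Y2_Yk]
    have h7 : 4 * (t * √t) * (Y2A ‖z‖ + Y2A ‖w‖) ≤ Y2c * (t * √t) * (Y2A ‖z‖ + Y2A ‖w‖) := by
      gcongr; linarith
    have h8 : 0 ≤ t * √t * Y2A ‖w‖ := by positivity
    have h9 := abs_le.1 h4
    rw [abs_le]
    constructor <;> nlinarith

end

end Crest.Agent.R335
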