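import Crest.Agent.R335.Y1
import Crest.Agent.R335.Y2Aux1

set_option autoImplicit false

open MeasureTheory Set Filter Topology Metric
open scoped Gradient ContDiff RealInnerProductSpace ENNReal

namespace Crest.Agent.R335

noncomputable section

theorem Y2A_meas : Measurable Y2A := by
  unfold Y2A
  fun_prop

theorem Y2G_meas : Measurable Y2G := by
  unfold Y2G Y2phi
  fun_prop

theorem Y2V_int : Integrable (fun z : E => Y2A ‖z‖ * Real.exp (4 * ‖z‖)) := by
  have h := (integrable_fun_norm_addHaar (volume : Measure E)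
    (f := fun r => Y2A r * Real.exp (4 * r))).2 ?_
  · exact h
  have h1 := integrableOn_rpow_mul_exp_neg_mul_rpow (p := 1) (s := -(1 / 2)) (b := 2)
    (by norm_num) one_pos two_pos
  refine h1.congr_fun (fun r hr => ?_) measurableSet_Ioi
  have hr0 : 0 < r := hr
  have hq : 0 < √r := Real.sqrt_pos.2 hr0
  simp only [finrank_euclideanSpace, Fintype.card_fin, smul_eq_mul, Y2A, Real.rpow_one]
  rw [Real.rpow_neg hr0.le, ← Real.sqrt_eq_rpow]
  have : Real.exp (-2 * r) = Real.exp (-(6 * r)) * Real.exp (4 * r) := by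
    rw [← Real.exp_add]; ring_nf
  rw [this]
  field_simp

theorem Y2A_far {r d : ℝ} (hd : 2 ≤ d) (hr : d - 1 ≤ r) :
    Y2A r ≤ 2 * Real.pi * Real.exp 4 * Real.exp (-(4 * d)) *
      (Real.exp (-(1 * r)) / (2 * Real.pi * r)) := by
  have hr1 : 1 ≤ r := by linarith
  have hpi := Real.pi_pos
  have hq : 1 ≤ √r := Real.one_le_sqrt.2 hr1
  have e1 : 2 * Real.pi * Real.exp 4 * Real.exp (-(4 * d)) *
      (Real.exp (-(1 * r)) / (2 * Real.pi * r)) = Real.exp (4 + -(4 * d) + -(1 * r)) / r := by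
    rw [Real.exp_add, Real.exp_add]; field_simp
  rw [e1, Y2A]
  refine div_le_div₀ (Real.exp_pos _).le (Real.exp_le_exp.2 (by linarith)) (by linarith) ?_
  nlinarith

theorem Y2_int : ∃ C : ℝ, 0 < C ∧ ∀ (S : E → ℝ) (x₀ : E) (M N d : ℝ), MemLp S 2 volume → 0 ≤ M →
    0 ≤ N → 2 ≤ d → nsq S ≤ N ^ 2 →
    (∀ᵐ y, ‖y - x₀‖ < d → |S y| ≤ M * Real.exp (4 * ‖y - x₀‖)) → ∀ x ∈ ball x₀ 1,
      Integrable (fun y => Y2A ‖x - y‖ * |S y|) ∧
      ∫ y, Y2A ‖x - y‖ * |S y| ≤ C * (M + Real.exp (-(4 * d)) * N) := by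
  set I := ∫ z : E, Y2A ‖z‖ * Real.exp (4 * ‖z‖) with hI
  have hI0 : 0 ≤ I := integral_nonneg fun z => mul_nonneg (Y2A_nonneg _) (Real.exp_pos _).le
  have hpi := Real.pi_pos
  refine ⟨Real.exp 4 * (I + 2 * Real.pi), by positivity, fun S x₀ M N d hS hM hN hd hSN hb x hx => ?_⟩
  have hx1 : ‖x - x₀‖ < 1 := by rwa [mem_ball, dist_eq_norm] at hx
  have hS' : MemLp (fun y => |S y|) 2 volume := hS.abs
  obtain ⟨h1, h2⟩ := YP_integrable (k := 1) one_pos hS' x
  have hn : nsq (fun y => |S y|) = nsq S := by simp only [nsq, sq_abs]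
  have h3 : YP 1 (fun y => |S y|) x ≤ N := by
    refine (abs_le_of_sq_le_sq' (h2.trans ?_) hN).2
    rw [hn, div_le_iff₀ (by positivity)]
    nlinarith [Real.pi_gt_three, sq_nonneg N]
  have hV : Integrable (fun y : E => Y2A ‖x - y‖ * Real.exp (4 * ‖x - y‖)) :=
    Y2V_int.comp_sub_left x
  have hVI : ∫ y : E, Y2A ‖x - y‖ * Real.exp (4 * ‖x - y‖) = I :=
    integral_sub_left_eq_self (fun z : E => Y2A ‖z‖ * Real.exp (4 * ‖z‖)) volume x
  set a := M * Real.exp 4 with ha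
  set b := 2 * Real.pi * Real.exp 4 * Real.exp (-(4 * d)) with hb'
  have ha0 : 0 ≤ a := by positivity
  have hb0 : 0 ≤ b := by positivity
  have hg : Integrable (fun y : E => a * (Y2A ‖x - y‖ * Real.exp (4 * ‖x - y‖)) +
      b * (Yk 1 (x - y) * |S y|)) := (hV.const_mul a).add (h1.const_mul b)
  have hle : ∀ᵐ y, Y2A ‖x - y‖ * |S y| ≤ a * (Y2A ‖x - y‖ * Real.exp (4 * ‖x - y‖)) +
      b * (Yk 1 (x - y) * |S y|) := by
    filter_upwards [hb] with y hy
    have hA := Y2A_nonneg ‖x - y‖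
    have hY : 0 ≤ Yk 1 (x - y) := by unfold Yk; positivity
    have htri : ‖y - x₀‖ ≤ ‖x - y‖ + ‖x - x₀‖ := by
      have := norm_sub_le (x - x₀) (x - y)
      rw [show x - x₀ - (x - y) = y - x₀ by abel] at this
      linarith
    by_cases hyd : ‖y - x₀‖ < d
    · have e1 : |S y| ≤ a * Real.exp (4 * ‖x - y‖) := by
        refine (hy hyd).trans ?_
        rw [ha, mul_assoc, ← Real.exp_add]
        exact mul_le_mul_of_nonneg_left (Real.exp_le_exp.2 (by linarith)) hM
      have e2 := mul_le_mul_of_nonneg_left e1 hA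
      have e3 : 0 ≤ b * (Yk 1 (x - y) * |S y|) := by positivity
      linarith
    · push Not at hyd
      have e1 : Y2A ‖x - y‖ ≤ b * Yk 1 (x - y) := Y2A_far hd (by linarith)
      have e2 := mul_le_mul_of_nonneg_right e1 (abs_nonneg (S y))
      have e3 : 0 ≤ a * (Y2A ‖x - y‖ * Real.exp (4 * ‖x - y‖)) := by positivity
      linarith
  have hm : AEStronglyMeasurable (fun y => Y2A ‖x - y‖ * |S y|) volume :=
    (Y2A_meas.comp (by fun_prop)).aestronglyMeasurable.mul hS'.1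
  have hint : Integrable (fun y => Y2A ‖x - y‖ * |S y|) := by
    refine hg.mono' hm ?_
    filter_upwards [hle] with y hy
    rwa [Real.norm_of_nonneg (mul_nonneg (Y2A_nonneg _) (abs_nonneg _))]
  refine ⟨hint, (integral_mono_ae hint hg hle).trans ?_⟩
  rw [integral_add (hV.const_mul a) (h1.const_mul b), integral_const_mul, integral_const_mul, hVI]
  have h4 : b * ∫ y, Yk 1 (x - y) * |S y| ≤ b * N := mul_le_mul_of_nonneg_left h3 hb0
  have h5 : 0 ≤ Real.exp 4 * (I * (Real.exp (-(4 * d)) * N) + 2 * Real.pi * M) := by positivity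
  rw [ha]
  rw [hb'] at h4 ⊢
  linarith

/-! `C^{1,1/2}` bounds for Yukawa potentials (`k = 8`) -/
theorem YP_reg : ∃ C : ℝ, 0 < C ∧ ∀ (S : E → ℝ) (x₀ : E) (M N d : ℝ), MemLp S 2 volume → 0 ≤ M →
    0 ≤ N → 2 ≤ d → nsq S ≤ N ^ 2 →
    (∀ᵐ y, ‖y - x₀‖ < d → |S y| ≤ M * Real.exp (4 * ‖y - x₀‖)) →
    ContDiffOn ℝ 1 (YP 8 S) (ball x₀ 1) ∧ ∀ x ∈ ball x₀ 1,
      |YP 8 S x| ≤ C * (M + Real.exp (-(4 * d)) * N) ∧
      ‖∇ (YP 8 S) x‖ ≤ C * (M + Real.exp (-(4 * d)) * N) ∧ ∀ x' ∈ ball x₀ 1,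
        ‖∇ (YP 8 S) x - ∇ (YP 8 S) x'‖ ≤ C * (M + Real.exp (-(4 * d)) * N) * √‖x - x'‖ := by
  obtain ⟨C, hC, hint⟩ := Y2_int
  have hc := Y2c_ge
  refine ⟨2 * Y2c * C, by positivity, fun S x₀ M N d hS hM hN hd hSN hb => ?_⟩
  have hI := hint S x₀ M N d hS hM hN hd hSN hb
  set K := M + Real.exp (-(4 * d)) * N with hK
  have hK0 : 0 ≤ K := by positivity
  have hCK : 0 ≤ C * K := by positivity
  let H : E → E := fun x => ∫ y, S y • Y2G (x - y)
  have hGle : ∀ x y : E, ‖S y • Y2G (x - y)‖ ≤ 2 * (Y2A ‖x - y‖ * |S y|) := by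
    intro x y
    rw [norm_smul, Y2G_norm, Real.norm_eq_abs]
    have := mul_le_mul_of_nonneg_left (Y2phi_le (norm_nonneg (x - y))) (abs_nonneg (S y))
    linarith
  have hGi : ∀ x ∈ ball x₀ 1, Integrable (fun y => S y • Y2G (x - y)) := fun x hx =>
    ((hI x hx).1.const_mul 2).mono'
      (hS.1.smul (Y2G_meas.comp (by fun_prop)).aestronglyMeasurable)
      (Eventually.of_forall (hGle x))
  have hd2 : ∀ x ∈ ball x₀ 1, ∀ x' ∈ ball x₀ 1, ‖x - x'‖ ≤ 2 := by
    intro x hx x' hx'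
    rw [← dist_eq_norm]
    have := dist_triangle_right x x' x₀
    rw [mem_ball] at hx hx'
    linarith
  have hsum : ∀ x ∈ ball x₀ 1, ∀ x' ∈ ball x₀ 1, ∀ c : ℝ, 0 ≤ c →
      Integrable (fun y => c * (Y2A ‖x - y‖ * |S y| + Y2A ‖x' - y‖ * |S y|)) ∧
      ∫ y, c * (Y2A ‖x - y‖ * |S y| + Y2A ‖x' - y‖ * |S y|) ≤ c * (2 * (C * K)) := by
    intro x hx x' hx' c hc
    refine ⟨((hI x hx).1.add (hI x' hx').1).const_mul c, ?_⟩
    rw [integral_const_mul, integral_add (hI x hx).1 (hI x' hx').1]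
    exact mul_le_mul_of_nonneg_left (by linarith [(hI x hx).2, (hI x' hx').2]) hc
  have hH : ∀ x ∈ ball x₀ 1, ∀ x' ∈ ball x₀ 1, ‖H x - H x'‖ ≤ 2 * Y2c * C * K * √‖x - x'‖ := by
    intro x hx x' hx'
    obtain ⟨h1, h2⟩ := hsum x' hx' x hx (Y2c * √‖x - x'‖) (by positivity)
    simp only [H]
    rw [← integral_sub (hGi x hx) (hGi x' hx')]
    refine (norm_integral_le_of_norm_le h1 (Eventually.of_forall fun y => ?_)).trans
      (h2.trans (le_of_eq (by ring)))
    have e : x - y - (x' - y) = x - x' := by abel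
    have h3 := Y2G_holder (z := x' - y) (w := x - y) (by rw [e]; exact hd2 x hx x' hx')
    rw [e] at h3
    rw [← smul_sub, norm_smul, Real.norm_eq_abs]
    have := mul_le_mul_of_nonneg_left h3 (abs_nonneg (S y))
    linarith
  have hT : ∀ x ∈ ball x₀ 1, ∀ x' ∈ ball x₀ 1, |YP 8 S x' - YP 8 S x - ⟪H x, x' - x⟫| ≤
      2 * Y2c * C * K * √‖x' - x‖ * ‖x' - x‖ := by
    intro x hx x' hx'
    obtain ⟨h1, h2⟩ := hsum x hx x' hx' (Y2c * (‖x' - x‖ * √‖x' - x‖)) (by positivity)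
    have i1 := (YP_integrable (k := 8) (by norm_num) hS x).1
    have i2 := (YP_integrable (k := 8) (by norm_num) hS x').1
    have i3 : Integrable (fun y => ⟪x' - x, S y • Y2G (x - y)⟫) := (hGi x hx).const_inner _
    have i4 : Integrable (fun y => Yk 8 (x' - y) * S y - Yk 8 (x - y) * S y) := i2.sub i1
    simp only [H, YP]
    rw [real_inner_comm, ← integral_inner (hGi x hx), ← integral_sub i2 i1,
      ← integral_sub i4 i3, ← Real.norm_eq_abs]
    refine (norm_integral_le_of_norm_le h1 (Eventually.of_forall fun y => ?_)).trans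
      (h2.trans (le_of_eq (by ring)))
    have e : x' - y - (x - y) = x' - x := by abel
    have h3 := Y2_taylor (z := x - y) (w := x' - y) (by rw [e]; exact hd2 x' hx' x hx)
    rw [e] at h3
    have e2 : Yk 8 (x' - y) * S y - Yk 8 (x - y) * S y - ⟪x' - x, S y • Y2G (x - y)⟫ =
        S y * (Yk 8 (x' - y) - Yk 8 (x - y) - ⟪Y2G (x - y), x' - x⟫) := by
      rw [real_inner_smul_right, real_inner_comm]; ring
    rw [e2, Real.norm_eq_abs, abs_mul]
    have := mul_le_mul_of_nonneg_left h3 (abs_nonneg (S y))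
    linarith
  have hsq : ∀ x : E, Tendsto (fun x' : E => 2 * Y2c * C * K * √‖x' - x‖) (𝓝 x) (𝓝 0) := by
    intro x
    have : Continuous fun x' : E => 2 * Y2c * C * K * √‖x' - x‖ := by fun_prop
    simpa using this.tendsto x
  have hgrad : ∀ x ∈ ball x₀ 1, HasGradientAt (YP 8 S) (H x) x := by
    intro x hx
    rw [hasGradientAt_iff_isLittleO, Asymptotics.isLittleO_iff]
    intro ε hε
    filter_upwards [isOpen_ball.mem_nhds hx, (hsq x).eventually (gt_mem_nhds hε)] with x' hx' h2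
    rw [Real.norm_eq_abs]
    exact (hT x hx x' hx').trans (mul_le_mul_of_nonneg_right h2.le (norm_nonneg _))
  have hHc : ContinuousOn H (ball x₀ 1) := by
    intro x hx
    rw [ContinuousWithinAt, tendsto_iff_norm_sub_tendsto_zero]
    refine squeeze_zero' (Eventually.of_forall fun _ => norm_nonneg _) ?_
      ((hsq x).mono_left nhdsWithin_le_nhds)
    filter_upwards [self_mem_nhdsWithin] with x' hx'
    exact hH x' hx' x hx
  refine ⟨?_, fun x hx => ⟨?_, ?_, fun x' hx' => ?_⟩⟩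
  · rw [show (1 : WithTop ℕ∞) = 0 + 1 from (zero_add 1).symm,
      contDiffOn_succ_iff_fderiv_of_isOpen isOpen_ball]
    refine ⟨fun x hx => (hgrad x hx).differentiableAt.differentiableWithinAt, by simp, ?_⟩
    rw [contDiffOn_zero]
    refine ContinuousOn.congr (f := fun x => InnerProductSpace.toDual ℝ E (H x))
      ((InnerProductSpace.toDual ℝ E).continuous.comp_continuousOn hHc) fun x hx => ?_
    exact (hgrad x hx).hasFDerivAt.fderiv
  · rw [YP, ← Real.norm_eq_abs]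
    refine (norm_integral_le_of_norm_le (hI x hx).1 (Eventually.of_forall fun y => ?_)).trans
      ((hI x hx).2.trans (by nlinarith))
    rw [norm_mul, Real.norm_eq_abs (S y), Y2_Yk,
      Real.norm_of_nonneg (Y2psi_nonneg (norm_nonneg _))]
    exact mul_le_mul_of_nonneg_right (Y2psi_le (norm_nonneg _)) (abs_nonneg _)
  · rw [(hgrad x hx).gradient]
    refine (norm_integral_le_of_norm_le ((hI x hx).1.const_mul 2)
      (Eventually.of_forall (hGle x))).trans ?_
    rw [integral_const_mul]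
    nlinarith [(hI x hx).2]
  · rw [(hgrad x hx).gradient, (hgrad x' hx').gradient]
    exact hH x hx x' hx'
/-- two steps of the Yukawa inequality remove the singularity -/
theorem YP_twice : ∃ C : ℝ, 0 < C ∧ ∀ x : E, ∫ y, Yk 8 (x - y) * Yk 8 y ≤ C * Real.exp (-(6 * ‖x‖)) := by
  have hpi := Real.pi_pos
  obtain ⟨h2, -, h3, -⟩ := Yk_memLp (k := 2) two_pos
  refine ⟨1, one_pos, fun x => ?_⟩
  obtain ⟨h4, h5⟩ := YP_integrable (k := 2) two_pos h2 x
  have h6 : YP 2 (Yk 2) x ≤ 1 := by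
    refine (abs_le_of_sq_le_sq' (h5.trans ?_) zero_le_one).2
    rw [nsq, h3, div_div, div_le_iff₀ (by positivity)]
    nlinarith [Real.pi_gt_three]
  have hY : ∀ (k : ℝ) (z : E), 0 ≤ Yk k z := fun k z => by unfold Yk; positivity
  have e : ∀ z : E, Yk 8 z = Real.exp (-(6 * ‖z‖)) * Yk 2 z := fun z => by
    unfold Yk; rw [Y2_exp8, mul_div_assoc]
  calc ∫ y, Yk 8 (x - y) * Yk 8 y ≤ ∫ y, Real.exp (-(6 * ‖x‖)) * (Yk 2 (x - y) * Yk 2 y) := by
        refine integral_mono_of_nonneg (Eventually.of_forall fun y => mul_nonneg (hY _ _) (hY _ _))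
          (h4.const_mul _) (Eventually.of_forall fun y => ?_)
        have h7 : Real.exp (-(6 * ‖x - y‖)) * Real.exp (-(6 * ‖y‖)) ≤ Real.exp (-(6 * ‖x‖)) := by
          rw [← Real.exp_add]
          have := norm_add_le (x - y) y
          rw [sub_add_cancel] at this
          exact Real.exp_le_exp.2 (by linarith)
        have h8 := mul_le_mul_of_nonneg_right h7 (mul_nonneg (hY 2 (x - y)) (hY 2 y))
        simp only [e]
        linarith
    _ = Real.exp (-(6 * ‖x‖)) * YP 2 (Yk 2) x := integral_const_mul _ _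
    _ ≤ 1 * Real.exp (-(6 * ‖x‖)) := by
        rw [one_mul]; exact mul_le_of_le_one_right (Real.exp_pos _).le h6
theorem Yk_exp : ∃ C : ℝ, 0 < C ∧ Integrable (fun y : E => Yk 8 y * Real.exp (4 * ‖y‖)) ∧
    ∫ y : E, Yk 8 y * Real.exp (4 * ‖y‖) ≤ C := by
  obtain ⟨-, h1, -, h2⟩ := Yk_memLp (k := 4) (by norm_num)
  have e : (fun y : E => Yk 8 y * Real.exp (4 * ‖y‖)) = Yk 4 := by
    funext y
    unfold Yk
    rw [div_mul_eq_mul_div, ← Real.exp_add]
    congr 2
    ring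
  refine ⟨1, one_pos, e ▸ h1, ?_⟩
  rw [e, h2]
  norm_num

end

end Crest.Agent.R335
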