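import Crest.Agent.R335.MB6
import Crest.Agent.R335.MB8
import Crest.Agent.R335.MB9
import Crest.Agent.R335.MB12
import Crest.Agent.R335.MB15
import Crest.Agent.R335.MB16
import Crest.Agent.R335.Y2

set_option autoImplicit false

open MeasureTheory Set Filter Topology Metric
open scoped Gradient ContDiff RealInnerProductSpace ENNReal

namespace Crest.Agent.R335

noncomputable section

theorem MB_un : Un fun C a => a.md.OK a.o C := by
  have H := ((((((((((f_w_bd.and f_ef_bd).and f_sg).and f_es_bd).and srem_Fe).and f_sN).and f_bd).and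
    close1).and close2).and close3).and close4).and f_lip0
  have H' : Un fun C a => a.c ≤ C ∧ 1 ≤ C := Un.of (fun _ _ => 0) fun C a _ h1 h2 _ => ⟨h2, h1⟩
  intro o c ho hc
  obtain ⟨c', l0, h1, h2, h3⟩ := (H.and H') o c ho hc
  refine ⟨c', l0, h1, h2, fun a ha e1 e2 hl C hC => ?_⟩
  obtain ⟨⟨⟨⟨⟨⟨⟨⟨⟨⟨⟨⟨k1, k2⟩, k3⟩, k4⟩, k5⟩, k6⟩, k7⟩, k8⟩, k9⟩, k10⟩, k11⟩, k12⟩, kc, kC⟩ :=
    h3 a ha e1 e2 hl C hC
  have hl0 := ha.mb.l0
  have hcl : a.c * a.l ≤ C * a.l := mul_le_mul_of_nonneg_right kc hl0.1.le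
  refine
    { l0 := hl0
      num := ⟨ha.num.1.trans hcl, ha.num.2.trans hcl⟩
      h1 := ha.h1
      nh := ha.nh
      nn := Dat.nn
      bd := k7
      ev := ha.ev
      cf := ha.cf
      pyth := ha.pyth
      nr := ha.nr
      en := ha.en.trans (add_le_add le_rfl hcl)
      ho := ha.f_ho
      sf := ha.sol_f
      mw := ha.mw
      w_bd := k1
      ef_bd := k2
      sg := k3
      ss := ha.sol_s
      es_bd := k4
      sG := fun τ S Ω hτ hτ0 hS hle => ?_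
      sN := k6
      close := ⟨k8, k9, k10, k11⟩
      lip := fun x₀ M hx1 hx2 hM hg hf => ?_ }
  · refine snorm_sub_tau (fun i => (ha.sol_Fe i).1) hτ hτ0 hS ?_
    filter_upwards [hle, k5] with x hx hx' hxΩ
    exact (sub_le_sub_right hx' _).trans (hx hxΩ)
  · have key : ∀ n : ℕ, ∀ᵐ y, y ∈ ball x₀ (1 / 100) →
        ‖D a.md.G y‖ ≤ C * (M + 1 / (n + 1)) ∧ ‖D a.md.n y‖ ≤ C * (M + 1 / (n + 1)) ∧
          ‖D a.md.g y‖ ≤ C * (M + 1 / (n + 1)) := by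
      intro n
      have hn : (0 : ℝ) < 1 / (n + 1) := Nat.one_div_pos_of_nat
      have hM' : M ≤ M + 1 / (n + 1) := by linarith
      have hj : M * jb x₀ ^ 2 ≤ (M + 1 / (n + 1)) * jb x₀ ^ 2 :=
        mul_le_mul_of_nonneg_right hM' (sq_nonneg _)
      refine k12 x₀ _ ⟨hx1, hx2, by linarith, ?_, fun y hy => ⟨(hf y hy).1.trans hj, fun y' hy' =>
        ((hf y hy).2 y' hy').trans (mul_le_mul_of_nonneg_right hj (norm_nonneg _))⟩⟩
      filter_upwards [hg] with y hy hy' using (hy hy').trans hM'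
    have lim : Tendsto (fun n : ℕ => C * (M + 1 / ((n : ℝ) + 1))) atTop (𝓝 (C * M)) := by
      have := (tendsto_one_div_add_atTop_nhds_zero_nat (𝕜 := ℝ)).const_add M |>.const_mul C
      simpa using this
    filter_upwards [ae_all_iff.2 key] with y hy hy'
    exact ⟨ge_of_tendsto' lim fun n => (hy n hy').1, ge_of_tendsto' lim fun n => (hy n hy').2.1,
      ge_of_tendsto' lim fun n => (hy n hy').2.2⟩

theorem MB_main (o : OD) (ho : o.OK) (c : ℝ) (hc : 1 ≤ c) : ∃ c' l0 : ℝ, 1 ≤ c' ∧ 0 < l0 ∧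
    ∀ (l E2 E3 : ℝ) (Φ : E6 → ℝ) (ψ : E9 → ℝ), l ≤ l0 → MB o c l E2 E3 Φ ψ →
      ∃ m : MD, m.l = l ∧ m.OK o c' ∧ ∀ᵐ x, m.r x ^ 2 = dens ψ x := by
  obtain ⟨c', l0, h1, h2, h3⟩ := MB_un o c ho hc
  refine ⟨c', l0, h1, h2, fun l E2 E3 Φ ψ hl hm => ?_⟩
  exact ⟨(⟨o, c, l, E2, E3, Φ, ψ⟩ : Dat).md, rfl,
    h3 ⟨o, c, l, E2, E3, Φ, ψ⟩ ⟨ho, hc, hm⟩ rfl rfl hl c' le_rfl,
    Eventually.of_forall fun x => Dat.r_sq x⟩

end

end Crest.Agent.R335
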