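import Crest.Agent.R335.Defs4
import Crest.Agent.R335.S07

/-! Pointwise calculus for gradients, divergences and Laplacians. -/

set_option autoImplicit false
set_option linter.unusedSectionVars false

open MeasureTheory Set Filter Topology Metric
open scoped Gradient ContDiff RealInnerProductSpace ENNReal

namespace Crest.Agent.R335

noncomputable section

variable {V : Type*} [NormedAddCommGroup V] [InnerProductSpace ℝ V] [FiniteDimensional ℝ V]
  [MeasurableSpace V] [BorelSpace V]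

theorem F0a_grad_smooth {p : V → ℝ} (hp : ContDiff ℝ 2 p) : ContDiff ℝ 1 (∇ p) :=
  (InnerProductSpace.toDual ℝ V).symm.contDiff.comp (hp.fderiv_right (m := 1) (by norm_num))

theorem F0a_grad_diff {p : V → ℝ} (hp : ContDiff ℝ 2 p) (x : V) : DifferentiableAt ℝ (∇ p) x :=
  (F0a_grad_smooth hp).differentiable one_ne_zero x

theorem F0a_grad_of {p : V → ℝ} {x v : V} (h : HasFDerivAt p (innerSL ℝ v) x) : ∇ p x = v := by
  refine ext_inner_right ℝ fun w => ?_
  rw [inner_gradient_left, h.fderiv, innerSL_apply_apply]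

theorem F0a_fd {p : V → ℝ} {x : V} (h : DifferentiableAt ℝ p x) :
    HasFDerivAt p (innerSL ℝ (∇ p x)) x := by
  refine h.hasFDerivAt.congr_fderiv ?_
  ext w
  rw [innerSL_apply_apply, inner_gradient_left]

theorem F0a_grad_mul {p q : V → ℝ} {x : V} (hp : DifferentiableAt ℝ p x)
    (hq : DifferentiableAt ℝ q x) : ∇ (fun x => p x * q x) x = p x • ∇ q x + q x • ∇ p x := by
  refine F0a_grad_of (((F0a_fd hp).mul (F0a_fd hq)).congr_fderiv ?_)
  rw [map_add, map_smul, map_smul]

theorem F0a_grad_lin {p q : V → ℝ} {x : V} (hp : DifferentiableAt ℝ p x)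
    (hq : DifferentiableAt ℝ q x) (s t : ℝ) :
    ∇ (fun x => s * p x + t * q x) x = s • ∇ p x + t • ∇ q x := by
  refine F0a_grad_of ((((F0a_fd hp).const_mul s).add ((F0a_fd hq).const_mul t)).congr_fderiv ?_)
  rw [map_add, map_smul, map_smul]

theorem F0a_grad_comp {q : V → ℝ} {β : ℝ → ℝ} {x : V} {c : ℝ} (hq : DifferentiableAt ℝ q x)
    (hβ : HasDerivAt β c (q x)) : ∇ (fun x => β (q x)) x = c • ∇ q x := by
  refine F0a_grad_of ((hβ.comp_hasFDerivAt x (F0a_fd hq)).congr_fderiv ?_)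
  rw [map_smul]

theorem F0a_dvg_add {X Y : V → V} {x : V} (hX : DifferentiableAt ℝ X x)
    (hY : DifferentiableAt ℝ Y x) : dvg (fun y => X y + Y y) x = dvg X x + dvg Y x := by
  unfold dvg
  rw [fderiv_fun_add hX hY, ContinuousLinearMap.toLinearMap_add, map_add]

theorem F0a_dvg_smul {g : V → ℝ} {X : V → V} {x : V} (hg : DifferentiableAt ℝ g x)
    (hX : DifferentiableAt ℝ X x) :
    dvg (fun y => g y • X y) x = g x * dvg X x + ⟪∇ g x, X x⟫ := by
  unfold dvg
  rw [fderiv_fun_smul hg hX, ContinuousLinearMap.toLinearMap_add, map_add,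
    ContinuousLinearMap.toLinearMap_smul,
    map_smul, smul_eq_mul, inner_gradient_left]
  congr 1
  exact LinearMap.trace_smulRight (fderiv ℝ g x : V →ₗ[ℝ] ℝ) (X x)

theorem F0a_lap_mul {p q : V → ℝ} (hp : ContDiff ℝ 2 p) (hq : ContDiff ℝ 2 q) (x : V) :
    lap (fun x => p x * q x) x = p x * lap q x + 2 * ⟪∇ p x, ∇ q x⟫ + q x * lap p x := by
  have hp' := hp.differentiable two_ne_zero
  have hq' := hq.differentiable two_ne_zero
  have e : ∇ (fun x => p x * q x) = fun x => p x • ∇ q x + q x • ∇ p x :=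
    funext fun y => F0a_grad_mul (hp' y) (hq' y)
  unfold lap
  rw [e, F0a_dvg_add ((hp' x).fun_smul (F0a_grad_diff hq x))
      ((hq' x).fun_smul (F0a_grad_diff hp x)),
    F0a_dvg_smul (hp' x) (F0a_grad_diff hq x), F0a_dvg_smul (hq' x) (F0a_grad_diff hp x),
    real_inner_comm (∇ p x) (∇ q x)]
  ring

theorem F0a_lap_lin {p q : V → ℝ} (hp : ContDiff ℝ 2 p) (hq : ContDiff ℝ 2 q) (s t : ℝ) (x : V) :
    lap (fun x => s * p x + t * q x) x = s * lap p x + t * lap q x := by
  have hp' := hp.differentiable two_ne_zero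
  have hq' := hq.differentiable two_ne_zero
  have e : ∇ (fun x => s * p x + t * q x) = fun x => s • ∇ p x + t • ∇ q x :=
    funext fun y => F0a_grad_lin (hp' y) (hq' y) s t
  unfold lap
  rw [e, F0a_dvg_add ((F0a_grad_diff hp x).fun_const_smul s)
      ((F0a_grad_diff hq x).fun_const_smul t),
    F0a_dvg_smul (differentiableAt_const s) (F0a_grad_diff hp x),
    F0a_dvg_smul (differentiableAt_const t) (F0a_grad_diff hq x)]
  simp

theorem F0a_lap_comp {q : V → ℝ} {β : ℝ → ℝ} (hq : ContDiff ℝ 2 q) (hβ : ContDiff ℝ 2 β) (x : V) :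
    lap (fun x => β (q x)) x = deriv β (q x) * lap q x + deriv (deriv β) (q x) * ‖∇ q x‖ ^ 2 := by
  have hq' := hq.differentiable two_ne_zero
  have hβ' := hβ.differentiable two_ne_zero
  have hβ1 : Differentiable ℝ (deriv β) :=
    (ContDiff.deriv' (n := 1) (by exact_mod_cast hβ)).differentiable one_ne_zero
  have e : ∇ (fun x => β (q x)) = fun x => deriv β (q x) • ∇ q x :=
    funext fun y => F0a_grad_comp (hq' y) (hβ' _).hasDerivAt
  unfold lap
  rw [e, F0a_dvg_smul (g := fun x => deriv β (q x)) ((hβ1 _).comp x (hq' x)) (F0a_grad_diff hq x),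
    F0a_grad_comp (hq' x) (hβ1 _).hasDerivAt, real_inner_smul_left, real_inner_self_eq_norm_sq]

theorem F0a_z_smooth : ContDiff ℝ 2 (fun x : E => x 2) := by fun_prop

theorem F0a_lap_z (x : E) : lap (fun x : E => x 2) x = 0 := by
  have e : ∇ (fun x : E => x 2) = fun _ => ez := funext coord_two.2
  unfold lap dvg
  rw [e]
  simp

theorem F0a_sqrt_lip (a b : ℝ) : √(1 + a ^ 2) ≤ √(1 + b ^ 2) + |a - b| := by
  have h0 := Real.sqrt_nonneg (1 + b ^ 2)
  have h1 : |b| ≤ √(1 + b ^ 2) := Real.abs_le_sqrt (by linarith)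
  have h2 := Real.sq_sqrt (show 0 ≤ 1 + b ^ 2 by positivity)
  have h3 : b * (a - b) ≤ √(1 + b ^ 2) * |a - b| := by
    calc b * (a - b) ≤ |b * (a - b)| := le_abs_self _
      _ = |b| * |a - b| := abs_mul _ _
      _ ≤ _ := mul_le_mul_of_nonneg_right h1 (abs_nonneg _)
  refine Real.sqrt_le_iff.2 ⟨by positivity, ?_⟩
  nlinarith [sq_abs (a - b)]

/-- the profile of `radb` -/
def F0a_g (a k b t : ℝ) : ℝ := t ^ a * Real.exp (-(k * t) + b / √t)

theorem F0a_g_deriv (a k b : ℝ) {t : ℝ} (ht : 0 < t) :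
    HasDerivAt (F0a_g a k b) (F0a_g a k b t * (a / t - k - b / (2 * (t * √t)))) t := by
  have hq : 0 < √t := Real.sqrt_pos.2 ht
  have hqq : √t * √t = t := Real.mul_self_sqrt ht.le
  have h1 : HasDerivAt (fun t : ℝ => t ^ a) (a * t ^ (a - 1)) t :=
    Real.hasDerivAt_rpow_const (Or.inl ht.ne')
  have h2 : HasDerivAt (fun t : ℝ => -(k * t) + b / √t)
      (-(k * 1) + (0 * √t - b * (1 / (2 * √t))) / √t ^ 2) t :=
    (((hasDerivAt_id t).const_mul k).neg).add
      ((hasDerivAt_const t b).div (Real.hasDerivAt_sqrt ht.ne') hq.ne')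
  refine (h1.mul h2.exp).congr_deriv ?_
  unfold F0a_g
  rw [Real.rpow_sub_one ht.ne', Real.sq_sqrt ht.le]
  field_simp
  ring

end

end Crest.Agent.R335
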