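import Crest.Agent.R335.Defs4
import Crest.Agent.R335.S09

set_option autoImplicit false

open MeasureTheory Set Filter Topology Metric
open scoped Gradient ContDiff RealInnerProductSpace ENNReal

namespace Crest.Agent.R335

noncomputable section

/-! auxiliary lemmas for the barrier calculus (second part of `F0`) -/

theorem f0b_jb_sq (x : E) : jb x ^ 2 = 1 + ‖x‖ ^ 2 := Real.sq_sqrt (by positivity)

theorem f0b_jb_one (x : E) : 1 ≤ jb x := by
  unfold jb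
  exact Real.one_le_sqrt.mpr (by nlinarith [sq_nonneg ‖x‖])

theorem f0b_jb_pos (x : E) : 0 < jb x := lt_of_lt_of_le one_pos (f0b_jb_one x)

theorem f0b_norm_le (x : E) : ‖x‖ ≤ jb x := by
  have h := f0b_jb_sq x
  have := f0b_jb_pos x
  nlinarith [norm_nonneg x]

theorem f0b_jb_le (x : E) : jb x ≤ ‖x‖ + 1 := by
  have h := f0b_jb_sq x
  have := f0b_jb_pos x
  nlinarith [norm_nonneg x]

theorem f0b_jb_lip (x y : E) : jb y ≤ jb x + ‖y - x‖ := by
  have h1 := f0b_jb_sq x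
  have h2 := f0b_jb_sq y
  have h3 := f0b_jb_pos x
  have h4 := f0b_jb_pos y
  have h5 := f0b_norm_le x
  have h6 : ‖y‖ ≤ ‖x‖ + ‖y - x‖ := by
    calc ‖y‖ = ‖x + (y - x)‖ := by congr 1; abel
      _ ≤ _ := norm_add_le _ _
  have h7 := norm_nonneg (y - x)
  have h8 := norm_nonneg x
  have h9 := norm_nonneg y
  have : jb y ^ 2 ≤ (jb x + ‖y - x‖) ^ 2 := by nlinarith
  exact (pow_le_pow_iff_left₀ (by positivity) (by positivity) two_ne_zero).mp this

/-- logarithm of the bracket -/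
def f0bL (x : E) : ℝ := (1 / 2) * Real.log (‖x‖ ^ 2 + 1)

theorem f0bL_smooth : ContDiff ℝ ∞ f0bL := by
  unfold f0bL
  refine contDiff_const.mul (ContDiff.log ?_ fun x => by positivity)
  exact (contDiff_norm_sq ℝ).add contDiff_const

theorem f0bL_exp (x : E) : Real.exp (f0bL x) = jb x := by
  have h : f0bL x = Real.log (jb x) := by
    unfold f0bL
    rw [add_comm, ← f0b_jb_sq, Real.log_pow]
    push_cast
    ring
  rw [h, Real.exp_log (f0b_jb_pos x)]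

theorem f0bL_grad (x : E) : ∇ f0bL x = (‖x‖ ^ 2 + 1)⁻¹ • x := by
  have h0 : (0 : ℝ) < ‖x‖ ^ 2 + 1 := by positivity
  have h1 : HasFDerivAt (fun y : E => ‖y‖ ^ 2 + 1) (2 • innerSL ℝ x) x :=
    (hasStrictFDerivAt_norm_sq x).hasFDerivAt.add_const 1
  have h2 := (h1.log h0.ne').const_mul (1 / 2 : ℝ)
  have h3 : HasGradientAt f0bL ((‖x‖ ^ 2 + 1)⁻¹ • x) x := by
    rw [hasGradientAt_iff_hasFDerivAt]
    refine HasFDerivAt.congr_fderiv h2 ?_
    ext v
    simp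
    ring
  exact h3.gradient

theorem f0bL_lap (x : E) : lap f0bL x = (jb x ^ 2 + 2) / (jb x ^ 2) ^ 2 := by
  have h := S09_dvg (0 : E) one_pos x
  simp only [sub_zero] at h
  have e : ∇ f0bL = fun x : E => (‖x‖ ^ 2 + 1)⁻¹ • x := funext f0bL_grad
  unfold lap
  rw [e, h, f0b_jb_sq]
  congr 1 <;> ring

theorem f0bL_grad_sq (x : E) : ‖∇ f0bL x‖ ^ 2 = (jb x ^ 2 - 1) / (jb x ^ 2) ^ 2 := by
  have h0 : (0 : ℝ) < ‖x‖ ^ 2 + 1 := by positivity
  rw [f0bL_grad, norm_smul, f0b_jb_sq, Real.norm_eq_abs, abs_of_pos (inv_pos.mpr h0)]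
  field_simp
  ring

/-- the profile in the logarithmic variable -/
def f0bβ (a k b : ℝ) (s : ℝ) : ℝ := Real.exp (a * s - k * Real.exp s + b * Real.exp (-(s / 2)))
def f0bg1 (a k b : ℝ) (s : ℝ) : ℝ := a - k * Real.exp s - b / 2 * Real.exp (-(s / 2))
def f0bg2 (k b : ℝ) (s : ℝ) : ℝ := -(k * Real.exp s) + b / 4 * Real.exp (-(s / 2))

theorem f0bβ_smooth (a k b : ℝ) : ContDiff ℝ ∞ (f0bβ a k b) := by
  unfold f0bβ
  fun_prop

theorem f0b_hd_e (s : ℝ) :
    HasDerivAt (fun s : ℝ => Real.exp (-(s / 2))) (Real.exp (-(s / 2)) * (-(1 / 2))) s :=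
  ((hasDerivAt_id s).div_const 2).neg.exp

theorem f0bβ_hd (a k b s : ℝ) : HasDerivAt (f0bβ a k b) (f0bβ a k b s * f0bg1 a k b s) s := by
  have h : HasDerivAt (fun s : ℝ => a * s - k * Real.exp s + b * Real.exp (-(s / 2)))
      (f0bg1 a k b s) s := by
    have h1 := ((((hasDerivAt_id s).const_mul a).sub ((Real.hasDerivAt_exp s).const_mul k)).add
      ((f0b_hd_e s).const_mul b))
    refine HasDerivAt.congr_deriv h1 ?_
    unfold f0bg1
    ring
  exact h.exp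

theorem f0bg1_hd (a k b s : ℝ) : HasDerivAt (f0bg1 a k b) (f0bg2 k b s) s := by
  have h1 := (((hasDerivAt_const s a).sub ((Real.hasDerivAt_exp s).const_mul k)).sub
      ((f0b_hd_e s).const_mul (b / 2)))
  refine HasDerivAt.congr_deriv h1 ?_
  unfold f0bg2
  ring

theorem f0bβ_deriv (a k b : ℝ) : deriv (f0bβ a k b) = fun s => f0bβ a k b s * f0bg1 a k b s :=
  funext fun s => (f0bβ_hd a k b s).deriv

theorem f0bβ_deriv2 (a k b s : ℝ) : deriv (deriv (f0bβ a k b)) s =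
    f0bβ a k b s * (f0bg1 a k b s ^ 2 + f0bg2 k b s) := by
  rw [f0bβ_deriv]
  have h := ((f0bβ_hd a k b s).mul (f0bg1_hd a k b s)).deriv
  have e : (fun s => f0bβ a k b s * f0bg1 a k b s) = f0bβ a k b * f0bg1 a k b := rfl
  rw [e, h]
  ring

theorem f0b_exp_half (x : E) : Real.exp (-(f0bL x / 2)) = (√(jb x))⁻¹ := by
  rw [Real.exp_neg, ← f0bL_exp, Real.exp_half]

theorem f0b_radb_eq (a k b : ℝ) : radb a k b = fun x => f0bβ a k b (f0bL x) := by
  funext x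
  unfold radb f0bβ
  rw [f0b_exp_half, f0bL_exp, Real.rpow_def_of_pos (f0b_jb_pos x), ← Real.exp_add,
    ← f0bL_exp x, Real.log_exp, f0bL_exp]
  congr 1
  ring

theorem f0b_g1 (a k b : ℝ) (x : E) :
    f0bg1 a k b (f0bL x) = a - k * jb x - b / 2 * (√(jb x))⁻¹ := by
  unfold f0bg1
  rw [f0b_exp_half, f0bL_exp]

theorem f0b_g2 (k b : ℝ) (x : E) :
    f0bg2 k b (f0bL x) = -(k * jb x) + b / 4 * (√(jb x))⁻¹ := by
  unfold f0bg2
  rw [f0b_exp_half, f0bL_exp]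

theorem f0b_radb_pos (a k b : ℝ) (x : E) : 0 < radb a k b x := by
  rw [f0b_radb_eq]
  exact Real.exp_pos _

theorem f0b_radb_smooth (a k b : ℝ) : ContDiff ℝ ∞ (radb a k b) := by
  rw [f0b_radb_eq]
  exact (f0bβ_smooth a k b).comp f0bL_smooth

/-- the error polynomial is bounded -/
theorem f0b_err {A a k b u c : ℝ} (ha : |a| ≤ A) (hk : |k| ≤ A) (hb : |b| ≤ A) (hu0 : 0 ≤ u)
    (hu1 : u ≤ 1) (hc0 : 0 ≤ c) (hc : c ≤ 2) :
    |a ^ 2 + a + b ^ 2 * u ^ 2 / 4 - a * b * u - b * u / 4 + c * (a - b * u / 2) +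
      2 * u ^ 2 * (a * u ^ 2 - k - b * u ^ 3 / 2) - (a * u ^ 2 - k - b * u ^ 3 / 2) ^ 2 -
      u ^ 2 * (-k + b * u ^ 3 / 4)| ≤ 20 * A ^ 2 + 20 * A := by
  have hA : 0 ≤ A := (abs_nonneg a).trans ha
  have p2 : u ^ 2 ≤ 1 := pow_le_one₀ hu0 hu1
  have p3 : u ^ 3 ≤ 1 := pow_le_one₀ hu0 hu1
  have q2 : 0 ≤ u ^ 2 := by positivity
  have q3 : 0 ≤ u ^ 3 := by positivity
  have m : ∀ {y v : ℝ}, |y| ≤ A → 0 ≤ v → v ≤ 1 → |y * v| ≤ A := fun {y v} hy h0 h1 => by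
    rw [abs_mul, abs_of_nonneg h0]
    calc |y| * v ≤ A * 1 := mul_le_mul hy h1 h0 hA
      _ = A := mul_one A
  have h1 := abs_le.mp (m ha q2 p2)
  have h2 := abs_le.mp (m hb q3 p3)
  have h3 := abs_le.mp (m hb hu0 hu1)
  have ha' := abs_le.mp ha
  have hk' := abs_le.mp hk
  set G := a * u ^ 2 - k - b * u ^ 3 / 2 with hG
  set H := -k + b * u ^ 3 / 4 with hH
  set B := b * u with hB
  have g1 : |G| ≤ 3 * A := abs_le.mpr ⟨by linarith, by linarith⟩
  have g2 : |H| ≤ 2 * A := abs_le.mpr ⟨by linarith, by linarith⟩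
  have g3 : |u ^ 2 * G| ≤ 3 * A := by
    rw [abs_mul, abs_of_nonneg q2]
    calc u ^ 2 * |G| ≤ 1 * (3 * A) := mul_le_mul p2 g1 (abs_nonneg _) zero_le_one
      _ = _ := one_mul _
  have g4 : |u ^ 2 * H| ≤ 2 * A := by
    rw [abs_mul, abs_of_nonneg q2]
    calc u ^ 2 * |H| ≤ 1 * (2 * A) := mul_le_mul p2 g2 (abs_nonneg _) zero_le_one
      _ = _ := one_mul _
  have g5 : G ^ 2 ≤ (3 * A) ^ 2 := sq_le_sq' (abs_le.mp g1).1 (abs_le.mp g1).2
  have g6 : a ^ 2 ≤ A ^ 2 := sq_le_sq' ha'.1 ha'.2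
  have g7 : B ^ 2 ≤ A ^ 2 := sq_le_sq' h3.1 h3.2
  have g8 : |a * B| ≤ A ^ 2 := by
    rw [abs_mul, sq]
    exact mul_le_mul ha (abs_le.mpr h3) (abs_nonneg _) hA
  have g9 : |c * (a - B / 2)| ≤ 3 * A := by
    rw [abs_mul, abs_of_nonneg hc0]
    have : |a - B / 2| ≤ 3 / 2 * A := abs_le.mpr ⟨by linarith, by linarith⟩
    calc c * |a - B / 2| ≤ 2 * (3 / 2 * A) := mul_le_mul hc this (abs_nonneg _) zero_le_two
      _ = _ := by ring
  have e : a ^ 2 + a + b ^ 2 * u ^ 2 / 4 - a * b * u - B / 4 + c * (a - B / 2) +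
      2 * u ^ 2 * G - G ^ 2 - u ^ 2 * H =
      a ^ 2 + a + B ^ 2 / 4 - a * B - B / 4 + c * (a - B / 2) +
      2 * (u ^ 2 * G) - G ^ 2 - u ^ 2 * H := by
    rw [hB]; ring
  rw [e]
  have := abs_le.mp g3
  have := abs_le.mp g4
  have := abs_le.mp g8
  have := abs_le.mp g9
  have := sq_nonneg a
  have := sq_nonneg B
  have := sq_nonneg G
  have := sq_nonneg A
  refine abs_le.mpr ⟨by nlinarith, by nlinarith⟩

/-- the algebra behind `lap_radb` (`c = 0`) and `lap_zradb` (`c = 2`) -/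
theorem f0b_alg {A a k b t c : ℝ} (ha : |a| ≤ A) (hk : |k| ≤ A) (hb : |b| ≤ A) (ht : 1 ≤ t)
    (hc0 : 0 ≤ c) (hc : c ≤ 2) :
    |-(1 / 2) * ((a - k * t - b / 2 * (√t)⁻¹) * ((t ^ 2 + 2) / (t ^ 2) ^ 2) +
        ((a - k * t - b / 2 * (√t)⁻¹) ^ 2 + (-(k * t) + b / 4 * (√t)⁻¹)) *
          ((t ^ 2 - 1) / (t ^ 2) ^ 2) + c * ((a - k * t - b / 2 * (√t)⁻¹) / t ^ 2)) -
      (-(k ^ 2 / 2) + k * (a + 1 + c / 2) / t - k * b / (2 * (t * √t)))| ≤
      (10 * A ^ 2 + 10 * |A| + 1) / t ^ 2 := by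
  have hA : 0 ≤ A := (abs_nonneg a).trans ha
  have t0 : 0 < t := by linarith
  set w := √t with hw
  have w1 : 1 ≤ w := Real.one_le_sqrt.mpr ht
  have w0 : 0 < w := by linarith
  have tw : t = w ^ 2 := (Real.sq_sqrt t0.le).symm
  have hu0 : 0 ≤ w⁻¹ := by positivity
  have hu1 : w⁻¹ ≤ 1 := inv_le_one_of_one_le₀ w1
  have h := f0b_err ha hk hb hu0 hu1 hc0 hc
  set X := a ^ 2 + a + b ^ 2 * w⁻¹ ^ 2 / 4 - a * b * w⁻¹ - b * w⁻¹ / 4 + c * (a - b * w⁻¹ / 2) +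
      2 * w⁻¹ ^ 2 * (a * w⁻¹ ^ 2 - k - b * w⁻¹ ^ 3 / 2) - (a * w⁻¹ ^ 2 - k - b * w⁻¹ ^ 3 / 2) ^ 2 -
      w⁻¹ ^ 2 * (-k + b * w⁻¹ ^ 3 / 4) with hX
  have e : -(1 / 2) * ((a - k * t - b / 2 * w⁻¹) * ((t ^ 2 + 2) / (t ^ 2) ^ 2) +
        ((a - k * t - b / 2 * w⁻¹) ^ 2 + (-(k * t) + b / 4 * w⁻¹)) *
          ((t ^ 2 - 1) / (t ^ 2) ^ 2) + c * ((a - k * t - b / 2 * w⁻¹) / t ^ 2)) -
      (-(k ^ 2 / 2) + k * (a + 1 + c / 2) / t - k * b / (2 * (t * w))) = -(1 / 2) * X / t ^ 2 := by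
    rw [hX]
    clear_value w
    subst tw
    field_simp
    ring
  rw [e, abs_div, abs_of_pos (pow_pos t0 2), abs_mul]
  refine div_le_div_of_nonneg_right ?_ (pow_pos t0 2).le
  rw [abs_of_nonneg hA]
  have : |(-(1 / 2) : ℝ)| = 1 / 2 := by norm_num [abs_of_nonneg]
  rw [this]
  linarith

/-- polynomial growth is beaten by the exponential -/
theorem f0b_poly (a : ℝ) {k : ℝ} (hk : 0 < k) :
    ∃ C : ℝ, 0 < C ∧ ∀ t : ℝ, 1 ≤ t → t ^ a * Real.exp (-(k * t)) ≤ C := by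
  obtain ⟨n, hn⟩ := exists_nat_ge a
  refine ⟨(n.factorial : ℝ) / k ^ n, by positivity, fun t ht => ?_⟩
  have t0 : 0 < t := by linarith
  have h1 : t ^ a ≤ t ^ n := by
    rw [← Real.rpow_natCast]
    exact Real.rpow_le_rpow_of_exponent_le ht hn
  have h2 := Real.pow_div_factorial_le_exp (k * t) (by positivity) n
  have h3 : (0 : ℝ) < n.factorial := by positivity
  rw [div_le_iff₀ h3, mul_pow] at h2
  rw [Real.exp_neg, le_div_iff₀ (by positivity)]
  have h4 := Real.exp_pos (k * t)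
  calc t ^ a * (Real.exp (k * t))⁻¹ * k ^ n ≤ t ^ n * (Real.exp (k * t))⁻¹ * k ^ n := by gcongr
    _ = (k ^ n * t ^ n) * (Real.exp (k * t))⁻¹ := by ring
    _ ≤ (Real.exp (k * t) * n.factorial) * (Real.exp (k * t))⁻¹ := by gcongr
    _ = n.factorial := by field_simp

theorem f0b_radb_le (a b : ℝ) {k : ℝ} (hk : 0 < k) :
    ∃ C : ℝ, 0 < C ∧ ∀ x, radb a k b x ≤ C * (1 + ‖x‖ ^ 2) ^ (-(4 : ℝ) / 2) := by
  obtain ⟨C, C0, hC⟩ := f0b_poly (a + 4) hk
  refine ⟨Real.exp |b| * C, by positivity, fun x => ?_⟩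
  have t1 := f0b_jb_one x
  have t0 := f0b_jb_pos x
  have h := hC (jb x) t1
  have e1 : (1 + ‖x‖ ^ 2) ^ (-(4 : ℝ) / 2) = jb x ^ (-(4 : ℝ)) := by
    rw [← f0b_jb_sq, ← Real.rpow_natCast, ← Real.rpow_mul t0.le]
    norm_num
  have e2 : jb x ^ a = jb x ^ (a + 4) * jb x ^ (-(4 : ℝ)) := by
    rw [← Real.rpow_add t0]; congr 1; ring
  have h2 : b / √(jb x) ≤ |b| := by
    have w1 : 1 ≤ √(jb x) := Real.one_le_sqrt.mpr t1
    calc b / √(jb x) ≤ |b| / √(jb x) := by gcongr; exact le_abs_self b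
      _ ≤ |b| := div_le_self (abs_nonneg b) w1
  unfold radb
  rw [e1, e2, Real.exp_add]
  have p1 : 0 < jb x ^ (-(4 : ℝ)) := Real.rpow_pos_of_pos t0 _
  have p2 : 0 < jb x ^ (a + 4) := Real.rpow_pos_of_pos t0 _
  calc jb x ^ (a + 4) * jb x ^ (-(4 : ℝ)) * (Real.exp (-(k * jb x)) * Real.exp (b / √(jb x)))
      = Real.exp (b / √(jb x)) * (jb x ^ (a + 4) * Real.exp (-(k * jb x))) * jb x ^ (-(4 : ℝ)) := by
        ring
    _ ≤ Real.exp |b| * C * jb x ^ (-(4 : ℝ)) := by gcongr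

theorem f0b_memLp (a b : ℝ) {k : ℝ} (hk : 0 < k) : MemLp (radb a k b) 2 volume ∧
    Integrable (radb a k b) ∧ Bd (radb a k b) := by
  obtain ⟨C, C0, hC⟩ := f0b_radb_le a b hk
  have hc : Continuous (radb a k b) := (f0b_radb_smooth a k b).continuous
  have hi : Integrable (fun x : E => (1 + ‖x‖ ^ 2) ^ (-(4 : ℝ) / 2)) volume := by
    refine integrable_rpow_neg_one_add_norm_sq ?_
    simp
    norm_num
  have hle : ∀ x : E, (1 + ‖x‖ ^ 2) ^ (-(4 : ℝ) / 2) ≤ 1 := fun x =>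
    Real.rpow_le_one_of_one_le_of_nonpos (by nlinarith [sq_nonneg ‖x‖]) (by norm_num)
  have hb : ∀ x, radb a k b x ≤ C := fun x => (hC x).trans (by nlinarith [hle x])
  have h1 : Integrable (radb a k b) := by
    refine (hi.const_mul C).mono' hc.aestronglyMeasurable (ae_of_all _ fun x => ?_)
    rw [Real.norm_eq_abs, abs_of_pos (f0b_radb_pos a k b x)]
    exact hC x
  refine ⟨?_, h1, C, ae_of_all _ fun x => ?_⟩
  · rw [memLp_two_iff_integrable_sq hc.aestronglyMeasurable]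
    refine (h1.const_mul C).mono' (hc.pow 2).aestronglyMeasurable (ae_of_all _ fun x => ?_)
    have := f0b_radb_pos a k b x
    rw [Real.norm_eq_abs, abs_of_nonneg (sq_nonneg _)]
    nlinarith [hb x]
  · rw [abs_of_pos (f0b_radb_pos a k b x)]
    exact hb x

theorem f0b_h1 (a b : ℝ) {k : ℝ} (hk : 0 < k)
    (hg : ∀ x, ∇ (radb a k b) x = (radb a k b x * f0bg1 a k b (f0bL x)) • ∇ f0bL x) :
    H1 (radb a k b) := by
  have h1 : ContDiff ℝ 1 (radb a k b) := (f0b_radb_smooth a k b).of_le (by simp)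
  have h2 := (f0b_memLp a b hk).1
  refine (isW_c1 h1).h1 h2 ?_
  refine (h2.const_mul (|a| + k + |b|)).of_le (s01_cont_grad h1).aestronglyMeasurable
    (ae_of_all _ fun x => ?_)
  have t1 := f0b_jb_one x
  have t0 := f0b_jb_pos x
  have r0 := f0b_radb_pos a k b x
  have w1 : 1 ≤ √(jb x) := Real.one_le_sqrt.mpr t1
  have hu0 : 0 ≤ (√(jb x))⁻¹ := by positivity
  have hu1 : (√(jb x))⁻¹ ≤ 1 := inv_le_one_of_one_le₀ w1
  have g1 : |f0bg1 a k b (f0bL x)| ≤ (|a| + k + |b|) * jb x := by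
    rw [f0b_g1]
    have := le_abs_self a
    have := neg_abs_le a
    have b1 : |b / 2 * (√(jb x))⁻¹| ≤ |b| := by
      rw [abs_mul, abs_of_nonneg hu0, abs_div, abs_two]
      nlinarith [abs_nonneg b]
    have b2 := abs_le.mp b1
    have := abs_nonneg a
    have := abs_nonneg b
    refine abs_le.mpr ⟨by nlinarith, by nlinarith⟩
  have g2 : ‖∇ f0bL x‖ ≤ (jb x)⁻¹ := by
    have h0 : (0 : ℝ) < ‖x‖ ^ 2 + 1 := by positivity
    rw [f0bL_grad, norm_smul, Real.norm_eq_abs, abs_of_pos (inv_pos.mpr h0), add_comm,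
      ← f0b_jb_sq]
    calc (jb x ^ 2)⁻¹ * ‖x‖ ≤ (jb x ^ 2)⁻¹ * jb x := by gcongr; exact f0b_norm_le x
      _ = (jb x)⁻¹ := by field_simp
  have c0 : 0 ≤ |a| + k + |b| := by positivity
  rw [hg, norm_smul, Real.norm_eq_abs, Real.norm_eq_abs, abs_mul, abs_mul, abs_of_pos r0,
    abs_of_nonneg c0]
  calc radb a k b x * |f0bg1 a k b (f0bL x)| * ‖∇ f0bL x‖
      ≤ radb a k b x * ((|a| + k + |b|) * jb x) * (jb x)⁻¹ := by gcongr
    _ = (|a| + k + |b|) * radb a k b x := by field_simp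

theorem f0b_rad_cmp (A : ℝ) : ∃ C : ℝ, 0 < C ∧ ∀ a k : ℝ, |a| ≤ A → 0 ≤ k → ∀ x y,
    rad a k y ≤ C * Real.exp ((k + 1 / 4) * ‖y - x‖) * rad a k x := by
  refine ⟨Real.exp (A * Real.log (4 * A + 1) + 1 / 4), Real.exp_pos _, fun a k ha hk x y => ?_⟩
  have hA : 0 ≤ A := (abs_nonneg a).trans ha
  have x0 := f0b_jb_pos x
  have y0 := f0b_jb_pos y
  have x1 := f0b_jb_one x
  have y1 := f0b_jb_one y
  set r := ‖y - x‖ with hr
  have r0 : 0 ≤ r := norm_nonneg _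
  have l1 := f0b_jb_lip x y
  have l2 := f0b_jb_lip y x
  rw [norm_sub_rev] at l2
  have m1 : Real.log (jb y) ≤ Real.log (jb x) + Real.log (1 + r) := by
    rw [← Real.log_mul x0.ne' (by positivity)]
    exact Real.log_le_log y0 (by nlinarith)
  have m2 : Real.log (jb x) ≤ Real.log (jb y) + Real.log (1 + r) := by
    rw [← Real.log_mul y0.ne' (by positivity)]
    exact Real.log_le_log x0 (by nlinarith)
  have m3 : |Real.log (jb y) - Real.log (jb x)| ≤ Real.log (1 + r) :=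
    abs_le.mpr ⟨by linarith, by linarith⟩
  have m4 : a * (Real.log (jb y) - Real.log (jb x)) ≤ A * Real.log (1 + r) := by
    calc _ ≤ |a * (Real.log (jb y) - Real.log (jb x))| := le_abs_self _
      _ = |a| * |Real.log (jb y) - Real.log (jb x)| := abs_mul _ _
      _ ≤ _ := mul_le_mul ha m3 (abs_nonneg _) hA
  have M0 : 0 < 4 * A + 1 := by linarith
  have m5 : Real.log (1 + r) ≤ Real.log (4 * A + 1) + (1 + r) / (4 * A + 1) := by
    have h := Real.log_le_sub_one_of_pos (x := (1 + r) / (4 * A + 1)) (by positivity)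
    rw [Real.log_div (by positivity) M0.ne'] at h
    linarith
  have m6 : A * ((1 + r) / (4 * A + 1)) ≤ (1 + r) / 4 := by
    rw [← mul_div_assoc, div_le_div_iff₀ M0 (by norm_num)]
    nlinarith
  have m7 : A * Real.log (1 + r) ≤ A * Real.log (4 * A + 1) + (1 + r) / 4 := by
    have := mul_le_mul_of_nonneg_left m5 hA
    linarith
  have m8 : k * (jb x - jb y) ≤ k * r := mul_le_mul_of_nonneg_left (by linarith) hk
  show radb a k 0 y ≤ _ * radb a k 0 x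
  unfold radb
  rw [Real.rpow_def_of_pos x0, Real.rpow_def_of_pos y0, ← Real.exp_add, ← Real.exp_add,
    ← Real.exp_add, ← Real.exp_add]
  refine Real.exp_le_exp.mpr ?_
  simp only [zero_div, add_zero]
  nlinarith

theorem f0b_norm_ez : ‖ez‖ = 1 := by
  unfold ez
  simp

theorem f0b_far_alg {p q r t d : ℝ} (hd : 1 ≤ d) (hr : 2 * d ≤ r) (hp : r - d ≤ p) (hq : r - d ≤ q)
    (hpq : |p - q| ≤ 2 * d) (hpar : p ^ 2 + q ^ 2 = 2 * r ^ 2 + 2 * d ^ 2) (ht : t ^ 2 = 1 + r ^ 2)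
    (t0 : 0 < t) : |-(1 / p) - 1 / q + 2 / t| ≤ 100 * d ^ 2 / t ^ 3 := by
  have r0 : 0 < r := by linarith
  have p1 : r / 2 ≤ p := by linarith
  have q1 : r / 2 ≤ q := by linarith
  have p0 : 0 < p := by linarith
  have q0 : 0 < q := by linarith
  have s1 : (p - q) ^ 2 ≤ (2 * d) ^ 2 := sq_le_sq' (abs_le.mp hpq).1 (abs_le.mp hpq).2
  have s2 : 2 * r ≤ p + q := by
    have : (2 * r) ^ 2 ≤ (p + q) ^ 2 := by nlinarith
    exact (pow_le_pow_iff_left₀ (by positivity) (by positivity) two_ne_zero).mp this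
  have s3 : (p + q - 2 * r) * r ≤ d ^ 2 := by nlinarith [sq_nonneg (p - q)]
  have tr : r ≤ t := by
    have : r ^ 2 ≤ t ^ 2 := by linarith
    exact (pow_le_pow_iff_left₀ (by positivity) (by positivity) two_ne_zero).mp this
  have tr2 : t ≤ 3 / 2 * r := by
    have : t ^ 2 ≤ (3 / 2 * r) ^ 2 := by nlinarith
    exact (pow_le_pow_iff_left₀ (by positivity) (by positivity) two_ne_zero).mp this
  have e1 : 1 / p + 1 / q - 4 / (p + q) = (p - q) ^ 2 / (p * q * (p + q)) := by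
    field_simp
    ring
  have a1 : 0 ≤ 1 / p + 1 / q - 4 / (p + q) := by rw [e1]; positivity
  have a2 : 1 / p + 1 / q - 4 / (p + q) ≤ 8 * d ^ 2 / r ^ 3 := by
    rw [e1]
    calc (p - q) ^ 2 / (p * q * (p + q)) ≤ (2 * d) ^ 2 / (r / 2 * (r / 2) * (2 * r)) := by gcongr
      _ = 8 * d ^ 2 / r ^ 3 := by field_simp; ring
  have e2 : 2 / r - 4 / (p + q) = 2 * ((p + q - 2 * r) * r) / (r ^ 2 * (p + q)) := by
    field_simp
    ring
  have a3 : 0 ≤ 2 / r - 4 / (p + q) := by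
    rw [e2]
    have : 0 ≤ p + q - 2 * r := by linarith
    positivity
  have a4 : 2 / r - 4 / (p + q) ≤ d ^ 2 / r ^ 3 := by
    rw [e2]
    calc 2 * ((p + q - 2 * r) * r) / (r ^ 2 * (p + q)) ≤ 2 * d ^ 2 / (r ^ 2 * (2 * r)) := by gcongr
      _ = d ^ 2 / r ^ 3 := by field_simp
  have e3 : 2 / r - 2 / t = 2 / (r * t * (t + r)) := by
    have : (t - r) * (t + r) = 1 := by nlinarith
    field_simp
    nlinarith
  have a5 : 0 ≤ 2 / r - 2 / t := by rw [e3]; positivity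
  have a6 : 2 / r - 2 / t ≤ d ^ 2 / r ^ 3 := by
    rw [e3]
    have d1 : 1 ≤ d ^ 2 := by nlinarith
    calc 2 / (r * t * (t + r)) ≤ 2 / (r * r * (r + r)) := by gcongr
      _ = 1 / r ^ 3 := by field_simp; ring
      _ ≤ d ^ 2 / r ^ 3 := by gcongr
  have a7 : 10 * (d ^ 2 / r ^ 3) ≤ 100 * d ^ 2 / t ^ 3 := by
    have : t ^ 3 ≤ (3 / 2 * r) ^ 3 := by gcongr
    rw [← mul_div_assoc, div_le_div_iff₀ (by positivity) (by positivity)]
    have d0 : 0 ≤ d ^ 2 := sq_nonneg d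
    have r3 : 0 ≤ r ^ 3 := by positivity
    nlinarith [mul_le_mul_of_nonneg_left this d0, mul_nonneg d0 r3]
  have a8 : 0 ≤ d ^ 2 / r ^ 3 := by positivity
  have e4 : 8 * d ^ 2 / r ^ 3 = 8 * (d ^ 2 / r ^ 3) := by ring
  refine abs_le.mpr ⟨by linarith, by linarith⟩

theorem f0b_vx_far : ∃ C : ℝ, 0 < C ∧ ∀ (d : ℝ) (x : E), 1 ≤ d → 2 * d ≤ ‖x‖ →
    |vx d x + 2 / jb x| ≤ C * d ^ 2 / jb x ^ 3 := by
  refine ⟨100, by norm_num, fun d x hd hx => ?_⟩
  have hn : ‖d • ez‖ = d := by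
    rw [norm_smul, f0b_norm_ez, Real.norm_eq_abs, abs_of_pos (by linarith), mul_one]
  unfold vx
  refine f0b_far_alg hd hx ?_ ?_ ?_ ?_ (f0b_jb_sq x) (f0b_jb_pos x)
  · have := norm_sub_norm_le x (d • ez)
    linarith
  · have := norm_sub_norm_le x (-(d • ez))
    rw [norm_neg, sub_neg_eq_add] at this
    linarith
  · have := abs_norm_sub_norm_le (x - d • ez) (x + d • ez)
    have e : x - d • ez - (x + d • ez) = (-2 : ℝ) • (d • ez) := by module
    rw [e, norm_smul, hn] at this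
    simpa using this
  · have := parallelogram_law_with_norm ℝ x (d • ez)
    rw [hn] at this
    nlinarith

theorem f0b_R_add (x : E) (d : ℝ) : R (x + d • ez) = R x - d • ez := by
  unfold R
  have : (x + d • ez) 2 = x 2 + d := by simp [ez]
  rw [this]
  module

theorem f0b_R_sub (x : E) (d : ℝ) : R (x - d • ez) = R x + d • ez := by
  unfold R
  have : (x - d • ez) 2 = x 2 - d := by simp [ez]
  rw [this]
  module

theorem f0b_vx_facts (d : ℝ) : Measurable (vx d) ∧ (∀ x, vx d x ≤ 0 ∧ vx d (R x) = vx d x) ∧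
    ∀ u, H1 u → MemLp (fun x => vx d x * u x) 2 volume ∧
      nsq (fun x => vx d x * u x) ≤ 16 * dir u := by
  refine ⟨?_, fun x => ⟨?_, ?_⟩, fun u hu => ?_⟩
  · unfold vx
    fun_prop
  · unfold vx
    have h1 : 0 ≤ 1 / ‖x - d • ez‖ := by positivity
    have h2 : 0 ≤ 1 / ‖x + d • ez‖ := by positivity
    linarith
  · unfold vx
    rw [← f0b_R_add, ← f0b_R_sub, norm_R, norm_R]
    ring
  · obtain ⟨m1, i1⟩ := hardy hu (d • ez)
    obtain ⟨m2, i2⟩ := hardy hu (-(d • ez))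
    simp only [sub_neg_eq_add] at m2 i2
    have e : (fun x => vx d x * u x) =
        fun x => -(u x / ‖x - d • ez‖) - u x / ‖x + d • ez‖ := by
      funext x
      unfold vx
      ring
    have m : MemLp (fun x => vx d x * u x) 2 volume := by
      rw [e]
      exact m1.neg.sub m2
    refine ⟨m, ?_⟩
    have j1 := m1.integrable_sq
    have j2 := m2.integrable_sq
    have j := m.integrable_sq
    unfold nsq
    calc ∫ x, (vx d x * u x) ^ 2
        ≤ ∫ x, (2 * (u x / ‖x - d • ez‖) ^ 2 + 2 * (u x / ‖x + d • ez‖) ^ 2) := by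
          refine integral_mono j ((j1.const_mul 2).add (j2.const_mul 2)) fun x => ?_
          have := congrFun e x
          simp only at this ⊢
          rw [this]
          nlinarith [sq_nonneg (u x / ‖x - d • ez‖ - u x / ‖x + d • ez‖)]
      _ = 2 * (∫ x, (u x / ‖x - d • ez‖) ^ 2) + 2 * ∫ x, (u x / ‖x + d • ez‖) ^ 2 := by
          rw [integral_add (j1.const_mul 2) (j2.const_mul 2), integral_const_mul, integral_const_mul]
      _ ≤ 16 * dir u := by linarith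

end

end Crest.Agent.R335
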