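import Crest.Agent.R335.S04

set_option autoImplicit false

open MeasureTheory Set Filter Topology Metric
open scoped Gradient ContDiff RealInnerProductSpace ENNReal

namespace Crest.Agent.R335

noncomputable section

variable {V : Type*} [NormedAddCommGroup V] [InnerProductSpace ℝ V] [FiniteDimensional ℝ V]
  [MeasurableSpace V] [BorelSpace V]

/-! Lipschitz functions (Rademacher + `LipschitzWith.integral_lineDeriv_mul_eq`) and the converse -/

omit [MeasurableSpace V] [BorelSpace V] in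
theorem s05_inner_grad (u : V → ℝ) (x v : V) : ⟪∇ u x, v⟫ = fderiv ℝ u x v := by
  simp [gradient, InnerProductSpace.toDual_symm_apply]

omit [MeasurableSpace V] [BorelSpace V] in
theorem s05_norm_grad (u : V → ℝ) (x : V) : ‖∇ u x‖ = ‖fderiv ℝ u x‖ := by
  simp [gradient]

theorem s05_meas_grad (u : V → ℝ) : Measurable (∇ u) := by
  have : (∇ u) = fun x => (InnerProductSpace.toDual ℝ V).symm (fderiv ℝ u x) := rfl
  rw [this]
  exact (InnerProductSpace.toDual ℝ V).symm.continuous.measurable.comp (measurable_fderiv ℝ u)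

omit [MeasurableSpace V] [BorelSpace V] in
theorem s05_cont_grad {u : V → ℝ} (h : ContDiff ℝ 1 u) : Continuous (∇ u) := by
  have : (∇ u) = fun x => (InnerProductSpace.toDual ℝ V).symm (fderiv ℝ u x) := rfl
  rw [this]
  exact (InnerProductSpace.toDual ℝ V).symm.continuous.comp (h.continuous_fderiv (by simp))

/-- integration by parts for a globally Lipschitz function -/
theorem s05_ibp_lip {u : V → ℝ} {C : NNReal} (h : LipschitzWith C u) {φ : V → ℝ} (hφ : Tst φ)
    (v : V) : ∫ x, u x * ⟪∇ φ x, v⟫ = -∫ x, ⟪∇ u x, v⟫ * φ x := by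
  obtain ⟨K, hK⟩ := ContDiff.lipschitzWith_of_hasCompactSupport hφ.2 hφ.1 (by simp)
  have e := h.integral_lineDeriv_mul_eq (μ := volume) hK hφ.2 v
  have e1 : ∫ x, lineDeriv ℝ u x v * φ x = ∫ x, ⟪∇ u x, v⟫ * φ x := by
    refine integral_congr_ae ?_
    filter_upwards [h.ae_differentiableAt (μ := volume)] with x hx
    rw [hx.lineDeriv_eq_fderiv, s05_inner_grad]
  have e2 : ∫ x, lineDeriv ℝ φ x (-v) * u x = -∫ x, u x * ⟪∇ φ x, v⟫ := by
    rw [← integral_neg]
    refine integral_congr_ae (Eventually.of_forall fun x => ?_)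
    have hx : DifferentiableAt ℝ φ x := (hφ.1.differentiable (by simp)) x
    simp only
    rw [hx.lineDeriv_eq_fderiv, s05_inner_grad, map_neg]
    ring
  rw [← e1, e, e2, neg_neg]

omit [MeasurableSpace V] [BorelSpace V] in
/-- a locally Lipschitz function agrees on a ball with a globally Lipschitz one -/
theorem s05_ext {u : V → ℝ} (h : LocallyLipschitz u) (r : ℝ) :
    ∃ (C : NNReal) (w : V → ℝ), LipschitzWith C w ∧ (∀ x ∈ ball (0 : V) r, u x = w x) ∧
      ∀ x ∈ ball (0 : V) r, ∇ u x = ∇ w x := by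
  obtain ⟨C, hC⟩ := LocallyLipschitzOn.exists_lipschitzOnWith_of_compact
    (isCompact_closedBall (0 : V) r) h.locallyLipschitzOn
  obtain ⟨w, hw, e⟩ := hC.extend_real
  refine ⟨C, w, hw, fun x hx => e (ball_subset_closedBall hx), fun x hx => ?_⟩
  have : u =ᶠ[𝓝 x] w := by
    filter_upwards [isOpen_ball.mem_nhds hx] with y hy
    exact e (ball_subset_closedBall hy)
  exact this.gradient_eq

theorem s05_memLp_of_bd {W : Type*} [NormedAddCommGroup W] {f : V → W} {K : Set V}
    (hK : IsCompact K) (hf : AEStronglyMeasurable f volume) {C : ℝ} (h : ∀ x ∈ K, ‖f x‖ ≤ C)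
    (p : ℝ≥0∞) : MemLp f p (volume.restrict K) := by
  have : IsFiniteMeasure (volume.restrict K) := isFiniteMeasure_restrict.2 hK.measure_ne_top
  refine MemLp.of_bound hf.restrict C ?_
  exact (ae_restrict_iff' hK.measurableSet).2 (Eventually.of_forall h)

omit [MeasurableSpace V] [BorelSpace V] in
theorem s05_grad_bd {u : V → ℝ} (h : LocallyLipschitz u) {K : Set V} (hK : IsCompact K) :
    ∃ C : ℝ, ∀ x ∈ K, ‖∇ u x‖ ≤ C := by
  obtain ⟨r, hr⟩ := hK.isBounded.subset_ball (0 : V)
  obtain ⟨C, w, hw, -, e⟩ := s05_ext h r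
  refine ⟨C, fun x hx => ?_⟩
  rw [e x (hr hx), s05_norm_grad]
  exact norm_fderiv_le_of_lipschitz ℝ hw

theorem s05_isW_lip {u : V → ℝ} (h : LocallyLipschitz u) : IsW u (∇ u) := by
  refine ⟨h.continuous.locallyIntegrable, ?_, fun φ hφ v => ?_⟩
  · rw [locallyIntegrable_iff]
    intro K hK
    obtain ⟨C, hC⟩ := s05_grad_bd h hK
    exact memLp_one_iff_integrable.1
      (s05_memLp_of_bd hK (s05_meas_grad u).aestronglyMeasurable hC 1)
  · obtain ⟨r, hr⟩ := hφ.2.isCompact.isBounded.subset_ball (0 : V)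
    obtain ⟨C, w, hw, e0, e⟩ := s05_ext h r
    have e1 : ∀ x, u x * ⟪∇ φ x, v⟫ = w x * ⟪∇ φ x, v⟫ := by
      intro x
      by_cases hx : x ∈ ball (0 : V) r
      · rw [e0 x hx]
      · have : fderiv ℝ φ x = 0 := by
          by_contra hne
          exact hx (hr (support_fderiv_subset ℝ (Function.mem_support.2 hne)))
        rw [s05_inner_grad, this]
        simp
    have e2 : ∀ x, ⟪∇ u x, v⟫ * φ x = ⟪∇ w x, v⟫ * φ x := by
      intro x
      by_cases hx : x ∈ ball (0 : V) r
      · rw [e x hx]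
      · have : φ x = 0 := by
          by_contra hne
          exact hx (hr (subset_tsupport _ (Function.mem_support.2 hne)))
        rw [this]
        simp
    simp_rw [e1, e2]
    exact s05_ibp_lip hw hφ v

theorem bl_lip {u : V → ℝ} (h : LocallyLipschitz u) : Bl u ∧ ∀ᵐ x, D u x = ∇ u x := by
  have hW := s05_isW_lip h
  refine ⟨⟨hW.hl (fun K hK => ?_) (fun K hK => ?_), Continuous.lb' h.continuous⟩, hW.D_eq⟩
  · obtain ⟨C, hC⟩ := hK.exists_bound_of_continuousOn h.continuous.continuousOn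
    exact s05_memLp_of_bd hK h.continuous.aestronglyMeasurable hC 2
  · obtain ⟨C, hC⟩ := s05_grad_bd h hK
    exact s05_memLp_of_bd hK (s05_meas_grad u).aestronglyMeasurable hC 2

theorem lip_D_le' {u : V → ℝ} {L : ℝ} (hL : 0 ≤ L) (h : ∀ x y, |u x - u y| ≤ L * ‖x - y‖) :
    Bl u ∧ ∀ᵐ x, ‖D u x‖ ≤ L := by
  have hl : LipschitzWith ⟨L, hL⟩ u := by
    refine LipschitzWith.of_dist_le_mul fun x y => ?_
    rw [Real.dist_eq, dist_eq_norm]
    exact h x y
  obtain ⟨h1, h2⟩ := bl_lip hl.locallyLipschitz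
  refine ⟨h1, ?_⟩
  filter_upwards [h2] with x hx
  rw [hx, s05_norm_grad]
  exact norm_fderiv_le_of_lipschitz ℝ hl

theorem lip_D_le [Nontrivial V] {u : V → ℝ} {L : ℝ} (h : ∀ x y, |u x - u y| ≤ L * ‖x - y‖) :
    Bl u ∧ ∀ᵐ x, ‖D u x‖ ≤ L := by
  refine lip_D_le' ?_ h
  obtain ⟨x, hx⟩ := exists_ne (0 : V)
  have h1 := (abs_nonneg _).trans (h x 0)
  rw [sub_zero] at h1
  exact nonneg_of_mul_nonneg_left h1 (norm_pos_iff.2 hx)

/-- a function that is `C¹` on an open set `U` and locally Lipschitz everywhere -/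
theorem D_eq_grad_on {u : V → ℝ} {U : Set V} (a : Hl u) (hU : IsOpen U) (h : ContDiffOn ℝ 1 u U) :
    ∀ᵐ x, x ∈ U → D u x = ∇ u x := by
  have key : ∀ c ∈ U, ∃ r > 0, ∀ᵐ x, x ∈ ball c r → D u x = ∇ u x := by
    intro c hc
    obtain ⟨ε, hε, hεU⟩ := Metric.isOpen_iff.1 hU c hc
    let j : ContDiffBump c := ⟨ε / 3, 2 * ε / 3, by positivity, by linarith⟩
    have hw : ContDiff ℝ 1 (fun x => j x * u x) := by
      rw [contDiff_iff_contDiffAt]
      intro x
      by_cases hx : x ∈ U
      · exact (j.contDiff.contDiffAt).mul (h.contDiffAt (hU.mem_nhds hx))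
      · have hx' : x ∉ tsupport j := by
          rw [j.tsupport_eq]
          intro hh
          exact hx (hεU (closedBall_subset_ball (by show 2 * ε / 3 < ε; linarith) hh))
        have : (fun x => j x * u x) =ᶠ[𝓝 x] fun _ => 0 := by
          filter_upwards [notMem_tsupport_iff_eventuallyEq.1 hx'] with y hy
          simp [hy]
        exact contDiffAt_const.congr_of_eventuallyEq this
    have e : ∀ x ∈ ball c (ε / 3), u x = j x * u x := by
      intro x hx
      rw [j.one_of_mem_closedBall (ball_subset_closedBall hx), one_mul]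
    refine ⟨ε / 3, by positivity, ?_⟩
    filter_upwards [D_eqOn a (bl_c1 hw).hl isOpen_ball (Eventually.of_forall e), D_c1 hw]
      with x h1 h2 hx
    rw [h1 hx, h2]
    have : u =ᶠ[𝓝 x] fun x => j x * u x := by
      filter_upwards [isOpen_ball.mem_nhds hx] with y hy
      exact e y hy
    exact this.gradient_eq.symm
  rw [ae_iff]
  refine measure_null_of_locally_null _ fun c hc => ?_
  simp only [Classical.not_imp, mem_ofPred_eq] at hc
  obtain ⟨r, hr, h1⟩ := key c hc.1
  refine ⟨{x | ¬(x ∈ ball c r → D u x = ∇ u x)}, ?_, ae_iff.1 h1⟩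
  filter_upwards [self_mem_nhdsWithin, mem_nhdsWithin_of_mem_nhds (ball_mem_nhds c hr)]
    with y hy1 hy2
  simp only [Classical.not_imp] at hy1 ⊢
  exact ⟨hy2, hy1.2⟩

theorem s05_int_mul {u φ : V → ℝ} (hu : LocallyIntegrable u volume) (hφ : Continuous φ)
    (hc : HasCompactSupport φ) : Integrable (fun x => φ x * u x) volume :=
  hu.integrable_smul_left_of_hasCompactSupport hφ hc

/-- difference quotients tested against a test function -/
theorem s05_dq {u φ : V → ℝ} (hu : LocallyIntegrable u volume) (hφ : Tst φ) (v : V) :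
    Tendsto (fun t : ℝ => ∫ x, (t⁻¹ * (u (x + t • v) - u x)) * φ x) (𝓝[>] 0)
      (𝓝 (-∫ x, u x * ⟪∇ φ x, v⟫)) := by
  obtain ⟨C, hC⟩ := ContDiff.lipschitzWith_of_hasCompactSupport hφ.2 hφ.1 (by simp)
  set K := cthickening ‖v‖ (tsupport φ) with hKdef
  have hK : IsCompact K := hφ.2.isCompact.cthickening
  have hint : Integrable (K.indicator u) volume :=
    (integrable_indicator_iff hK.measurableSet).2 (hu.integrableOn_isCompact hK)
  have A := hC.integral_inv_smul_sub_mul_tendsto_integral_lineDeriv_mul (μ := volume) hint (-v)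
  have hsub : tsupport φ ⊆ K := self_subset_cthickening _
  have e2 : ∫ x, lineDeriv ℝ φ x (-v) * K.indicator u x = -∫ x, u x * ⟪∇ φ x, v⟫ := by
    rw [← integral_neg]
    refine integral_congr_ae (Eventually.of_forall fun x => ?_)
    have hx : DifferentiableAt ℝ φ x := (hφ.1.differentiable (by simp)) x
    simp only
    rw [hx.lineDeriv_eq_fderiv, s05_inner_grad, map_neg]
    by_cases hxK : x ∈ K
    · rw [indicator_of_mem hxK]; ring
    · have : fderiv ℝ φ x = 0 := by
        by_contra hne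
        exact hxK (hsub (support_fderiv_subset ℝ (Function.mem_support.2 hne)))
      simp [this]
  rw [e2] at A
  refine A.congr' ?_
  filter_upwards [Ioo_mem_nhdsGT (zero_lt_one' ℝ)] with t ht
  have hc := hφ.1.continuous
  have i1 : Integrable (fun x => φ x * u x) volume := s05_int_mul hu hc hφ.2
  have hc2 : HasCompactSupport (fun x => φ (x + t • -v)) :=
    hφ.2.comp_homeomorph (Homeomorph.addRight (t • -v))
  have i2 : Integrable (fun x => φ (x + t • -v) * u x) volume :=
    s05_int_mul hu (by fun_prop) hc2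
  have i3 : Integrable (fun x => φ x * u (x + t • v)) volume := by
    have := i2.comp_add_right (t • v)
    simpa [add_assoc] using this
  have e3 : ∫ x, φ (x + t • -v) * u x = ∫ x, φ x * u (x + t • v) := by
    rw [← integral_add_right_eq_self _ (t • v)]
    simp [add_assoc]
  have e4 : ∀ x, (t⁻¹ • (φ (x + t • -v) - φ x)) * K.indicator u x
      = t⁻¹ * (φ (x + t • -v) * u x - φ x * u x) := by
    intro x
    by_cases hxK : x ∈ K
    · rw [indicator_of_mem hxK, smul_eq_mul]; ring
    · have a1 : φ x = 0 := by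
        by_contra hne
        exact hxK (hsub (subset_tsupport _ (Function.mem_support.2 hne)))
      have a2 : φ (x + t • -v) = 0 := by
        by_contra hne
        apply hxK
        refine mem_cthickening_of_dist_le x (x + t • -v) _ _
          (subset_tsupport _ (Function.mem_support.2 hne)) ?_
        rw [dist_eq_norm]
        simp only [smul_neg, sub_add_cancel_left, neg_neg, norm_smul, Real.norm_eq_abs]
        rw [abs_of_pos ht.1]
        exact mul_le_of_le_one_left (norm_nonneg _) ht.2.le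
      rw [a1, a2]
      simp
  have e5 : ∀ x, (t⁻¹ * (u (x + t • v) - u x)) * φ x
      = t⁻¹ * (φ x * u (x + t • v) - φ x * u x) := fun x => by ring
  simp_rw [e4, e5]
  rw [integral_const_mul, integral_const_mul, integral_sub i2 i1, integral_sub i3 i1, e3]

/-- the tested form of the gradient bound -/
theorem s05_tested {u M φ : V → ℝ} {U : Set V} (a : Hl u) (hM : Continuous M) {r : ℝ} (hr : 0 < r)
    (h : ∀ v : V, ‖v‖ ≤ r → ∀ᵐ x, x ∈ U → |u (x + v) - u x| ≤ M x * ‖v‖)
    (hφ : Tst φ) (h0 : ∀ x, 0 ≤ φ x) (hs : ∀ x, x ∉ U → φ x = 0) (v : V) :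
    ∫ x, ⟪D u x, v⟫ * φ x ≤ (∫ x, φ x * M x) * ‖v‖ := by
  have A := s05_dq a.isW.lu hφ v
  rw [a.isW.ibp φ hφ v, neg_neg] at A
  refine le_of_tendsto A ?_
  have hpos : 0 < r / (‖v‖ + 1) := by positivity
  filter_upwards [Ioo_mem_nhdsGT hpos] with t ht
  have htv : ‖t • v‖ ≤ r := by
    rw [norm_smul, Real.norm_eq_abs, abs_of_pos ht.1]
    have h1 := ht.2
    rw [lt_div_iff₀ (by positivity)] at h1
    nlinarith [ht.1]
  have iM : Integrable (fun x => φ x * M x) volume :=
    s05_int_mul hM.locallyIntegrable hφ.1.continuous hφ.2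
  rw [← integral_mul_const]
  refine (le_abs_self _).trans ?_
  rw [← Real.norm_eq_abs]
  refine norm_integral_le_of_norm_le (iM.mul_const _) ?_
  filter_upwards [h _ htv] with x hx
  by_cases hxU : x ∈ U
  · have h1 := hx hxU
    rw [norm_smul, Real.norm_eq_abs, abs_of_pos ht.1] at h1
    rw [Real.norm_eq_abs, abs_mul, abs_mul, abs_of_nonneg (h0 x), abs_of_pos (inv_pos.2 ht.1)]
    have h2 : t⁻¹ * |u (x + t • v) - u x| ≤ M x * ‖v‖ := by
      rw [inv_mul_le_iff₀ ht.1]
      linarith
    nlinarith [h0 x]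
  · simp [hs x hxU]

theorem Hl.D_le_of_diff' {u M : V → ℝ} {U : Set V} (a : Hl u) (hU : IsOpen U) (hM : Continuous M)
    (hM0 : ∀ x ∈ U, 0 ≤ M x) {r : ℝ} (hr : 0 < r)
    (h : ∀ v : V, ‖v‖ ≤ r → ∀ᵐ x, x ∈ U → |u (x + v) - u x| ≤ M x * ‖v‖) :
    ∀ᵐ x, x ∈ U → ‖D u x‖ ≤ M x := by
  let φ : ℕ → ContDiffBump (0 : V) := fun n =>
    ⟨1 / ((n : ℝ) + 1) / 2, 1 / ((n : ℝ) + 1), by positivity, half_lt_self (by positivity)⟩
  have h1 : Tendsto (fun i => (φ i).rOut) atTop (𝓝 0) := tendsto_one_div_add_atTop_nhds_zero_nat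
  have h2 : ∀ᶠ i in atTop, (φ i).rOut ≤ 2 * (φ i).rIn :=
    Eventually.of_forall fun i => by
      show 1 / ((i : ℝ) + 1) ≤ 2 * (1 / ((i : ℝ) + 1) / 2)
      linarith
  filter_upwards [ContDiffBump.ae_convolution_tendsto_right_of_locallyIntegrable h1 h2 a.isW.lg,
    ContDiffBump.ae_convolution_tendsto_right_of_locallyIntegrable h1 h2 hM.locallyIntegrable]
    with x hx hxM hxU
  obtain ⟨ε, hε, hεU⟩ := Metric.isOpen_iff.1 hU x hxU
  have hv : ∀ v : V, ⟪D u x, v⟫ ≤ M x * ‖v‖ := by
    intro v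
    refine le_of_tendsto_of_tendsto (hx.inner tendsto_const_nhds) (hxM.mul_const ‖v‖) ?_
    filter_upwards [h1.eventually (gt_mem_nhds hε)] with i hi
    have hT : Tst (fun y => (φ i).normed volume (x - y)) :=
      ⟨((φ i).contDiff_normed (μ := volume) (n := 1)).comp (contDiff_const.sub contDiff_id),
        (φ i).hasCompactSupport_normed.comp_homeomorph (Homeomorph.subLeft x)⟩
    have hs : ∀ y, y ∉ U → (φ i).normed volume (x - y) = 0 := by
      intro y hy
      by_contra hne
      have hm : x - y ∈ Function.support ((φ i).normed volume) := Function.mem_support.2 hne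
      rw [(φ i).support_normed_eq, mem_ball_zero_iff] at hm
      apply hy
      apply hεU
      rw [mem_ball, dist_comm, dist_eq_norm]
      exact hm.trans hi
    have key := s05_tested a hM hr h hT (fun y => (φ i).nonneg_normed _) hs v
    simp only [convolution_lsmul_swap, smul_eq_mul]
    have iD : Integrable (fun y => (φ i).normed volume (x - y) • D u y) volume :=
      a.isW.lg.integrable_smul_left_of_hasCompactSupport hT.1.continuous hT.2
    rw [real_inner_comm, ← integral_inner iD]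
    refine le_of_eq_of_le ?_ key
    refine integral_congr_ae (Eventually.of_forall fun y => ?_)
    simp only [inner_smul_right]
    rw [real_inner_comm]
    ring
  have h3 := hv (D u x)
  rw [real_inner_self_eq_norm_mul_norm] at h3
  rcases (norm_nonneg (D u x)).eq_or_lt with h4 | h4
  · rw [← h4]; exact hM0 x hxU
  · exact le_of_mul_le_mul_right h3 h4

/-- a.e. difference-quotient bound gives a gradient bound -/
theorem Hl.D_le_of_diff [Nontrivial V] {u M : V → ℝ} {U : Set V} (a : Hl u) (hU : IsOpen U)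
    (hM : Continuous M) {r : ℝ} (hr : 0 < r)
    (h : ∀ v : V, ‖v‖ ≤ r → ∀ᵐ x, x ∈ U → |u (x + v) - u x| ≤ M x * ‖v‖) :
    ∀ᵐ x, x ∈ U → ‖D u x‖ ≤ M x := by
  obtain ⟨v, hv⟩ := exists_norm_eq V hr.le
  have h1 := a.D_le_of_diff' (M := fun x => Max.max (M x) 0) hU (hM.max continuous_const)
    (fun x _ => le_max_right _ _) hr (fun w hw => by
      filter_upwards [h w hw] with x hx hxU
      exact (hx hxU).trans (mul_le_mul_of_nonneg_right (le_max_left _ _) (norm_nonneg _)))
  filter_upwards [h1, h v hv.le] with x hx hx2 hxU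
  have h2 := (abs_nonneg _).trans (hx2 hxU)
  rw [hv] at h2
  have h3 : 0 ≤ M x := nonneg_of_mul_nonneg_left h2 hr
  have h4 := hx hxU
  rwa [max_eq_left h3] at h4

theorem s05_cs01 {f : ℝ → ℝ} (hf : Continuous f) :
    (∫ t in (0 : ℝ)..1, f t) ^ 2 ≤ ∫ t in (0 : ℝ)..1, f t ^ 2 := by
  set c := ∫ t in (0 : ℝ)..1, f t with hc
  have h0 : 0 ≤ ∫ t in (0 : ℝ)..1, (f t - c) ^ 2 :=
    intervalIntegral.integral_nonneg zero_le_one fun t _ => sq_nonneg _
  have e : ∀ t, (f t - c) ^ 2 = f t ^ 2 - 2 * c * f t + c ^ 2 := fun t => by ring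
  simp_rw [e] at h0
  rw [intervalIntegral.integral_add (by apply Continuous.intervalIntegrable; fun_prop)
      (by apply Continuous.intervalIntegrable; fun_prop),
    intervalIntegral.integral_sub (by apply Continuous.intervalIntegrable; fun_prop)
      (by apply Continuous.intervalIntegrable; fun_prop),
    intervalIntegral.integral_const_mul, intervalIntegral.integral_const, ← hc] at h0
  simp only [sub_zero, smul_eq_mul, one_mul] at h0
  nlinarith

omit [MeasurableSpace V] [BorelSpace V] in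
theorem s05_pt {φ : V → ℝ} (hφ : ContDiff ℝ 1 φ) (x v : V) :
    (φ (x + v) - φ x) ^ 2 ≤ ‖v‖ ^ 2 * ∫ t in (0 : ℝ)..1, ‖∇ φ (x + t • v)‖ ^ 2 := by
  have hg := s05_cont_grad hφ
  have hd : ∀ t : ℝ, HasDerivAt (fun t : ℝ => φ (x + t • v)) ⟪∇ φ (x + t • v), v⟫ t := by
    intro t
    have h1 : HasDerivAt (fun t : ℝ => x + t • v) v t := by
      simpa using ((hasDerivAt_id t).smul_const v).const_add x
    have h2 := ((hφ.differentiable (by simp)) (x + t • v)).hasFDerivAt.comp_hasDerivAt t h1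
    rw [s05_inner_grad]
    exact h2
  have hc : Continuous fun t : ℝ => ⟪∇ φ (x + t • v), v⟫ := by fun_prop
  have e := intervalIntegral.integral_eq_sub_of_hasDerivAt (a := 0) (b := 1) (fun t _ => hd t)
    (hc.intervalIntegrable _ _)
  simp only [one_smul, zero_smul, add_zero] at e
  rw [← e, ← intervalIntegral.integral_const_mul]
  refine (s05_cs01 hc).trans ?_
  refine intervalIntegral.integral_mono_on zero_le_one
    (by apply Continuous.intervalIntegrable; fun_prop)
    (by apply Continuous.intervalIntegrable; fun_prop) fun t _ => ?_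
  rw [← mul_pow, ← sq_abs]
  refine pow_le_pow_left₀ (abs_nonneg _) ?_ 2
  rw [mul_comm]
  exact abs_real_inner_le_norm _ _

theorem s05_diff_tst {φ : V → ℝ} (hφ : Tst φ) (v : V) :
    ∫ x, (φ (x + v) - φ x) ^ 2 ≤ ‖v‖ ^ 2 * ∫ x, ‖∇ φ x‖ ^ 2 := by
  have hg := s05_cont_grad hφ.1
  have hcs : HasCompactSupport (fun x => ‖∇ φ x‖ ^ 2) := by
    refine (hφ.2.fderiv ℝ).mono ?_
    intro x hx
    rw [Function.mem_support] at hx ⊢
    intro h0
    apply hx
    rw [s05_norm_grad, h0]
    simp
  have i0 : Integrable (fun x => ‖∇ φ x‖ ^ 2) volume :=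
    Continuous.integrable_of_hasCompactSupport (by fun_prop) hcs
  have iP : Integrable (Function.uncurry fun (x : V) (t : ℝ) => ‖∇ φ (x + t • v)‖ ^ 2)
      (volume.prod (volume.restrict (Ioc (0 : ℝ) 1))) := by
    rw [integrable_prod_iff']
    · refine ⟨Eventually.of_forall fun t => i0.comp_add_right (t • v), ?_⟩
      have : ∀ t : ℝ, ∫ x, ‖Function.uncurry
          (fun (x : V) (t : ℝ) => ‖∇ φ (x + t • v)‖ ^ 2) (x, t)‖ = ∫ x, ‖‖∇ φ x‖ ^ 2‖ := by
        intro t
        exact integral_add_right_eq_self (fun x => ‖‖∇ φ x‖ ^ 2‖) (t • v)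
      simp_rw [this]
      exact integrable_const _
    · apply Continuous.aestronglyMeasurable
      unfold Function.uncurry
      fun_prop
  have e : ∫ x, ∫ t in (0 : ℝ)..1, ‖∇ φ (x + t • v)‖ ^ 2 = ∫ x, ‖∇ φ x‖ ^ 2 := by
    simp_rw [intervalIntegral.integral_of_le zero_le_one]
    rw [integral_integral_swap iP]
    have : ∀ t : ℝ, ∫ x, ‖∇ φ (x + t • v)‖ ^ 2 = ∫ x, ‖∇ φ x‖ ^ 2 := fun t =>
      integral_add_right_eq_self (fun x => ‖∇ φ x‖ ^ 2) (t • v)
    simp_rw [this]
    simp
  rw [← e, ← integral_const_mul]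
  refine integral_mono_of_nonneg (Eventually.of_forall fun x => sq_nonneg _) ?_
    (Eventually.of_forall fun x => s05_pt hφ.1 x v)
  refine Integrable.const_mul ?_ _
  simp_rw [intervalIntegral.integral_of_le zero_le_one]
  exact iP.integral_prod_left

theorem s05_sq_add {a b δ : ℝ} (hδ : 0 < δ) :
    (a + b) ^ 2 ≤ (1 + δ) * a ^ 2 + (1 + δ⁻¹) * b ^ 2 := by
  have h : 0 ≤ δ⁻¹ * (δ * a - b) ^ 2 := by positivity
  have e : δ⁻¹ * (δ * a - b) ^ 2 = δ * a ^ 2 - 2 * a * b + δ⁻¹ * b ^ 2 := by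
    field_simp
    ring
  nlinarith

/-- `L²` bound of difference quotients -/
theorem H1.diff_le {u : V → ℝ} (h : H1 u) (v : V) :
    ∫ x, (u (x + v) - u x) ^ 2 ≤ ‖v‖ ^ 2 * dir u := by
  have key : ∀ δ : ℝ, 0 < δ → ∫ x, (u (x + v) - u x) ^ 2 ≤
      (1 + δ) * (‖v‖ ^ 2 * ((1 + δ) * dir u + (δ ^ 2 + δ))) + 4 * (δ ^ 2 + δ) := by
    intro δ hδ
    obtain ⟨φ, h1, h2, h3, h4⟩ := h.approx (δ ^ 2) (by positivity)
    have hT : Tst φ := ⟨h1.of_le (by simp), h2⟩
    have hφ := hT.h1
    have hδ2 : (1 + δ⁻¹) * δ ^ 2 = δ ^ 2 + δ := by field_simp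
    have hd1 : 0 ≤ 1 + δ⁻¹ := by positivity
    have mg : MemLp (∇ φ) 2 volume := (memLp_congr_ae (D_c1 hT.1)).1 hφ.dl2
    have iw : Integrable (fun x => (u x - φ x) ^ 2) volume := (h.l2.sub hφ.l2).integrable_sq
    have iw' : Integrable (fun x => (u (x + v) - φ (x + v)) ^ 2) volume := iw.comp_add_right v
    have ew : ∫ x, (u (x + v) - φ (x + v)) ^ 2 = ∫ x, (u x - φ x) ^ 2 :=
      integral_add_right_eq_self (fun x => (u x - φ x) ^ 2) v
    have iφ : Integrable (fun x => (φ (x + v) - φ x) ^ 2) volume := by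
      have m1 : MemLp (fun x => φ (x + v)) 2 volume :=
        hφ.l2.comp_measurePreserving (measurePreserving_add_right volume v)
      exact (m1.sub hφ.l2).integrable_sq
    have iD : Integrable (fun x => ‖D u x‖ ^ 2) volume := h.dl2.norm.integrable_sq
    have iE : Integrable (fun x => ‖D u x - ∇ φ x‖ ^ 2) volume :=
      (h.dl2.sub mg).norm.integrable_sq
    have b1 : ∫ x, ‖∇ φ x‖ ^ 2 ≤ (1 + δ) * dir u + (δ ^ 2 + δ) := by
      have : ∫ x, ‖∇ φ x‖ ^ 2 ≤
          ∫ x, ((1 + δ) * ‖D u x‖ ^ 2 + (1 + δ⁻¹) * ‖D u x - ∇ φ x‖ ^ 2) := by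
        refine integral_mono_of_nonneg (Eventually.of_forall fun x => sq_nonneg _)
          ((iD.const_mul _).add (iE.const_mul _)) (Eventually.of_forall fun x => ?_)
        refine le_trans ?_ (s05_sq_add hδ)
        refine pow_le_pow_left₀ (norm_nonneg _) ?_ 2
        have := norm_sub_le (D u x) (D u x - ∇ φ x)
        rwa [sub_sub_cancel] at this
      rw [integral_add (iD.const_mul _) (iE.const_mul _), integral_const_mul,
        integral_const_mul] at this
      have h5 := mul_le_mul_of_nonneg_left h4 hd1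
      unfold dir
      linarith
    have b2 : ∫ x, (u (x + v) - u x) ^ 2 ≤
        ∫ x, ((1 + δ) * (φ (x + v) - φ x) ^ 2 + (1 + δ⁻¹) *
          (2 * (u (x + v) - φ (x + v)) ^ 2 + 2 * (u x - φ x) ^ 2)) := by
      refine integral_mono_of_nonneg (Eventually.of_forall fun x => sq_nonneg _)
        ((iφ.const_mul _).add (((iw'.const_mul _).add (iw.const_mul _)).const_mul _))
        (Eventually.of_forall fun x => ?_)
      have e : u (x + v) - u x =
          (φ (x + v) - φ x) + ((u (x + v) - φ (x + v)) - (u x - φ x)) := by ring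
      simp only
      rw [e]
      refine (s05_sq_add hδ).trans ?_
      gcongr
      nlinarith [sq_nonneg ((u (x + v) - φ (x + v)) + (u x - φ x))]
    have iS : Integrable (fun x => 2 * (u (x + v) - φ (x + v)) ^ 2 + 2 * (u x - φ x) ^ 2) volume :=
      (iw'.const_mul _).add (iw.const_mul _)
    rw [integral_add (iφ.const_mul _) (iS.const_mul _),
      integral_const_mul, integral_const_mul, integral_add (iw'.const_mul _) (iw.const_mul _),
      integral_const_mul, integral_const_mul, ew] at b2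
    have b3 := (s05_diff_tst hT v).trans (mul_le_mul_of_nonneg_left b1 (sq_nonneg _))
    have b4 := mul_le_mul_of_nonneg_left b3 (show 0 ≤ 1 + δ by positivity)
    have h5 := mul_le_mul_of_nonneg_left h3 hd1
    nlinarith
  have hc : Continuous fun δ : ℝ =>
      (1 + δ) * (‖v‖ ^ 2 * ((1 + δ) * dir u + (δ ^ 2 + δ))) + 4 * (δ ^ 2 + δ) := by fun_prop
  have ht := (hc.tendsto 0).mono_left (nhdsWithin_le_nhds (s := Ioi 0))
  simp only [add_zero, one_mul, ne_eq, OfNat.ofNat_ne_zero, not_false_eq_true, zero_pow,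
    mul_zero] at ht
  refine ge_of_tendsto ht ?_
  filter_upwards [self_mem_nhdsWithin] with δ hδ
  exact key δ hδ

omit [MeasurableSpace V] [BorelSpace V] in
theorem s05_grad_norm {c x : V} (hx : x ≠ c) :
    ∇ (fun x => ‖x - c‖) x = (‖x - c‖)⁻¹ • (x - c) := by
  have h0 : ‖x - c‖ ≠ 0 := norm_ne_zero_iff.2 (sub_ne_zero.2 hx)
  have h1 := ((hasFDerivAt_id x).sub_const c).norm_sq
  have h2 := h1.sqrt (by simpa using h0)
  have e : (fun y : V => √(‖id y - c‖ ^ 2)) = fun y => ‖y - c‖ := by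
    funext y
    simp
  rw [e] at h2
  refine ext_inner_right ℝ fun v => ?_
  rw [s05_inner_grad, h2.fderiv, inner_smul_left]
  simp
  field_simp
  rw [inner_sub_left]

theorem norm_sub_bl (c : V) : Bl (fun x => ‖x - c‖) ∧
    ∀ᵐ x, D (fun x => ‖x - c‖) x = (‖x - c‖)⁻¹ • (x - c) := by
  have hl : LipschitzWith 1 (fun x : V => ‖x - c‖) := by
    refine LipschitzWith.of_dist_le_mul fun x y => ?_
    have := dist_norm_norm_le (x - c) (y - c)
    rw [sub_sub_sub_cancel_right] at this
    simpa [dist_eq_norm] using this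
  obtain ⟨h1, h2⟩ := bl_lip hl.locallyLipschitz
  refine ⟨h1, ?_⟩
  rcases subsingleton_or_nontrivial V with hV | hV
  · exact Eventually.of_forall fun x => Subsingleton.elim _ _
  · have : ∀ᵐ x : V, x ≠ c := by
      rw [ae_iff]
      simp
    filter_upwards [h2, this] with x hx hxc
    rw [hx, s05_grad_norm hxc]

end

end Crest.Agent.R335
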