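import Crest.Agent.R335.Defs4
import Crest.Agent.R335.S12
import Crest.Agent.R335.S07
import Crest.Agent.R335.S05
import Crest.Agent.R335.F0Aux1
import Crest.Agent.R335.F0Aux2

set_option autoImplicit false

open MeasureTheory Set Filter Topology Metric
open scoped Gradient ContDiff RealInnerProductSpace ENNReal

namespace Crest.Agent.R335

noncomputable section

/-! barrier calculus -/
def ell (a k b : ℝ) (x : E) : ℝ := a / jb x - k - b / (2 * (jb x * √(jb x)))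

theorem jb_smooth : ContDiff ℝ ∞ jb := by
  exact (contDiff_const.add (contDiff_norm_sq ℝ)).sqrt fun x => by positivity
theorem jb_facts (x : E) : 1 ≤ jb x ∧ ‖x‖ ≤ jb x ∧ jb x ≤ ‖x‖ + 1 ∧ jb (R x) = jb x ∧
    ∇ jb x = (jb x)⁻¹ • x ∧ jb (hor x) ≤ jb x ∧ ∀ y, |jb x - jb y| ≤ ‖x - y‖ := by
  have h0 := norm_nonneg x
  have h1 : 1 ≤ jb x := Real.one_le_sqrt.2 (by nlinarith)
  refine ⟨h1, Real.le_sqrt_of_sq_le (by linarith), Real.sqrt_le_iff.2 ⟨by linarith, by nlinarith⟩,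
    by rw [jb, norm_R]; rfl, ?_, Real.sqrt_le_sqrt ?_, fun y => ?_⟩
  · have h2 := ((hasStrictFDerivAt_norm_sq x).hasFDerivAt.const_add 1).sqrt (by positivity)
    refine F0a_grad_of (p := jb) (h2.congr_fderiv ?_)
    rw [map_smul, two_smul, ← two_smul ℝ, smul_smul]
    congr 1
    change 1 / (2 * jb x) * 2 = (jb x)⁻¹
    field_simp
  · nlinarith [norm_sq_hor x, sq_nonneg (x 2)]
  · have h2 := F0a_sqrt_lip ‖x‖ ‖y‖
    have h3 := F0a_sqrt_lip ‖y‖ ‖x‖
    have h4 := abs_norm_sub_norm_le x y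
    rw [abs_sub_comm] at h3
    unfold jb
    rw [abs_le]
    constructor <;> linarith
theorem radb_smooth (a k b : ℝ) : ContDiff ℝ ∞ (radb a k b) := by
  have hp : ∀ x, 0 < jb x := fun x => by linarith [(jb_facts x).1]
  exact (jb_smooth.rpow_const_of_ne fun x => (hp x).ne').mul
    ((contDiff_const.mul jb_smooth).neg.add (contDiff_const.div
      (jb_smooth.sqrt fun x => (hp x).ne') fun x => (Real.sqrt_pos.2 (hp x)).ne')).exp
theorem radb_facts (a k b : ℝ) (x : E) : 0 < radb a k b x ∧ radb a k b (R x) = radb a k b x ∧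
    ∇ (radb a k b) x = (radb a k b x * ell a k b x / jb x) • x ∧
    Real.exp (-|b|) * rad a k x ≤ radb a k b x ∧ radb a k b x ≤ Real.exp |b| * rad a k x ∧
    ∀ a' : ℝ, radb (a + a') k b x = jb x ^ a' * radb a k b x := by
  obtain ⟨h1, -, -, h2, h3, -⟩ := jb_facts x
  have hp : 0 < jb x := by linarith
  have hq : 1 ≤ √(jb x) := Real.one_le_sqrt.2 h1
  have hb : |b / √(jb x)| ≤ |b| := by
    rw [abs_div, abs_of_pos (show 0 < √(jb x) by linarith)]
    exact div_le_self (abs_nonneg b) hq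
  have hr := Real.rpow_pos_of_pos hp a
  refine ⟨mul_pos hr (Real.exp_pos _), by rw [radb, h2]; rfl, ?_, ?_, ?_, fun a' => ?_⟩
  · have h4 := F0a_grad_comp (q := jb) (x := x) (jb_smooth.differentiable (by simp) x)
      (F0a_g_deriv a k b hp)
    rw [h3, smul_smul] at h4
    exact h4
  · simp only [rad, radb, zero_div, add_zero]
    rw [mul_left_comm, ← Real.exp_add]
    exact mul_le_mul_of_nonneg_left (Real.exp_le_exp.2 (by linarith [(abs_le.1 hb).1])) hr.le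
  · simp only [rad, radb, zero_div, add_zero]
    rw [mul_left_comm, ← Real.exp_add]
    exact mul_le_mul_of_nonneg_left (Real.exp_le_exp.2 (by linarith [(abs_le.1 hb).2])) hr.le
  · rw [radb, radb, Real.rpow_add hp]
    ring
theorem lap_mul {p q : E → ℝ} (hp : ContDiff ℝ 2 p) (hq : ContDiff ℝ 2 q) (x : E) :
    lap (fun x => p x * q x) x = p x * lap q x + 2 * ⟪∇ p x, ∇ q x⟫ + q x * lap p x := by
  exact F0a_lap_mul hp hq x
theorem lap_lin {p q : E → ℝ} (hp : ContDiff ℝ 2 p) (hq : ContDiff ℝ 2 q) (s t : ℝ) (x : E) :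
    lap (fun x => s * p x + t * q x) x = s * lap p x + t * lap q x := by
  exact F0a_lap_lin hp hq s t x
theorem lap_comp {q : E → ℝ} {β : ℝ → ℝ} (hq : ContDiff ℝ 2 q) (hβ : ContDiff ℝ 2 β) (x : E) :
    ∇ (fun x => β (q x)) x = deriv β (q x) • ∇ q x ∧
    lap (fun x => β (q x)) x = deriv β (q x) * lap q x + deriv (deriv β) (q x) * ‖∇ q x‖ ^ 2 := by
  exact ⟨F0a_grad_comp (hq.differentiable two_ne_zero x)
    (hβ.differentiable two_ne_zero _).hasDerivAt, F0a_lap_comp hq hβ x⟩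
theorem lap_mul_z {q : E → ℝ} {P : ℝ → ℝ} (hq : ContDiff ℝ 2 q) (hP : ContDiff ℝ 2 P) (x : E) :
    lap (fun x => P (x 2) * q x) x =
      P (x 2) * lap q x + 2 * deriv P (x 2) * ∇ q x 2 + deriv (deriv P) (x 2) * q x := by
  obtain ⟨h1, h2⟩ := lap_comp F0a_z_smooth hP x
  rw [lap_mul (p := fun x => P (x 2)) (hP.comp F0a_z_smooth) hq, h1, h2, F0a_lap_z, coord_two.2,
    real_inner_smul_left, S07.inner_ez, S07.norm_ez]
  ring
theorem f0b_comp (a k b : ℝ) (x : E) :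
    ∇ (radb a k b) x = (radb a k b x * f0bg1 a k b (f0bL x)) • ∇ f0bL x ∧
    lap (radb a k b) x = radb a k b x * (f0bg1 a k b (f0bL x) * ((jb x ^ 2 + 2) / (jb x ^ 2) ^ 2) +
      (f0bg1 a k b (f0bL x) ^ 2 + f0bg2 k b (f0bL x)) * ((jb x ^ 2 - 1) / (jb x ^ 2) ^ 2)) := by
  have h := lap_comp (q := f0bL) (β := f0bβ a k b) (f0bL_smooth.of_le (by norm_cast))
    ((f0bβ_smooth a k b).of_le (by norm_cast)) x
  rw [f0bβ_deriv2, f0bβ_deriv, f0bL_lap, f0bL_grad_sq, ← f0b_radb_eq] at h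
  have e : f0bβ a k b (f0bL x) = radb a k b x := by rw [f0b_radb_eq]
  simp only [e] at h
  refine ⟨h.1, ?_⟩
  rw [h.2]
  ring
theorem lap_radb (A : ℝ) : ∃ C : ℝ, 0 < C ∧ ∀ a k b : ℝ, |a| ≤ A → |k| ≤ A → |b| ≤ A → ∀ x,
    |-(1 / 2) * lap (radb a k b) x - radb a k b x *
      (-(k ^ 2 / 2) + k * (a + 1) / jb x - k * b / (2 * (jb x * √(jb x))))| ≤
        C / jb x ^ 2 * radb a k b x := by
  refine ⟨10 * A ^ 2 + 10 * |A| + 1, by positivity, fun a k b ha hk hb x => ?_⟩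
  have h := f0b_alg ha hk hb (f0b_jb_one x) le_rfl zero_le_two
  have r0 := f0b_radb_pos a k b x
  rw [(f0b_comp a k b x).2, f0b_g1, f0b_g2]
  refine le_trans (le_of_eq ?_) (mul_le_mul_of_nonneg_right h r0.le)
  conv_rhs => rw [← abs_of_pos r0, ← abs_mul]
  congr 1
  ring
theorem lap_zradb (A : ℝ) : ∃ C : ℝ, 0 < C ∧ ∀ a k b : ℝ, |a| ≤ A → |k| ≤ A → |b| ≤ A → ∀ x,
    |-(1 / 2) * lap (fun x => x 2 * radb a k b x) x - x 2 * radb a k b x *
      (-(k ^ 2 / 2) + k * (a + 2) / jb x - k * b / (2 * (jb x * √(jb x))))| ≤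
        C / jb x ^ 2 * (|x 2| * radb a k b x) := by
  refine ⟨10 * A ^ 2 + 10 * |A| + 1, by positivity, fun a k b ha hk hb x => ?_⟩
  have h := f0b_alg ha hk hb (f0b_jb_one x) zero_le_two le_rfl
  have r0 := f0b_radb_pos a k b x
  have t0 := f0b_jb_pos x
  have h1 := lap_mul_z (q := radb a k b) (P := fun s => s) ((f0b_radb_smooth a k b).of_le (by norm_cast))
    contDiff_id x
  have d1 : deriv (fun s : ℝ => s) = fun _ => 1 := funext fun s => deriv_id s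
  have d2 : ∇ f0bL x 2 = x 2 / jb x ^ 2 := by
    rw [f0bL_grad, f0b_jb_sq, add_comm]
    simp [div_eq_inv_mul]
  rw [d1, deriv_const, (f0b_comp a k b x).1] at h1
  simp only [PiLp.smul_apply, smul_eq_mul] at h1
  rw [h1, d2, (f0b_comp a k b x).2, f0b_g1, f0b_g2]
  refine le_trans (le_of_eq ?_) (mul_le_mul_of_nonneg_right h (mul_nonneg (abs_nonneg (x 2)) r0.le))
  conv_rhs => rw [← abs_of_pos r0, ← abs_mul, ← abs_mul]
  congr 1
  ring
theorem radb_memLp (a b : ℝ) {k : ℝ} (hk : 0 < k) : MemLp (radb a k b) 2 volume ∧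
    Integrable (radb a k b) ∧ Bd (radb a k b) ∧ H1 (radb a k b) := by
  obtain ⟨h1, h2, h3⟩ := f0b_memLp a b hk
  exact ⟨h1, h2, h3, f0b_h1 a b hk fun x => (f0b_comp a k b x).1⟩
theorem rad_cmp (A : ℝ) : ∃ C : ℝ, 0 < C ∧ ∀ a k : ℝ, |a| ≤ A → 0 ≤ k → ∀ x y,
    rad a k y ≤ C * Real.exp ((k + 1 / 4) * ‖y - x‖) * rad a k x := by
  exact f0b_rad_cmp A
theorem vx_far : ∃ C : ℝ, 0 < C ∧ ∀ (d : ℝ) (x : E), 1 ≤ d → 2 * d ≤ ‖x‖ →
    |vx d x + 2 / jb x| ≤ C * d ^ 2 / jb x ^ 3 := by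
  exact f0b_vx_far
theorem vx_facts (d : ℝ) : Measurable (vx d) ∧ (∀ x, vx d x ≤ 0 ∧ vx d (R x) = vx d x) ∧
    ∀ u, H1 u → MemLp (fun x => vx d x * u x) 2 volume ∧ nsq (fun x => vx d x * u x) ≤ 16 * dir u := by
  exact f0b_vx_facts d

end

end Crest.Agent.R335
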