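import Crest.Agent.R335.O6

set_option autoImplicit false
set_option linter.unusedVariables false

open MeasureTheory Set Filter Topology Metric
open scoped Gradient ContDiff RealInnerProductSpace ENNReal

namespace Crest.Agent.R335

noncomputable section

/-! Module O: pointwise decay. -/

theorem O9_nsq_ind {S : E → ℝ} {A : Set E} (hA : MeasurableSet A) :
    nsq (A.indicator S) = ∫ y in A, S y ^ 2 := by
  rw [nsq, ← integral_indicator hA]
  refine integral_congr_ae (Eventually.of_forall fun y => ?_)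
  by_cases hy : y ∈ A <;> simp [hy]

theorem O9_YP_split {k : ℝ} (hk : 0 < k) {S : E → ℝ} (hS : MemLp S 2 volume) {A : Set E}
    (hA : MeasurableSet A) (x : E) :
    YP k S x = YP k (A.indicator S) x + YP k (Aᶜ.indicator S) x := by
  unfold YP
  rw [← integral_add (YP_integrable hk (hS.indicator hA) x).1
    (YP_integrable hk (hS.indicator hA.compl) x).1]
  refine integral_congr_ae (Eventually.of_forall fun y => ?_)
  by_cases hy : y ∈ A <;> simp [hy]

theorem O9_v_le {d : ℝ} {y : E} (hd : 0 ≤ d) (h : d + 2 ≤ ‖y‖) : |vx d y| ≤ 1 := by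
  have h1 := O_vx_far (d := d) (t := 2) (x := y) (by norm_num) (by linarith [(O_dn_ge hd y).1])
  linarith

/-- `BS.rep`; split the source at `‖y‖ = ‖x‖/2`: `YP_far` for the inner part, `YP_integrable` and
`BS.tail` (`t = ‖x‖/4`, `|v| ≤ 1`) for the outer part -/
theorem BS.pt_decay : ∃ C : ℝ, 0 < C ∧ ∀ (d e : ℝ) (f : E → ℝ), BS d e f → ∀ x, 40 * d ≤ ‖x‖ →
    |f x| ≤ C * Real.exp (-(‖x‖ / 8)) := by
  obtain ⟨C, hC, ht⟩ := BS.tail
  refine ⟨80 + √C, by positivity, fun d e f h x hx => ?_⟩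
  have hd := h.d100
  obtain ⟨k1, -, -⟩ := h.k_bd
  obtain ⟨hS, hN⟩ := h.vf
  set k := √(-2 * e) with hk
  have k0 : 0 < k := by linarith
  set S : E → ℝ := fun y => -(vx d y * f y) with hSdef
  set A : Set E := ball 0 (‖x‖ / 2) with hA
  have mA : MeasurableSet A := measurableSet_ball
  have iS : Integrable fun y => S y ^ 2 := hS.integrable_sq
  have iF : Integrable fun y => f y ^ 2 := h.s.h1.l2.integrable_sq
  have b1 : |YP k (A.indicator S) x| ≤ 80 * Real.exp (-(‖x‖ / 8)) := by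
    have h1 := YP_far (k := k) (r := ‖x‖ / 2) k0 (by linarith) (hS.indicator mA)
      (Eventually.of_forall fun y hy => indicator_of_notMem (by simpa [hA] using hy) _) (x := x)
      (by linarith)
    have h2 : nsq (A.indicator S) ≤ 1024 := by
      rw [O9_nsq_ind mA]
      exact (setIntegral_le_integral iS (Eventually.of_forall fun y => sq_nonneg _)).trans hN
    have h3 : (‖x‖ / 2) ^ 3 ≤ 6 * Real.exp (‖x‖ / 2) := by
      have := Real.pow_div_factorial_le_exp (‖x‖ / 2) (by positivity) 3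
      norm_num [Nat.factorial] at this
      linarith
    have h4 : √((‖x‖ / 2) ^ 3 * nsq (A.indicator S)) ≤ 80 * Real.exp (‖x‖ / 4) := by
      refine Real.sqrt_le_iff.2 ⟨by positivity, ?_⟩
      have e1 : Real.exp (‖x‖ / 4) ^ 2 = Real.exp (‖x‖ / 2) := by
        rw [← Real.exp_nat_mul]
        congr 1
        push_cast
        ring
      rw [mul_pow, e1]
      have h5 : (‖x‖ / 2) ^ 3 * nsq (A.indicator S) ≤ 6 * Real.exp (‖x‖ / 2) * 1024 :=
        mul_le_mul h3 h2 (integral_nonneg fun y => sq_nonneg _) (by positivity)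
      nlinarith [Real.exp_pos (‖x‖ / 2)]
    refine h1.trans ((mul_le_mul_of_nonneg_left h4 (Real.exp_pos _).le).trans ?_)
    rw [mul_left_comm, ← Real.exp_add]
    refine mul_le_mul_of_nonneg_left (Real.exp_le_exp.2 ?_) (by norm_num)
    nlinarith [norm_nonneg x]
  have b2 : |YP k (Aᶜ.indicator S) x| ≤ √C * Real.exp (-(‖x‖ / 8)) := by
    have hy : ∀ y ∈ Aᶜ, ‖x‖ / 2 ≤ ‖y‖ := fun y hy => by simpa [hA] using hy
    have h1 := (YP_integrable k0 (hS.indicator mA.compl) x).2
    have h2 : nsq (Aᶜ.indicator S) ≤ C * Real.exp (-(‖x‖ / 4)) := by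
      rw [O9_nsq_ind mA.compl]
      refine (setIntegral_mono_on iS.integrableOn iF.integrableOn mA.compl fun y hy' => ?_).trans
        (ht d e f h _ _ mA.compl fun y hy' => ?_)
      · have h3 := O9_v_le (d := d) (y := y) (by linarith) (by linarith [hy y hy'])
        have h4 : vx d y ^ 2 ≤ 1 := by
          rw [← sq_abs]
          nlinarith [abs_nonneg (vx d y)]
        simp only [hSdef]
        nlinarith [sq_nonneg (f y)]
      · linarith [(O_dn_ge (d := d) (by linarith) y).1, hy y hy']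
    have h3 : nsq (Aᶜ.indicator S) / (2 * Real.pi * k) ≤ nsq (Aᶜ.indicator S) :=
      div_le_self (integral_nonneg fun y => sq_nonneg _) (by nlinarith [Real.pi_gt_three])
    refine _root_.abs_le.2 (abs_le_of_sq_le_sq' ?_ (by positivity))
    have e1 : Real.exp (-(‖x‖ / 8)) ^ 2 = Real.exp (-(‖x‖ / 4)) := by
      rw [← Real.exp_nat_mul]
      congr 1
      push_cast
      ring
    rw [mul_pow, Real.sq_sqrt hC.le, e1]
    linarith
  rw [h.rep x, O9_YP_split k0 hS mA x, add_mul]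
  exact (abs_add_le _ _).trans (add_le_add b1 b2)

/-- for `x 2 ≥ 1/2` use `BS.pt_decay`. Otherwise `u0 = YP 8 S` everywhere, `S = (eu - v + 32) u0`
(`yukawa_eq`, `YP_continuous`), `YP_reg` at `x₀ = hor x` with radius `‖x‖/30`,
`M = C exp (-‖x‖/8)`; mean value inequality in `ball x₀ 1 ∋ x, R x`, `2 u0 x = u0 x - u0 (R x)`. -/
theorem O_u_decay : ∃ C : ℝ, 0 < C ∧ ∀ o : OD, o.OK0 → ∀ x ∈ Hp, 42 * o.d ≤ ‖x‖ →
    o.u0 x ≤ C * x 2 * Real.exp (-(‖x‖ / 8)) := by
  obtain ⟨C, hC, hp⟩ := BS.pt_decay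
  obtain ⟨C', hC', hr⟩ := YP_reg
  set K : ℝ := C' * (33 * C * Real.exp 1 + 64) with hK
  have K0 : 0 < K := by positivity
  refine ⟨2 * C + K, by positivity, fun o h x hx hx' => ?_⟩
  have hb := h.bs_u
  have hd := h.d100
  have x2 : 0 ≤ x 2 := hx
  have e0 := Real.exp_pos (-(‖x‖ / 8))
  by_cases hc : 1 / 2 ≤ x 2
  · have h1 := (le_abs_self _).trans (hp _ _ _ hb x (by linarith))
    have h2 : C * 1 ≤ (2 * C + K) * x 2 := by nlinarith
    nlinarith
  push Not at hc
  set S : E → ℝ := fun y => (o.eu - o.v y) * o.u0 y + 8 ^ 2 / 2 * o.u0 y with hSdef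
  have hS : MemLp S 2 volume := h.su.l2.add (h.su.h1.l2.const_mul _)
  have hu : o.u0 = YP 8 S :=
    (Continuous.ae_eq_iff_eq volume h.cu (YP_continuous (by norm_num) hS)).1
      (yukawa_eq (by norm_num) h.su)
  obtain ⟨en1, en2⟩ := hb.en
  have hN : nsq S ≤ 64 ^ 2 := by
    obtain ⟨hV, hV'⟩ := hb.vf
    have i1 : Integrable fun y => o.u0 y ^ 2 := h.su.h1.l2.integrable_sq
    have i2 := hV.integrable_sq
    have h1 : nsq S ≤ ∫ y, (2048 * o.u0 y ^ 2 + 2 * (-(vx o.d y * o.u0 y)) ^ 2) := by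
      refine integral_mono hS.integrable_sq ((i1.const_mul _).add (i2.const_mul _)) fun y => ?_
      have e1 : S y = (o.eu + 32) * o.u0 y + -(vx o.d y * o.u0 y) := by
        simp only [hSdef, OD.v]
        ring
      have e2 : (o.eu + 32) ^ 2 ≤ 1024 := by nlinarith
      have e3 : ((o.eu + 32) * o.u0 y) ^ 2 ≤ 1024 * o.u0 y ^ 2 := by
        rw [mul_pow]
        exact mul_le_mul_of_nonneg_right e2 (sq_nonneg _)
      simp only [e1]
      nlinarith [sq_nonneg ((o.eu + 32) * o.u0 y - -(vx o.d y * o.u0 y))]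
    rw [integral_add (i1.const_mul _) (i2.const_mul _), integral_const_mul, integral_const_mul] at h1
    have h2 : ∫ y, o.u0 y ^ 2 = 1 := h.nu
    have h3 : ∫ y, (-(vx o.d y * o.u0 y)) ^ 2 ≤ 1024 := hV'
    linarith
  have n1 : ‖x - hor x‖ = x 2 := by
    rw [hor, sub_sub_cancel, O1_norm_ez, abs_of_nonneg x2]
  have n2 : ‖R x - hor x‖ = x 2 := by
    have : R x - hor x = (-(x 2)) • ez := by
      unfold R hor
      module
    rw [this, O1_norm_ez, abs_neg, abs_of_nonneg x2]
  have n3 : ‖x - R x‖ = 2 * x 2 := by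
    rw [R, sub_sub_cancel, O1_norm_ez, abs_of_nonneg (by linarith)]
  obtain ⟨r1, r2⟩ := hr S (hor x) (33 * C * Real.exp 1 * Real.exp (-(‖x‖ / 8))) 64 (‖x‖ / 30) hS
    (by positivity) (by norm_num) (by linarith) hN (Eventually.of_forall fun y hy => by
      have h1 : ‖x‖ ≤ x 2 + ‖y - hor x‖ + ‖y‖ := by
        have e1 : x = (x - hor x) - (y - hor x) + y := by abel
        calc ‖x‖ = ‖(x - hor x) - (y - hor x) + y‖ := congrArg norm e1
          _ ≤ ‖x - hor x‖ + ‖y - hor x‖ + ‖y‖ :=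
            (norm_add_le _ _).trans (add_le_add (norm_sub_le _ _) le_rfl)
          _ = _ := by rw [n1]
      have h2 := hp _ _ _ hb y (by linarith)
      have h3 := O9_v_le (d := o.d) (y := y) (by linarith) (by linarith)
      have e1 : S y = (o.eu + 32 - vx o.d y) * o.u0 y := by
        simp only [hSdef, OD.v]
        ring
      have h4 : |o.eu + 32 - vx o.d y| ≤ 33 := by
        rw [abs_le] at h3 ⊢
        constructor <;> linarith [h3.1, h3.2]
      have h5 : Real.exp (-(‖y‖ / 8)) ≤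
          Real.exp 1 * Real.exp (-(‖x‖ / 8)) * Real.exp (4 * ‖y - hor x‖) := by
        rw [← Real.exp_add, ← Real.exp_add]
        exact Real.exp_le_exp.2 (by linarith [norm_nonneg (y - hor x)])
      rw [e1, abs_mul]
      calc |o.eu + 32 - vx o.d y| * |o.u0 y|
          ≤ 33 * (C * (Real.exp 1 * Real.exp (-(‖x‖ / 8)) * Real.exp (4 * ‖y - hor x‖))) :=
            mul_le_mul h4 (h2.trans (mul_le_mul_of_nonneg_left h5 hC.le)) (abs_nonneg _) (by norm_num)
        _ = _ := by ring)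
  have h6 : Real.exp (-(4 * (‖x‖ / 30))) ≤ Real.exp (-(‖x‖ / 8)) :=
    Real.exp_le_exp.2 (by linarith [norm_nonneg x])
  have h7 : ∀ y ∈ ball (hor x) 1, ‖fderiv ℝ (YP 8 S) y‖ ≤ K * Real.exp (-(‖x‖ / 8)) := by
    intro y hy
    have e1 : ‖∇ (YP 8 S) y‖ = ‖fderiv ℝ (YP 8 S) y‖ := LinearIsometryEquiv.norm_map _ _
    rw [← e1]
    refine (r2 y hy).2.1.trans ?_
    rw [hK, mul_assoc C']
    refine mul_le_mul_of_nonneg_left ?_ hC'.le
    linarith
  have h8 := (convex_ball (hor x) 1).norm_image_sub_le_of_norm_fderiv_le (𝕜 := ℝ) (f := YP 8 S)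
    (fun y hy => (r1.contDiffAt (isOpen_ball.mem_nhds hy)).differentiableAt (by norm_num)) h7
    (x := R x) (y := x) (by rw [mem_ball, dist_eq_norm, n2]; linarith)
    (by rw [mem_ball, dist_eq_norm, n1]; linarith)
  rw [← hu, h.odu, n3, Real.norm_eq_abs] at h8
  have h9 := (le_abs_self _).trans h8
  have h10 : 0 ≤ C * x 2 * Real.exp (-(‖x‖ / 8)) := by positivity
  nlinarith

end

end Crest.Agent.R335
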