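import Crest.Agent.R335.O8
import Crest.Agent.R335.O9

set_option autoImplicit false
set_option linter.unusedVariables false

open MeasureTheory Set Filter Topology Metric
open scoped Gradient ContDiff RealInnerProductSpace ENNReal

namespace Crest.Agent.R335

noncomputable section

/-! Module O: bounds on the shell `C0 d² - 1 ≤ ‖x‖ ≤ C0 d²`. `BS.k_bd`, `O_jb_bd`. -/

theorem O11_big (K : ℝ) (hK : 0 < K) : ∃ N0 : ℝ, ∀ N, N0 ≤ N → 0 ≤ N →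
    K * N ^ 5 ≤ Real.exp (N / 20) := by
  refine ⟨K * (720 * 20 ^ 6), fun N hN hN0 => ?_⟩
  have h1 := Real.pow_div_factorial_le_exp (N / 20) (by positivity) 6
  have h2 : ((Nat.factorial 6 : ℕ) : ℝ) = 720 := by norm_num [Nat.factorial]
  rw [h2] at h1
  refine le_trans ?_ h1
  have h3 : (N / 20) ^ 6 / 720 = N / (720 * 20 ^ 6) * N ^ 5 := by ring
  rw [h3]
  refine mul_le_mul_of_nonneg_right ?_ (by positivity)
  rw [le_div_iff₀ (by positivity)]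
  exact hN

theorem O11_low {a k j r N d c : ℝ} (hj1 : 1 ≤ j) (hrj : r ≤ j) (hjr : j ≤ r + 1) (hrN : r ≤ N)
    (hr0 : 0 ≤ r) (ha : a ≤ 2) (hk0 : 0 ≤ k) (hk : k ≤ 21 / 20) (hd0 : 0 ≤ d)
    (hd : d + 8 ≤ N / 2) (hc : 0 < c) (hN : 96 / c * N ^ 5 ≤ Real.exp (N / 20)) :
    3 * (j ^ a * Real.exp (-(k * j))) / Real.exp N ≤
      c * Real.exp (-(k * (r + d + 8))) / (r + d + 8) ^ 3 := by
  rw [div_le_div_iff₀ (by positivity) (by positivity)]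
  have h1 : j ^ a ≤ (2 * N) ^ 2 := by
    calc j ^ a ≤ j ^ (2 : ℝ) := Real.rpow_le_rpow_of_exponent_le hj1 ha
      _ = j ^ 2 := by norm_cast
      _ ≤ (2 * N) ^ 2 := by gcongr; linarith
  have h2 : Real.exp (-(k * j)) ≤ Real.exp (-(k * r)) := by
    apply Real.exp_le_exp.2
    nlinarith
  have h3 : (r + d + 8) ^ 3 ≤ (2 * N) ^ 3 := by gcongr; linarith
  have hN0 : 0 ≤ N := by linarith
  have h4 : 96 * N ^ 5 ≤ c * Real.exp (N / 20) := by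
    have := mul_le_mul_of_nonneg_left hN hc.le
    calc 96 * N ^ 5 = c * (96 / c * N ^ 5) := by field_simp
      _ ≤ _ := this
  calc 3 * (j ^ a * Real.exp (-(k * j))) * (r + d + 8) ^ 3
      ≤ 3 * ((2 * N) ^ 2 * Real.exp (-(k * r))) * (2 * N) ^ 3 := by gcongr
    _ = 96 * N ^ 5 * Real.exp (-(k * r)) := by ring
    _ ≤ c * Real.exp (N / 20) * Real.exp (-(k * r)) := by gcongr
    _ = c * Real.exp (N / 20 + -(k * r)) := by rw [Real.exp_add]; ring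
    _ ≤ c * Real.exp (-(k * (r + d + 8)) + N) := by
        gcongr c * Real.exp ?_
        nlinarith
    _ = c * Real.exp (-(k * (r + d + 8))) * Real.exp N := by rw [Real.exp_add]; ring

theorem O11_up {a k j r N C : ℝ} (hj1 : 1 ≤ j) (hjr : j ≤ r + 1) (hrN : r ≤ N) (hNr : N - 1 ≤ r)
    (ha : -1 ≤ a) (hk0 : 0 ≤ k) (hk : k ≤ 21 / 20) (hN1 : 100 ≤ N) (hC : 0 < C)
    (hN : 6 * C * N ^ 5 ≤ Real.exp (N / 20)) :
    3 * (C * Real.exp (-(r / 8))) ≤ Real.exp N * (j ^ a * Real.exp (-(k * j))) := by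
  have h1 : 1 / (2 * N) ≤ j ^ a := by
    calc 1 / (2 * N) ≤ 1 / j := by gcongr; linarith
      _ = j ^ (-1 : ℝ) := by rw [Real.rpow_neg_one, one_div]
      _ ≤ j ^ a := Real.rpow_le_rpow_of_exponent_le hj1 ha
  have h2 : 3 * C ≤ Real.exp (N / 20) * (1 / (2 * N)) := by
    rw [mul_one_div, le_div_iff₀ (by positivity)]
    have h5 : N ≤ N ^ 5 := le_self_pow₀ (by linarith) (by norm_num)
    nlinarith
  calc 3 * (C * Real.exp (-(r / 8))) = 3 * C * Real.exp (-(r / 8)) := by ring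
    _ ≤ Real.exp (N / 20) * j ^ a * Real.exp (-(r / 8)) := by
        gcongr ?_ * _
        exact h2.trans (by gcongr)
    _ = j ^ a * Real.exp (N / 20 + -(r / 8)) := by rw [Real.exp_add]; ring
    _ ≤ j ^ a * Real.exp (N + -(k * j)) := by
        gcongr j ^ a * Real.exp ?_
        nlinarith
    _ = _ := by rw [Real.exp_add]; ring

theorem O11_N {o : OD} (h : o.OK0) : o.C0 ≤ o.C0 * o.d ^ 2 ∧ 100 ≤ o.C0 * o.d ^ 2 ∧
    o.d + 8 ≤ o.C0 * o.d ^ 2 / 2 ∧ 42 * o.d ≤ o.C0 * o.d ^ 2 - 1 := by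
  have h1 := h.d100
  have h2 := h.C0.1
  have h3 : 100 * o.d ≤ o.d ^ 2 := by nlinarith
  have h4 : 100 * o.d ^ 2 ≤ o.C0 * o.d ^ 2 := by nlinarith
  refine ⟨by nlinarith, by nlinarith, by nlinarith, by nlinarith⟩

theorem O11_exp {k : ℝ} (h1 : 99 / 100 ≤ k) (h2 : k ≤ 21 / 20) :
    2 / k - 1 ≤ 2 ∧ -1 ≤ 2 / k - 1 ∧ 2 / k - 2 ≤ 2 ∧ -1 ≤ 2 / k - 2 := by
  have hk : 0 < k := by linarith
  have h3 : 2 / k ≤ 3 := by rw [div_le_iff₀ hk]; linarith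
  have h4 : 1 ≤ 2 / k := by rw [le_div_iff₀ hk]; linarith
  refine ⟨by linarith, by linarith, by linarith, by linarith⟩

theorem O11_rad (a k : ℝ) (x : E) : rad a k x = jb x ^ a * Real.exp (-(k * jb x)) := by
  simp [radb]

/-- lower: `O_g_low`, `jb^a ≤ jb²`, `exp (C0 d²) ≥ poly · exp (1.05 (d + 8)) / c`;
upper: `BS.pt_decay`, `jb^a ≥ 1`, `exp (C0 d² - k jb) ≥ exp (-0.05 ‖x‖ - 1.05)` -/
theorem O_shell_g : ∃ C1 : ℝ, ∀ o : OD, o.OK0 → C1 ≤ o.C0 → ∀ x, o.C0 * o.d ^ 2 - 1 ≤ ‖x‖ →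
    ‖x‖ ≤ o.C0 * o.d ^ 2 →
    3 * rad (2 / √(-2 * o.eg) - 1) (√(-2 * o.eg)) x / o.Γ0 ≤ o.g0 x ∧
      3 * o.g0 x ≤ o.Γ0 * rad (2 / √(-2 * o.eg) - 1) (√(-2 * o.eg)) x := by
  obtain ⟨c, hc, hlow⟩ := O_g_low
  obtain ⟨C, hC, hup⟩ := BS.pt_decay
  obtain ⟨N1, hN1⟩ := O11_big (96 / c) (by positivity)
  obtain ⟨N2, hN2⟩ := O11_big (6 * C) (by positivity)
  refine ⟨max N1 N2, fun o h hC1 x hx1 hx2 => ?_⟩
  obtain ⟨n1, n2, n3, n4⟩ := O11_N h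
  obtain ⟨k1, k2, -⟩ := h.bs_g.k_bd
  obtain ⟨e1, e2, -, -⟩ := O11_exp k1 k2
  obtain ⟨j1, j2, j3, -⟩ := O_jb_bd x
  have hd := h.d100
  have m1 := hN1 _ (((le_max_left _ _).trans hC1).trans n1) (by linarith)
  have m2 := hN2 _ (((le_max_right _ _).trans hC1).trans n1) (by linarith)
  rw [O11_rad, OD.Γ0]
  constructor
  · refine (O11_low j1 j2 j3 hx2 (norm_nonneg x) e1 (by linarith) k2 (by linarith) n3 hc m1).trans
      (le_trans ?_ (hlow o h x))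
    have hs : ‖x - o.d • ez‖ ≤ ‖x‖ + o.d := by
      refine (norm_sub_le _ _).trans ?_
      rw [O1_norm_ez, abs_of_nonneg (by linarith)]
    have hs0 := norm_nonneg (x - o.d • ez)
    have ht : ‖x‖ + o.d + 8 ≤ (‖x‖ + o.d + 8) ^ 3 :=
      le_self_pow₀ (by linarith [norm_nonneg x]) (by norm_num)
    gcongr
    linarith
  · refine le_trans ?_ (O11_up j1 j3 hx2 hx1 e2 (by linarith) k2 n2 hC m2)
    have := (le_abs_self _).trans (hup _ _ _ h.bs_g x (by linarith))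
    linarith

/-- `O_u_low`, `O_u_decay`, `jb⁻¹ ≤ jb^a ≤ jb` -/
theorem O_shell_u : ∃ C1 : ℝ, ∀ o : OD, o.OK0 → C1 ≤ o.C0 → ∀ x ∈ Hp, o.C0 * o.d ^ 2 - 1 ≤ ‖x‖ →
    ‖x‖ ≤ o.C0 * o.d ^ 2 →
    3 * (x 2 * rad (2 / √(-2 * o.eu) - 2) (√(-2 * o.eu)) x) / o.Γ0 ≤ o.u0 x ∧
      3 * o.u0 x ≤ o.Γ0 * (x 2 * rad (2 / √(-2 * o.eu) - 2) (√(-2 * o.eu)) x) := by
  obtain ⟨c, hc, hlow⟩ := O_u_low
  obtain ⟨C, hC, hup⟩ := O_u_decay
  obtain ⟨N1, hN1⟩ := O11_big (96 / c) (by positivity)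
  obtain ⟨N2, hN2⟩ := O11_big (6 * C) (by positivity)
  refine ⟨max N1 N2, fun o h hC1 x hx hx1 hx2 => ?_⟩
  obtain ⟨n1, n2, n3, n4⟩ := O11_N h
  obtain ⟨k1, k2, -⟩ := h.bs_u.k_bd
  obtain ⟨-, -, e1, e2⟩ := O11_exp k1 k2
  obtain ⟨j1, j2, j3, -⟩ := O_jb_bd x
  have hd := h.d100
  have hx0 : 0 ≤ x 2 := hx
  have m1 := hN1 _ (((le_max_left _ _).trans hC1).trans n1) (by linarith)
  have m2 := hN2 _ (((le_max_right _ _).trans hC1).trans n1) (by linarith)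
  rw [O11_rad, OD.Γ0]
  constructor
  · have h1 := mul_le_mul_of_nonneg_left
      (O11_low j1 j2 j3 hx2 (norm_nonneg x) e1 (by linarith) k2 (by linarith) n3 hc m1) hx0
    refine le_trans (le_of_eq ?_) (h1.trans (le_trans (le_of_eq ?_) (hlow o h x hx)))
    · ring
    · ring
  · have h1 := mul_le_mul_of_nonneg_left
      (O11_up j1 j3 hx2 hx1 e2 (by linarith) k2 n2 hC m2) hx0
    have h2 := hup o h x hx (by linarith)
    nlinarith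

end

end Crest.Agent.R335
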