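import Crest.Agent.R335.O10
import Crest.Agent.R335.O11
import Crest.Agent.R335.F0

set_option autoImplicit false
set_option linter.unusedVariables false

open MeasureTheory Set Filter Topology Metric
open scoped Gradient ContDiff RealInnerProductSpace ENNReal

namespace Crest.Agent.R335

noncomputable section

/-! Module O: comparison with the barriers. -/

theorem O12_lap_smul {q : E → ℝ} (hq : ContDiff ℝ 2 q) (c : ℝ) (x : E) :
    lap (fun x => c * q x) x = c * lap q x := by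
  have h := lap_lin hq hq c 0 x
  simpa only [zero_mul, add_zero] using h

theorem O12_sol_smul {d e : ℝ} {f : E → ℝ} (h : Sol f fun x => (e - vx d x) * f x) (c : ℝ) :
    Sol (fun x => c * f x) fun x => (e - vx d x) * (c * f x) := by
  refine (h.lin h c 0).congr (ae_of_all _ fun x => ?_) (ae_of_all _ fun x => ?_)
  · ring
  · ring

theorem O12_open {p : E → ℝ} {U : Set E} (hp : Continuous p) (hU : IsOpen U)
    (h : ∀ᵐ x, x ∈ U → p x ≤ 0) : ∀ x ∈ U, p x ≤ 0 := by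
  intro x hx
  by_contra hlt
  have ho : IsOpen (U ∩ {y | 0 < p y}) := hU.inter (isOpen_lt continuous_const hp)
  have h1 := ho.measure_pos volume ⟨x, hx, not_le.1 hlt⟩
  refine h1.ne' (measure_mono_null (fun y hy => ?_) (ae_iff.1 h))
  intro h2
  exact absurd (h2 hy.1) (not_le.2 hy.2)

theorem O12_vx {d r : ℝ} (hd : 100 ≤ d) (hr : 2 * d ≤ r) {x : E} (hx : r < ‖x‖) :
    |vx d x| ≤ 1 / 50 := by
  have h1 := (O_dn_ge (by linarith : 0 ≤ d) x).1
  have h2 := O_vx_far (d := d) (x := x) (t := 100) (by norm_num) (by linarith)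
  linarith

theorem O12_sub {d e r : ℝ} {f q : E → ℝ} {Ω : Set E} (hd : 100 ≤ d) (hr : 2 * d ≤ r)
    (hs : Sol f fun x => (e - vx d x) * f x) (hq : ContDiff ℝ 2 q) (hΩ : ∀ x ∈ Ω, r < ‖x‖)
    (hb : ∀ x ∈ Ω, (vx d x - e) * q x ≤ (1 / 2) * lap q x) :
    Sub Ω (fun x => q x + -f x) (fun x => -((vx d x - e) * (q x + -f x))) := by
  have a1 := (sub_c2 (bl_c1 (hq.of_le (by norm_num))).hl isOpen_univ hq.contDiffOn).1
  have a := WSub.add aestronglyMeasurable_const S12_lb_one a1 hs.neg.sub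
  refine a.mono (subset_univ _) (fun K hK hKΩ => ?_) (ae_of_all _ fun x hx => ?_)
  · have i1 : IntegrableOn (fun x => (vx d x - e) * q x) K volume := by
      refine Integrable.bdd_mul (c := 1 / 50 + |e|)
        (hq.continuous.continuousOn.integrableOn_compact hK)
        ((O_vx_meas d).sub_const e).aestronglyMeasurable ?_
      filter_upwards [ae_restrict_mem hK.measurableSet] with x hx
      have := O12_vx hd hr (hΩ x (hKΩ hx))
      exact (abs_sub _ _).trans (by linarith)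
    have i2 := S12_intOn hK (hs.l2.restrict K)
    refine (i1.add i2).neg.congr (ae_of_all _ fun x => ?_)
    simp only [Pi.neg_apply, Pi.add_apply]
    ring
  · have := hb x hx
    linarith

theorem O12_U {d e r : ℝ} (hd : 100 ≤ d) (hr : 2 * d ≤ r) (he : e ≤ -(99 / 200)) :
    ∀ᵐ x : E, r < ‖x‖ → 1 / 4 ≤ vx d x - e := ae_of_all _ fun x hx => by
  have := (abs_le.1 (O12_vx hd hr hx)).1
  linarith

theorem O12_ev {d e r : ℝ} {f q : E → ℝ} (hd : 100 ≤ d) (hr : 2 * d ≤ r) (he : e ≤ -(99 / 200))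
    (hc : Continuous f) (hs : Sol f fun x => (e - vx d x) * f x) (hq : ContDiff ℝ 2 q)
    (hq2 : MemLp q 2 volume) (hb : ∀ x, r < ‖x‖ → (vx d x - e) * q x ≤ (1 / 2) * lap q x)
    (h1 : ∀ x, r < ‖x‖ → ‖x‖ < r + 1 → q x ≤ f x) : ∀ x, r < ‖x‖ → q x ≤ f x := by
  have hp : Continuous fun x => q x + -f x := hq.continuous.add hc.neg
  have a := O12_sub (Ω := univ ∩ {x | r < ‖x‖}) hd hr hs hq (fun x hx => hx.2)
    (fun x hx => hb x hx.2)
  have k := Sub.ext_le isClosed_univ (by norm_num) (by linarith) a (O12_U hd hr he)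
    (Continuous.lb' hp) (hq2.add hs.h1.l2.neg).pos_part
    (ae_of_all _ fun x hx => absurd (mem_univ x) hx)
    (ae_of_all _ fun x h2 h3 => by linarith [h1 x h2 h3])
  intro x hx
  have := O12_open hp (isOpen_lt continuous_const continuous_norm) k x hx
  linarith

theorem O12_od {d e r : ℝ} {f q : E → ℝ} (hd : 100 ≤ d) (hr : 2 * d ≤ r) (he : e ≤ -(99 / 200))
    (hc : Continuous f) (hs : Sol f fun x => (e - vx d x) * f x) (hf : ∀ x, f (R x) = -f x)
    (hq : ContDiff ℝ 2 q) (hq2 : MemLp q 2 volume) (hqo : ∀ x, q (R x) = -q x)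
    (hb : ∀ x ∈ Hp, r < ‖x‖ → (vx d x - e) * q x ≤ (1 / 2) * lap q x)
    (h1 : ∀ x ∈ Hp, r < ‖x‖ → ‖x‖ < r + 1 → q x ≤ f x) : ∀ x ∈ Hp, r < ‖x‖ → q x ≤ f x := by
  have hp : Continuous fun x => q x + -f x := hq.continuous.add hc.neg
  have a := O12_sub (Ω := Hp ∩ {x | r < ‖x‖}) hd hr hs hq (fun x hx => hx.2)
    (fun x hx => hb x hx.1 hx.2)
  set p : E → ℝ := fun x => q x + -f x with hpd
  have hod' : ∀ x, p (R x) = -p x := fun x => by
    simp only [hpd, hf, hqo]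
    ring
  have hod : Od p := ae_of_all _ hod'
  obtain ⟨b1, b2⟩ := a.hl.half hod
  have hbl : Bl (Hp.indicator p) := Bl.half ⟨a.hl, Continuous.lb' hp⟩ hod
  have a' : Sub (Hp ∩ {x | r < ‖x‖}) (Hp.indicator p)
      (fun x => -((vx d x - e) * Hp.indicator p x)) := by
    have a2 : Sub (Hp ∩ {x | r < ‖x‖}) (Hp.indicator p) (fun x => -((vx d x - e) * p x)) := by
      refine ⟨b1, a.li, fun χ hχ h0 => le_trans (le_of_eq ?_) (a.le χ hχ h0)⟩
      obtain ⟨K, hK, hKΩ, -, hz⟩ := S12_supp hχ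
      refine integral_congr_ae ?_
      filter_upwards [hz, b2] with x hz he
      by_cases hx : x ∈ K
      · rw [he, indicator_of_mem (hKΩ hx).1]
      · rw [hz hx, inner_zero_right, inner_zero_right]
    refine a2.mono Subset.rfl (fun K hK hKΩ => ?_) (ae_of_all _ fun x hx => ?_)
    · refine (a.li K hK hKΩ).congr_fun (fun x hx => ?_) hK.measurableSet
      simp only [indicator_of_mem (hKΩ hx).1, hpd]
    · rw [indicator_of_mem hx.1]
  have hcl : IsClosed Hp := isClosed_le continuous_const S07.cont_two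
  have k := Sub.ext_le hcl (by norm_num) (by linarith) a' (O12_U hd hr he) hbl.lb
    ((hq2.add hs.h1.l2.neg).indicator S07.mHp).pos_part
    (ae_of_all _ fun x hx => (indicator_of_notMem hx p).le)
    (ae_of_all _ fun x h2 h3 => by
      by_cases hx : x ∈ Hp
      · rw [indicator_of_mem hx]
        have := h1 x hx h2 h3
        simp only [hpd]
        linarith
      · exact (indicator_of_notMem hx p).le)
  have k2 := O12_open (U := {x : E | r < ‖x‖} ∩ {x : E | 0 < x 2}) hp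
    ((isOpen_lt continuous_const continuous_norm).inter (isOpen_lt continuous_const S07.cont_two))
    (by
      filter_upwards [k] with x hx hm
      have h2 := hx hm.1
      rwa [indicator_of_mem (show x ∈ Hp from (le_of_lt hm.2 : 0 ≤ x 2))] at h2)
  intro x hx hrx
  have h3 : p x ≤ 0 := by
    rcases lt_or_eq_of_le (show 0 ≤ x 2 from hx) with h2 | h2
    · exact k2 x ⟨hrx, h2⟩
    · have h4 : R x = x := by rw [R, ← h2, mul_zero, zero_smul, sub_zero]
      have h5 := hod' x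
      rw [h4] at h5
      linarith
  simp only [hpd] at h3
  linarith

/-- `p = s (q - f)`; `sub_c2` on `univ`, `WSub.mono`, `Sol.sub`, `Sol.neg`, `WSub.add`; `Sub.ext_le` with
`C = univ`, `U = v - e ≥ 1/4` (`O_vx_far`, `O_dn_ge`); a.e. ⇒ everywhere on the open set by continuity. -/
theorem O_cmp_ev {d e r s : ℝ} {f q : E → ℝ} (h : BS d e f) (hr : 2 * d ≤ r) (hs : s = 1 ∨ s = -1)
    (hq : ContDiff ℝ 2 q) (hq2 : MemLp q 2 volume)
    (hb : ∀ x, r < ‖x‖ → s * ((vx d x - e) * q x) ≤ s * ((1 / 2) * lap q x))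
    (h1 : ∀ x, r < ‖x‖ → ‖x‖ < r + 1 → s * q x ≤ s * f x) :
    ∀ x, r < ‖x‖ → s * q x ≤ s * f x := by
  refine O12_ev h.d100 hr h.en.2 (continuous_const.mul h.c) (O12_sol_smul h.s s)
    (contDiff_const.mul hq) (hq2.const_mul s) (fun x hx => ?_) h1
  have := hb x hx
  rw [O12_lap_smul hq]
  linarith

/-- the same with `C = Hp` for `Hp.indicator p` (`Hl.half`, `Bl.half`; test functions are supported in
`Hp`, so `Sub (Hp ∩ Ω) (Hp.indicator p)` follows from `Sub (Hp ∩ Ω) p` by `CS.D_zero`) -/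
theorem O_cmp_od {d e r s : ℝ} {f q : E → ℝ} (h : BS d e f) (hr : 2 * d ≤ r) (hs : s = 1 ∨ s = -1)
    (hf : ∀ x, f (R x) = -f x) (hq : ContDiff ℝ 2 q) (hq2 : MemLp q 2 volume)
    (hqo : ∀ x, q (R x) = -q x)
    (hb : ∀ x ∈ Hp, r < ‖x‖ → s * ((vx d x - e) * q x) ≤ s * ((1 / 2) * lap q x))
    (h1 : ∀ x ∈ Hp, r < ‖x‖ → ‖x‖ < r + 1 → s * q x ≤ s * f x) :
    ∀ x ∈ Hp, r < ‖x‖ → s * q x ≤ s * f x := by
  refine O12_od h.d100 hr h.en.2 (continuous_const.mul h.c) (O12_sol_smul h.s s)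
    (fun x => by rw [hf, mul_neg]) (contDiff_const.mul hq) (hq2.const_mul s)
    (fun x => by rw [hqo, mul_neg]) (fun x hx hrx => ?_) h1
  have := hb x hx hrx
  rw [O12_lap_smul hq]
  linarith

theorem O12_r {o : OD} (h : o.OK0) : 2 * o.d ≤ o.C0 * o.d ^ 2 - 1 := by
  have h1 := h.C0.1
  have h2 := h.d100
  have h3 : 100 * o.d ^ 2 ≤ o.C0 * o.d ^ 2 := mul_le_mul_of_nonneg_right h1 (sq_nonneg _)
  nlinarith

/-- `r = C0 d² - 1`; apply `O_cmp_ev` to `q = radb a k 1 / Γ0` (`s = 1`) and `q = Γ0 radb a k (-1)`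
(`s = -1`); `lap (c q) = c lap q`; `O_bar_ineq`, `O_shell_g`, `O_radb_cmp` -/
theorem O_gfar : ∃ C1 : ℝ, ∀ o : OD, o.OK0 → C1 ≤ o.C0 → ∀ x, o.C0 * o.d ^ 2 ≤ ‖x‖ →
    rad (2 / √(-2 * o.eg) - 1) (√(-2 * o.eg)) x / o.Γ0 ≤ o.g0 x ∧
      o.g0 x ≤ o.Γ0 * rad (2 / √(-2 * o.eg) - 1) (√(-2 * o.eg)) x := by
  obtain ⟨c1, h1⟩ := O_bar_ineq
  obtain ⟨c2, h2⟩ := O_shell_g
  refine ⟨max c1 c2, fun o h hC x hx => ?_⟩
  obtain ⟨k1, k2, k3⟩ := h.bs_g.k_bd
  have h1 := fun s => h1 o.C0 o.d _ s ((le_max_left _ _).trans hC) h.C0.2.2 k1 k2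
  have h2 := h2 o h ((le_max_right _ _).trans hC)
  set k := √(-2 * o.eg) with hk
  have hk0 : 0 < k := by linarith
  have he : ∀ y, vx o.d y - o.eg = vx o.d y + k ^ 2 / 2 := fun y => by rw [k3]; ring
  have hΓ : 0 < o.Γ0 := Real.exp_pos _
  have key : ∀ s c : ℝ, s = 1 ∨ s = -1 → 0 < c →
      (∀ y, o.C0 * o.d ^ 2 - 1 < ‖y‖ → ‖y‖ < o.C0 * o.d ^ 2 - 1 + 1 →
        s * (c * radb (2 / k - 1) k s y) ≤ s * o.g0 y) →
      s * (c * radb (2 / k - 1) k s x) ≤ s * o.g0 x := by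
    intro s c hs hc hsh
    refine O_cmp_ev h.bs_g (O12_r h) hs (contDiff_const.mul (O_radb_c2 _ _ _))
      ((O_radb_l2 _ s hk0).1.const_mul c) (fun y hy => ?_) hsh x (by linarith)
    have := mul_le_mul_of_nonneg_left (h1 s hs y hy.le).1 hc.le
    rw [O12_lap_smul (O_radb_c2 _ _ _), he]
    linarith
  obtain ⟨r1, -, r3, -⟩ := O_radb_cmp (2 / k - 1) k x
  constructor
  · have := key 1 o.Γ0⁻¹ (Or.inl rfl) (inv_pos.2 hΓ) (fun y a b => by
      have s1 := (h2 y a.le (by linarith)).1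
      have s2 := mul_le_mul_of_nonneg_left (O_radb_cmp (2 / k - 1) k y).2.1 (inv_pos.2 hΓ).le
      rw [div_eq_inv_mul] at s1
      linarith)
    have s2 := mul_le_mul_of_nonneg_left r1 (inv_pos.2 hΓ).le
    rw [div_eq_inv_mul]
    linarith
  · have := key (-1) o.Γ0 (Or.inr rfl) hΓ (fun y a b => by
      have s1 := (h2 y a.le (by linarith)).2
      have s2 := mul_le_mul_of_nonneg_left (O_radb_cmp (2 / k - 1) k y).2.2.2 hΓ.le
      linarith)
    have s2 := mul_le_mul_of_nonneg_left r3 hΓ.le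
    linarith

theorem O_ufar : ∃ C1 : ℝ, ∀ o : OD, o.OK0 → C1 ≤ o.C0 → ∀ x ∈ Hp, o.C0 * o.d ^ 2 ≤ ‖x‖ →
    x 2 * rad (2 / √(-2 * o.eu) - 2) (√(-2 * o.eu)) x / o.Γ0 ≤ o.u0 x ∧
      o.u0 x ≤ o.Γ0 * (x 2 * rad (2 / √(-2 * o.eu) - 2) (√(-2 * o.eu)) x) := by
  obtain ⟨c1, h1⟩ := O_bar_ineq
  obtain ⟨c2, h2⟩ := O_shell_u
  refine ⟨max c1 c2, fun o h hC x hxH hx => ?_⟩
  obtain ⟨k1, k2, k3⟩ := h.bs_u.k_bd
  have h1 := fun s => h1 o.C0 o.d _ s ((le_max_left _ _).trans hC) h.C0.2.2 k1 k2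
  have h2 := h2 o h ((le_max_right _ _).trans hC)
  set k := √(-2 * o.eu) with hk
  have hk0 : 0 < k := by linarith
  have he : ∀ y, vx o.d y - o.eu = vx o.d y + k ^ 2 / 2 := fun y => by rw [k3]; ring
  have hΓ : 0 < o.Γ0 := Real.exp_pos _
  have hc2 : ∀ s, ContDiff ℝ 2 fun y : E => y 2 * radb (2 / k - 2) k s y := fun s =>
    S07.contDiff_two.mul (O_radb_c2 _ _ _)
  have key : ∀ s c : ℝ, s = 1 ∨ s = -1 → 0 < c →
      (∀ y ∈ Hp, o.C0 * o.d ^ 2 - 1 < ‖y‖ → ‖y‖ < o.C0 * o.d ^ 2 - 1 + 1 →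
        s * (c * (y 2 * radb (2 / k - 2) k s y)) ≤ s * o.u0 y) →
      s * (c * (x 2 * radb (2 / k - 2) k s x)) ≤ s * o.u0 x := by
    intro s c hs hc hsh
    refine O_cmp_od (q := fun y => c * (y 2 * radb (2 / k - 2) k s y)) h.bs_u (O12_r h) hs h.odu
      (contDiff_const.mul (hc2 s)) ((O_radb_l2 _ s hk0).2.const_mul c)
      (fun y => by rw [R_two, O_radb_R]; ring) (fun y hyH hy => ?_) hsh x hxH (by linarith)
    have := mul_le_mul_of_nonneg_left ((h1 s hs y hy.le).2 hyH) hc.le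
    rw [O12_lap_smul (hc2 s), he]
    linarith
  obtain ⟨r1, -, r3, -⟩ := O_radb_cmp (2 / k - 2) k x
  have hz : ∀ y ∈ Hp, 0 ≤ y 2 := fun y hy => hy
  constructor
  · have := key 1 o.Γ0⁻¹ (Or.inl rfl) (inv_pos.2 hΓ) (fun y hy a b => by
      have s1 := (h2 y hy a.le (by linarith)).1
      have s2 := mul_le_mul_of_nonneg_left (mul_le_mul_of_nonneg_left
        (O_radb_cmp (2 / k - 2) k y).2.1 (hz y hy)) (inv_pos.2 hΓ).le
      rw [div_eq_inv_mul] at s1
      linarith)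
    have s2 := mul_le_mul_of_nonneg_left (mul_le_mul_of_nonneg_left r1 (hz x hxH))
      (inv_pos.2 hΓ).le
    rw [div_eq_inv_mul]
    linarith
  · have := key (-1) o.Γ0 (Or.inr rfl) hΓ (fun y hy a b => by
      have s1 := (h2 y hy a.le (by linarith)).2
      have s2 := mul_le_mul_of_nonneg_left (mul_le_mul_of_nonneg_left
        (O_radb_cmp (2 / k - 2) k y).2.2.2 (hz y hy)) hΓ.le
      linarith)
    have s2 := mul_le_mul_of_nonneg_left (mul_le_mul_of_nonneg_left r3 (hz x hxH)) hΓ.le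
    linarith

end

end Crest.Agent.R335
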