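import Crest.Agent.R335.O13
import Crest.Agent.R335.O9

set_option autoImplicit false
set_option linter.unusedVariables false

open MeasureTheory Set Filter Topology Metric
open scoped Gradient ContDiff RealInnerProductSpace ENNReal

namespace Crest.Agent.R335

noncomputable section

/-! Module O: upper bound of the dipole potential. -/

theorem O14_normR (y : E) : ‖R y‖ = ‖y‖ := by
  have h := O_norm_sub_R 0 y
  simp only [zero_sub, norm_neg, PiLp.zero_apply, mul_zero, zero_mul, add_zero] at h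
  exact (sq_eq_sq₀ (norm_nonneg _) (norm_nonneg _)).1 h

theorem O14_amgm (a b : ℝ) : |a * b| ≤ (a ^ 2 + b ^ 2) / 2 :=
  abs_le.2 ⟨by nlinarith [sq_nonneg (a + b)], by nlinarith [sq_nonneg (a - b)]⟩

theorem O14_real {r s t q : ℝ} (hr : 0 < r) (hs : r / 2 ≤ s) (ht : r / 2 ≤ t)
    (h : t ^ 2 = s ^ 2 + q) : |1 / s - 1 / t| ≤ 4 * |q| / r ^ 3 := by
  have s0 : 0 < s := by linarith
  have t0 : 0 < t := by linarith
  have e : 1 / s - 1 / t = q / (s * t * (s + t)) := by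
    rw [show q = t ^ 2 - s ^ 2 by linarith]
    field_simp
    ring
  have h1 : r / 2 * (r / 2) * r ≤ s * t * (s + t) :=
    mul_le_mul (mul_le_mul hs ht (by linarith) s0.le) (by linarith) hr.le (by positivity)
  rw [e, abs_div, abs_of_pos (show 0 < s * t * (s + t) by positivity)]
  calc |q| / (s * t * (s + t)) ≤ |q| / (r / 2 * (r / 2) * r) := by gcongr
    _ = 4 * |q| / r ^ 3 := by
      field_simp
      ring

theorem O14_bracket {x y : E} (hx : 0 < ‖x‖) (hy : ‖y‖ ≤ ‖x‖ / 2) :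
    |1 / ‖x - y‖ - 1 / ‖x - R y‖| ≤ 16 * |x 2| / ‖x‖ ^ 3 * ‖y‖ := by
  have h1 := norm_sub_norm_le x y
  have h2 := norm_sub_norm_le x (R y)
  rw [O14_normR] at h2
  refine (O14_real hx (by linarith) (by linarith) (O_norm_sub_R x y)).trans ?_
  have h3 := O1_abs_two y
  rw [abs_mul, abs_mul, abs_of_pos (show (0 : ℝ) < 4 by norm_num)]
  calc 4 * (4 * |x 2| * |y 2|) / ‖x‖ ^ 3 ≤ 4 * (4 * |x 2| * ‖y‖) / ‖x‖ ^ 3 := by gcongr
    _ = _ := by ring

theorem O14_abs_le {ρ : E → ℝ} (x : E) : |∫ y, ρ y / ‖x - y‖| ≤ ∫ y, |ρ y| / ‖x - y‖ := by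
  refine abs_integral_le_integral_abs.trans (le_of_eq ?_)
  simp only [abs_div, abs_norm]

/-- the potential of an odd density supported in the half ball -/
theorem O14_inner {ρ B : E → ℝ} {x : E} (hx : 0 < ‖x‖) (hi : Integrable fun y => ρ y / ‖x - y‖)
    (ho : ∀ y, ρ (R y) = -ρ y) (hs : ∀ y, ‖x‖ / 2 < ‖y‖ → ρ y = 0) (hB : Integrable B)
    (hb : ∀ y, |ρ y| * ‖y‖ ≤ B y) :
    |∫ y, ρ y / ‖x - y‖| ≤ 16 * |x 2| / ‖x‖ ^ 3 * ∫ y, B y := by
  have hc : 0 ≤ 16 * |x 2| / ‖x‖ ^ 3 := by positivity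
  have hB0 : ∀ y, 0 ≤ B y := fun y => le_trans (by positivity) (hb y)
  rw [O_integral_fold hi, ← Real.norm_eq_abs]
  refine (norm_integral_le_of_norm_le (hB.const_mul (16 * |x 2| / ‖x‖ ^ 3)).integrableOn
    (ae_of_all _ fun y => ?_)).trans ?_
  · rw [ho, Real.norm_eq_abs]
    rcases le_or_gt ‖y‖ (‖x‖ / 2) with hy | hy
    · have e : ρ y / ‖x - y‖ + -ρ y / ‖x - R y‖ = ρ y * (1 / ‖x - y‖ - 1 / ‖x - R y‖) := by ring
      rw [e, abs_mul]
      calc |ρ y| * |1 / ‖x - y‖ - 1 / ‖x - R y‖| ≤ |ρ y| * (16 * |x 2| / ‖x‖ ^ 3 * ‖y‖) :=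
            mul_le_mul_of_nonneg_left (O14_bracket hx hy) (abs_nonneg _)
        _ = 16 * |x 2| / ‖x‖ ^ 3 * (|ρ y| * ‖y‖) := by ring
        _ ≤ _ := mul_le_mul_of_nonneg_left (hb y) hc
    · rw [hs y hy]
      simpa using mul_nonneg hc (hB0 y)
  · rw [integral_const_mul]
    exact mul_le_mul_of_nonneg_left (setIntegral_le_integral hB (ae_of_all _ hB0)) hc

theorem O14_norm_le {d : ℝ} (hd : 100 ≤ d) (y : E) :
    ‖y‖ ≤ 2 * d * Real.exp (max (dn d y - 8) 0) := by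
  have h1 := (O_dn_ge (by linarith : 0 ≤ d) y).1
  have h2 := Real.add_one_le_exp (max (dn d y - 8) 0)
  have h3 := le_max_left (dn d y - 8) 0
  have h4 := le_max_right (dn d y - 8) 0
  nlinarith

theorem O14_exp {r : ℝ} (hr : 0 < r) : Real.exp (-(r / 16)) ≤ 24576 / r ^ 3 := by
  have h := Real.pow_div_factorial_le_exp (r / 16) (by positivity) 3
  have h6 : ((Nat.factorial 3 : ℕ) : ℝ) = 6 := by norm_num [Nat.factorial]
  rw [h6] at h
  rw [Real.exp_neg, le_div_iff₀ (by positivity), inv_mul_le_iff₀ (Real.exp_pos _)]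
  linarith

theorem O14_far : ∃ A B : ℝ, 0 < A ∧ 0 < B ∧ ∀ o : OD, o.OK0 → ∀ x, 80 * o.d ≤ ‖x‖ →
    |o.U x| ≤ (A * o.d * |x 2| + B) / ‖x‖ ^ 3 := by
  obtain ⟨N, hN, hn⟩ := O_newton_bd
  obtain ⟨P, hP, hp⟩ := BS.pt_decay
  obtain ⟨T, hT, ht⟩ := BS.tail
  obtain ⟨A, hA, ha⟩ := BS.agmon
  refine ⟨32 * A, 24576 * (13 * N * P + T), by positivity, by positivity, fun o h x hx => ?_⟩
  have hd := h.d100
  have hr : 0 < ‖x‖ := by linarith
  have lu := h.su.h1.l2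
  have lg := h.sg.h1.l2
  have hρ : Integrable fun y => o.u0 y * o.g0 y := lu.integrable_mul lg
  set S : Set E := {y | ‖x‖ / 2 < ‖y‖} with hS
  have mS : MeasurableSet S := (isOpen_lt continuous_const continuous_norm).measurableSet
  have b0 : ∀ y, |o.u0 y * o.g0 y| ≤ 169 := fun y => by
    rw [abs_mul]
    exact (mul_le_mul (h.bs_u.abs_le y) (h.bs_g.abs_le y) (abs_nonneg _) (by norm_num)).trans
      (by norm_num)
  have b1 : ∀ y, |Sᶜ.indicator (fun y => o.u0 y * o.g0 y) y| ≤ |o.u0 y * o.g0 y| := fun y =>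
    norm_indicator_le_norm_self (fun y => o.u0 y * o.g0 y) y
  have b2 : ∀ y, |S.indicator (fun y => o.u0 y * o.g0 y) y| ≤ 13 * P * Real.exp (-(‖x‖ / 16)) := by
    intro y
    by_cases hy : y ∈ S
    · have hy' : ‖x‖ / 2 < ‖y‖ := hy
      rw [indicator_of_mem hy, abs_mul, mul_assoc]
      refine mul_le_mul (h.bs_u.abs_le y) ((hp _ _ _ h.bs_g y (by linarith)).trans ?_)
        (abs_nonneg _) (by norm_num)
      exact mul_le_mul_of_nonneg_left (Real.exp_le_exp.2 (by linarith)) hP.le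
    · rw [indicator_of_notMem hy, abs_zero]
      positivity
  obtain ⟨i1, -⟩ := hn _ 169 (hρ.indicator mS.compl) (by norm_num)
    (ae_of_all _ fun y => (b1 y).trans (b0 y)) x
  obtain ⟨i2, j2⟩ := hn _ _ (hρ.indicator mS) (by positivity) (ae_of_all _ b2) x
  have e : o.U x = (∫ y, Sᶜ.indicator (fun y => o.u0 y * o.g0 y) y / ‖x - y‖) +
      ∫ y, S.indicator (fun y => o.u0 y * o.g0 y) y / ‖x - y‖ := by
    rw [← integral_add i1 i2]
    refine integral_congr_ae (ae_of_all _ fun y => ?_)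
    simp only [← add_div, indicator_compl_add_self_apply]
  obtain ⟨au, au'⟩ := ha _ _ _ h.bs_u
  obtain ⟨ag, ag'⟩ := ha _ _ _ h.bs_g
  have k1 := O14_inner hr i1 (fun y => by
      by_cases hy : y ∈ Sᶜ
      · have hy' : R y ∈ Sᶜ := by simpa only [hS, mem_compl_iff, mem_ofPred_eq, O14_normR] using hy
        rw [indicator_of_mem hy, indicator_of_mem hy', h.odu, h.evg, neg_mul]
      · have hy' : R y ∉ Sᶜ := by simpa only [hS, mem_compl_iff, mem_ofPred_eq, O14_normR] using hy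
        rw [indicator_of_notMem hy, indicator_of_notMem hy', neg_zero])
    (fun y hy => indicator_of_notMem (s := Sᶜ) (not_not.2 hy) _) ((au.add ag).const_mul o.d) fun y => by
      have h1 := (b1 y).trans (O14_amgm _ _)
      have h2 := O14_norm_le hd y
      refine (mul_le_mul h1 h2 (norm_nonneg _) (by positivity)).trans ?_
      have h3 : 0 ≤ o.d * Real.exp (max (dn o.d y - 8) 0) *
          (‖D o.u0 y‖ ^ 2 + ‖D o.g0 y‖ ^ 2) := by positivity
      simp only [Pi.add_apply]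
      linarith
  simp only [Pi.add_apply] at k1
  rw [integral_const_mul, integral_add au ag] at k1
  have k2 : ∫ y, |S.indicator (fun y => o.u0 y * o.g0 y) y| ≤ T * Real.exp (-(‖x‖ / 16)) := by
    have hA' : ∀ y ∈ S, ‖x‖ / 16 ≤ dn o.d y := fun y hy => by
      have hy' : ‖x‖ / 2 < ‖y‖ := hy
      have := (O_dn_ge (by linarith : 0 ≤ o.d) y).1
      linarith
    have t1 := ht _ _ _ h.bs_u S _ mS hA'
    have t2 := ht _ _ _ h.bs_g S _ mS hA'
    have e1 : ∫ y, |S.indicator (fun y => o.u0 y * o.g0 y) y| = ∫ y in S, |o.u0 y * o.g0 y| := by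
      rw [← integral_indicator mS]
      refine integral_congr_ae (ae_of_all _ fun y => ?_)
      by_cases hy : y ∈ S
      · simp only [indicator_of_mem hy]
      · simp only [indicator_of_notMem hy, abs_zero]
    have e2 : ∫ y in S, |o.u0 y * o.g0 y| ≤ ∫ y in S, (o.u0 y ^ 2 + o.g0 y ^ 2) / 2 :=
      integral_mono hρ.abs.integrableOn
        ((lu.integrable_sq.add lg.integrable_sq).div_const 2).integrableOn fun y => O14_amgm _ _
    rw [integral_div, integral_add lu.integrable_sq.integrableOn lg.integrable_sq.integrableOn] at e2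
    linarith
  have k3 : |∫ y, S.indicator (fun y => o.u0 y * o.g0 y) y / ‖x - y‖| ≤
      (13 * N * P + T) * (24576 / ‖x‖ ^ 3) :=
    calc _ ≤ (13 * N * P + T) * Real.exp (-(‖x‖ / 16)) := by
          have := O14_abs_le (ρ := S.indicator fun y => o.u0 y * o.g0 y) x
          linarith
      _ ≤ _ := mul_le_mul_of_nonneg_left (O14_exp hr) (by positivity)
  have k4 : |∫ y, Sᶜ.indicator (fun y => o.u0 y * o.g0 y) y / ‖x - y‖| ≤
      16 * |x 2| / ‖x‖ ^ 3 * (o.d * (A + A)) :=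
    k1.trans (mul_le_mul_of_nonneg_left
      (mul_le_mul_of_nonneg_left (add_le_add au' ag') (by linarith)) (by positivity))
  rw [e]
  refine (abs_add_le _ _).trans ((add_le_add k4 k3).trans (le_of_eq ?_))
  ring

theorem O14_near : ∃ A : ℝ, 0 < A ∧ ∀ o : OD, o.OK0 → ∀ x, |o.U x| ≤ A := by
  obtain ⟨N, hN, hn⟩ := O_newton_bd
  refine ⟨N * 169 + 1, by positivity, fun o h x => ?_⟩
  have lu := h.su.h1.l2
  have lg := h.sg.h1.l2
  have hρ : Integrable fun y => o.u0 y * o.g0 y := lu.integrable_mul lg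
  have b0 : ∀ y, |o.u0 y * o.g0 y| ≤ 169 := fun y => by
    rw [abs_mul]
    exact (mul_le_mul (h.bs_u.abs_le y) (h.bs_g.abs_le y) (abs_nonneg _) (by norm_num)).trans
      (by norm_num)
  obtain ⟨-, j⟩ := hn _ 169 hρ (by norm_num) (ae_of_all _ b0) x
  have e2 : ∫ y, |o.u0 y * o.g0 y| ≤ ∫ y, (o.u0 y ^ 2 + o.g0 y ^ 2) / 2 :=
    integral_mono hρ.abs ((lu.integrable_sq.add lg.integrable_sq).div_const 2)
      fun y => O14_amgm _ _
  rw [integral_div, integral_add lu.integrable_sq lg.integrable_sq] at e2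
  have n1 : ∫ y, o.u0 y ^ 2 = 1 := h.nu
  have n2 : ∫ y, o.g0 y ^ 2 = 1 := h.ng
  have := O14_abs_le (ρ := fun y => o.u0 y * o.g0 y) x
  exact this.trans (by linarith)

/-- `‖x‖ ≤ 80 d`: `O_newton_bd`, `jb ≤ 81 d`. `‖x‖ ≥ 80 d`: split `ρ = ρ₁ + ρ₂` at `‖y‖ = ‖x‖/2`.
`ρ₂`: `O_newton_bd` with `BS.pt_decay` (twice) and `BS.tail`. `ρ₁` is odd, so
`2 ∫ ρ₁ y/‖x - y‖ = ∫ ρ₁ y (1/‖x - y‖ - 1/‖x - R y‖)`, the bracket is `≤ 16 |x₂| ‖y‖ / ‖x‖³`
(`O_norm_sub_R`), and `∫ |ρ| ‖y‖ ≤ C d` (`‖y‖ ≤ d + 8 + exp (max (dn - 8) 0)`, `BS.agmon`). -/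
theorem O_Uup : ∃ C1 : ℝ, ∀ o : OD, o.OK0 → C1 ≤ o.C0 →
    ∀ x, |o.U x| ≤ o.C0 * o.d ^ 3 * (1 + |x 2|) / jb x ^ 3 := by
  obtain ⟨A, B, hA, hB, hf⟩ := O14_far
  obtain ⟨M, hM, hn⟩ := O14_near
  refine ⟨8 * A + 8 * B + 81 ^ 3 * M, fun o h hC x => ?_⟩
  have hd := h.d100
  obtain ⟨j1, -, j2, -⟩ := O_jb_bd x
  have j0 : 0 < jb x := by linarith
  have hz := abs_nonneg (x 2)
  have d1 : o.d ≤ o.d ^ 3 := le_self_pow₀ (by linarith) (by norm_num)
  have C0 : 0 ≤ o.C0 := by linarith [h.C0.1]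
  rw [le_div_iff₀ (by positivity)]
  rcases le_total (80 * o.d) ‖x‖ with hx | hx
  · have hr : 0 < ‖x‖ := by linarith
    have h1 := hf o h x hx
    rw [le_div_iff₀ (by positivity)] at h1
    have h2 : jb x ^ 3 ≤ (2 * ‖x‖) ^ 3 := pow_le_pow_left₀ j0.le (by linarith) 3
    have h3 : 8 * A * (o.d * |x 2|) ≤ o.C0 * (o.d ^ 3 * |x 2|) :=
      mul_le_mul (by linarith) (mul_le_mul_of_nonneg_right d1 hz) (by positivity) C0
    have h4 : 8 * B * 1 ≤ o.C0 * o.d ^ 3 := mul_le_mul (by linarith) (by linarith) zero_le_one C0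
    have h5 := mul_le_mul_of_nonneg_left h2 (abs_nonneg (o.U x))
    linarith
  · have h2 : jb x ^ 3 ≤ (81 * o.d) ^ 3 := pow_le_pow_left₀ j0.le (by linarith) 3
    have h3 := mul_le_mul (hn o h x) h2 (by positivity) hM.le
    have h4 : 81 ^ 3 * M * o.d ^ 3 ≤ o.C0 * o.d ^ 3 :=
      mul_le_mul_of_nonneg_right (by linarith) (by positivity)
    have h5 : 0 ≤ o.C0 * o.d ^ 3 * |x 2| := by positivity
    linarith

end

end Crest.Agent.R335
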