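import Crest.Agent.R335.O6

set_option autoImplicit false
set_option linter.unusedVariables false

open MeasureTheory Set Filter Topology Metric
open scoped Gradient ContDiff RealInnerProductSpace ENNReal

namespace Crest.Agent.R335

noncomputable section

/-! Module O: the splitting `δ0`. -/

theorem O7_bessel {o : OD} (h : o.OK0) {f : E → ℝ} (hf : MemLp f 2 volume) :
    ip o.g0 f ^ 2 + ip o.u0 f ^ 2 ≤ nsq f := by
  have hg : MemLp o.g0 2 volume := h.sg.h1.l2
  have hu : MemLp o.u0 2 volume := h.su.h1.l2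
  have h0 : ip o.g0 o.u0 = 0 := O_ip_ev_od (ae_of_all _ h.evg) (ae_of_all _ h.odu)
  have hw : MemLp (fun x => ip o.g0 f * o.g0 x + ip o.u0 f * o.u0 x) 2 volume :=
    (hg.const_mul _).add (hu.const_mul _)
  have h1 := S11_nsq_lc hg hu (ip o.g0 f) (ip o.u0 f)
  have h2 := S11_ip_lc hf hg hu (ip o.g0 f) (ip o.u0 f)
  have h3 := S11_nsq_lc hf hw 1 (-1)
  have h4 := S11_nsq_nonneg fun x =>
    1 * f x + (-1) * (ip o.g0 f * o.g0 x + ip o.u0 f * o.u0 x)
  rw [h0, h.ng, h.nu] at h1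
  rw [ip_comm f o.g0, ip_comm f o.u0] at h2
  rw [h3, h1, h2] at h4
  nlinarith

theorem O7_e3 {o : OD} (h : o.OK0) : o.eu ≤ o.e3 := by
  have := h.en.2.2
  have := h.γ0.1
  unfold OD.e3
  linarith

/-- `gap`, Bessel's inequality for the orthonormal pair (`O_ip_ev_od`) -/
theorem OD.OK0.O_min_all {o : OD} (h : o.OK0) {f : E → ℝ} (hf : H1 f) :
    o.eg * nsq f ≤ Q (vx o.d) f := by
  have h1 : _ ≤ Q (vx o.d) f := h.gap f hf
  have h2 := O7_bessel h hf.l2
  have h3 := O7_e3 h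
  have h4 := h.en.2.1
  nlinarith [mul_nonneg (sub_nonneg.2 (h4.trans h3)) (sub_nonneg.2 h2),
    mul_nonneg (sub_nonneg.2 h4) (sq_nonneg (ip o.u0 f))]

/-- `gap`, `O_ip_ev_od`, `S11_cs` -/
theorem OD.OK0.O_min_odd {o : OD} (h : o.OK0) {f : E → ℝ} (hf : H1 f) (ho : Od f) :
    o.eu * nsq f ≤ Q (vx o.d) f := by
  have h1 : _ ≤ Q (vx o.d) f := h.gap f hf
  have h2 := O7_bessel h hf.l2
  have h3 := O7_e3 h
  have h0 : ip o.g0 f = 0 := O_ip_ev_od (ae_of_all _ h.evg) ho
  rw [h0] at h1 h2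
  nlinarith [mul_nonneg (sub_nonneg.2 h3) (sub_nonneg.2 h2)]

/-- if `eu = eg` then `|u0|` is a global minimiser (`O_Q_abs`, `Sol.O_Q`, `O_min_all`), so `O_sol_of_min`,
`Sol.O_rep` (both sides continuous) and `O_YP_vx_pos` give `0 < |u0 0|`, but `u0 0 = 0` (`R 0 = 0`). -/
theorem OD.OK0.O_delta_pos {o : OD} (h : o.OK0) : 0 < o.δ0 := by
  by_contra hc
  have he : o.eu = o.eg := by
    have := h.en.2.1
    unfold OD.δ0 at hc
    linarith
  have hu : H1 o.u0 := h.su.h1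
  have ha : H1 fun x => |o.u0 x| := hu.abs.1
  obtain ⟨n1, q1⟩ := O_Q_abs (vx o.d) hu
  have q2 : Q (vx o.d) o.u0 = o.eu * nsq o.u0 := Sol.O_Q h.su
  rw [h.nu] at n1 q2
  rw [q2, mul_one] at q1
  have hs := O_sol_of_min (d := o.d) ha n1 fun u hu' => by
    rw [q1, he]
    exact h.O_min_all hu'
  rw [q1] at hs
  have hneg : o.eu < 0 := by linarith [h.bs_u.en.2]
  obtain ⟨c1, c2⟩ := Sol.O_rep hs hneg
  have c3 := (Continuous.ae_eq_iff_eq volume h.cu.abs c1).1 c2
  have hk : 0 < √(-2 * o.eu) := Real.sqrt_pos.2 (by linarith)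
  have hp := O_YP_vx_pos (d := o.d) hk ha (ae_of_all _ fun x => abs_nonneg _)
    (by rw [n1]; exact one_pos) 0
  have h0 : o.u0 0 = 0 := by
    have h1 := h.odu 0
    have h2 : R 0 = 0 := by simp [R]
    rw [h2] at h1
    linarith
  have c4 := congrFun c3 0
  beta_reduce at c4
  rw [← c4, h0, abs_zero] at hp
  exact lt_irrefl _ hp

/-- trial function `a g0`, `a x = max (min (x 2) 1) (-1)` (odd, `1`-Lipschitz, `D a = 0` a.e. where
`|x 2| ≥ 1` by `Hl.D_level`); `Sol.loc`: `Q (a g0) = eg nsq (a g0) + ½ ∫ ‖D a‖² g0²`; `O_min_odd`;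
`BS.tail` on the slab `|x 2| ≤ 1` with `t = d - 1`. -/
theorem O_delta : ∃ C1 : ℝ, ∀ o : OD, o.OK0 → C1 ≤ o.C0 →
    0 < o.δ0 ∧ o.δ0 ≤ Real.exp (-(o.d / 4)) := by
  obtain ⟨C, hC, ht⟩ := BS.tail
  refine ⟨2 * (C * Real.exp 1), fun o h hC1 => ⟨h.O_delta_pos, ?_⟩⟩
  have hd := h.d100
  have hδ := h.O_delta_pos
  let a : E → ℝ := fun x => max (min (x 2) 1) (-1)
  have alip : ∀ x y : E, |a x - a y| ≤ 1 * ‖x - y‖ := by
    intro x y
    have h1 := O1_abs_two (x - y)
    rw [PiLp.sub_apply] at h1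
    have h2 := abs_max_sub_max_le_abs (min (x 2) 1) (min (y 2) 1) (-1 : ℝ)
    have h3 := abs_min_sub_min_le_max (x 2) 1 (y 2) 1
    rw [sub_self, abs_zero, max_eq_left (abs_nonneg _)] at h3
    rw [one_mul]
    exact h2.trans (h3.trans h1)
  obtain ⟨abl, aD⟩ := lip_D_le' zero_le_one alip
  have abd : ∀ x, |a x| ≤ 1 :=
    fun x => abs_le.2 ⟨le_max_right _ _, max_le (min_le_right _ _) (by norm_num)⟩
  have aodd : ∀ x, a (R x) = -a x := by
    intro x
    change max (min (R x 2) 1) (-1) = -max (min (x 2) 1) (-1)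
    rw [R_two]
    simp only [max_def, min_def]
    split_ifs <;> linarith
  have aout : ∀ x : E, ¬ |x 2| ≤ 1 → a x = 1 ∨ a x = -1 := by
    intro x hx
    change max (min (x 2) 1) (-1) = 1 ∨ max (min (x 2) 1) (-1) = -1
    rcases lt_abs.1 (not_le.1 hx) with h1 | h1
    · left
      rw [min_eq_right h1.le, max_eq_left (by norm_num)]
    · right
      rw [min_eq_left (by linarith), max_eq_right (by linarith)]
  obtain ⟨w1, w2⟩ := Sol.loc h.sg abl.hl ⟨1, ae_of_all _ abd⟩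
    ⟨1, aD.mono fun x hx => by rwa [abs_norm]⟩
  have wodd : Od fun x => a x * o.g0 x := ae_of_all _ fun x => by
    beta_reduce
    rw [aodd, h.evg, neg_mul]
  have m1 := h.O_min_odd w1 wodd
  have i1 : Integrable fun x => (a x * o.g0 x) ^ 2 := w1.l2.integrable_sq
  have i2 : Integrable fun x => vx o.d x * (a x * o.g0 x) ^ 2 :=
    S11_int_U w1 (O_vx_op o.d w1).1
  have i3 : Integrable fun x => o.g0 x ^ 2 := h.sg.h1.l2.integrable_sq
  have e1 : ∫ x, (o.eg - o.v x) * o.g0 x * a x ^ 2 * o.g0 x =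
      o.eg * nsq (fun x => a x * o.g0 x) - ∫ x, vx o.d x * (a x * o.g0 x) ^ 2 := by
    unfold nsq
    rw [← integral_const_mul, ← integral_sub (i1.const_mul _) i2]
    congr 1
    funext x
    unfold OD.v
    ring
  have hA : MeasurableSet {x : E | |x 2| ≤ 1} :=
    (isClosed_le (by fun_prop) continuous_const).measurableSet
  have t1 := ht o.d o.eg o.g0 h.bs_g _ (o.d - 1) hA fun x hx => by
    have h1 := (O_dn_ge (d := o.d) (by linarith) x).2
    have h2 : |x 2| ≤ 1 := hx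
    linarith
  have i4 : Integrable ({x : E | |x 2| ≤ 1}.indicator fun x => o.g0 x ^ 2) := i3.indicator hA
  have b1 : ∫ x, ‖D a x‖ ^ 2 * o.g0 x ^ 2 ≤ ∫ x in {x : E | |x 2| ≤ 1}, o.g0 x ^ 2 := by
    rw [← integral_indicator hA]
    refine integral_mono_of_nonneg (ae_of_all _ fun x => by positivity) i4 ?_
    filter_upwards [aD, abl.hl.D_level 1, abl.hl.D_level (-1)] with x h1 h2 h3
    by_cases hx : |x 2| ≤ 1
    · rw [indicator_of_mem (s := {x : E | |x 2| ≤ 1}) hx]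
      have h4 : ‖D a x‖ ^ 2 ≤ 1 := pow_le_one₀ (norm_nonneg _) h1
      nlinarith [sq_nonneg (o.g0 x)]
    · rw [indicator_of_notMem (s := {x : E | |x 2| ≤ 1}) hx]
      have h4 : D a x = 0 := (aout x hx).elim h2 h3
      simp [h4]
  have b2 : 1 - ∫ x in {x : E | |x 2| ≤ 1}, o.g0 x ^ 2 ≤ nsq fun x => a x * o.g0 x := by
    have hn : ∫ x, o.g0 x ^ 2 = 1 := h.ng
    have hs := integral_sub i3 i4
    rw [hn, integral_indicator hA] at hs
    rw [← hs]
    refine integral_mono (i3.sub i4) i1 fun x => ?_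
    beta_reduce
    by_cases hx : |x 2| ≤ 1
    · rw [indicator_of_mem (s := {x : E | |x 2| ≤ 1}) hx, sub_self]
      positivity
    · rw [indicator_of_notMem (s := {x : E | |x 2| ≤ 1}) hx]
      rcases aout x hx with h4 | h4 <;> rw [h4] <;> nlinarith
  have x1 : C * Real.exp (-(o.d - 1)) ≤ Real.exp (-(o.d / 4)) := by
    have h1 := Real.add_one_le_exp (3 * o.d / 4)
    have h2 : C * Real.exp 1 ≤ Real.exp (3 * o.d / 4) := by
      have := h.C0.2.2
      have : 0 < C * Real.exp 1 := by positivity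
      linarith
    calc C * Real.exp (-(o.d - 1)) = C * Real.exp 1 * Real.exp (-o.d) := by
          rw [mul_assoc, ← Real.exp_add]
          congr 2
          ring
      _ ≤ Real.exp (3 * o.d / 4) * Real.exp (-o.d) := by gcongr
      _ = Real.exp (-(o.d / 4)) := by
          rw [← Real.exp_add]
          congr 1
          ring
  have x2 : Real.exp (-(o.d / 4)) ≤ 1 / 2 := by
    have h1 := Real.add_one_le_exp (o.d / 4)
    rw [Real.exp_neg, ← one_div]
    exact one_div_le_one_div_of_le (by norm_num) (by linarith)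
  unfold Q at m1
  rw [w2, e1] at m1
  have m2 : o.δ0 * nsq (fun x => a x * o.g0 x) ≤ 1 / 2 * Real.exp (-(o.d / 4)) := by
    unfold OD.δ0
    linarith
  have m3 : 1 / 2 ≤ nsq fun x => a x * o.g0 x := by linarith
  nlinarith [mul_le_mul_of_nonneg_left m3 hδ.le]

end

end Crest.Agent.R335
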