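import Crest.Agent.R335.O4b
import Crest.Agent.R335.O7
import Crest.Agent.R335.O12
import Crest.Agent.R335.O14
import Crest.Agent.R335.S13

set_option autoImplicit false

open MeasureTheory Set Filter Topology Metric
open scoped Gradient ContDiff RealInnerProductSpace ENNReal

namespace Crest.Agent.R335

noncomputable section

theorem O_main : ∃ C0 d0 : ℝ, ∀ d ≥ d0, ∃ o : OD, o.d = d ∧ o.C0 = C0 ∧ o.OK := by
  obtain ⟨c0, h0⟩ := O_ok0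
  obtain ⟨c1, h1⟩ := O_delta
  obtain ⟨c2, h2⟩ := O_near
  obtain ⟨c3, h3⟩ := O_decay
  obtain ⟨c4, h4⟩ := O_gfar
  obtain ⟨c5, h5⟩ := O_ufar
  obtain ⟨c6, h6⟩ := O_Ulow
  obtain ⟨c7, h7⟩ := O_Uup
  obtain ⟨C, hC⟩ : ∃ C : ℝ, c0 ≤ C ∧ c1 ≤ C ∧ c2 ≤ C ∧ c3 ≤ C ∧ c4 ≤ C ∧ c5 ≤ C ∧ c6 ≤ C ∧ c7 ≤ C :=
    ⟨max (max (max c0 c1) (max c2 c3)) (max (max c4 c5) (max c6 c7)), by
      simp only [le_max_iff, le_refl, true_or, or_true, and_self]⟩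
  obtain ⟨e0, e1, e2, e3, e4, e5, e6, e7⟩ := hC
  refine ⟨C, C, fun d hd => ?_⟩
  obtain ⟨o, ho1, ho2, h⟩ := h0 C e0 d hd
  subst ho2
  refine ⟨o, ho1, rfl, h, h1 o h e1, O_gpos h, fun x => ?_, h2 o h e2, O_ulow h, h3 o h e3,
    h4 o h e4, h5 o h e5, O_Ucont h, O_Uodd h, h6 o h e6, h7 o h e7⟩
  have a1 := (abs_le.1 (h.bs_g.abs_le x)).2
  have a2 := h.bs_u.abs_le x
  have a3 := h.C0.1
  exact ⟨by linarith, by linarith⟩

end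

end Crest.Agent.R335
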