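import Crest.Agent.R335.F7

/-! Row 335: lower bound for the amplitude `s` (proofs of `F7c` and `F8`). -/

set_option autoImplicit false

open MeasureTheory Set Filter Topology Metric
open scoped Gradient ContDiff RealInnerProductSpace ENNReal

namespace Crest.Agent.R335

noncomputable section

theorem F7cA_min {g : E → ℝ} (hg : Continuous g) (h0 : ∀ x, 0 < g x) (ρ : ℝ) :
    ∃ μ : ℝ, 0 < μ ∧ ∀ x, ‖x‖ ≤ ρ → μ ≤ g x := by
  by_cases hρ : 0 ≤ ρ
  · obtain ⟨x₀, -, hx⟩ := (isCompact_closedBall (0 : E) ρ).exists_isMinOn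
      ⟨0, mem_closedBall_self hρ⟩ hg.continuousOn
    exact ⟨g x₀, h0 x₀, fun x h => hx (mem_closedBall_zero_iff.2 h)⟩
  · exact ⟨1, one_pos, fun x h => absurd ((norm_nonneg x).trans h) hρ⟩

theorem F7cA_open {p q : E → ℝ} (hp : Continuous p) (hq : Continuous q) {ρ : ℝ}
    (h : ∀ᵐ x, x ∈ Ex ρ → p x ≤ q x) : ∀ x ∈ Ex ρ, p x ≤ q x := by
  have ho : IsOpen (Ex ρ ∩ {x | q x < p x}) :=
    (isOpen_lt continuous_const continuous_norm).inter (isOpen_lt hq hp)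
  have h0 : volume (Ex ρ ∩ {x | q x < p x}) = 0 := by
    refine measure_mono_null (fun x hx => ?_) (ae_iff.1 h)
    intro h'
    exact absurd (h' hx.1) (not_le.2 hx.2)
  have he := ho.eq_empty_of_measure_zero h0
  intro x hx
  by_contra h'
  have : x ∈ Ex ρ ∩ {x | q x < p x} := ⟨hx, not_le.1 h'⟩
  rw [he] at this
  exact this

theorem F7cA_rad_le {a k : ℝ} (n : ℕ) (ha : a ≤ n) (hk : 0 ≤ k) (x : E) :
    rad a k x ≤ jb x ^ n := by
  have h1 := (jb_facts x).1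
  simp only [rad, radb, zero_div, add_zero]
  have h2 : jb x ^ a ≤ jb x ^ n := by
    rw [← Real.rpow_natCast]
    exact Real.rpow_le_rpow_of_exponent_le h1 ha
  have h3 : Real.exp (-(k * jb x)) ≤ 1 := Real.exp_le_one_iff.2 (by nlinarith)
  calc jb x ^ a * Real.exp (-(k * jb x)) ≤ jb x ^ n * 1 := by gcongr
    _ = _ := mul_one _

theorem F7cA_rad_cmp {k k' ε : ℝ} (hk : 99 / 100 ≤ k) (hk' : 99 / 100 ≤ k') (h : |k - k'| ≤ ε)
    (x : E) (hx : 4 * ε * jb x ≤ 1 / 2) : rad (2 / k - 1) k x ≤ 2 * rad (2 / k' - 1) k' x := by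
  have h1 := (jb_facts x).1
  have hp : 0 < jb x := by linarith
  obtain ⟨h2, h3⟩ := abs_le.1 h
  have hε : 0 ≤ ε := (abs_nonneg _).trans h
  have h4 : 2 / k - 2 / k' ≤ 3 * ε := by
    rw [div_sub_div _ _ (by linarith) (by linarith), div_le_iff₀ (by positivity)]
    have : 9801 / 10000 ≤ k * k' := by nlinarith
    nlinarith
  have l0 : 0 ≤ Real.log (jb x) := Real.log_nonneg h1
  have l1 : Real.log (jb x) ≤ jb x := (Real.log_le_sub_one_of_pos hp).trans (by linarith)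
  simp only [rad, radb, zero_div, add_zero]
  rw [Real.rpow_def_of_pos hp, Real.rpow_def_of_pos hp, ← Real.exp_add, ← Real.exp_add]
  have e2 : Real.exp (1 / 2) ≤ 2 := by
    have := Real.exp_one_lt_d9
    have h5 : Real.exp (1 / 2) ^ 2 = Real.exp 1 := by
      rw [← Real.exp_nat_mul]
      norm_num
    nlinarith [Real.exp_pos (1 / 2 : ℝ)]
  refine le_trans ?_ (mul_le_mul_of_nonneg_right e2 (Real.exp_pos _).le)
  rw [← Real.exp_add]
  refine Real.exp_le_exp.2 ?_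
  have h6 : Real.log (jb x) * (2 / k - 2 / k') ≤ jb x * (3 * ε) :=
    (mul_le_mul_of_nonneg_left h4 l0).trans (mul_le_mul_of_nonneg_right l1 (by linarith))
  have h7 : (k' - k) * jb x ≤ ε * jb x := mul_le_mul_of_nonneg_right (by linarith) hp.le
  nlinarith

theorem F7cA_z_sq (x : E) : 1 + x 2 ^ 2 ≤ jb x ^ 2 := by
  have h : jb x ^ 2 = 1 + ‖x‖ ^ 2 := Real.sq_sqrt (by positivity)
  nlinarith [norm_sq_hor x, sq_nonneg ‖hor x‖]

theorem F7cA_mp (m : MD) (B : ℝ) (x : E) :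
    m.mp B x = (B + x 2 ^ 2) * (m.Dm x / jb x ^ 3) := by
  have h1 := (jb_facts x).1
  have h := (radb_facts ((2 - 2 * m.l) / m.κ - 2) m.κ 0 x).2.2.2.2.2 (-3)
  rw [MD.mp, MD.Dm, rad, h, Real.rpow_neg (by linarith), div_eq_inv_mul (rad _ _ _)]
  norm_cast

theorem F7cA_Dm_le {m : MD} (hl : 0 < m.l) (hκ : 99 / 100 ≤ m.κ) (x : E) :
    m.Dm x / jb x ^ 3 ≤ 1 := by
  have h1 := (jb_facts x).1
  rw [div_le_one (by positivity)]
  refine F7cA_rad_le 3 ?_ (by linarith) x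
  have : (2 - 2 * m.l) / m.κ ≤ 3 := by
    rw [div_le_iff₀ (by linarith)]
    linarith
  push_cast
  linarith

theorem F7cA_mm (m : MD) (x : E) :
    m.mm x = m.mh x + m.l * ((1 + x 2 ^ 2) * (m.Dm x / jb x ^ 3)) := by
  rw [MD.mm]
  ring

theorem F7cA_Dm_pos (m : MD) (x : E) : 0 < m.Dm x := (radb_facts _ _ _ x).1
theorem F7cA_mh_pos (m : MD) (x : E) : 0 < m.mh x := (radb_facts _ _ _ x).1

theorem F7cA_mm_pos {m : MD} (hl : 0 < m.l) (x : E) : 0 < m.mm x := by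
  have h1 := (jb_facts x).1
  have h2 := F7cA_Dm_pos m x
  have h3 := F7cA_mh_pos m x
  rw [F7cA_mm]
  positivity

theorem F7cA_mm_le {m : MD} (hl : 0 < m.l) (hl1 : m.l ≤ 1) (hκ : 99 / 100 ≤ m.κ)
    (hκh : 99 / 100 ≤ m.κh) (x : E) : m.mm x ≤ 2 * jb x ^ 2 := by
  have h1 := (jb_facts x).1
  have h2 := F7cA_Dm_pos m x
  have h3 : m.mh x ≤ jb x ^ 2 := by
    refine F7cA_rad_le 2 ?_ (by linarith) x
    have : 2 / m.κh ≤ 3 := by
      rw [div_le_iff₀ (by linarith)]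
      linarith
    push_cast
    linarith
  have h4 := F7cA_Dm_le hl hκ x
  have h5 := F7cA_z_sq x
  have h6 : m.l * ((1 + x 2 ^ 2) * (m.Dm x / jb x ^ 3)) ≤ 1 * (jb x ^ 2 * 1) := by gcongr
  rw [F7cA_mm]
  linarith

/-- reduction of an even statement to the upper half space -/
theorem F7cA_even {P : E → Prop} (h : ∀ x ∈ Hp, P x) (hR : ∀ x, P (R x) → P x) (x : E) : P x := by
  by_cases hx : 0 ≤ x 2
  · exact h x hx
  · refine hR x (h _ ?_)
    show 0 ≤ R x 2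
    rw [R_two]
    linarith

theorem F7cA_sqrt {l ε : ℝ} (hε : 0 ≤ ε) (h : l ≤ ε ^ 2) : √l ≤ ε := Real.sqrt_le_iff.2 ⟨hε, h⟩

theorem F7cA_Uf {o : OD} {c : ℝ} {m : MD} (ho : o.OK) (hm : m.OK o c) (hR : 4 * o.d ≤ o.R0)
    (h3 : ∀ x ∈ Hp, o.R0 ≤ ‖x‖ →
      x 2 * m.Dm x / (30 * o.Γ0) ≤ m.f x ∧ m.f x ≤ 30 * o.Γ0 * (x 2 * m.Dm x)) :
    ∀ x, o.R0 ≤ ‖x‖ →
      1 / (30 * o.C0 * o.Γ0) * (x 2 ^ 2 * (m.Dm x / jb x ^ 3)) ≤ o.U x * m.f x := by
  have hΓ0 : 0 < o.Γ0 := Real.exp_pos _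
  have C0 : 0 < o.C0 := by linarith [ho.C0.1]
  refine F7cA_even (fun x hx hx' => ?_) fun x h hx => ?_
  · have h1 := (jb_facts x).1
    have u1 := ho.U_low x hx (hR.trans hx')
    have u2 := (h3 x hx hx').1
    have z0 : 0 ≤ x 2 := hx
    have d0 := F7cA_Dm_pos m x
    have := mul_le_mul u1 u2 (by positivity) (le_trans (by positivity) u1)
    refine le_trans (le_of_eq ?_) this
    field_simp
  · have := h (by rwa [norm_R])
    rw [ho.U_odd, hm.cf.2.2, R_two, (jb_facts x).2.2.2.1, neg_mul_neg, neg_sq] at this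
    have e : m.Dm (R x) = m.Dm x := (radb_facts _ _ _ x).2.1
    rwa [e] at this

theorem F7cA_shell {o : OD} {c A2 B0 μ : ℝ} {m : MD} (ho : o.OK) (hm : m.OK o c)
    (hR0 : 0 < o.R0) (A20 : 0 < A2) (B01 : 1 ≤ B0)
    (hμ : ∀ x, ‖x‖ ≤ o.R0 + 1 → μ ≤ o.g0 x)
    (k1 : |m.κh - √(-2 * o.eg)| ≤ 1 / (8 * (o.R0 + 2))) (k2 : 99 / 100 ≤ m.κ)
    (hκh : 99 / 100 ≤ m.κh) (s2 : (A2 * (B0 + (o.R0 + 2) ^ 2) + |c| + 1) * √m.l ≤ μ / 2)
    (x : E) (x1 : o.R0 ≤ ‖x‖) (x2 : ‖x‖ ≤ o.R0 + 1) :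
    1 / (4 * Real.exp 1 * o.Γ0) * radb (2 / m.κh - 1) m.κh 1 x + (A2 * m.l) * m.mp B0 x ≤
      m.s x := by
  obtain ⟨l0, l1⟩ := hm.l0
  have hΓ0 : 0 < o.Γ0 := Real.exp_pos _
  have s0 : 0 < √m.l := Real.sqrt_pos.2 l0
  have s1 : m.l ≤ √m.l := by
    have := Real.mul_self_sqrt l0.le
    have h1 : √m.l ≤ 1 := Real.sqrt_le_one.2 l1
    nlinarith
  obtain ⟨j1, -, j2, -⟩ := jb_facts x
  have j3 : jb x ≤ o.R0 + 2 := by linarith
  have g1 := (ho.g_far x x1).1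
  have g2 := hμ x x2
  have g3 := (abs_le.1 (hm.close.1 x).2).1
  have hk0 : 99 / 100 ≤ √(-2 * o.eg) := by
    refine Real.le_sqrt_of_sq_le ?_
    obtain ⟨n1, n2, n3⟩ := ho.en
    linarith [ho.γ0.2]
  have g4 := F7cA_rad_cmp hκh hk0 k1 x (by
    calc 4 * (1 / (8 * (o.R0 + 2))) * jb x ≤ 4 * (1 / (8 * (o.R0 + 2))) * (o.R0 + 2) := by
          gcongr
      _ = 1 / 2 := by
          field_simp
          norm_num)
  have g5 : radb (2 / m.κh - 1) m.κh 1 x ≤ Real.exp 1 * rad (2 / m.κh - 1) m.κh x := by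
    have := (radb_facts (2 / m.κh - 1) m.κh 1 x).2.2.2.2.1
    rwa [abs_one] at this
  have g6 : 1 / (4 * Real.exp 1 * o.Γ0) * radb (2 / m.κh - 1) m.κh 1 x ≤ o.g0 x / 2 := by
    calc 1 / (4 * Real.exp 1 * o.Γ0) * radb (2 / m.κh - 1) m.κh 1 x
        ≤ 1 / (4 * Real.exp 1 * o.Γ0) *
          (Real.exp 1 * (2 * rad (2 / √(-2 * o.eg) - 1) (√(-2 * o.eg)) x)) := by
          gcongr
          exact g5.trans (by gcongr)
      _ = rad (2 / √(-2 * o.eg) - 1) (√(-2 * o.eg)) x / o.Γ0 / 2 := by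
          field_simp
          norm_num
      _ ≤ o.g0 x / 2 := by gcongr
  have d0 := F7cA_Dm_pos m x
  have g7 : m.mp B0 x ≤ (B0 + (o.R0 + 2) ^ 2) * 1 := by
    rw [F7cA_mp]
    have e1 := F7cA_z_sq x
    have e2 : jb x ^ 2 ≤ (o.R0 + 2) ^ 2 := by gcongr
    exact mul_le_mul (by linarith) (F7cA_Dm_le l0 k2 x) (by positivity) (by positivity)
  have g8 : A2 * m.l * m.mp B0 x ≤ A2 * √m.l * ((B0 + (o.R0 + 2) ^ 2) * 1) := by
    have : 0 ≤ m.mp B0 x := by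
      rw [F7cA_mp]
      positivity
    gcongr
  have g9 : c * √m.l ≤ |c| * √m.l := mul_le_mul_of_nonneg_right (le_abs_self c) s0.le
  linarith

theorem F7cA_far {o : OD} {c A1 A2 B0 K : ℝ} {m : MD} {q : E → ℝ} (hm : m.OK o c)
    (hR0 : 0 < o.R0) (A10 : 0 < A1) (A20 : 0 < A2) (K0 : 0 < K)
    (hκh : 99 / 100 ≤ m.κh) (k3 : m.κh ≤ 11 / 10) (k4 : m.κh ^ 2 / 2 = m.I + m.dt)
    (hh : ∀ x, o.R0 ≤ ‖x‖ → -(1 / 2) * lap (radb (2 / m.κh - 1) m.κh 1) x +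
      (o.v x + m.κh ^ 2 / 2) * radb (2 / m.κh - 1) m.κh 1 x ≤
        -(radb (2 / m.κh - 1) m.κh 1 x / (4 * (jb x * √(jb x)))) ∧ -(1 / 10) ≤ o.v x)
    (p1 : ContDiff ℝ 2 (m.mp B0)) (p2 : MemLp (m.mp B0) 2 volume)
    (hp2 : ∀ x, o.R0 ≤ ‖x‖ → m.op o (m.mp B0) x ≤ (-(1 / 2) + x 2 ^ 2) * (m.Dm x / jb x ^ 3))
    (q1 : ContDiff ℝ 2 q) (q2 : MemLp q 2 volume) (q3 : ∀ x, 0 ≤ q x)
    (q4 : ∀ x, o.R0 ≤ ‖x‖ → m.mm x ≤ m.op o q x)
    (hUf : ∀ x, o.R0 ≤ ‖x‖ → A2 * (x 2 ^ 2 * (m.Dm x / jb x ^ 3)) ≤ o.U x * m.f x)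
    (hes1 : ∀ᵐ x, x ∈ Ex o.R0 → |m.es x| ≤ K * √m.l * m.mm x)
    (hsh : ∀ x, o.R0 ≤ ‖x‖ → ‖x‖ ≤ o.R0 + 1 →
      A1 * radb (2 / m.κh - 1) m.κh 1 x + (A2 * m.l) * m.mp B0 x ≤ m.s x) :
    ∀ x, o.R0 ≤ ‖x‖ →
      A1 * radb (2 / m.κh - 1) m.κh 1 x + (A2 * m.l) * m.mp B0 x - K * √m.l * q x ≤ m.s x := by
  obtain ⟨l0, l1⟩ := hm.l0
  have s0 : 0 < √m.l := Real.sqrt_pos.2 l0
  have hcs : Continuous fun x => -m.s x := hm.cf.2.1.neg
  have b0 : ∀ x, 0 < radb (2 / m.κh - 1) m.κh 1 x := fun x => (radb_facts _ _ _ x).1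
  have b1 : ContDiff ℝ 2 (radb (2 / m.κh - 1) m.κh 1) :=
    (radb_smooth _ _ _).of_le (by norm_cast)
  have b2 : MemLp (radb (2 / m.κh - 1) m.κh 1) 2 volume := (radb_memLp _ _ (by linarith)).1
  generalize radb (2 / m.κh - 1) m.κh 1 = b at *
  have w1 : ContDiff ℝ 2 fun x => A1 * b x + (A2 * m.l) * m.mp B0 x :=
    (contDiff_const.mul b1).add (contDiff_const.mul p1)
  obtain ⟨Q, hQ⟩ : ∃ Q : E → ℝ,
    Q = fun x => (-1) * (A1 * b x + (A2 * m.l) * m.mp B0 x) + (K * √m.l) * q x := ⟨_, rfl⟩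
  have Q1 : ContDiff ℝ 2 Q := hQ ▸ (contDiff_const.mul w1).add (contDiff_const.mul q1)
  have Q2 : MemLp Q 2 volume :=
    hQ ▸ (((b2.const_mul _).add (p2.const_mul _)).const_mul _).add (q2.const_mul _)
  have hshell : ∀ x, o.R0 ≤ ‖x‖ → ‖x‖ ≤ o.R0 + 1 → -m.s x ≤ Q x := by
    intro x x1 x2
    have g9 : 0 ≤ K * √m.l * q x := by
      have := q3 x
      positivity
    have := hsh x x1 x2
    rw [hQ]
    linarith
  have hfar : ∀ᵐ x, x ∈ Ex o.R0 → -m.s x ≤ Q x := by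
    refine far_le (U := fun x => o.v x + m.I + m.dt)
      (S := fun x => -(m.l * o.U x * m.f x + m.es x)) (c0 := 1 / 10) (c1 := 1) (by norm_num)
      hR0.le ?_ (Continuous.lb' hcs) Q1 ?_ ?_ ?_ ?_ ?_
    · have e : (fun x => -((o.v x + m.I + m.dt) * -m.s x) + -(m.l * o.U x * m.f x + m.es x)) =
          fun x => -(-((o.v x + m.I + m.dt) * m.s x) + m.l * o.U x * m.f x + m.es x) := by
        funext x
        ring
      rw [e]
      have hs := hm.ss.neg.sub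
      exact hs.mono (subset_univ _) (fun K hK _ => hs.li K hK (subset_univ _))
        (Eventually.of_forall fun _ _ => le_rfl)
    · exact (((vx_facts o.d).1.add_const _).add_const _).aestronglyMeasurable
    · refine Eventually.of_forall fun x hx => ?_
      have v1 := (hh x (le_of_lt hx)).2
      have v2 : o.v x ≤ 0 := ((vx_facts o.d).2.1 x).1
      have v3 : (99 / 100 : ℝ) ^ 2 ≤ m.κh ^ 2 := by gcongr
      have v4 : m.κh ^ 2 ≤ (11 / 10 : ℝ) ^ 2 := by gcongr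
      constructor <;> linarith
    · filter_upwards [hes1] with x e1 hx
      have x1 : o.R0 ≤ ‖x‖ := le_of_lt hx
      obtain ⟨j1, -⟩ := jb_facts x
      have r1 := (hh x x1).1
      have r2 := hp2 x x1
      have r3 := q4 x x1
      have r4 := hUf x x1
      have r5 := (abs_le.1 (e1 hx)).1
      have r6 : -(1 / 2) * lap b x + (o.v x + m.I + m.dt) * b x ≤ 0 := by
        have := b0 x
        have : 0 ≤ b x / (4 * (jb x * √(jb x))) := by positivity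
        rw [k4, ← add_assoc] at r1
        linarith
      have d0 : 0 ≤ m.Dm x / jb x ^ 3 := by
        have := F7cA_Dm_pos m x
        positivity
      have r7 : m.op o (m.mp B0) x ≤ x 2 ^ 2 * (m.Dm x / jb x ^ 3) := by linarith
      have eQ : -(1 / 2) * lap Q x + (o.v x + m.I + m.dt) * Q x =
          -(A1 * (-(1 / 2) * lap b x + (o.v x + m.I + m.dt) * b x)) -
            A2 * m.l * m.op o (m.mp B0) x + K * √m.l * m.op o q x := by
        rw [hQ, lap_lin w1 q1, lap_lin b1 p1]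
        simp only [MD.op]
        ring
      rw [eQ]
      have t1 : A1 * (-(1 / 2) * lap b x + (o.v x + m.I + m.dt) * b x) ≤ 0 :=
        mul_nonpos_of_nonneg_of_nonpos A10.le r6
      have t2 : A2 * m.l * m.op o (m.mp B0) x ≤ A2 * m.l * (x 2 ^ 2 * (m.Dm x / jb x ^ 3)) := by
        gcongr
      have t3 : K * √m.l * m.mm x ≤ K * √m.l * m.op o q x := by gcongr
      have t4 := mul_le_mul_of_nonneg_left r4 l0.le
      linarith
    · have hm2 : MemLp (fun x => -m.s x - Q x) 2 volume := hm.ss.h1.l2.neg.sub Q2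
      refine hm2.of_le ((hcs.sub Q1.continuous).max continuous_const).aestronglyMeasurable
        (Eventually.of_forall fun x => ?_)
      rw [Real.norm_eq_abs, Real.norm_eq_abs, abs_of_nonneg (le_max_right _ _)]
      exact max_le (le_abs_self _) (abs_nonneg _)
    · exact Eventually.of_forall fun x x1 x2 => hshell x x1.le x2.le
  intro x hx
  have h : -m.s x ≤ Q x := by
    rcases hx.eq_or_lt with h | h
    · exact hshell x hx (by linarith)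
    · exact F7cA_open hcs Q1.continuous hfar x h
  rw [hQ] at h
  linarith

theorem F7cA_main : Lg fun o => ∀ c, ∃ c7 : ℝ, 1 ≤ c7 ∧ Sm o c fun m =>
    (∀ x, o.R0 ≤ ‖x‖ → m.mm x / o.Γ1 ≤ m.s x) ∧ (∀ x, 0 < m.s x) ∧
      ∀ᵐ x, |m.es x| ≤ c7 * √m.l * m.s x := by
  refine (F7p.and (F7a.and (F7e.and (F7b.and (F6.and (F3.and (hom_bar.and
    (num_good 0 60)))))))).mono ?_
  rintro o ho ⟨hp, ha, he, hb, h6, h3, hh, -, -, hδ, hΓ⟩ c
  obtain ⟨c7, c71, he⟩ := he c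
  obtain ⟨a, a0, h6⟩ := h6 c
  obtain ⟨hδ0, -⟩ := ho.δ
  obtain ⟨C1, -, C3⟩ := ho.C0
  have hd0 : 100 ≤ o.d := C1.trans C3
  have hΓ0 : 1 ≤ o.Γ0 := Real.one_le_exp (by positivity)
  have hΓ1 : 0 < o.Γ1 := Real.exp_pos _
  have hR : 4 * o.d ≤ o.R0 := by
    unfold OD.R0
    nlinarith
  have hR0 : 0 < o.R0 := by linarith
  rw [pow_zero, mul_one] at hδ
  have hΓ' : 60 * (o.C0 * o.Γ0) ≤ o.Γ1 := by
    have e2 : 1 ≤ o.d * o.Γ0 := one_le_mul_of_one_le_of_one_le (by linarith) hΓ0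
    have e1 : o.d * o.Γ0 ≤ o.d * o.Γ0 / o.δ0 := le_div_self (by linarith) hδ0 (by linarith)
    have e3 : o.d * o.Γ0 / o.δ0 ≤ (o.d * o.Γ0 / o.δ0) ^ 3 :=
      le_self_pow₀ (e2.trans e1) (by norm_num)
    have e4 : o.C0 * o.Γ0 ≤ o.d * o.Γ0 := by gcongr
    linarith
  clear hΓ
  obtain ⟨μ, μ0, hμ⟩ := F7cA_min ho.cg ho.g_pos (o.R0 + 1)
  obtain ⟨K, hK⟩ : ∃ K : ℝ, K = |c| * o.Γ1 + c7 := ⟨_, rfl⟩
  have K0 : 0 < K := by
    rw [hK]
    positivity
  obtain ⟨A2, hA2⟩ : ∃ A2 : ℝ, A2 = 1 / (30 * o.C0 * o.Γ0) := ⟨_, rfl⟩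
  have A20 : 0 < A2 := by
    rw [hA2]
    positivity
  have B01 : 1 ≤ 1 / (8 * o.δ0) := by
    rw [le_div_iff₀ (by positivity)]
    linarith
  obtain ⟨M, hM⟩ : ∃ M : ℝ, M = A2 * (1 / (8 * o.δ0) + (o.R0 + 2) ^ 2) + |c| + 1 := ⟨_, rfl⟩
  have M0 : 0 < M := by
    rw [hM]
    positivity
  obtain ⟨N, hN⟩ : ∃ N : ℝ, N = c ^ 2 + c7 * (2 * (o.R0 + 2) ^ 2) := ⟨_, rfl⟩
  have N0 : 0 < N := by
    rw [hN]
    positivity
  have P1 : 0 ≤ 2 * N / μ := by positivity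
  have P2 : 0 ≤ K * o.Γ1 := by positivity
  refine ⟨1 + K * o.Γ1 + 2 * N / μ, by linarith, ?_⟩
  refine ((hp c).and ((ha c (A2 / (2 * K)) (by positivity)).and (he.and ((hb c a a0).and
    (h6.and ((h3 c).and ((num_kappa o ho c (1 / (8 * (o.R0 + 2))) (by positivity)).and
      (Sm.le o c (a := (μ / (2 * M)) ^ 2) (by positivity))))))))).mono ?_
  clear hp ha he hb h6 h3
  rintro m hm ⟨⟨hp1, hp2, -, -⟩, ⟨q, q1, q2, q3, q4⟩, he, hb, h6, h3,
    ⟨-, k1, k2, k3, -, k4, -, -, k5, -⟩, hl⟩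
  replace hb := hb h6
  obtain ⟨l0, l1⟩ := hm.l0
  have hκh : 99 / 100 ≤ m.κh := by linarith
  have c0 : 0 ≤ c := (hm.w_bd 0).1.trans (hm.w_bd 0).2.1
  have s0 : 0 < √m.l := Real.sqrt_pos.2 l0
  have s1 : m.l ≤ √m.l := by
    have := Real.mul_self_sqrt l0.le
    have h1 := mul_le_mul_of_nonneg_left (Real.sqrt_le_one.2 l1) s0.le
    linarith
  have s2 : M * √m.l ≤ μ / 2 := by
    have := F7cA_sqrt (by positivity) hl
    rw [le_div_iff₀ (by positivity)] at this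
    linarith
  -- the error term
  have hes : ∀ᵐ x, |m.es x| ≤ c * m.l * m.G x + c7 * √m.l * m.mm x := by
    filter_upwards [hm.es_bd, he] with x e1 e2
    have h1 := (jb_facts x).1
    obtain ⟨-, -, n0, -, -⟩ := hm.nn x
    have t1 : 0 ≤ m.l * (c * Real.exp (-(‖x‖ / 8))) * |m.f x| := by positivity
    have t2 : 0 ≤ c * m.l * |x 2| / jb x ^ 2 * m.n x := by positivity
    linarith
  have hes1 : ∀ᵐ x, x ∈ Ex o.R0 → |m.es x| ≤ K * √m.l * m.mm x := by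
    filter_upwards [hes, hb] with x e1 e2 hx
    have g1 : m.G x ≤ o.Γ1 * m.mm x :=
      le_trans (Real.le_sqrt_of_sq_le (le_add_of_nonneg_right (sq_nonneg _))) (e2 hx)
    have m0 := F7cA_mm_pos l0 x
    have g2 : c * m.l * m.G x ≤ |c| * √m.l * (o.Γ1 * m.mm x) := by
      rw [abs_of_nonneg c0]
      have := (hm.nn x).2.1
      gcongr
    rw [hK]
    linarith
  obtain ⟨p1, p2⟩ := hp1 (1 / (8 * o.δ0))
  have hall := F7cA_far (A1 := 1 / (4 * Real.exp 1 * o.Γ0)) hm hR0 (by positivity) A20 K0 hκh k3 k4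
    (fun x hx => ⟨(hh m.κh hκh k3 x hx).2.1, (hh m.κh hκh k3 x hx).2.2.2⟩) p1 p2 hp2 q1 q2 q3
    (fun x hx => (q4 x hx).1) (hA2 ▸ F7cA_Uf ho hm hR h3) hes1
    (F7cA_shell ho hm hR0 A20 B01 hμ k1 k2 hκh (hM ▸ s2))
  clear hh he hb h6 h3 hp1 hp2
  have H1' : ∀ x, o.R0 ≤ ‖x‖ → m.mm x / o.Γ1 ≤ m.s x := by
    intro x hx
    obtain ⟨j1, -⟩ := jb_facts x
    have r1 := hall x hx
    have r2 := (q4 x hx).2
    have m0 := F7cA_mm_pos l0 x
    have h0 := F7cA_mh_pos m x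
    have r3 : Real.exp (-1) * m.mh x ≤ radb (2 / m.κh - 1) m.κh 1 x := by
      have := (radb_facts (2 / m.κh - 1) m.κh 1 x).2.2.2.1
      rwa [abs_one] at this
    have r4 : A2 ≤ 1 / (4 * Real.exp 1 * o.Γ0) * Real.exp (-1) := by
      rw [hA2, Real.exp_neg, ← div_eq_mul_inv, div_div]
      refine one_div_le_one_div_of_le (by positivity) ?_
      have e1 := Real.exp_one_lt_d9
      have e2 : Real.exp 1 * Real.exp 1 ≤ 3 * 3 :=
        mul_le_mul (by linarith) (by linarith) (Real.exp_pos _).le (by norm_num)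
      calc 4 * Real.exp 1 * o.Γ0 * Real.exp 1 = 4 * (Real.exp 1 * Real.exp 1) * o.Γ0 := by ring
        _ ≤ 30 * o.C0 * o.Γ0 := by
          gcongr ?_ * _
          linarith
    have r5 : A2 * m.mh x ≤ 1 / (4 * Real.exp 1 * o.Γ0) * radb (2 / m.κh - 1) m.κh 1 x := by
      calc A2 * m.mh x ≤ 1 / (4 * Real.exp 1 * o.Γ0) * Real.exp (-1) * m.mh x := by gcongr
        _ = 1 / (4 * Real.exp 1 * o.Γ0) * (Real.exp (-1) * m.mh x) := by ring
        _ ≤ _ := by gcongr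
    have r6 : (1 + x 2 ^ 2) * (m.Dm x / jb x ^ 3) ≤ m.mp (1 / (8 * o.δ0)) x := by
      rw [F7cA_mp]
      have := F7cA_Dm_pos m x
      gcongr
    have r7 : K * (√m.l * q x) ≤ A2 / 2 * m.mm x := by
      calc K * (√m.l * q x) ≤ K * (A2 / (2 * K) * m.mm x) := by gcongr
        _ = _ := by field_simp
    have r8 : A2 * m.l * ((1 + x 2 ^ 2) * (m.Dm x / jb x ^ 3)) ≤
        A2 * m.l * m.mp (1 / (8 * o.δ0)) x := by gcongr
    have r9 : A2 / 2 * m.mm x ≤ m.s x := by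
      have e' : A2 * m.mm x =
          A2 * m.mh x + A2 * m.l * ((1 + x 2 ^ 2) * (m.Dm x / jb x ^ 3)) := by
        rw [F7cA_mm m x]
        ring
      linarith
    refine le_trans ?_ r9
    rw [div_eq_inv_mul]
    gcongr
    rw [hA2, div_div, ← one_div]
    exact one_div_le_one_div_of_le (by positivity) (by linarith)
  have H0 : ∀ x, ‖x‖ ≤ o.R0 → μ / 2 ≤ m.s x := by
    intro x hx
    have g2 := hμ x (by linarith)
    have g3 := (abs_le.1 (hm.close.1 x).2).1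
    have g4 : c * √m.l ≤ M * √m.l := by
      gcongr
      rw [hM, abs_of_nonneg c0]
      have : 0 ≤ A2 * (1 / (8 * o.δ0) + (o.R0 + 2) ^ 2) := by positivity
      linarith
    linarith
  have H2 : ∀ x, 0 < m.s x := by
    intro x
    rcases le_total o.R0 ‖x‖ with h | h
    · exact lt_of_lt_of_le (div_pos (F7cA_mm_pos l0 x) hΓ1) (H1' x h)
    · linarith [H0 x h]
  refine ⟨H1', H2, ?_⟩
  filter_upwards [hes, hes1, hm.bd, hm.pyth] with x e1 e2 e3 e4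
  have sx := H2 x
  by_cases hx : o.R0 < ‖x‖
  · have r1 := H1' x hx.le
    rw [div_le_iff₀ hΓ1] at r1
    calc |m.es x| ≤ K * √m.l * m.mm x := e2 hx
      _ ≤ K * √m.l * (m.s x * o.Γ1) := by gcongr
      _ = K * o.Γ1 * √m.l * m.s x := by ring
      _ ≤ _ := by
        gcongr
        linarith
  · have hx' := not_lt.1 hx
    obtain ⟨j1, -, j2, -⟩ := jb_facts x
    have r1 := H0 x hx'
    obtain ⟨n1, n2, -⟩ := hm.nn x
    have r2 : m.G x ≤ c := by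
      refine le_trans (abs_le_of_sq_le_sq' ?_ n1).2 e3.1
      linarith [e4.1, e4.2.1, sq_nonneg (m.n x), sq_nonneg (m.f x)]
    have r3 : m.mm x ≤ 2 * (o.R0 + 2) ^ 2 := by
      refine (F7cA_mm_le l0 l1 k2 hκh x).trans ?_
      gcongr
      linarith
    have r4 : |m.es x| ≤ N * √m.l := by
      have t1 : c * m.l * m.G x ≤ c * √m.l * c := by gcongr
      have t2 : c7 * √m.l * m.mm x ≤ c7 * √m.l * (2 * (o.R0 + 2) ^ 2) := by gcongr
      rw [hN]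
      linarith
    calc |m.es x| ≤ N * √m.l := r4
      _ = 2 * N / μ * √m.l * (μ / 2) := by field_simp
      _ ≤ 2 * N / μ * √m.l * m.s x := by gcongr
      _ ≤ _ := by
        gcongr
        linarith

theorem F7cA_F8 : Lg fun o => ∀ c, Sm o c fun m => ∀ k, m.κ + 1 / o.ℓ ≤ k → k ≤ 2 → ∀ x,
    YP k (fun y => m.s y / (8 * o.ℓ) +
      m.l * (if 4 * o.d ≤ ‖y‖ then |y 2| * |m.f y| / (o.C0 * jb y ^ 3) else 0)) x ≤ m.s x := by
  refine (F7cA_main.and (F5a.and (num_good 4 100))).mono ?_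
  rintro o ho ⟨h7, h5, -, hL, hδ, -⟩ c
  obtain ⟨c7, c71, h7⟩ := h7 c
  obtain ⟨Γ, Γ1, h5⟩ := h5 c
  obtain ⟨C1, -, C3⟩ := ho.C0
  have hd0 : 100 ≤ o.d := C1.trans C3
  have hL0 : 0 < o.L := by linarith
  have hℓ : 0 < o.ℓ := by
    unfold OD.ℓ
    positivity
  have hδ' : o.δ0 ≤ 1 / (10 * o.ℓ) := by
    rw [le_div_iff₀ (by positivity), OD.ℓ]
    linarith
  obtain ⟨μ, μ0, hμ⟩ := F7cA_min ho.cg ho.g_pos (4 * o.d)
  set M : ℝ := 8 * o.ℓ * (2 * o.C0 * o.d ^ 3 * (o.C0 + |c|)) + |c| + 1 with hM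
  have M0 : 0 < M := by positivity
  refine (h7.and (h5.and ((num_kappa o ho c 1 one_pos).and
    ((Sm.le o c (a := (μ / (2 * M)) ^ 2) (by positivity)).and
      (Sm.le o c (a := (1 / (8 * o.ℓ * c7)) ^ 2) (by positivity)))))).mono ?_
  rintro m hm ⟨⟨-, s0, hes⟩, ⟨hf, -⟩, ⟨-, -, k2, -, k4, -, -, k5, -⟩, hl, hl'⟩ k hk1 hk2 x
  obtain ⟨l0, l1⟩ := hm.l0
  have c0 : 0 ≤ c := (hm.w_bd 0).1.trans (hm.w_bd 0).2.1
  have i0 : 0 < 1 / o.ℓ := by positivity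
  have hk : 0 < k := by linarith
  have q0 : 0 < √m.l := Real.sqrt_pos.2 l0
  have q1 : √m.l ≤ 1 := Real.sqrt_le_one.2 l1
  have s1 : m.l ≤ √m.l := by
    have := Real.mul_self_sqrt l0.le
    nlinarith
  have s2 : M * √m.l ≤ μ / 2 := by
    have := F7cA_sqrt (by positivity) hl
    rw [le_div_iff₀ (by positivity)] at this
    linarith
  have s3 : c7 * √m.l ≤ 1 / o.ℓ / 8 := by
    have := F7cA_sqrt (by positivity) hl'
    rw [le_div_iff₀ (by positivity)] at this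
    rw [div_div, le_div_iff₀ (by positivity)]
    linarith
  have hgap : 1 / o.ℓ / 2 ≤ k ^ 2 / 2 - m.I - m.dt := by
    have e1 : 1 / (10 * o.ℓ) = 1 / o.ℓ / 10 := by field_simp
    have e2 : (m.κ + 1 / o.ℓ) ^ 2 ≤ k ^ 2 := by gcongr
    nlinarith
  have hUf : ∀ y, 4 * o.d ≤ ‖y‖ → |y 2| * |m.f y| / (o.C0 * jb y ^ 3) ≤ o.U y * m.f y := by
    refine F7cA_even (fun y hy hy' => ?_) fun y h hy => ?_
    · have h1 := (jb_facts y).1
      have u1 := ho.U_low y hy hy'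
      have z0 : 0 ≤ y 2 := hy
      have d0 := F7cA_Dm_pos m y
      have f0 : 0 ≤ m.f y := le_trans (by positivity) (hf y hy).1
      rw [abs_of_nonneg z0, abs_of_nonneg f0]
      refine le_trans (le_of_eq ?_) (mul_le_mul_of_nonneg_right u1 f0)
      ring
    · have := h (by rwa [norm_R])
      rwa [ho.U_odd, hm.cf.2.2, R_two, (jb_facts y).2.2.2.1, neg_mul_neg, abs_neg, abs_neg] at this
  have hcore : ∀ y, ‖y‖ ≤ 4 * o.d → -(1 / o.ℓ / 8 * m.s y) ≤ m.l * (o.U y * m.f y) := by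
    intro y hy
    obtain ⟨j1, j2, -⟩ := jb_facts y
    have g2 := hμ y hy
    have g3 := (abs_le.1 (hm.close.1 y).2).1
    have P0 : 0 ≤ 8 * o.ℓ * (2 * o.C0 * o.d ^ 3 * (o.C0 + |c|)) := by positivity
    have g4 : c * √m.l ≤ M * √m.l := by
      gcongr
      rw [hM]
      linarith [le_abs_self c]
    have g5 : μ / 2 ≤ m.s y := by linarith
    have f1 : |m.f y| ≤ o.C0 + |c| := by
      have e1 := (hm.close.1 y).1
      have e2 := (ho.bd y).2
      have e3 := abs_add_le (m.f y - o.u0 y) (o.u0 y)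
      rw [sub_add_cancel] at e3
      have e4 : c * √m.l ≤ c * 1 := by gcongr
      linarith [le_abs_self c]
    have u1 : |o.U y| ≤ 2 * o.C0 * o.d ^ 3 := by
      refine (ho.U_up y).trans ?_
      rw [div_le_iff₀ (by positivity)]
      have z1 : |y 2| ≤ jb y := by
        refine (abs_le_of_sq_le_sq' ?_ (by linarith)).2
        rw [sq_abs]
        linarith [F7cA_z_sq y]
      have z2 : jb y ≤ jb y ^ 3 := le_self_pow₀ j1 (by norm_num)
      calc o.C0 * o.d ^ 3 * (1 + |y 2|) ≤ o.C0 * o.d ^ 3 * (2 * jb y ^ 3) := by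
            gcongr
            linarith
        _ = _ := by ring
    have u2 : |o.U y * m.f y| ≤ 2 * o.C0 * o.d ^ 3 * (o.C0 + |c|) := by
      rw [abs_mul]
      gcongr
    have u3 : m.l * |o.U y * m.f y| ≤ √m.l * (2 * o.C0 * o.d ^ 3 * (o.C0 + |c|)) := by gcongr
    have u4 : 8 * o.ℓ * (2 * o.C0 * o.d ^ 3 * (o.C0 + |c|)) * √m.l ≤ M * √m.l := by
      gcongr
      rw [hM]
      linarith [abs_nonneg c]
    have u5 : √m.l * (2 * o.C0 * o.d ^ 3 * (o.C0 + |c|)) ≤ 1 / o.ℓ / 8 * m.s y := by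
      rw [div_div, one_div, ← div_eq_inv_mul, le_div_iff₀ (by positivity)]
      linarith
    have u6 := mul_le_mul_of_nonneg_left (neg_abs_le (o.U y * m.f y)) l0.le
    linarith
  obtain ⟨hmem, heq⟩ := Sol.eq_YP hk hm.ss hm.cf.2.1
  rw [congrFun heq x]
  have hY : ∀ y : E, 0 ≤ Yk k (x - y) := fun y => by
    unfold Yk
    positivity
  refine integral_mono_of_nonneg (Eventually.of_forall fun y => ?_)
    (YP_integrable hk hmem x).1 ?_
  · have := s0 y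
    have := (jb_facts y).1
    have := hY y
    show 0 ≤ Yk k (x - y) * (m.s y / (8 * o.ℓ) + m.l * _)
    split_ifs <;> positivity
  · filter_upwards [hes] with y e1
    refine mul_le_mul_of_nonneg_left ?_ (hY y)
    have sy := s0 y
    have v2 : o.v y ≤ 0 := ((vx_facts o.d).2.1 y).1
    have e2 : -(1 / o.ℓ / 8 * m.s y) ≤ m.es y := by
      have := mul_le_mul_of_nonneg_right s3 sy.le
      linarith [(abs_le.1 e1).1]
    have e3 : m.s y / (8 * o.ℓ) = 1 / o.ℓ / 8 * m.s y := by field_simp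
    have e4 := mul_le_mul_of_nonneg_right hgap sy.le
    have e5 := mul_nonneg (neg_nonneg.2 v2) sy.le
    have e6 := mul_pos i0 sy
    rw [e3]
    split_ifs with hy
    · have := mul_le_mul_of_nonneg_left (hUf y hy) l0.le
      nlinarith
    · have := hcore y (not_le.1 hy).le
      nlinarith

end

end Crest.Agent.R335
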