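import Crest.Agent.R335.F7
import Crest.Agent.R335.F7cAux1

set_option autoImplicit false

open MeasureTheory Set Filter Topology Metric
open scoped Gradient ContDiff RealInnerProductSpace ENNReal

namespace Crest.Agent.R335

noncomputable section

theorem F7c : Lg fun o => ∀ c, ∃ c7 : ℝ, 1 ≤ c7 ∧ Sm o c fun m =>
    (∀ x, o.R0 ≤ ‖x‖ → m.mm x / o.Γ1 ≤ m.s x) ∧ (∀ x, 0 < m.s x) ∧
      ∀ᵐ x, |m.es x| ≤ c7 * √m.l * m.s x := by
  exact F7cA_main
theorem F7d : Lg fun o => ∀ c a : ℝ, 0 < a → Sm o c fun m => G6 o c a m →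
    ∀ᵐ x, x ∈ Ex o.R0 → m.Gt a x ≤ 2 * o.d ^ 3 * m.s x := by
  refine (((((F7a.and F7b).and F7c).and F7e).and f7b_f).and f7b_pot).mono ?_
  rintro o ho ⟨⟨⟨⟨⟨ha, hb⟩, hc⟩, he⟩, hf⟩, hpot⟩ c a a0
  obtain ⟨hd, hR, hΓ, hδ⟩ := f7b_R0 ho
  obtain ⟨C1, -, C3⟩ := ho.C0
  obtain ⟨c7, c71, he⟩ := he c
  obtain ⟨c8, -, hc⟩ := hc c
  have Γ0 : 0 < o.Γ1 := Real.exp_pos _
  obtain ⟨B, hB⟩ : ∃ B, B = o.C0 ^ 2 * o.d := ⟨_, rfl⟩
  have B4 : 4 ≤ B := by
    have : 100 ^ 2 * 100 ≤ o.C0 ^ 2 * o.d := by gcongr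
    linarith
  have B5 : B + 1 ≤ 2 * o.d ^ 3 := by
    have h1 : o.C0 ^ 2 * o.d ≤ o.d ^ 2 * o.d := by gcongr
    have h2 : (1 : ℝ) ≤ o.d ^ 3 := one_le_pow₀ (by linarith)
    linarith
  obtain ⟨C, hC⟩ : ∃ C, C = (1 + c7) * (1 + B) := ⟨_, rfl⟩
  have C0 : 0 < C := by rw [hC]; positivity
  refine ((((((((ha c (1 / (C * o.Γ1)) (by positivity)).and (hb c a a0)).and hc).and he).and
    (hf c)).and (hpot c)).and (f7b_shell o ho c a (o.R0 + 1) a0)).and
    (f7b_sqrt o c (c * o.Γ1) 1 one_pos)).mono ?_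
  rintro m hm ⟨⟨⟨⟨⟨⟨⟨⟨q, q1, q2, q3, q4⟩, hb⟩, s5, s6, -⟩, he⟩, hf⟩, -, -, -, -, k5⟩, hsh⟩, hs⟩ hG
  obtain ⟨c0, s0, s1, s2, s3⟩ := f7b_l hm
  have l0 := hm.l0.1
  have B0 : 0 ≤ B := by linarith
  have a1 := hm.ss.neg.sub
  have a2 := (a1.mono (subset_univ (Ex o.R0)) (fun K hK _ => a1.li K hK (subset_univ _))
    (ae_of_all _ fun _ _ => le_rfl)).smul B0
  have a3 := WSub.add aestronglyMeasurable_const S12_lb_one hG.sub a2
  have a4 : Sub (Ex o.R0) (fun x => m.Gt a x + B * -m.s x) fun x =>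
      -((o.v x + m.I + m.dt) * (m.Gt a x + B * -m.s x)) + (c * m.l * m.Gt a x +
        (m.l * (o.C0 * o.d * |x 2| / jb x ^ 3 + c * Real.exp (-(‖x‖ / 8))) * |m.f x| +
          c * m.l * |x 2| / jb x ^ 2 * m.n x) - B * (m.l * o.U x * m.f x + m.es x)) := by
    convert a3 using 2 with x
    ring
  have bs : Bl fun x => -m.s x := ⟨a1.hl, Continuous.lb' hm.cf.2.1.neg⟩
  have W2 : ContDiff ℝ 2 fun x => C * √m.l * q x := contDiff_const.mul q1
  have main := far_le (p := fun x => m.Gt a x + B * -m.s x) (U := fun x => o.v x + m.I + m.dt)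
    (q := fun x => C * √m.l * q x)
    (c0 := 1 / 4) (c1 := 1) (by norm_num) (by linarith) a4 (hG.reg.1.add (bs.smul B)).lb W2
    ((((vx_facts o.d).1.add_const _).add_const _).aestronglyMeasurable)
    (ae_of_all _ fun x hx => by
      have := k5 x (le_of_lt hx)
      constructor <;> linarith [this.1, this.2.1]) ?_
    (((hG.reg.2.2.2.2.add (hm.ss.neg.h1.l2.const_mul B)).sub (q2.const_mul _)).pos_part) ?_
  · filter_upwards [main] with x hx hx'
    have w1 := hx hx'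
    have w2 := mul_le_mul_of_nonneg_left (q4 x (le_of_lt hx')).2 C0.le
    have w3 : C * (1 / (C * o.Γ1) * m.mm x) = m.mm x / o.Γ1 := by field_simp
    have w4 := s5 x (le_of_lt hx')
    have w5 := mul_le_mul_of_nonneg_right B5 (s6 x).le
    linarith only [w1, w2, w3, w4, w5]
  · filter_upwards [he, hb hG, hm.es_bd] with x he hb hes hx
    have hb := hb hx
    have hx : o.R0 ≤ ‖x‖ := le_of_lt hx
    obtain ⟨d1, d2, d3, -, -⟩ := f7b_pos hm x
    have t0 : 0 < jb x := lt_of_lt_of_le one_pos (jb_facts x).1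
    have eL : lap (fun x => C * √m.l * q x) x = C * √m.l * lap q x := by
      simpa using lap_lin q1 q1 (C * √m.l) 0 x
    have n0 := (hm.nn x).2.2.1
    have mm0 : 0 ≤ m.mm x := d2.le.trans d3
    have u2 : C * √m.l * m.mm x ≤ C * √m.l * m.op o q x :=
      mul_le_mul_of_nonneg_left (q4 x hx).1 (by positivity)
    have u3 : c * m.l * m.Gt a x ≤ √m.l * m.mm x := by
      calc c * m.l * m.Gt a x ≤ c * m.l * (o.Γ1 * m.mm x) :=
            mul_le_mul_of_nonneg_left hb (by positivity)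
        _ = √m.l * m.mm x * (c * o.Γ1 * √m.l) := by nth_rewrite 1 [s1]; ring
        _ ≤ √m.l * m.mm x * 1 := by gcongr
        _ = _ := mul_one _
    have u4 : m.G x ≤ m.Gt a x := Real.le_sqrt_of_sq_le (by linarith [sq_nonneg (m.τ a x)])
    have u5 : c * m.l * m.G x ≤ c * m.l * m.Gt a x :=
      mul_le_mul_of_nonneg_left u4 (by positivity)
    have v1 : 0 ≤ m.l * (c * Real.exp (-(‖x‖ / 8))) * |m.f x| := by positivity
    have v2 : 0 ≤ c * m.l * |x 2| / jb x ^ 2 * m.n x := by positivity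
    have v3 : 0 ≤ c * m.l * ((1 + |x 2|) / jb x ^ 3 * (m.n x + √m.l * |m.f x|)) := by positivity
    have v4 : -m.es x ≤ (1 + c7) * (√m.l * m.mm x) := by
      linarith only [neg_le_abs (m.es x), hes, he, u3, u5, v1, v2]
    have v5 := mul_le_mul_of_nonneg_left v4 B0
    have v6 := mul_le_mul_of_nonneg_left (hf x hx).2 (show 0 ≤ B * m.l by positivity)
    have v7 : B * m.l * (|x 2| * |m.f x| / (o.C0 * jb x ^ 3)) =
        m.l * (o.C0 * o.d * |x 2| / jb x ^ 3) * |m.f x| := by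
      have : o.C0 ≠ 0 := by linarith
      rw [hB]; field_simp
    rw [eL]
    unfold MD.op at u2
    rw [hC] at u2 ⊢
    linarith only [u2, u3, he, v3, v5, v6, v7]
  · filter_upwards [hsh] with x hx h1 h2
    obtain ⟨w1, w2⟩ := hx h2.le
    have w3 := mul_le_mul_of_nonneg_left w2 B0
    have w4 := mul_le_mul_of_nonneg_right B4 (ho.g_pos x).le
    have w5 : 0 ≤ C * √m.l * q x := mul_nonneg (by positivity) (q3 x)
    linarith only [w1, w3, w4, w5]
theorem F_FD : Lg fun o => ∀ c, ∃ Γ : ℝ, Sm o c fun m => FD o m Γ := by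
  refine ((((F4.and F5a).and F5b).and F2).and F7c).mono fun o ho h c => ?_
  obtain ⟨⟨⟨⟨h4, h5⟩, h6⟩, h2⟩, h7⟩ := h
  obtain ⟨c4, n4, s4⟩ := h4 c
  obtain ⟨Γ, nΓ, s5⟩ := h5 c
  obtain ⟨c5, n5, s6⟩ := h6 c
  obtain ⟨c2, n2, s2⟩ := h2 c
  obtain ⟨c7, n7, s7⟩ := h7 c
  have hT : 0 ≤ (c4 + c5) * (c2 + 2) := by positivity
  refine ⟨Γ + (c4 + c5) * (c2 + 2), ((((s4.and s5).and s6).and s2).and s7).mono fun m hm h => ?_⟩
  obtain ⟨⟨⟨⟨g4, f1, f2, f3, -⟩, g5, -⟩, j2, -⟩, -, sp, -⟩ := h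
  obtain ⟨l0, l1⟩ := hm.l0
  have hle : Γ ≤ Γ + (c4 + c5) * (c2 + 2) := by linarith
  have Γ0 : 0 < Γ := by linarith
  have pD : ∀ x, 0 < m.Dm x := fun x => (radb_facts _ _ 0 x).1
  have mg : ∀ a : ℝ, 0 ≤ a → a ≤ c4 + c5 → ∀ x,
      a * m.mg x ≤ (Γ + (c4 + c5) * (c2 + 2)) * m.Dm x / jb x := fun a a0 a1 x => by
    obtain ⟨j1, j3, -⟩ := jb_facts x
    have j0 : 0 < jb x := by linarith
    have h1 := (j2 x).1
    have h3 := pD x
    have h2 : |x 2| ≤ ‖x‖ := by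
      have := PiLp.norm_apply_le x 2
      rwa [Real.norm_eq_abs] at this
    have h4 : m.l * (1 + |x 2|) / jb x ≤ 2 := by
      rw [div_le_iff₀ j0]
      have := mul_le_mul_of_nonneg_right l1 (show 0 ≤ 1 + |x 2| by positivity)
      linarith
    have e : m.mg x * jb x = jb x * m.mh x + m.l * (1 + |x 2|) / jb x * m.Dm x := by
      rw [MD.mg]; field_simp
    have h5 := mul_le_mul_of_nonneg_right h4 h3.le
    have h6 : m.mg x * jb x ≤ (c2 + 2) * m.Dm x := by linarith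
    have h7 := mul_le_mul a1 h6 ?_ (by linarith)
    · rw [le_div_iff₀ j0]
      have h8 := mul_pos Γ0 h3
      linarith
    · have h8 : 0 < m.mh x := (radb_facts _ _ 0 x).1
      rw [e]
      positivity
  refine ⟨by linarith, fun K hK => ?_, fun x hx => ?_, ?_, ?_, ?_⟩
  · obtain ⟨a, a0, ha⟩ := Continuous.lp' hm.cf.2.1 sp K hK
    refine ⟨a, a0, ?_⟩
    filter_upwards [ha, hm.pyth] with x h1 h2 hx
    refine (h1 hx).trans (abs_le_of_sq_le_sq' ?_ (hm.nn x).1).2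
    have h3 := sq_le_sq' (abs_le.1 h2.2.2).1 (abs_le.1 h2.2.2).2
    linarith [h2.1, h2.2.1, sq_nonneg (m.f x), sq_nonneg (m.n x)]
  · have h0 : 0 ≤ x 2 * m.Dm x := mul_nonneg hx (pD x).le
    exact ⟨(div_le_div_of_nonneg_left h0 Γ0 hle).trans (f1 x hx).1,
      (f1 x hx).2.trans (mul_le_mul_of_nonneg_right hle h0)⟩
  · filter_upwards [f2] with x hx h1
    exact (div_le_div_of_nonneg_left (pD x).le Γ0 hle).trans
      (hx (h1.trans (one_div_le_one_div_of_le Γ0 hle)))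
  · filter_upwards [g4] with x hx
    exact hx.trans (mg c4 (by linarith) (by linarith) x)
  · filter_upwards [f3, g5] with x h1 h2 hx
    have h3 := pD x
    exact ⟨(h1 hx).trans (mul_le_mul_of_nonneg_right hle (by positivity)),
      (h2 hx).2.2.trans (mg c5 (by linarith) (by linarith) x)⟩

end

end Crest.Agent.R335
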