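import Crest.Agent.R335.U4Aux2

set_option autoImplicit false

open MeasureTheory Set Filter Topology Metric
open scoped Gradient ContDiff RealInnerProductSpace ENNReal

namespace Crest.Agent.R335

noncomputable section

/-! auxiliary lemmas for `U4`: the norm of the rotated odd orbital -/

theorem u4_jordan {y w : ℝ} (hy : |y| ≤ 1) (h : 0 ≤ y * w) : y * w / 2 ≤ Real.sin y * w := by
  have key : ∀ z : ℝ, 0 ≤ z → z ≤ 1 → z / 2 ≤ Real.sin z := by
    intro z z0 z1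
    have h1 := Real.mul_le_sin z0 (by linarith [Real.pi_gt_three])
    have h2 : 1 / 2 ≤ 2 / Real.pi := by
      rw [div_le_div_iff₀ (by norm_num) Real.pi_pos]; linarith [Real.pi_le_four]
    nlinarith
  obtain ⟨y1, y2⟩ := abs_le.1 hy
  rcases lt_trichotomy y 0 with h0 | h0 | h0
  · have hw : w ≤ 0 := by by_contra hc; push Not at hc; nlinarith
    have := key (-y) (by linarith) (by linarith)
    rw [Real.sin_neg] at this
    nlinarith
  · simp [h0]
  · have hw : 0 ≤ w := by by_contra hc; push Not at hc; nlinarith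
    have := key y h0.le y2
    nlinarith

theorem u4_young {η T a b : ℝ} (hη : 0 < η) (hT : |T| ≤ 1) :
    |2 * (T * a * b)| ≤ η * a ^ 2 + η⁻¹ * b ^ 2 := by
  have h1 : T ^ 2 ≤ 1 := by rw [← sq_abs]; exact pow_le_one₀ (abs_nonneg _) hT
  have h2 : η⁻¹ * (T * b) ^ 2 ≤ η⁻¹ * b ^ 2 := by
    refine mul_le_mul_of_nonneg_left ?_ (inv_pos.2 hη).le
    nlinarith [sq_nonneg b]
  have h3 := two_mul_le_add_mul_sq (a := a) (b := T * b) hη
  have h4 := two_mul_le_add_mul_sq (a := a) (b := -(T * b)) hη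
  rw [neg_sq] at h4
  rw [abs_le]
  constructor <;> nlinarith

theorem u4_pt {t z g0 u0 g f : ℝ} (t0 : 0 < t) (t1 : t ≤ 1 / 2) (hz : |z| ≤ 1)
    (h : 0 ≤ z * (g0 * u0)) :
    (1 - t ^ 2) * u0 ^ 2 + (-t ^ 2) * g0 ^ 2 + (-(3 / 2 * t ^ 2)) * f ^ 2 +
      ((-(3 / 2 * (t ^ 2)⁻¹)) * (f - u0) ^ 2 + (-(1 / 2 * (t ^ 2)⁻¹)) * (g - √2 * g0) ^ 2 +
        t * (z * (g0 * u0))) ≤ (Real.sin (t * z) * g + Real.cos (t * z) * f) ^ 2 ∧
    (Real.sin (-t * z) * g + Real.cos (-t * z) * f) ^ 2 ≤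
      (1 + t ^ 2) * u0 ^ 2 + t ^ 2 * g0 ^ 2 + (1 / 2 * t ^ 2) * f ^ 2 +
      ((3 / 2 * (t ^ 2)⁻¹ + 1) * (f - u0) ^ 2 + (1 / 2 * (t ^ 2)⁻¹) * (g - √2 * g0) ^ 2 +
        (-t) * (z * (g0 * u0))) + t ^ 2 * g ^ 2 := by
  have hη : 0 < t ^ 2 := by positivity
  have hS : Real.sin (t * z) ^ 2 ≤ t ^ 2 := by
    have := (u4_trig (s := t) hz).1
    rw [← sq_abs, ← sq_abs t]
    exact pow_le_pow_left₀ (abs_nonneg _) this 2
  have hT := Real.sin_two_mul (t * z)
  have hT1 := Real.abs_sin_le_one (2 * (t * z))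
  have hy : |2 * (t * z)| ≤ 1 := by
    rw [abs_mul, abs_mul, abs_of_pos t0, abs_two]
    nlinarith [abs_nonneg z]
  have hj := u4_jordan (w := g0 * u0) hy (by nlinarith)
  have r2 : √2 ^ 2 = (2 : ℝ) := Real.sq_sqrt (by norm_num)
  have r1 : (1 : ℝ) ≤ √2 := Real.one_le_sqrt.2 (by norm_num)
  have hm : t * (z * (g0 * u0)) ≤ √2 * (Real.sin (2 * (t * z)) * (g0 * u0)) := by
    have a : 0 ≤ t * (z * (g0 * u0)) := mul_nonneg t0.le h
    nlinarith
  have y1 := abs_le.1 (u4_young (T := 1) (a := u0) (b := f - u0) hη (by norm_num))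
  have y2 := abs_le.1 (u4_young (a := f) (b := g - √2 * g0) hη hT1)
  have y3 := abs_le.1 (u4_young (a := √2 * g0) (b := f - u0) hη hT1)
  rw [mul_pow, r2] at y3
  have p1 := mul_le_mul_of_nonneg_right hS (sq_nonneg f)
  have p2 := mul_le_mul_of_nonneg_right hS (sq_nonneg g)
  have p3 := mul_nonneg (sq_nonneg (Real.sin (t * z))) (sq_nonneg f)
  have p4 := mul_nonneg (sq_nonneg (Real.sin (t * z))) (sq_nonneg g)
  have hc := Real.sin_sq_add_cos_sq (t * z)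
  rw [neg_mul t z, Real.sin_neg, Real.cos_neg]
  set S := Real.sin (t * z)
  set C := Real.cos (t * z)
  set T := Real.sin (2 * (t * z))
  set k := (t ^ 2)⁻¹
  have e1 : (S * g + C * f) ^ 2 = f ^ 2 - S ^ 2 * f ^ 2 + S ^ 2 * g ^ 2 + T * g * f := by
    rw [hT]; linear_combination f ^ 2 * hc
  have e2 : (-S * g + C * f) ^ 2 = f ^ 2 - S ^ 2 * f ^ 2 + S ^ 2 * g ^ 2 - T * g * f := by
    rw [hT]; linear_combination f ^ 2 * hc
  have e3 : T * g * f = √2 * (T * (g0 * u0)) + T * f * (g - √2 * g0) + T * (√2 * g0) * (f - u0) := by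
    ring
  have e4 : f ^ 2 = u0 ^ 2 + 2 * (1 * u0 * (f - u0)) + (f - u0) ^ 2 := by ring
  have q := sq_nonneg (f - u0)
  constructor
  · rw [e1, e3]
    linarith [y1.1, y2.1, y3.1]
  · rw [e2, e3]
    linarith [y1.2, y2.1, y3.1]

theorem u4_norm {t : ℝ} {ζ g0 u0 g f : E → ℝ} (t0 : 0 < t) (t1 : t ≤ 1 / 2) (hζ : Continuous ζ)
    (hz : ∀ x, |ζ x| ≤ 1) (h : ∀ x, 0 ≤ ζ x * (g0 x * u0 x)) (hg0 : MemLp g0 2 volume)
    (hu0 : MemLp u0 2 volume) (hg : MemLp g 2 volume) (hf : MemLp f 2 volume) (ng0 : nsq g0 = 1)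
    (nu0 : nsq u0 = 1) (ng : nsq g ≤ 3) (nf : nsq f ≤ 3)
    (cg : nsq (fun x => g x - √2 * g0 x) ≤ t ^ 4) (cf : nsq (fun x => f x - u0 x) ≤ t ^ 4)
    (m1 : MemLp (fun x => Real.sin (t * ζ x) * g x + Real.cos (t * ζ x) * f x) 2 volume)
    (m2 : MemLp (fun x => Real.sin (-t * ζ x) * g x + Real.cos (-t * ζ x) * f x) 2 volume) :
    1 + t * (∫ x, ζ x * (g0 x * u0 x)) - 10 * t ^ 2 ≤
      nsq (fun x => Real.sin (t * ζ x) * g x + Real.cos (t * ζ x) * f x) ∧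
    nsq (fun x => Real.sin (-t * ζ x) * g x + Real.cos (-t * ζ x) * f x) ≤
      1 - t * (∫ x, ζ x * (g0 x * u0 x)) + 10 * t ^ 2 := by
  have i1 := hu0.integrable_sq
  have i2 := hg0.integrable_sq
  have i3 := hf.integrable_sq
  have i4 : Integrable fun x => (f x - u0 x) ^ 2 := (hf.sub hu0).integrable_sq
  have i5 : Integrable fun x => (g x - √2 * g0 x) ^ 2 := (hg.sub (hg0.const_mul _)).integrable_sq
  have i6 : Integrable fun x => ζ x * (g0 x * u0 x) :=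
    (S11_int_mul hg0 hu0).bdd_mul (c := 1) hζ.aestronglyMeasurable (Eventually.of_forall hz)
  have i7 := hg.integrable_sq
  have I : ∀ a b c : ℝ, Integrable fun x => a * u0 x ^ 2 + b * g0 x ^ 2 + c * f x ^ 2 :=
    fun a b c => ((i1.const_mul a).add (i2.const_mul b)).add (i3.const_mul c)
  have J : ∀ a b c : ℝ, Integrable fun x => a * (f x - u0 x) ^ 2 + b * (g x - √2 * g0 x) ^ 2 +
      c * (ζ x * (g0 x * u0 x)) :=
    fun a b c => ((i4.const_mul a).add (i5.const_mul b)).add (i6.const_mul c)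
  have hη : 0 < t ^ 2 := by positivity
  have k1 : (t ^ 2)⁻¹ * nsq (fun x => g x - √2 * g0 x) ≤ t ^ 2 := by
    rw [inv_mul_le_iff₀ hη]; linarith
  have k2 : (t ^ 2)⁻¹ * nsq (fun x => f x - u0 x) ≤ t ^ 2 := by
    rw [inv_mul_le_iff₀ hη]; linarith
  have k3 := mul_le_mul_of_nonneg_left ng hη.le
  have k4 := mul_le_mul_of_nonneg_left nf hη.le
  have k5 : t ^ 4 ≤ t ^ 2 := pow_le_pow_of_le_one t0.le (by linarith) (by norm_num)
  unfold nsq at *
  constructor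
  · have := integral_mono ((I _ _ _).add (J _ _ _)) m1.integrable_sq
      fun x => (u4_pt (g := g x) (f := f x) t0 t1 (hz x) (h x)).1
    simp only [Pi.add_def] at this
    rw [integral_add (I _ _ _) (J _ _ _), S11_int3 i1 i2 i3, S11_int3 i4 i5 i6, ng0, nu0] at this
    linarith
  · have := integral_mono m2.integrable_sq (((I _ _ _).add (J _ _ _)).add (i7.const_mul _))
      fun x => (u4_pt (g := g x) (f := f x) t0 t1 (hz x) (h x)).2
    simp only [Pi.add_def] at this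
    rw [integral_add ((I _ _ _).fun_add (J _ _ _)) (i7.const_mul _), integral_add (I _ _ _) (J _ _ _),
      S11_int3 i1 i2 i3, S11_int3 i4 i5 i6, ng0, nu0, integral_const_mul] at this
    linarith

/-- energy bookkeeping for an admissible pair -/
theorem u4_book (o : OD) {r φ ψ : E → ℝ} (a : Adm r φ ψ) (h3 : nsq r = 3) :
    nsq φ + nsq ψ = 3 ∧ Q o.v φ + Q o.v ψ = Kin φ ψ + ∫ x, o.v x * r x ^ 2 := by
  constructor
  · rw [← h3]
    unfold nsq
    rw [← integral_add a.hφ.l2.integrable_sq a.hψ.l2.integrable_sq]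
    exact integral_congr_ae a.sum
  · have i1 : Integrable fun x => o.v x * φ x ^ 2 := S11_int_U a.hφ (O_vx_op o.d a.hφ).1
    have i2 : Integrable fun x => o.v x * ψ x ^ 2 := S11_int_U a.hψ (O_vx_op o.d a.hψ).1
    have : ∫ x, o.v x * r x ^ 2 = (∫ x, o.v x * φ x ^ 2) + ∫ x, o.v x * ψ x ^ 2 := by
      rw [← integral_add i1 i2]
      refine integral_congr_ae (a.sum.mono fun x hx => ?_)
      simp only
      rw [← hx]; ring
    unfold Q Kin
    rw [this]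
    ring

theorem u4_adm {o : OD} {c : ℝ} {m : MD} (hm : m.OK o c) : Adm m.r m.g m.f :=
  ⟨hm.h1.2.2.2.1, hm.sf.h1, hm.ev.2.2.2.1, Eventually.of_forall hm.cf.2.2,
    hm.pyth.mono fun x hx => by rw [hx.2.1]; ring⟩

theorem u4_b0 (o : OD) (ho : o.OK) {ζ : E → ℝ} (hζ : Continuous ζ) (hz : ∀ x, |ζ x| ≤ 1)
    (h1 : ∀ x, ζ (R x) = -ζ x) (h2 : ∀ x, x 2 ≠ 0 → ζ x ≠ 0) (h3 : ∀ x ∈ Hp, 0 ≤ ζ x) :
    (∀ x, 0 ≤ ζ x * (o.g0 x * o.u0 x)) ∧ 0 < ∫ x, ζ x * (o.g0 x * o.u0 x) := by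
  have h0 : ∀ x, 0 ≤ ζ x * (o.g0 x * o.u0 x) := by
    intro x
    by_cases h : x ∈ Hp
    · exact mul_nonneg (h3 x h) (mul_nonneg (ho.g_nn x) (ho.u_nn x h))
    · have h' : R x ∈ Hp := by
        simp only [Hp, mem_ofPred_eq, not_le] at h ⊢
        rw [R_two]; linarith
      have := mul_nonneg (h3 _ h') (mul_nonneg (ho.g_nn x) (ho.u_nn _ h'))
      rw [h1, ho.odu] at this
      linarith
  refine ⟨h0, lt_of_le_of_ne (integral_nonneg h0) fun he => ?_⟩
  have i6 : Integrable fun x => ζ x * (o.g0 x * o.u0 x) :=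
    (S11_int_mul ho.sg.h1.l2 ho.su.h1.l2).bdd_mul (c := 1) hζ.aestronglyMeasurable
      (Eventually.of_forall hz)
  have hz0 := (integral_eq_zero_iff_of_nonneg h0 i6).1 he.symm
  have : nsq o.u0 = 0 := by
    unfold nsq
    rw [← integral_zero E ℝ]
    refine integral_congr_ae ?_
    filter_upwards [hz0, ae_two_ne] with x a b
    have a' : ζ x * (o.g0 x * o.u0 x) = 0 := a
    have : o.u0 x = 0 := by
      rcases mul_eq_zero.1 a' with e | e
      · exact absurd e (h2 x b)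
      · exact (mul_eq_zero.1 e).resolve_left (ho.g_pos x).ne'
    simp [this]
  rw [ho.nu] at this
  norm_num at this

end

end Crest.Agent.R335
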