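import Crest.Agent.R335.U3
import Crest.Agent.R335.F7c
import Crest.Agent.R335.U4Aux3

set_option autoImplicit false

open MeasureTheory Set Filter Topology Metric
open scoped Gradient ContDiff RealInnerProductSpace ENNReal

namespace Crest.Agent.R335

noncomputable section

/-- excess energy of a pair: nonnegative, controls and is controlled by the distance to `(√2 g₀, u₀)` -/
theorem excess (o : OD) (ho : o.OK) : ∃ C : ℝ, 0 < C ∧ ∀ φ ψ, H1 φ → H1 ψ → Ev φ → Od ψ →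
    0 ≤ Q o.v φ - o.eg * nsq φ ∧ 0 ≤ Q o.v ψ - o.eu * nsq ψ ∧
    Q o.v φ - o.eg * nsq φ ≤ C * (nsq (fun x => φ x - √2 * o.g0 x) + dir fun x => φ x - √2 * o.g0 x) ∧
    Q o.v ψ - o.eu * nsq ψ ≤ C * (nsq (fun x => ψ x - o.u0 x) + dir fun x => ψ x - o.u0 x) ∧
    dir (fun x => φ x - √2 * o.g0 x) ≤
      C * (Q o.v φ - o.eg * nsq φ + nsq fun x => φ x - √2 * o.g0 x) ∧
    ((∀ x, 0 ≤ φ x) → nsq φ = 2 → nsq (fun x => φ x - √2 * o.g0 x) ≤ C * (Q o.v φ - o.eg * nsq φ)) ∧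
    ((∀ x ∈ Hp, 0 ≤ ψ x) → nsq ψ = 1 →
      nsq (fun x => ψ x - o.u0 x) ≤ C * (Q o.v ψ - o.eu * nsq ψ)) := by
  exact u4_excess o ho
/-- trial pairs: rotate `(g, f)` by the angle `± t ζ` -/
theorem trial (o : OD) (ho : o.OK) (c : ℝ) : ∃ b C : ℝ, 0 < b ∧ 0 < C ∧ ∀ t, 0 < t → t ≤ 1 / C →
    Sm o c fun m => ∃ φ₁ ψ₁ φ₂ ψ₂, Adm m.r φ₁ ψ₁ ∧ Adm m.r φ₂ ψ₂ ∧ nsq ψ₁ ≤ 1 - b * t ∧
      1 + b * t ≤ nsq ψ₂ ∧
      Q o.v φ₁ - o.eg * nsq φ₁ + (Q o.v ψ₁ - o.eu * nsq ψ₁) ≤ C * t ^ 2 ∧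
      Q o.v φ₂ - o.eg * nsq φ₂ + (Q o.v ψ₂ - o.eu * nsq ψ₂) ≤ C * t ^ 2 := by
  obtain ⟨C, C0, hC⟩ := excess o ho
  obtain ⟨ζ, z1, z2, z3, z4, z5, z6, z7⟩ := u4_zeta
  obtain ⟨b1, b2⟩ := u4_b0 o ho z2 z4 z5 z6 z7
  set b0 := ∫ x, ζ x * (o.g0 x * o.u0 x) with hb0
  have hb : 0 < 20 / b0 := by positivity
  have hK : 0 < C * (3240 + 16 * C) := by positivity
  refine ⟨b0 / 2, C * (3240 + 16 * C) + 2 + 20 / b0, by positivity, by positivity,
    fun t t0 t1 => ?_⟩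
  have t2 : t ≤ 1 / 2 := t1.trans (one_div_le_one_div_of_le (by norm_num) (by linarith))
  have t3 : 10 * t ^ 2 ≤ b0 / 2 * t := by
    have : t ≤ 1 / (20 / b0) := t1.trans (one_div_le_one_div_of_le hb (by linarith))
    rw [one_div_div, le_div_iff₀ (by norm_num)] at this
    nlinarith
  have hη : 0 < t ^ 2 := by positivity
  have t4 : t ^ 2 ≤ 1 / 4 := by nlinarith
  have t5 : t ^ 4 ≤ t ^ 2 := pow_le_pow_of_le_one t0.le (by linarith) (by norm_num)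
  refine (Sm.le o c (a := t ^ 4 / (|c| + 1)) (by positivity)).mono fun m hm hl => ?_
  have hc : c * m.l ≤ t ^ 4 := by
    rw [le_div_iff₀ (by positivity)] at hl
    nlinarith [le_abs_self c, hm.l0.1]
  have a := u4_adm hm
  obtain ⟨k1, k2⟩ := u4_book o a hm.nr
  obtain ⟨-, -, cf, cg⟩ := hm.close
  have hA : H1 fun x => √2 * o.g0 x := ho.sg.h1.smul _
  have n1 := S11_nsq_nonneg fun x => m.f x - o.u0 x
  have n2 := S11_dir_nonneg fun x => m.f x - o.u0 x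
  have n3 := S11_nsq_nonneg m.g
  have n4 := S11_nsq_nonneg m.f
  have nf : 1 - nsq m.f ≤ 2 * t ^ 2 := by
    have e := u4_nsq_sub ho.su.h1.l2 a.hψ.l2 1
    simp only [one_mul, ho.nu] at e
    have cs := S11_cs ho.su.h1.l2 a.hψ.l2
    rw [ho.nu, one_mul] at cs
    have h1 : (1 - ip o.u0 m.f) ^ 2 ≤ (t ^ 2) ^ 2 := by nlinarith
    have h2 : 1 - ip o.u0 m.f ≤ t ^ 2 := (abs_le_of_sq_le_sq' h1 hη.le).2
    nlinarith
  obtain ⟨en1, en2, en3⟩ := ho.en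
  have hγ := ho.γ0
  have en : Q o.v m.g + Q o.v m.f ≤ 2 * o.eg + o.eu + t ^ 4 := by
    have := hm.en
    rw [k2]; unfold Kin; linarith
  obtain ⟨x1, x2, -, -, x5, -, -⟩ := hC m.g m.f a.hφ a.hψ a.ev a.od
  have xg : Q o.v m.g - o.eg * nsq m.g ≤ 3 * t ^ 2 := by
    have e : nsq m.g = 3 - nsq m.f := by linarith
    have : (o.eu - o.eg) * (1 - nsq m.f) ≤ 2 * t ^ 2 := by nlinarith
    rw [e] at x1 ⊢
    nlinarith
  have dg : dir (fun x => m.g x - √2 * o.g0 x) ≤ 4 * C * t ^ 2 := by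
    have := mul_le_mul_of_nonneg_left (show Q o.v m.g - o.eg * nsq m.g +
      nsq (fun x => m.g x - √2 * o.g0 x) ≤ 4 * t ^ 2 by linarith) C0.le
    linarith
  have hK2 : nsq m.g + nsq m.f + dir m.g + dir m.f ≤ 202 := by
    have c1 : dir m.g ≤ 4 * Q o.v m.g + 65 * nsq m.g := u4_coer o.d a.hφ
    have c2 : dir m.f ≤ 4 * Q o.v m.f + 65 * nsq m.f := u4_coer o.d a.hψ
    linarith
  have main : ∀ s : ℝ, s ^ 2 = t ^ 2 →
      Q o.v (fun x => Real.cos (s * ζ x) * m.g x - Real.sin (s * ζ x) * m.f x) -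
        o.eg * nsq (fun x => Real.cos (s * ζ x) * m.g x - Real.sin (s * ζ x) * m.f x) +
      (Q o.v (fun x => Real.sin (s * ζ x) * m.g x + Real.cos (s * ζ x) * m.f x) -
        o.eu * nsq (fun x => Real.sin (s * ζ x) * m.g x + Real.cos (s * ζ x) * m.f x)) ≤
      (C * (3240 + 16 * C) + 2 + 20 / b0) * t ^ 2 := by
    intro s hs
    have as := u4_rot_adm z1 z3 z5 a s
    obtain ⟨d1, d2⟩ := u4_rot_dist z1 z3 z4 a.hφ a.hψ hA ho.su.h1 s
    obtain ⟨-, -, y3, y4, -, -, -⟩ := hC _ _ as.hφ as.hψ as.ev as.od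
    rw [hs] at d1 d2
    have hk := mul_le_mul_of_nonneg_left hK2 hη.le
    have e1 := mul_le_mul_of_nonneg_left (d1.trans
      (show _ ≤ (1620 + 16 * C) * t ^ 2 by linarith)) C0.le
    have e2 := mul_le_mul_of_nonneg_left (d2.trans (show _ ≤ 1620 * t ^ 2 by linarith)) C0.le
    have e3 := mul_pos hb hη
    linarith
  have a1 := u4_rot_adm z1 z3 z5 a (-t)
  have a2 := u4_rot_adm z1 z3 z5 a t
  obtain ⟨w1, w2⟩ := u4_norm t0 t2 z2 z4 b1 ho.sg.h1.l2 ho.su.h1.l2 a.hφ.l2 a.hψ.l2 ho.ng ho.nu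
    (by linarith) (by linarith) (by linarith) (by linarith) a2.hψ.l2 a1.hψ.l2
  rw [← hb0] at w1 w2
  exact ⟨_, _, _, _, a1, a2, by linarith, by linarith, main (-t) (neg_sq t), main t rfl⟩
theorem U_exist : Lg fun o => ∀ c ε : ℝ, 0 < ε → Sm o c fun m => ∃ u δ, AU o m ε u δ := by
  refine F_FD.mono fun o ho hF c ε hε => ?_
  obtain ⟨Γ, hΓ⟩ := hF c
  obtain ⟨C, C0, hC⟩ := excess o ho
  obtain ⟨b, K, b0, K0, hT⟩ := trial o ho c
  set t := min (min (1 / K) 1) (min (ε * b / K) (ε / (C * K))) with ht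
  have t0 : 0 < t := by positivity
  have t1 : t ≤ 1 / K := (min_le_left _ _).trans (min_le_left _ _)
  have t2 : t ≤ 1 := (min_le_left _ _).trans (min_le_right _ _)
  have t3 : t * K ≤ ε * b := (le_div_iff₀ K0).1 ((min_le_right _ _).trans (min_le_left _ _))
  have t4 : t * (C * K) ≤ ε :=
    (le_div_iff₀ (by positivity)).1 ((min_le_right _ _).trans (min_le_right _ _))
  refine (hΓ.and (hT t t0 t1)).mono fun m hm h => ?_
  obtain ⟨fd, φ₁, ψ₁, φ₂, ψ₂, a1, a2, n1, n2, x1, x2⟩ := h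
  have bt : 0 < b * t := mul_pos b0 t0
  obtain ⟨φ, ψ, δ, a, φ0, ψ0, n, hmin⟩ := Adm.exists_min hm.h1.1.l2 (S04.ae_pos fd.lp) a1 a2
    (by linarith) (by linarith)
  have hb : Bd m.r := ⟨c, hm.bd.mono fun x hx => by rw [abs_of_nonneg (hm.nn x).1]; exact hx.1⟩
  obtain ⟨u, hu, e⟩ := ang_of_min hm.h1.1 hb fd.lp (fun x => (hm.nn x).1) hm.ev.1 hm.nr a φ0 ψ0 n hmin
  obtain ⟨k1, k2⟩ := u4_book o a hm.nr
  obtain ⟨p1, p2⟩ := u4_book o a1 hm.nr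
  obtain ⟨q1, q2⟩ := u4_book o a2 hm.nr
  have m1 := hmin _ _ a1
  have m2 := hmin _ _ a2
  obtain ⟨y1, y2, -, -, -, y6, y7⟩ := hC φ ψ a.hφ a.hψ a.ev a.od
  have nφ : nsq φ = 2 := by linarith
  have y6 := y6 φ0 nφ
  have y7 := y7 ψ0 n
  have hδ : o.δ0 = o.eu - o.eg := rfl
  set X := Q o.v φ - o.eg * nsq φ + (Q o.v ψ - o.eu * nsq ψ) with hX
  have X0 : 0 ≤ X := add_nonneg y1 y2
  have r1 : X + (δ - o.δ0) * (nsq ψ₁ - 1) ≤ K * t ^ 2 := by
    have : nsq φ₁ = 3 - nsq ψ₁ := by linarith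
    rw [this] at x1
    rw [hX, hδ, nφ, n]
    linarith
  have r2 : X + (δ - o.δ0) * (nsq ψ₂ - 1) ≤ K * t ^ 2 := by
    have : nsq φ₂ = 3 - nsq ψ₂ := by linarith
    rw [this] at x2
    rw [hX, hδ, nφ, n]
    linarith
  have r3 : X + |δ - o.δ0| * (b * t) ≤ K * t ^ 2 := by
    rcases le_total 0 (δ - o.δ0) with h | h
    · rw [abs_of_nonneg h]
      have := mul_le_mul_of_nonneg_left (show b * t ≤ nsq ψ₂ - 1 by linarith) h
      linarith
    · rw [abs_of_nonpos h]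
      have := mul_le_mul_of_nonneg_left (show b * t ≤ 1 - nsq ψ₁ by linarith) (neg_nonneg.2 h)
      linarith
  have r4 := mul_nonneg (abs_nonneg (δ - o.δ0)) bt.le
  refine ⟨u, δ, hu, ?_, ?_, hu.pos.1, hu.pos.2⟩
  · have : |δ - o.δ0| * (b * t) ≤ ε * (b * t) := by nlinarith
    exact le_of_mul_le_mul_right this bt
  · have e1 : nsq (fun x => m.r x * Real.cos (u x) - √2 * o.g0 x) =
        nsq fun x => φ x - √2 * o.g0 x :=
      S11_nsq_congr (e.mono fun x hx => by simp only [hx.1])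
    have e2 : nsq (fun x => m.r x * Real.sin (u x) - o.u0 x) = nsq fun x => ψ x - o.u0 x :=
      S11_nsq_congr (e.mono fun x hx => by simp only [hx.2])
    rw [e1, e2]
    have s1 : C * X ≤ C * (K * t ^ 2) := mul_le_mul_of_nonneg_left (by linarith) C0.le
    have s2 : t * (t * (C * K)) ≤ 1 * ε := mul_le_mul t2 t4 (by positivity) zero_le_one
    have s3 : C * X = C * (Q o.v φ - o.eg * nsq φ) + C * (Q o.v ψ - o.eu * nsq ψ) := by
      rw [hX]; ring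
    linarith

end

end Crest.Agent.R335
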