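import Crest.Agent.R335.T6
import Crest.Agent.R335.U4
import Crest.Agent.R335.OMain
import Crest.Agent.R335.MA
import Crest.Agent.R335.MBm
import Crest.Agent.R335.KMain

set_option autoImplicit false

open MeasureTheory Set Filter Topology Metric
open scoped Gradient ContDiff RealInnerProductSpace ENNReal

namespace Crest.Agent.R335

noncomputable section

theorem core : Core := by
  obtain ⟨C0, d0, hO⟩ := O_main
  obtain ⟨d1, h1⟩ := (U_exist.and U_cert).and T_noeig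
  refine ⟨max d0 d1, fun d hd => ?_⟩
  obtain ⟨o, rfl, -, ho⟩ := hO d (le_of_max_le_left hd)
  obtain ⟨⟨hE, hC⟩, hN⟩ := h1 o ho (le_of_max_le_right hd)
  obtain ⟨c, l0, hc, hl0, hA⟩ := MA_main o ho
  obtain ⟨c', l1, -, hl1, hB⟩ := MB_main o ho c hc
  obtain ⟨ε, hε, h2⟩ := (hC c').and (hN c')
  obtain ⟨l2, hl2, h3⟩ := h2.and (hE c' ε hε)
  refine ⟨min l0 (min l1 l2), lt_min hl0 (lt_min hl1 hl2), fun l hl hle => ?_⟩
  obtain ⟨E2, E3, Φ, ψ, hb⟩ := hA l hl (hle.trans (min_le_left _ _))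
  obtain ⟨m, rfl, hm, hρ⟩ := hB l E2 E3 Φ ψ (hle.trans ((min_le_right _ _).trans (min_le_left _ _))) hb
  obtain ⟨h4, u, δ, hu⟩ := h3 m hm (hle.trans ((min_le_right _ _).trans (min_le_right _ _)))
  obtain ⟨⟨hδ, hcert⟩, hno⟩ := h4 u δ hu
  refine ⟨ψ, hb.gs, fun v hv hens => ?_⟩
  obtain ⟨e, he⟩ := K_main hδ hu.ang hcert hv hρ hens
  exact hno v hv e he

end

end Crest.Agent.R335
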