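import Crest.Prelude.Def_ThreeElectron

/-!
Row 335 (S0521): Sobolev framework (weak gradients on a finite-dimensional Euclidean space).
-/

set_option autoImplicit false

open MeasureTheory Set Filter Topology Metric
open scoped Gradient ContDiff RealInnerProductSpace ENNReal

namespace Crest.Agent.R335

noncomputable section

section generic

variable {V : Type*} [NormedAddCommGroup V] [InnerProductSpace ℝ V] [FiniteDimensional ℝ V]
  [MeasurableSpace V] [BorelSpace V]

/-- `C¹` test function with compact support -/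
def Tst (φ : V → ℝ) : Prop := ContDiff ℝ 1 φ ∧ HasCompactSupport φ

/-- `g` is a weak gradient of `u` -/
structure IsW (u : V → ℝ) (g : V → V) : Prop where
  lu : LocallyIntegrable u volume
  lg : LocallyIntegrable g volume
  ibp : ∀ φ : V → ℝ, Tst φ → ∀ v : V, ∫ x, u x * ⟪∇ φ x, v⟫ = -∫ x, ⟪g x, v⟫ * φ x

open Classical in
/-- the weak gradient (zero if there is none) -/
def D (u : V → ℝ) : V → V := if h : ∃ g, IsW u g then h.choose else 0

/-- Sobolev class `H¹` -/
structure H1 (u : V → ℝ) : Prop where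
  isW : IsW u (D u)
  l2 : MemLp u 2 volume
  dl2 : MemLp (D u) 2 volume

/-- local Sobolev class `H¹_loc` -/
structure Hl (u : V → ℝ) : Prop where
  isW : IsW u (D u)
  l2 : ∀ K, IsCompact K → MemLp u 2 (volume.restrict K)
  dl2 : ∀ K, IsCompact K → MemLp (D u) 2 (volume.restrict K)

/-- essentially bounded -/
def Bd (u : V → ℝ) : Prop := ∃ M : ℝ, ∀ᵐ x, |u x| ≤ M

/-- locally essentially bounded -/
def LB (u : V → ℝ) : Prop := ∀ K, IsCompact K → ∃ M : ℝ, ∀ᵐ x, x ∈ K → |u x| ≤ M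

/-- locally essentially bounded below by positive constants -/
def LP (u : V → ℝ) : Prop := ∀ K, IsCompact K → ∃ c : ℝ, 0 < c ∧ ∀ᵐ x, x ∈ K → c ≤ u x

/-- locally bounded `H¹_loc` functions (an algebra) -/
structure Bl (u : V → ℝ) : Prop where
  hl : Hl u
  lb : LB u

/-- vanishes a.e. outside a compact subset of `S` -/
def CS (u : V → ℝ) (S : Set V) : Prop := ∃ K, IsCompact K ∧ K ⊆ S ∧ ∀ᵐ x, x ∉ K → u x = 0

/-- bounded `H¹` test functions with compact support inside `S` -/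
structure TF (S : Set V) (χ : V → ℝ) : Prop where
  h1 : H1 χ
  bd : Bd χ
  cs : CS χ S

/-- `p` is a weak subsolution of `-½ div (w ∇p) ≤ S` tested against functions supported in `Ω` -/
structure WSub (w : V → ℝ) (Ω : Set V) (p S : V → ℝ) : Prop where
  hl : Hl p
  li : ∀ K, IsCompact K → K ⊆ Ω → IntegrableOn S K volume
  le : ∀ χ, TF Ω χ → (∀ᵐ x, 0 ≤ χ x) → ∫ x, (1 / 2) * w x * ⟪D p x, D χ x⟫ ≤ ∫ x, S x * χ x

/-- weak subsolution of `-½ Δ p ≤ S` on `Ω` -/
abbrev Sub (Ω : Set V) (p S : V → ℝ) : Prop := WSub (fun _ => 1) Ω p S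

/-- global weak solution of `-½ Δ p = A` with `p ∈ H¹`, `A ∈ L²` -/
structure Sol (p A : V → ℝ) : Prop where
  h1 : H1 p
  l2 : MemLp A 2 volume
  eq : ∀ χ, H1 χ → ∫ x, (1 / 2) * ⟪D p x, D χ x⟫ = ∫ x, A x * χ x

/-- pointwise divergence -/
def dvg (X : V → V) (x : V) : ℝ := LinearMap.trace ℝ V (fderiv ℝ X x : V →ₗ[ℝ] V)

/-- pointwise Laplacian -/
def lap (q : V → ℝ) (x : V) : ℝ := dvg (∇ q) x

/-- squared `L²` norm -/
def nsq (u : V → ℝ) : ℝ := ∫ x, u x ^ 2

/-- Dirichlet integral -/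
def dir (u : V → ℝ) : ℝ := ∫ x, ‖D u x‖ ^ 2

/-- `L²` pairing -/
def ip (u w : V → ℝ) : ℝ := ∫ x, u x * w x

/-- quadratic form `½ ∫ |∇u|² + ∫ U u²` -/
def Q (U u : V → ℝ) : ℝ := (1 / 2) * dir u + ∫ x, U x * u x ^ 2

end generic

/-- physical space -/
abbrev E : Type := EuclideanSpace ℝ (Fin 3)
/-- two electrons -/
abbrev E6 : Type := WithLp 2 (E × E)
/-- one plus two electrons -/
abbrev E9 : Type := WithLp 2 (E × E6)

/-- a point of the Euclidean product -/
abbrev pt {A B : Type*} (a : A) (b : B) : WithLp 2 (A × B) := WithLp.toLp 2 (a, b)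

/-- the vertical unit vector -/
def ez : E := EuclideanSpace.single 2 1

/-- reflection `z ↦ -z` -/
def R (x : E) : E := x - (2 * x 2) • ez

/-- horizontal projection -/
def hor (x : E) : E := x - (x 2) • ez

/-- closed upper half space -/
def Hp : Set E := {x | 0 ≤ x 2}

def Ev (u : E → ℝ) : Prop := ∀ᵐ x, u (R x) = u x
def Od (u : E → ℝ) : Prop := ∀ᵐ x, u (R x) = -u x

/-- Yukawa kernel, the fundamental solution of `-½Δ + k²/2` -/
def Yk (k : ℝ) (x : E) : ℝ := Real.exp (-(k * ‖x‖)) / (2 * Real.pi * ‖x‖)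

/-- Yukawa potential -/
def YP (k : ℝ) (S : E → ℝ) (x : E) : ℝ := ∫ y, Yk k (x - y) * S y

end

end Crest.Agent.R335
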