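import Crest.Agent.R335.Defs

set_option autoImplicit false

open MeasureTheory Set Filter Topology Metric
open scoped Gradient ContDiff RealInnerProductSpace ENNReal

namespace Crest.Agent.R335

noncomputable section

/-! data structures of the main argument -/

/-- Japanese bracket -/
def jb (x : E) : ℝ := √(1 + ‖x‖ ^ 2)
/-- radial model function -/
def radb (a k b : ℝ) (x : E) : ℝ := jb x ^ a * Real.exp (-(k * jb x) + b / √(jb x))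
abbrev rad (a k : ℝ) : E → ℝ := radb a k 0
/-- two unit nuclei at `± d e_z` -/
def vx (d : ℝ) (x : E) : ℝ := -(1 / ‖x - d • ez‖) - 1 / ‖x + d • ez‖
/-- repulsion between the tagged electron and the other two -/
def Wx (x : E) (y : E6) : ℝ := 1 / ‖x - y.fst‖ + 1 / ‖x - y.snd‖
def U2 (d l : ℝ) (y : E6) : ℝ := vx d y.fst + vx d y.snd + l / ‖y.fst - y.snd‖
def U3 (d l : ℝ) (p : E9) : ℝ := vx d p.fst + U2 d l p.snd + l * Wx p.fst p.snd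
def V3 (v : E → ℝ) (p : E9) : ℝ := v p.fst + v p.snd.fst + v p.snd.snd
/-- exchange of electrons 1 and 2 -/
def sw12 (p : E9) : E9 := pt p.snd.fst (pt p.fst p.snd.snd)
/-- `cyc (x, y₁, y₂) = (y₁, y₂, x)` -/
def cyc (p : E9) : E9 := pt p.snd.fst (pt p.snd.snd p.fst)
def Anti (ψ : E9 → ℝ) : Prop := ∀ p, ψ (sw12 p) = -ψ p
def R6 (y : E6) : E6 := pt (R y.fst) (R y.snd)
def R9 (p : E9) : E9 := pt (R p.fst) (R6 p.snd)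
/-- the two spin components seen from the tagged electron -/
def comp (ψ : E9 → ℝ) : Fin 2 → E9 → ℝ := ![fun p => √2 * ψ p, fun p => ψ (cyc p)]
/-- density of the doublet built from `ψ` -/
def dens (ψ : E9 → ℝ) (x : E) : ℝ := ∑ i, ∫ y, comp ψ i (pt x y) ^ 2
/-- ground state among functions antisymmetric in the first two electrons -/
structure GS (U ψ : E9 → ℝ) : Prop where
  h1 : H1 ψ
  anti : Anti ψ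
  norm : nsq ψ = 1
  min : ∀ χ, H1 χ → Anti χ → Q U ψ * nsq χ ≤ Q U χ
/-- the class `L^{3/2} + L^∞` -/
def Cls (v : E → ℝ) : Prop :=
  ∃ v₁ v₂ : E → ℝ, v = v₁ + v₂ ∧ MemLp v₁ (3 / 2 : ℝ≥0∞) volume ∧ MemLp v₂ ⊤ volume
/-- a noninteracting ground-state ensemble with density `ρ`, in real components -/
def Ens (v ρ : E → ℝ) : Prop :=
  ∃ (p : ℕ → ℝ≥0∞) (c : ℕ → Fin 16 → E9 → ℝ), ∑' k, p k = 1 ∧ (∀ k j, H1 (c k j) ∧ Anti (c k j)) ∧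
    (∀ k, ∑ j, nsq (c k j) = 1) ∧
    (∀ k χ, H1 χ → Anti χ → nsq χ = 1 → ∑ j, Q (V3 v) (c k j) ≤ Q (V3 v) χ) ∧
    ∀ A : Set E, MeasurableSet A → ∫⁻ x in A, ENNReal.ofReal (ρ x) =
      ∑' k, p k * ∑ j, ∫⁻ x in A, ENNReal.ofReal (dens (c k j) x)

/-- dipole potential of the transition density -/
def Udip (g u : E → ℝ) (x : E) : ℝ := ∫ y, u y * g y / ‖x - y‖

/-- one-body data -/
structure OD where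
  (d γ C0 eg eu : ℝ)
  (g0 u0 : E → ℝ)

namespace OD
def δ0 (o : OD) : ℝ := o.eu - o.eg
def e3 (o : OD) : ℝ := -(1 / 2) + o.γ
def Γ0 (o : OD) : ℝ := Real.exp (o.C0 * o.d ^ 2)
def v (o : OD) : E → ℝ := vx o.d
def U (o : OD) : E → ℝ := Udip o.g0 o.u0
/-- spectral part -/
structure OK0 (o : OD) : Prop where
  γ0 : 0 < o.γ ∧ o.γ ≤ 1 / 100
  C0 : 100 ≤ o.C0 ∧ 1 / o.γ ≤ o.C0 ∧ o.C0 ≤ o.d
  cg : Continuous o.g0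
  cu : Continuous o.u0
  sg : Sol o.g0 fun x => (o.eg - o.v x) * o.g0 x
  su : Sol o.u0 fun x => (o.eu - o.v x) * o.u0 x
  ng : nsq o.g0 = 1
  nu : nsq o.u0 = 1
  evg : ∀ x, o.g0 (R x) = o.g0 x
  odu : ∀ x, o.u0 (R x) = -o.u0 x
  g_nn : ∀ x, 0 ≤ o.g0 x
  u_nn : ∀ x ∈ Hp, 0 ≤ o.u0 x
  en : -(11 / 20) ≤ o.eg ∧ o.eg ≤ o.eu ∧ o.eu ≤ -(1 / 2) + o.γ / 2
  gap : ∀ f, H1 f → o.e3 * nsq f - (o.e3 - o.eg) * ip o.g0 f ^ 2 - (o.e3 - o.eu) * ip o.u0 f ^ 2 ≤ Q o.v f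
structure OK (o : OD) : Prop extends OK0 o where
  δ : 0 < o.δ0 ∧ o.δ0 ≤ Real.exp (-(o.d / 4))
  g_pos : ∀ x, 0 < o.g0 x
  bd : ∀ x, o.g0 x ≤ o.C0 ∧ |o.u0 x| ≤ o.C0
  near : ∀ x, ‖x - o.d • ez‖ ≤ 1 ∨ ‖x + o.d • ez‖ ≤ 1 → 1 / o.C0 ≤ o.g0 x
  u_low : ∀ r : ℝ, ∃ c, 0 < c ∧ ∀ x ∈ Hp, ‖x‖ ≤ r → c * x 2 ≤ o.u0 x
  decay : ∀ f, f = o.g0 ∨ f = o.u0 →
    Integrable (fun x => Real.exp (max (‖x‖ - 2 * o.d) 0) * (f x ^ 2 + ‖D f x‖ ^ 2)) ∧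
    ∫ x, Real.exp (max (‖x‖ - 2 * o.d) 0) * (f x ^ 2 + ‖D f x‖ ^ 2) ≤ o.C0
  g_far : ∀ x, o.C0 * o.d ^ 2 ≤ ‖x‖ →
    rad (2 / √(-2 * o.eg) - 1) (√(-2 * o.eg)) x / o.Γ0 ≤ o.g0 x ∧
      o.g0 x ≤ o.Γ0 * rad (2 / √(-2 * o.eg) - 1) (√(-2 * o.eg)) x
  u_far : ∀ x ∈ Hp, o.C0 * o.d ^ 2 ≤ ‖x‖ →
    x 2 * rad (2 / √(-2 * o.eu) - 2) (√(-2 * o.eu)) x / o.Γ0 ≤ o.u0 x ∧
      o.u0 x ≤ o.Γ0 * (x 2 * rad (2 / √(-2 * o.eu) - 2) (√(-2 * o.eu)) x)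
  U_cont : Continuous o.U
  U_odd : ∀ x, o.U (R x) = -o.U x
  U_low : ∀ x ∈ Hp, 4 * o.d ≤ ‖x‖ → x 2 / (o.C0 * jb x ^ 3) ≤ o.U x
  U_up : ∀ x, |o.U x| ≤ o.C0 * o.d ^ 3 * (1 + |x 2|) / jb x ^ 3
end OD

/-- many-body data: `r = √ρ`, channel amplitudes and error terms -/
structure MD where
  (l I dt : ℝ)
  (r f G n g s N w ef es : E → ℝ)

namespace MD
def κ (m : MD) : ℝ := √(2 * m.I)
def κh (m : MD) : ℝ := √(2 * (m.I + m.dt))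
/-- model for `f / z` -/
def Dm (m : MD) : E → ℝ := rad ((2 - 2 * m.l) / m.κ - 2) m.κ
/-- model for the homogeneous part of `s` -/
def mh (m : MD) : E → ℝ := rad (2 / m.κh - 1) m.κh
/-- model for `s` -/
def mm (m : MD) (x : E) : ℝ := m.mh x + m.l * (1 + x 2 ^ 2) / jb x ^ 3 * m.Dm x
structure OK (o : OD) (c : ℝ) (m : MD) : Prop where
  l0 : 0 < m.l ∧ m.l ≤ 1
  num : |m.I + o.eu| ≤ c * m.l ∧ |m.dt - o.δ0| ≤ c * m.l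
  h1 : H1 m.r ∧ H1 m.G ∧ H1 m.n ∧ H1 m.g ∧ H1 m.N
  nn : ∀ x, 0 ≤ m.r x ∧ 0 ≤ m.G x ∧ 0 ≤ m.n x ∧ 0 ≤ m.g x ∧ 0 ≤ m.N x
  bd : ∀ᵐ x, m.r x ≤ c ∧ m.N x ≤ c
  ev : Ev m.r ∧ Ev m.G ∧ Ev m.n ∧ Ev m.g ∧ Ev m.s
  cf : Continuous m.f ∧ Continuous m.s ∧ ∀ x, m.f (R x) = -m.f x
  pyth : ∀ᵐ x, m.g x ^ 2 = m.G x ^ 2 + m.n x ^ 2 ∧ m.r x ^ 2 = m.f x ^ 2 + m.g x ^ 2 ∧ |m.s x| ≤ m.G x
  nr : nsq m.r = 3
  nh : H1 (Hp.indicator m.n)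
  en : (1 / 2) * dir m.f + (1 / 2) * dir m.g + ∫ x, o.v x * m.r x ^ 2 ≤ 2 * o.eg + o.eu + c * m.l
  ho : Sub univ m.r fun x => -((o.v x + m.I) * m.r x)
  sf : Sol m.f fun x => -((o.v x + m.I + m.l * m.w x) * m.f x) + m.ef x
  mw : AEStronglyMeasurable m.w volume ∧ AEStronglyMeasurable m.ef volume ∧
    AEStronglyMeasurable m.es volume
  w_bd : ∀ x, 0 ≤ m.w x ∧ m.w x ≤ c ∧ |m.w x - 2 / jb x| ≤ c / jb x ^ 2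
  ef_bd : ∀ᵐ x, |m.ef x| ≤ c * m.l / jb x ^ 2 * m.g x
  sg : Sub univ m.g fun x => -((o.v x + m.I + m.dt) * m.g x) + c * m.l / jb x ^ 2 * |m.f x|
  ss : Sol m.s fun x => -((o.v x + m.I + m.dt) * m.s x) + m.l * o.U x * m.f x + m.es x
  es_bd : ∀ᵐ x, |m.es x| ≤ c * m.l * (m.G x + (1 + |x 2|) / jb x ^ 3 * (m.n x + √m.l * |m.f x|))
  sG : ∀ (τ S : E → ℝ) (Ω : Set E), ContDiff ℝ 2 τ → (∀ x, 0 < τ x) →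
    (∀ K, IsCompact K → K ⊆ Ω → IntegrableOn S K volume) →
    (∀ᵐ x, x ∈ Ω → -((o.v x + m.I + m.dt - c * m.l) * m.G x ^ 2) +
      m.l * (o.C0 * o.d * |x 2| / jb x ^ 3 + c * Real.exp (-(‖x‖ / 8))) * |m.f x| * m.G x +
      c * m.l * |x 2| / jb x ^ 2 * m.n x * m.G x + c * m.l * Real.exp (-(‖x‖ / 4)) * m.N x ^ 2 -
      (1 / 2) * τ x * lap τ x ≤ S x * √(m.G x ^ 2 + τ x ^ 2)) →
    Sub Ω (fun x => √(m.G x ^ 2 + τ x ^ 2)) S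
  sN : Sub univ m.N fun x => -((o.v x + m.I + 1 / 4) * m.N x) + c * m.r x
  close : (∀ x, |m.f x - o.u0 x| ≤ c * √m.l ∧ |m.s x - o.g0 x| ≤ c * √m.l) ∧
    (∀ᵐ x, |m.G x - √2 * o.g0 x| ≤ c * √m.l ∧ m.n x ≤ c * √m.l) ∧
    nsq (fun x => m.f x - o.u0 x) + dir (fun x => m.f x - o.u0 x) ≤ c * m.l ∧
    nsq (fun x => m.g x - √2 * o.g0 x) ≤ c * m.l
  lip : ∀ (x₀ : E) (M : ℝ), 1 / 8 ≤ ‖x₀ - o.d • ez‖ → 1 / 8 ≤ ‖x₀ + o.d • ez‖ → 0 ≤ M →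
    (∀ᵐ y, y ∈ ball x₀ (1 / 10) → m.g y ≤ M) →
    (∀ y ∈ ball x₀ (1 / 10), m.l * |m.f y| ≤ M * jb x₀ ^ 2 ∧ ∀ y' ∈ ball x₀ (1 / 10),
      m.l * |m.f y - m.f y'| ≤ M * jb x₀ ^ 2 * ‖y - y'‖) →
    ∀ᵐ y, y ∈ ball x₀ (1 / 100) → ‖D m.G y‖ ≤ c * M ∧ ‖D m.n y‖ ≤ c * M ∧ ‖D m.g y‖ ≤ c * M
end MD

end

end Crest.Agent.R335
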