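import Crest.Agent.R335.Defs2

set_option autoImplicit false

open MeasureTheory Set Filter Topology Metric
open scoped Gradient ContDiff RealInnerProductSpace ENNReal

namespace Crest.Agent.R335

noncomputable section

/-! interfaces between the modules -/

/-- the unperturbed state `(u ⊗ g - g ⊗ u) ⊗ g / √2` -/
def psi0 (g u : E → ℝ) (p : E9) : ℝ :=
  (u p.fst * g p.snd.fst - g p.fst * u p.snd.fst) * g p.snd.snd / √2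

/-- spectral many-body data: two-electron ground state `Φ`, three-electron ground state `ψ` -/
structure MB (o : OD) (c l E2 E3 : ℝ) (Φ : E6 → ℝ) (ψ : E9 → ℝ) : Prop where
  l0 : 0 < l ∧ l ≤ 1
  sΦ : Sol Φ fun y => (E2 - U2 o.d l y) * Φ y
  nΦ : nsq Φ = 1
  symΦ : ∀ y, Φ (R6 y) = Φ y ∧ Φ (pt y.snd y.fst) = Φ y
  E2b : 2 * o.eg ≤ E2 ∧ E2 ≤ 2 * o.eg + c * l
  low2 : ∀ P, H1 P → E2 * nsq P ≤ Q (U2 o.d l) P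
  gap2 : ∀ P, H1 P → ip Φ P = 0 → (o.eg + o.eu) * nsq P ≤ Q (U2 o.d l) P
  far2 : ∀ P, H1 P → (E2 + 1 / 3) * nsq P - c * ∫ y in closedBall (0 : E6) c, P y ^ 2 ≤ Q (U2 o.d l) P
  clΦ : nsq (fun y => Φ y - o.g0 y.fst * o.g0 y.snd) +
    dir (fun y => Φ y - o.g0 y.fst * o.g0 y.snd) ≤ c * l
  decΦ : Integrable (fun y => Real.exp ‖y‖ * (Φ y ^ 2 + ‖D Φ y‖ ^ 2)) ∧
    ∫ y, Real.exp ‖y‖ * (Φ y ^ 2 + ‖D Φ y‖ ^ 2) ≤ c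
  gs : GS (U3 o.d l) ψ
  sψ : Sol ψ fun p => (E3 - U3 o.d l p) * ψ p
  E3e : E3 = Q (U3 o.d l) ψ
  odd : ∀ p, ψ (R9 p) = -ψ p
  E3b : 2 * o.eg + o.eu ≤ E3 ∧ E3 ≤ 2 * o.eg + o.eu + c * l
  clψ : nsq (fun p => ψ p - psi0 o.g0 o.u0 p) + dir (fun p => ψ p - psi0 o.g0 o.u0 p) ≤ c * l
  decψ : Integrable (fun p => Real.exp ‖p‖ * (ψ p ^ 2 + ‖D ψ p‖ ^ 2)) ∧
    ∫ p, Real.exp ‖p‖ * (ψ p ^ 2 + ‖D ψ p‖ ^ 2) ≤ c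

/-- `φ` is a weak eigenfunction of `-½Δ + v` -/
def Eig (v : E → ℝ) (e : ℝ) (φ : E → ℝ) : Prop :=
  ∀ χ, H1 χ → ∫ x, ((1 / 2) * ⟪D φ x, D χ x⟫ + v x * φ x * χ x) = e * ip φ χ

/-- angle representation `(r cos u, r sin u)` of the optimal orbital pair -/
structure Ang (r u : E → ℝ) (δ : ℝ) : Prop where
  hr : H1 r
  bd : Bd r
  lp : LP r
  nn : ∀ x, 0 ≤ r x
  evr : Ev r
  nr : nsq r = 3
  hu : Hl u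
  bu : ∀ x, |u x| ≤ Real.pi / 2
  od : Od u
  u_nn : ∀ x ∈ Hp, 0 ≤ u x
  fin : Integrable fun x => r x ^ 2 * ‖D u x‖ ^ 2
  hφ : H1 fun x => r x * Real.cos (u x)
  hψ : H1 fun x => r x * Real.sin (u x)
  n1 : nsq (fun x => r x * Real.sin (u x)) = 1
  kin : dir (fun x => r x * Real.cos (u x)) + dir (fun x => r x * Real.sin (u x)) =
    dir r + ∫ x, r x ^ 2 * ‖D u x‖ ^ 2
  el : ∀ χ, TF univ χ → ∫ x, (1 / 2) * r x ^ 2 * ⟪D u x, D χ x⟫ =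
    ∫ x, δ * r x ^ 2 * Real.sin (u x) * Real.cos (u x) * χ x
  min : ∀ w, Hl w → Od w → (∀ x, |w x| ≤ Real.pi / 2) → Integrable (fun x => r x ^ 2 * ‖D w x‖ ^ 2) →
    ∫ x, r x ^ 2 * ((1 / 2) * ‖D u x‖ ^ 2 - δ * Real.sin (u x) ^ 2) ≤
      ∫ x, r x ^ 2 * ((1 / 2) * ‖D w x‖ ^ 2 - δ * Real.sin (w x) ^ 2)

/-- the certificate `H* - δ ≥ -δ |φ̂⟩⟨φ̂|`, `φ̂ = r cos u / √2` -/
def Cert (r u : E → ℝ) (δ : ℝ) : Prop :=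
  ∀ f, H1 f → Integrable (fun x => (‖(r x)⁻¹ • D r x‖ ^ 2 + ‖D u x‖ ^ 2) * f x ^ 2) →
    -(δ / 2 * ip (fun x => r x * Real.cos (u x)) f ^ 2) ≤
      ∫ x, ((1 / 2) * ‖D f x - f x • (r x)⁻¹ • D r x‖ ^ 2 -
        ((1 / 2) * ‖D u x‖ ^ 2 + δ * Real.cos (u x) ^ 2) * f x ^ 2)

/-- the core statement in real form -/
def Core : Prop :=
  ∃ d0 : ℝ, ∀ d ≥ d0, ∃ l0 > 0, ∀ l : ℝ, 0 < l → l ≤ l0 →
    ∃ ψ, GS (U3 d l) ψ ∧ ∀ v, Cls v → ¬ Ens v (dens ψ)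

end

end Crest.Agent.R335
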