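import Crest.Agent.R335.Defs3

set_option autoImplicit false

open MeasureTheory Set Filter Topology Metric
open scoped Gradient ContDiff RealInnerProductSpace ENNReal

namespace Crest.Agent.R335

noncomputable section

/-! quantifier shorthands and the far-field interfaces -/

namespace OD
def L (o : OD) : ℝ := o.d + |Real.log o.δ0|
def Γ1 (o : OD) : ℝ := Real.exp (o.L ^ 4)
def ℓ (o : OD) : ℝ := 10 * o.L ^ 4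
def R0 (o : OD) : ℝ := o.C0 * o.d ^ 2
def away (o : OD) : Set E := {x | 1 / 7 ≤ ‖x - o.d • ez‖ ∧ 1 / 7 ≤ ‖x + o.d • ez‖}
def θ0 (o : OD) (x : E) : ℝ := Real.arctan (o.u0 x / (√2 * o.g0 x))
end OD

/-- for all large internuclear distances -/
def Lg (P : OD → Prop) : Prop := ∃ d1 : ℝ, ∀ o : OD, o.OK → d1 ≤ o.d → P o
/-- for all small couplings -/
def Sm (o : OD) (c : ℝ) (P : MD → Prop) : Prop :=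
  ∃ l0 > 0, ∀ m : MD, m.OK o c → m.l ≤ l0 → P m

theorem Lg.and {P Q : OD → Prop} (a : Lg P) (b : Lg Q) : Lg fun o => P o ∧ Q o := by
  obtain ⟨d, hd⟩ := a
  obtain ⟨e, he⟩ := b
  exact ⟨max d e, fun o ho h => ⟨hd o ho (le_of_max_le_left h), he o ho (le_of_max_le_right h)⟩⟩
theorem Lg.mono {P Q : OD → Prop} (a : Lg P) (h : ∀ o, o.OK → P o → Q o) : Lg Q := by
  obtain ⟨d, hd⟩ := a
  exact ⟨d, fun o ho h' => h o ho (hd o ho h')⟩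
theorem Lg.ge (a : ℝ) : Lg fun o => a ≤ o.d := ⟨a, fun _ _ h => h⟩
theorem Sm.and {o : OD} {c : ℝ} {P Q : MD → Prop} (a : Sm o c P) (b : Sm o c Q) :
    Sm o c fun m => P m ∧ Q m := by
  obtain ⟨d, d0, hd⟩ := a
  obtain ⟨e, e0, he⟩ := b
  exact ⟨min d e, lt_min d0 e0, fun m hm h =>
    ⟨hd m hm (h.trans (min_le_left _ _)), he m hm (h.trans (min_le_right _ _))⟩⟩
theorem Sm.mono {o : OD} {c : ℝ} {P Q : MD → Prop} (a : Sm o c P)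
    (h : ∀ m, m.OK o c → P m → Q m) : Sm o c Q := by
  obtain ⟨d, d0, hd⟩ := a
  exact ⟨d, d0, fun m hm h' => h m hm (hd m hm h')⟩
theorem Sm.le (o : OD) (c : ℝ) {a : ℝ} (ha : 0 < a) : Sm o c fun m => m.l ≤ a :=
  ⟨a, ha, fun _ _ h => h⟩

namespace MD
def τ (m : MD) (a : ℝ) (x : E) : ℝ := a * √m.l * rad 0 (m.κ + 1 / 10) x
def Gt (m : MD) (a : ℝ) (x : E) : ℝ := √(m.G x ^ 2 + m.τ a x ^ 2)
def J (m : MD) (x : E) : ℝ := ∫ y, Real.exp (-(4 * ‖x - y‖)) * (|y 2| * |m.f y|)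
def Dt (m : MD) (x : E) : ℝ := ∫ y, Real.exp (-(4 * jb (hor x - y))) * (|y 2| * |m.f y|)
def bt (m : MD) (x : E) : ℝ := ∫ y, Real.exp (-(4 * jb (hor x - y))) * m.s y
def η (m : MD) (x : E) : ℝ := m.bt x / m.Dt x
end MD

/-- crude global bounds -/
structure FD (o : OD) (m : MD) (Γ : ℝ) : Prop where
  Γ1 : 1 ≤ Γ
  lp : LP m.r
  f_bd : ∀ x ∈ Hp, x 2 * m.Dm x / Γ ≤ m.f x ∧ m.f x ≤ Γ * (x 2 * m.Dm x)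
  dz : ∀ᵐ x, |x 2| ≤ 1 / Γ → m.Dm x / Γ ≤ D m.f x 2
  g_bd : ∀ᵐ x, m.g x ≤ Γ * m.Dm x / jb x
  df : ∀ᵐ x, x ∈ o.away → ‖D m.f x‖ ≤ Γ * ((1 + |x 2|) * m.Dm x) ∧ ‖D m.g x‖ ≤ Γ * m.Dm x / jb x

/-- the far slab -/
def Sl (R : ℝ) : Set E := {x | |x 2| < 1 ∧ R < ‖hor x‖}
def sg (η : E → ℝ) (x : E) : ℝ := √(x 2 ^ 2 + η x ^ 2)

/-- sharp bounds on the far slab -/
structure SD (o : OD) (m : MD) (Λ R η0 η1 ε : ℝ) (η Dt Gt : E → ℝ) : Prop where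
  Λ1 : 1 ≤ Λ
  η_c : ContDiff ℝ 2 η
  Dt_c : Continuous Dt
  lat : ∀ x, η (hor x) = η x ∧ Dt (hor x) = Dt x
  pos : ∀ x, 0 < η x ∧ 0 < Dt x
  η_bd : ∀ x ∈ Sl R, η x ≤ η0 ∧ ‖∇ η x‖ ≤ Λ * η x ∧ |lap η x| ≤ Λ * η x ∧
    (‖hor x‖ ≤ R + 3 → η1 ≤ η x)
  f_bd : ∀ x ∈ Sl R, |x 2| * Dt x / Λ ≤ |m.f x| ∧ |m.f x| ≤ Λ * (|x 2| * Dt x) ∧
    (0 ≤ x 2 → 0 ≤ m.f x)
  df : ∀ᵐ x, x ∈ Sl R → ‖D m.f x‖ ≤ Λ * Dt x ∧ ‖hor (D m.f x)‖ ≤ Λ * (√|x 2| * Dt x) ∧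
    (|x 2| ≤ 1 / Λ → Dt x / Λ ≤ D m.f x 2)
  Gt_r : Bl Gt ∧ LP Gt ∧ Ev Gt ∧ ∀ x, 0 < Gt x
  Gt_bd : ∀ᵐ x, x ∈ Sl R → η x * Dt x / Λ ≤ Gt x ∧ Gt x ≤ Λ * (η x * Dt x) ∧
    ‖D Gt x‖ ≤ η x ^ (2 / 3 : ℝ) * Dt x ∧ |Gt x - √2 * o.g0 x| ≤ ε
  ν_bd : ∀ᵐ x, x ∈ Sl R →
    |m.r x ^ 2 - m.f x ^ 2 - Gt x ^ 2| ≤ η x ^ (4 / 3 : ℝ) * Dt x ^ 2 * sg η x ^ 2 ∧
    ‖D (fun x => m.r x ^ 2 - m.f x ^ 2 - Gt x ^ 2) x‖ ≤ η x ^ (4 / 3 : ℝ) * Dt x ^ 2 * sg η x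
  sub : Sub (Sl R) Gt fun x => -((o.v x + m.I) * Gt x) + Λ * (η x * Dt x)
  ef : ∀ᵐ x, x ∈ Sl R → |-(m.l * m.w x * m.f x) + m.ef x| ≤ Dt x * sg η x
  pot : ∀ x, R ≤ ‖x‖ → 1 / 4 ≤ o.v x + m.I ∧ o.v x + m.I ≤ 1
  hardy : ∀ ℓ : ℝ, 0 < ℓ → ℓ ≤ 1 → ∀ w, TF {x | R + 2 < ‖x‖} w →
    ∫ x in {x : E | |x 2| < ℓ}, (η x * Dt x * w x) ^ 2 ≤
      Λ * ∫ x in {x : E | |x 2| < ℓ}, (η x * Dt x) ^ 2 * ‖D w x‖ ^ 2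
  low : ∃ a > 0, ∀ x ∈ Sl R, a * rad (-10) m.κ x ≤ η x * Dt x

/-- the optimal angle, close to the unperturbed one -/
structure AU (o : OD) (m : MD) (ε : ℝ) (u : E → ℝ) (δ : ℝ) : Prop where
  ang : Ang m.r u δ
  δb : |δ - o.δ0| ≤ ε
  cl : nsq (fun x => m.r x * Real.cos (u x) - √2 * o.g0 x) +
    nsq (fun x => m.r x * Real.sin (u x) - o.u0 x) ≤ ε
  cpos : ∀ᵐ x, 0 < Real.cos (u x)
  upos : ∀ᵐ x, 0 < x 2 → 0 < u x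

/-- for all small couplings and all optimal angles close enough -/
def SmA (o : OD) (c : ℝ) (P : MD → (E → ℝ) → ℝ → Prop) : Prop :=
  ∃ ε > 0, Sm o c fun m => ∀ u δ, AU o m ε u δ → P m u δ

theorem AU.mono {o : OD} {m : MD} {ε ε' : ℝ} {u : E → ℝ} {δ : ℝ} (h : AU o m ε u δ) (e : ε ≤ ε') :
    AU o m ε' u δ := ⟨h.ang, h.δb.trans e, h.cl.trans e, h.cpos, h.upos⟩
theorem SmA.and {o : OD} {c : ℝ} {P Q : MD → (E → ℝ) → ℝ → Prop} (a : SmA o c P) (b : SmA o c Q) :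
    SmA o c fun m u δ => P m u δ ∧ Q m u δ := by
  obtain ⟨d, d0, hd⟩ := a
  obtain ⟨e, e0, he⟩ := b
  exact ⟨min d e, lt_min d0 e0, (hd.and he).mono fun m _ h u δ hu =>
    ⟨h.1 u δ (hu.mono (min_le_left _ _)), h.2 u δ (hu.mono (min_le_right _ _))⟩⟩
theorem SmA.mono {o : OD} {c : ℝ} {P Q : MD → (E → ℝ) → ℝ → Prop} (a : SmA o c P)
    (h : ∀ m u δ, m.OK o c → AU o m 1 u δ → P m u δ → Q m u δ) : SmA o c Q := by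
  obtain ⟨d, d0, hd⟩ := a
  exact ⟨min d 1, lt_min d0 one_pos, hd.mono fun m hm h' u δ hu =>
    h m u δ hm (hu.mono (min_le_right _ _)) (h' u δ (hu.mono (min_le_left _ _)))⟩
theorem Sm.smA {o : OD} {c : ℝ} {P : MD → Prop} (a : Sm o c P) : SmA o c fun m _ _ => P m :=
  ⟨1, one_pos, a.mono fun _ _ h _ _ _ => h⟩
theorem SmA.le (o : OD) (c : ℝ) {ε : ℝ} (h : 0 < ε) : SmA o c fun m u δ => AU o m ε u δ :=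
  ⟨ε, h, 1, one_pos, fun _ _ _ _ _ hu => hu⟩

/-- weighted Poincare inequality for even functions -/
def Poi (φ : E → ℝ) (P : ℝ) : Prop :=
  ∀ y, TF univ y → Ev y → ∃ a : ℝ, ∫ x, φ x ^ 2 * (y x - a) ^ 2 ≤ P * ∫ x, φ x ^ 2 * ‖D y x‖ ^ 2

end

end Crest.Agent.R335
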