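import Crest.Agent.R335.Defs4

set_option autoImplicit false

open MeasureTheory Set Filter Topology Metric
open scoped Gradient ContDiff RealInnerProductSpace ENNReal

namespace Crest.Agent.R335

noncomputable section

/-- lateral smoothing kernel; `m.Dt = Kb fun y => |y 2| * |m.f y|` and `m.bt = Kb m.s` by `rfl` -/
def Kb (h : E → ℝ) (x : E) : ℝ := ∫ y, Real.exp (-(4 * jb (hor x - y))) * h y
/-- exterior of a ball -/
def Ex (ρ : ℝ) : Set E := {x | ρ < ‖x‖}
namespace MD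
/-- model for `g` -/
def mg (m : MD) (x : E) : ℝ := m.mh x + m.l * (1 + |x 2|) / jb x ^ 2 * m.Dm x
/-- particular barrier -/
def mp (m : MD) (B : ℝ) (x : E) : ℝ := (B + x 2 ^ 2) * rad ((2 - 2 * m.l) / m.κ - 2 + -3) m.κ x
/-- the operator of the excited channel -/
def op (m : MD) (o : OD) (q : E → ℝ) (x : E) : ℝ := -(1 / 2) * lap q x + (o.v x + m.I + m.dt) * q x
end MD
/-- properties of the regularised even amplitude -/
structure G6 (o : OD) (c a : ℝ) (m : MD) : Prop where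
  reg : Bl (m.Gt a) ∧ LP (m.Gt a) ∧ Ev (m.Gt a) ∧ (∀ x, 0 < m.Gt a x) ∧ MemLp (m.Gt a) 2 volume
  sub : Sub (Ex o.R0) (m.Gt a) fun x => -((o.v x + m.I + m.dt - c * m.l) * m.Gt a x) +
    (m.l * (o.C0 * o.d * |x 2| / jb x ^ 3 + c * Real.exp (-(‖x‖ / 8))) * |m.f x| +
      c * m.l * |x 2| / jb x ^ 2 * m.n x)

end

end Crest.Agent.R335
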