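import Crest.Agent.R335.Defs5

set_option autoImplicit false

open MeasureTheory Set Filter Topology Metric
open scoped Gradient ContDiff RealInnerProductSpace ENNReal

namespace Crest.Agent.R335

noncomputable section

/-- admissible orbital pairs with total density `r²` -/
structure Adm (r φ ψ : E → ℝ) : Prop where
  hφ : H1 φ
  hψ : H1 ψ
  ev : Ev φ
  od : Od ψ
  sum : ∀ᵐ x, φ x ^ 2 + ψ x ^ 2 = r x ^ 2
/-- kinetic energy of a pair -/
def Kin (φ ψ : E → ℝ) : ℝ := (1 / 2) * (dir φ + dir ψ)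
/-- the form of `H* - δ` in the representation `f = r t` -/
def Bf (r u : E → ℝ) (δ : ℝ) (t : E → ℝ) : ℝ :=
  ∫ x, r x ^ 2 * ((1 / 2) * ‖D t x‖ ^ 2 - ((1 / 2) * ‖D u x‖ ^ 2 + δ * Real.cos (u x) ^ 2) * t x ^ 2)
/-- complementary angle of the channel amplitudes -/
def TG (f Gt : E → ℝ) (x : E) : ℝ := Real.pi / 2 - Real.arctan (f x / Gt x)
/-- lower bound for `r cos u` on a thin slab -/
def Slab (r u b : E → ℝ) (Λ R : ℝ) : Prop :=
  ∀ᵐ x, |x 2| < 1 / Λ → R + 1 ≤ ‖hor x‖ → b x / Λ ≤ r x * Real.cos (u x)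
/-- profile of the lower barrier for the angle -/
def βT (s : ℝ) : ℝ := Real.pi / 2 * (s * |s| / (1 + |s|) ^ 2)
namespace MD
def qT (m : MD) : E → ℝ := rad ((2 - 2 * m.l) / m.κ - 2 + -(1 / 2)) m.κ
def xT (m : MD) (K : ℝ) (x : E) : ℝ := m.f x / (K * m.qT x)
def θT (m : MD) (K : ℝ) (x : E) : ℝ := βT (m.xT K x)
/-- source of the equation of `θT` -/
def ST (m : MD) (o : OD) (K : ℝ) (x : E) : ℝ :=
  Real.pi * m.xT K x / (1 + m.xT K x) ^ 3 *
    (m.r x ^ 2 * ((-((o.v x + m.I + m.l * m.w x) * m.f x) + m.ef x) / (K * m.qT x) +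
        m.xT K x * ((1 / 2) * lap m.qT x / m.qT x)) -
      (K * m.qT x) ^ 2 * m.xT K x * ‖D (m.xT K) x‖ ^ 2 - m.g x * ⟪D m.g x, D (m.xT K) x⟫ +
      m.g x ^ 2 * ⟪∇ m.qT x, D (m.xT K) x⟫ / m.qT x) -
    (1 / 2) * (Real.pi * (1 - 2 * m.xT K x) / (1 + m.xT K x) ^ 4) * m.r x ^ 2 * ‖D (m.xT K) x‖ ^ 2
end MD

end

end Crest.Agent.R335
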