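import Crest.Agent.R335.Y2

/-! Local `C¹` bound for Yukawa potentials (auxiliary file of `F0b`). -/

set_option autoImplicit false

open MeasureTheory Set Filter Topology Metric
open scoped Gradient ContDiff RealInnerProductSpace ENNReal

namespace Crest.Agent.R335

noncomputable section

theorem F0c_reg {S : E → ℝ} {U : Set E} {K : ℝ} (hU : IsOpen U) (hS : MemLp S 2 volume)
    (hI : ∀ x ∈ U, Integrable (fun y => Y2A ‖x - y‖ * |S y|) ∧ ∫ y, Y2A ‖x - y‖ * |S y| ≤ K) :
    ContDiffOn ℝ 1 (YP 8 S) U ∧ ∀ x ∈ U, ‖∇ (YP 8 S) x‖ ≤ 2 * K := by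
  have hc := Y2c_ge
  let H : E → E := fun x => ∫ y, S y • Y2G (x - y)
  have hGle : ∀ x y : E, ‖S y • Y2G (x - y)‖ ≤ 2 * (Y2A ‖x - y‖ * |S y|) := by
    intro x y
    rw [norm_smul, Y2G_norm, Real.norm_eq_abs]
    have := mul_le_mul_of_nonneg_left (Y2phi_le (norm_nonneg (x - y))) (abs_nonneg (S y))
    linarith
  have hGi : ∀ x ∈ U, Integrable (fun y => S y • Y2G (x - y)) := fun x hx =>
    ((hI x hx).1.const_mul 2).mono'
      (hS.1.smul (Y2G_meas.comp (by fun_prop)).aestronglyMeasurable)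
      (Eventually.of_forall (hGle x))
  have hsum : ∀ x ∈ U, ∀ x' ∈ U, ∀ c : ℝ, 0 ≤ c →
      Integrable (fun y => c * (Y2A ‖x - y‖ * |S y| + Y2A ‖x' - y‖ * |S y|)) ∧
      ∫ y, c * (Y2A ‖x - y‖ * |S y| + Y2A ‖x' - y‖ * |S y|) ≤ c * (2 * K) := by
    intro x hx x' hx' c hc
    refine ⟨((hI x hx).1.add (hI x' hx').1).const_mul c, ?_⟩
    rw [integral_const_mul, integral_add (hI x hx).1 (hI x' hx').1]
    exact mul_le_mul_of_nonneg_left (by linarith [(hI x hx).2, (hI x' hx').2]) hc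
  have hH : ∀ x ∈ U, ∀ x' ∈ U, ‖x - x'‖ ≤ 2 → ‖H x - H x'‖ ≤ 2 * Y2c * K * √‖x - x'‖ := by
    intro x hx x' hx' hd
    obtain ⟨h1, h2⟩ := hsum x' hx' x hx (Y2c * √‖x - x'‖) (by positivity)
    simp only [H]
    rw [← integral_sub (hGi x hx) (hGi x' hx')]
    refine (norm_integral_le_of_norm_le h1 (Eventually.of_forall fun y => ?_)).trans
      (h2.trans (le_of_eq (by ring)))
    have e : x - y - (x' - y) = x - x' := by abel
    have h3 := Y2G_holder (z := x' - y) (w := x - y) (by rw [e]; exact hd)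
    rw [e] at h3
    rw [← smul_sub, norm_smul, Real.norm_eq_abs]
    have := mul_le_mul_of_nonneg_left h3 (abs_nonneg (S y))
    linarith
  have hT : ∀ x ∈ U, ∀ x' ∈ U, ‖x' - x‖ ≤ 2 → |YP 8 S x' - YP 8 S x - ⟪H x, x' - x⟫| ≤
      2 * Y2c * K * √‖x' - x‖ * ‖x' - x‖ := by
    intro x hx x' hx' hd
    obtain ⟨h1, h2⟩ := hsum x hx x' hx' (Y2c * (‖x' - x‖ * √‖x' - x‖)) (by positivity)
    have i1 := (YP_integrable (k := 8) (by norm_num) hS x).1
    have i2 := (YP_integrable (k := 8) (by norm_num) hS x').1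
    have i3 : Integrable (fun y => ⟪x' - x, S y • Y2G (x - y)⟫) := (hGi x hx).const_inner _
    have i4 : Integrable (fun y => Yk 8 (x' - y) * S y - Yk 8 (x - y) * S y) := i2.sub i1
    simp only [H, YP]
    rw [real_inner_comm, ← integral_inner (hGi x hx), ← integral_sub i2 i1,
      ← integral_sub i4 i3, ← Real.norm_eq_abs]
    refine (norm_integral_le_of_norm_le h1 (Eventually.of_forall fun y => ?_)).trans
      (h2.trans (le_of_eq (by ring)))
    have e : x' - y - (x - y) = x' - x := by abel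
    have h3 := Y2_taylor (z := x - y) (w := x' - y) (by rw [e]; exact hd)
    rw [e] at h3
    have e2 : Yk 8 (x' - y) * S y - Yk 8 (x - y) * S y - ⟪x' - x, S y • Y2G (x - y)⟫ =
        S y * (Yk 8 (x' - y) - Yk 8 (x - y) - ⟪Y2G (x - y), x' - x⟫) := by
      rw [real_inner_smul_right, real_inner_comm]; ring
    rw [e2, Real.norm_eq_abs, abs_mul]
    have := mul_le_mul_of_nonneg_left h3 (abs_nonneg (S y))
    linarith
  have hsq : ∀ x : E, Tendsto (fun x' : E => 2 * Y2c * K * √‖x' - x‖) (𝓝 x) (𝓝 0) := by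
    intro x
    have : Continuous fun x' : E => 2 * Y2c * K * √‖x' - x‖ := by fun_prop
    simpa using this.tendsto x
  have hnear : ∀ x : E, ∀ᶠ x' in 𝓝 x, ‖x' - x‖ ≤ 2 := fun x => by
    filter_upwards [closedBall_mem_nhds x two_pos] with x' hx'
    rwa [mem_closedBall, dist_eq_norm] at hx'
  have hgrad : ∀ x ∈ U, HasGradientAt (YP 8 S) (H x) x := by
    intro x hx
    rw [hasGradientAt_iff_isLittleO, Asymptotics.isLittleO_iff]
    intro ε hε
    filter_upwards [hU.mem_nhds hx, (hsq x).eventually (gt_mem_nhds hε), hnear x] with x' hx' h2 h3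
    rw [Real.norm_eq_abs]
    exact (hT x hx x' hx' h3).trans (mul_le_mul_of_nonneg_right h2.le (norm_nonneg _))
  have hHc : ContinuousOn H U := by
    intro x hx
    rw [ContinuousWithinAt, tendsto_iff_norm_sub_tendsto_zero]
    refine squeeze_zero' (Eventually.of_forall fun _ => norm_nonneg _) ?_
      ((hsq x).mono_left nhdsWithin_le_nhds)
    filter_upwards [self_mem_nhdsWithin, nhdsWithin_le_nhds (hnear x)] with x' hx' h3
    exact hH x' hx' x hx h3
  refine ⟨?_, fun x hx => ?_⟩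
  · rw [show (1 : WithTop ℕ∞) = 0 + 1 from (zero_add 1).symm,
      contDiffOn_succ_iff_fderiv_of_isOpen hU]
    refine ⟨fun x hx => (hgrad x hx).differentiableAt.differentiableWithinAt, by simp, ?_⟩
    rw [contDiffOn_zero]
    refine ContinuousOn.congr (f := fun x => InnerProductSpace.toDual ℝ E (H x))
      ((InnerProductSpace.toDual ℝ E).continuous.comp_continuousOn hHc) fun x hx => ?_
    exact (hgrad x hx).hasFDerivAt.fderiv
  · rw [(hgrad x hx).gradient]
    refine (norm_integral_le_of_norm_le ((hI x hx).1.const_mul 2)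
      (Eventually.of_forall (hGle x))).trans ?_
    rw [integral_const_mul]
    linarith [(hI x hx).2]

theorem F0c_far {r a : ℝ} (ha : 0 < a) (hr : a ≤ r) :
    Y2A r ≤ 2 * Real.pi / (a * √a) * (Real.exp (-(1 * r)) / (2 * Real.pi * r)) := by
  have hr0 : 0 < r := ha.trans_le hr
  have hpi := Real.pi_pos
  have hq : 0 < √a := Real.sqrt_pos.2 ha
  have hq' : √a ≤ √r := Real.sqrt_le_sqrt hr
  have e1 : 2 * Real.pi / (a * √a) * (Real.exp (-(1 * r)) / (2 * Real.pi * r)) =
      Real.exp (-(1 * r)) / (r * (a * √a)) := by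
    field_simp
  rw [e1, Y2A]
  refine div_le_div₀ (Real.exp_pos _).le (Real.exp_le_exp.2 (by linarith)) (by positivity) ?_
  rw [sq, mul_assoc]
  gcongr

theorem F0c_int (a : ℝ) (ha : 0 < a) : ∃ C : ℝ, 0 < C ∧ ∀ (S : E → ℝ) (x₀ : E) (M N : ℝ),
    MemLp S 2 volume → 0 ≤ M → 0 ≤ N → nsq S ≤ N ^ 2 → (∀ᵐ y, ‖y - x₀‖ < 2 * a → |S y| ≤ M) →
    ∀ x ∈ ball x₀ a, Integrable (fun y => Y2A ‖x - y‖ * |S y|) ∧
      ∫ y, Y2A ‖x - y‖ * |S y| ≤ C * (M + N) := by
  set I := ∫ z : E, Y2A ‖z‖ * Real.exp (4 * ‖z‖) with hI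
  have hI0 : 0 ≤ I := integral_nonneg fun z => mul_nonneg (Y2A_nonneg _) (Real.exp_pos _).le
  have hpi := Real.pi_pos
  have hq : 0 < √a := Real.sqrt_pos.2 ha
  set b := 2 * Real.pi / (a * √a) with hb'
  have hb0 : 0 < b := by positivity
  refine ⟨I + b, by positivity, fun S x₀ M N hS hM hN hSN hb x hx => ?_⟩
  have hx1 : ‖x - x₀‖ < a := by rwa [mem_ball, dist_eq_norm] at hx
  have hS' : MemLp (fun y => |S y|) 2 volume := hS.abs
  obtain ⟨h1, h2⟩ := YP_integrable (k := 1) one_pos hS' x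
  have hn : nsq (fun y => |S y|) = nsq S := by simp only [nsq, sq_abs]
  have h3 : YP 1 (fun y => |S y|) x ≤ N := by
    refine (abs_le_of_sq_le_sq' (h2.trans ?_) hN).2
    rw [hn, div_le_iff₀ (by positivity)]
    nlinarith [Real.pi_gt_three, sq_nonneg N]
  have hV : Integrable (fun y : E => Y2A ‖x - y‖ * Real.exp (4 * ‖x - y‖)) :=
    Y2V_int.comp_sub_left x
  have hVI : ∫ y : E, Y2A ‖x - y‖ * Real.exp (4 * ‖x - y‖) = I :=
    integral_sub_left_eq_self (fun z : E => Y2A ‖z‖ * Real.exp (4 * ‖z‖)) volume x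
  have hg : Integrable (fun y : E => M * (Y2A ‖x - y‖ * Real.exp (4 * ‖x - y‖)) +
      b * (Yk 1 (x - y) * |S y|)) := (hV.const_mul M).add (h1.const_mul b)
  have hle : ∀ᵐ y, Y2A ‖x - y‖ * |S y| ≤ M * (Y2A ‖x - y‖ * Real.exp (4 * ‖x - y‖)) +
      b * (Yk 1 (x - y) * |S y|) := by
    filter_upwards [hb] with y hy
    have hA := Y2A_nonneg ‖x - y‖
    have hY : 0 ≤ Yk 1 (x - y) := by unfold Yk; positivity
    have htri : ‖y - x₀‖ ≤ ‖x - y‖ + ‖x - x₀‖ := by
      have := norm_sub_le (x - x₀) (x - y)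
      rw [show x - x₀ - (x - y) = y - x₀ by abel] at this
      linarith
    by_cases hyd : ‖y - x₀‖ < 2 * a
    · have e1 : |S y| ≤ M * Real.exp (4 * ‖x - y‖) := by
        refine (hy hyd).trans (le_mul_of_one_le_right hM ?_)
        exact Real.one_le_exp (by positivity)
      have e2 := mul_le_mul_of_nonneg_left e1 hA
      have e3 : 0 ≤ b * (Yk 1 (x - y) * |S y|) := by positivity
      linarith
    · push Not at hyd
      have e1 : Y2A ‖x - y‖ ≤ b * Yk 1 (x - y) := F0c_far ha (by linarith)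
      have e2 := mul_le_mul_of_nonneg_right e1 (abs_nonneg (S y))
      have e3 : 0 ≤ M * (Y2A ‖x - y‖ * Real.exp (4 * ‖x - y‖)) := by positivity
      linarith
  have hm : AEStronglyMeasurable (fun y => Y2A ‖x - y‖ * |S y|) volume :=
    (Y2A_meas.comp (by fun_prop)).aestronglyMeasurable.mul hS'.1
  have hint : Integrable (fun y => Y2A ‖x - y‖ * |S y|) := by
    refine hg.mono' hm ?_
    filter_upwards [hle] with y hy
    rwa [Real.norm_of_nonneg (mul_nonneg (Y2A_nonneg _) (abs_nonneg _))]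
  refine ⟨hint, (integral_mono_ae hint hg hle).trans ?_⟩
  rw [integral_add (hV.const_mul M) (h1.const_mul b), integral_const_mul, integral_const_mul, hVI]
  have h4 : b * ∫ y, Yk 1 (x - y) * |S y| ≤ b * N := mul_le_mul_of_nonneg_left h3 hb0.le
  have h5 : 0 ≤ I * N + b * M := by positivity
  linarith

theorem F0c_sqrt {a b η : ℝ} (ha : 99 / 100 ≤ √a) (hb : 0 ≤ b) (h : |a - b| ≤ η) :
    |√a - √b| ≤ 100 / 99 * η := by
  have h0 : 0 ≤ a := by
    by_contra h1
    rw [Real.sqrt_eq_zero'.2 (le_of_lt (not_le.1 h1))] at ha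
    norm_num at ha
  have e : a - b = (√a - √b) * (√a + √b) := by
    have := Real.mul_self_sqrt h0
    have := Real.mul_self_sqrt hb
    linarith
  have hs := Real.sqrt_nonneg b
  rw [e, abs_mul, abs_of_nonneg (by linarith : 0 ≤ √a + √b)] at h
  have := mul_le_mul_of_nonneg_left (show 99 / 100 ≤ √a + √b by linarith) (abs_nonneg (√a - √b))
  linarith

end

end Crest.Agent.R335
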