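import Crest.Agent.R335.S12
import Crest.Agent.R335.S09
import Crest.Agent.R335.S07
import Crest.Agent.R335.S05

set_option autoImplicit false

open MeasureTheory Set Filter Topology Metric
open scoped Gradient ContDiff RealInnerProductSpace ENNReal

namespace Crest.Agent.R335

noncomputable section

namespace F0d

theorem hor_sub (a b : E) : hor (a - b) = hor a - hor b := by
  unfold hor
  simp only [PiLp.sub_apply]
  module

theorem norm_hor_le (a : E) : ‖hor a‖ ≤ ‖a‖ := by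
  have h := norm_sq_hor a
  exact (pow_le_pow_iff_left₀ (norm_nonneg _) (norm_nonneg _) two_ne_zero).1
    (by nlinarith [sq_nonneg (a 2)])

theorem hor_two (a : E) : hor a 2 = 0 := by
  simp only [hor, PiLp.sub_apply, PiLp.smul_apply, S07.ez_two, smul_eq_mul]
  ring

theorem R_of_two {a : E} (h : a 2 = 0) : R a = a := by
  simp [R, h]

theorem norm_smul_ez (z : ℝ) : ‖z • ez‖ = |z| := by
  rw [norm_smul, S07.norm_ez, mul_one, Real.norm_eq_abs]

theorem odd_holder {p : E → ℝ} {x₀ : E} {H : ℝ} (h0 : x₀ 2 = 0) (hp : ContDiffOn ℝ 1 p (ball x₀ 2))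
    (ho : ∀ x, p (R x) = -p x)
    (hH : ∀ x ∈ ball x₀ 2, ∀ x' ∈ ball x₀ 2, ‖x - x'‖ ≤ 1 → ‖∇ p x - ∇ p x'‖ ≤ H * √‖x - x'‖)
    {s : ℝ} (hs : 0 < s) (hs1 : s ≤ 1 / 2) {z : ℝ} (hz : |z| ≤ 1) :
    ‖hor (∇ p (x₀ + z • ez))‖ ≤ H * √|z| ∧
      (|z| ≤ s → |∇ p (x₀ + z • ez) 2 - p (x₀ + s • ez) / s| ≤ 2 * H * √s) := by
  have mem : ∀ t : ℝ, |t| ≤ 1 → x₀ + t • ez ∈ ball x₀ 2 := fun t ht => by
    rw [mem_ball, dist_eq_norm, add_sub_cancel_left, norm_smul_ez]
    linarith
  have dif : ∀ x ∈ ball x₀ 2, DifferentiableAt ℝ p x := fun x hx =>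
    (hp.differentiableOn one_ne_zero).differentiableAt (isOpen_ball.mem_nhds hx)
  have m0 : x₀ ∈ ball x₀ (2 : ℝ) := mem_ball_self two_pos
  have hR := R_of_two h0
  have key : ∀ t t' : ℝ, |t| ≤ 1 → |t'| ≤ 1 → |t - t'| ≤ 1 →
      ‖∇ p (x₀ + t • ez) - ∇ p (x₀ + t' • ez)‖ ≤ H * √|t - t'| := fun t t' a b c => by
    have e : ‖x₀ + t • ez - (x₀ + t' • ez)‖ = |t - t'| := by
      rw [add_sub_add_left_eq_sub, ← sub_smul, norm_smul_ez]
    have := hH _ (mem t a) _ (mem t' b) (e.trans_le c)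
    rwa [e] at this
  have H0 : 0 ≤ H := by
    have := (norm_nonneg _).trans (key 1 0 (by simp) (by simp) (by simp))
    simpa using this
  constructor
  · have hz0 : hor (∇ p x₀) = 0 := by
      have d0 := (dif x₀ m0).hasFDerivAt
      have d1 : HasFDerivAt p (fderiv ℝ p x₀) (S07.Ri x₀) := by
        rw [S07.Ri_apply, hR]
        exact d0
      have d2 := d1.comp x₀ S07.Ri.toContinuousLinearEquiv.hasFDerivAt
      have e : p ∘ S07.Ri = fun x => -p x := funext fun x => ho x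
      rw [e] at d2
      have d3 := d2.unique d0.neg
      have d4 := congrArg (fun L : E →L[ℝ] ℝ => L (hor (∇ p x₀))) d3
      have d5 : fderiv ℝ p x₀ (R (hor (∇ p x₀))) = -fderiv ℝ p x₀ (hor (∇ p x₀)) := d4
      rw [R_of_two (hor_two _), ← s05_inner_grad] at d5
      have d6 : ⟪∇ p x₀, hor (∇ p x₀)⟫ = ‖hor (∇ p x₀)‖ ^ 2 := by
        have e2 : ∇ p x₀ = hor (∇ p x₀) + (∇ p x₀ 2) • ez := by simp [hor]
        calc ⟪∇ p x₀, hor (∇ p x₀)⟫ = ⟪hor (∇ p x₀) + (∇ p x₀ 2) • ez, hor (∇ p x₀)⟫ := by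
              rw [← e2]
          _ = _ := by
              rw [inner_add_left, real_inner_smul_left, S07.inner_ez, hor_two, mul_zero, add_zero,
                real_inner_self_eq_norm_sq]
      rw [d6] at d5
      exact norm_eq_zero.1 (pow_eq_zero_iff two_ne_zero |>.1 (by linarith))
    have k := key z 0 hz (by simp) (by simpa using hz)
    rw [zero_smul, add_zero, sub_zero] at k
    rw [← sub_zero (hor _), ← hz0, ← hor_sub]
    exact (norm_hor_le _).trans k
  · intro hzs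
    have p0 : p x₀ = 0 := by
      have := ho x₀
      rw [hR] at this
      linarith
    have hd : ∀ t : ℝ, |t| ≤ 1 → HasDerivAt (fun t : ℝ => p (x₀ + t • ez)) (∇ p (x₀ + t • ez) 2) t := by
      intro t ht
      have h1 : HasDerivAt (fun t : ℝ => x₀ + t • ez) ez t := by
        simpa using ((hasDerivAt_id t).smul_const ez).const_add x₀
      have h2 := (dif _ (mem t ht)).hasFDerivAt.comp_hasDerivAt t h1
      rw [← s05_inner_grad, real_inner_comm, S07.inner_ez] at h2
      exact h2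
    obtain ⟨c, hc, e⟩ := exists_hasDerivAt_eq_slope (fun t : ℝ => p (x₀ + t • ez))
      (fun t => ∇ p (x₀ + t • ez) 2) hs
      (fun t ht => (hd t (abs_le.2 ⟨by linarith [ht.1], by linarith [ht.2]⟩)).continuousAt.continuousWithinAt)
      (fun t ht => hd t (abs_le.2 ⟨by linarith [ht.1], by linarith [ht.2]⟩))
    simp only [zero_smul, add_zero, p0, sub_zero] at e
    rw [← e]
    have hzc : |z - c| ≤ 2 * s := by
      have := abs_le.1 hzs
      exact abs_le.2 ⟨by linarith [hc.2], by linarith [hc.1]⟩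
    have k := key z c hz (abs_le.2 ⟨by linarith [hc.1], by linarith [hc.2]⟩) (by linarith)
    have k2 : |(∇ p (x₀ + z • ez) - ∇ p (x₀ + c • ez)) 2| ≤ _ :=
      (PiLp.norm_apply_le _ 2).trans k
    rw [PiLp.sub_apply] at k2
    refine k2.trans ?_
    have k3 : √|z - c| ≤ 2 * √s := by
      rw [Real.sqrt_le_left (by positivity), mul_pow, Real.sq_sqrt hs.le]
      linarith
    nlinarith [mul_le_mul_of_nonneg_left k3 H0]

theorem half_lip {p : E → ℝ} {x₀ : E} {M a : ℝ} (h0 : x₀ 2 = 0) (hp : Hl p)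
    (hz : ∀ᵐ x, x 2 < 0 → p x = 0) (hM : ∀ᵐ x, x ∈ ball x₀ (2 * a) → ‖D p x‖ ≤ M) :
    ∀ᵐ x, x ∈ ball x₀ a → |p x| ≤ M * |x 2| := by
  rcases le_or_gt a 0 with ha | ha
  · exact ae_of_all _ fun x hx => absurd hx (by simp [ball_eq_empty.2 ha])
  have hr : 0 < a / 2 := half_pos ha
  have t0 := (tendsto_one_div_add_atTop_nhds_zero_nat (𝕜 := ℝ)).const_mul (a / 2)
  rw [mul_zero] at t0
  have hconv := ContDiffBump.ae_convolution_tendsto_right_of_locallyIntegrable
    (φ := fun n => (S02Aux.mol (a / 2) hr n : ContDiffBump (0 : E)))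
    (l := atTop) (K := 2) (μ := volume) t0
    (Eventually.of_forall fun n => le_of_eq (by rw [S02Aux.mol_rOut, S02Aux.mol_rIn]; ring))
    hp.isW.lu
  have step : ∀ (ρ : ContDiffBump (0 : E)), ρ.rOut ≤ a / 2 → ∀ x ∈ ball x₀ a,
      |S02Aux.cv ρ p x| ≤ M * |x 2 + ρ.rOut| := by
    intro ρ hρ x hx
    have r0 := ρ.rOut_pos
    have supp : ∀ y t : E, ρ.normed volume (y - t) ≠ 0 → ‖y - t‖ < ρ.rOut := fun y t h => by
      have : y - t ∈ Function.support (ρ.normed volume) := h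
      rwa [ρ.support_normed_eq, mem_ball_zero_iff] at this
    have b1 : ∀ y ∈ ball x₀ (a + ρ.rOut), ‖fderiv ℝ (S02Aux.cv ρ p) y‖ ≤ M := by
      intro y hy
      rw [← S02Aux.norm_grad, S02Aux.grad_cv hp.isW, S02Aux.cv_apply]
      refine (norm_integral_le_of_norm_le ((S02Aux.ker_int ρ y).mul_const M) ?_).trans_eq
        (by rw [integral_mul_const, S02Aux.ker_one, one_mul])
      filter_upwards [hM] with t ht
      rw [norm_smul, Real.norm_of_nonneg (ρ.nonneg_normed _)]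
      by_cases h : ρ.normed volume (y - t) = 0
      · simp [h]
      · refine mul_le_mul_of_nonneg_left (ht ?_) (ρ.nonneg_normed _)
        have h1 := supp y t h
        rw [mem_ball, dist_eq_norm] at hy ⊢
        have h2 : ‖t - x₀‖ ≤ ‖y - x₀‖ + ‖y - t‖ := by
          rw [show t - x₀ = (y - x₀) - (y - t) by abel]
          exact norm_sub_le _ _
        linarith
    set y := x - (x 2 + ρ.rOut) • ez with hy
    have y2 : y 2 = -ρ.rOut := by
      simp only [hy, PiLp.sub_apply, PiLp.smul_apply, S07.ez_two, smul_eq_mul]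
      ring
    have z0 : S02Aux.cv ρ p y = 0 := by
      rw [S02Aux.cv_apply]
      refine integral_eq_zero_of_ae ?_
      filter_upwards [hz] with t ht
      by_cases h : ρ.normed volume (y - t) = 0
      · simp [h]
      · have h1 := supp y t h
        have h2 : |(y - t) 2| ≤ ‖y - t‖ := PiLp.norm_apply_le (y - t) 2
        rw [PiLp.sub_apply, y2] at h2
        have h3 := abs_le.1 h2
        simp [ht (by linarith [h3.1])]
    have my : y ∈ ball x₀ (a + ρ.rOut) := by
      rw [mem_ball, dist_eq_norm] at hx ⊢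
      have e : y - x₀ = hor (x - x₀) - ρ.rOut • ez := by
        simp only [hy, hor, PiLp.sub_apply, h0]
        module
      rw [e]
      refine (norm_sub_le _ _).trans_lt ?_
      rw [norm_smul_ez, abs_of_pos r0]
      linarith [norm_hor_le (x - x₀)]
    have k := (convex_ball x₀ (a + ρ.rOut)).norm_image_sub_le_of_norm_fderiv_le
      (fun y _ => ((S02Aux.cv_smooth ρ hp.isW.lu).differentiable (by simp)) y) b1 my
      (ball_subset_ball (by linarith) hx)
    rw [z0, sub_zero, hy, sub_sub_cancel, norm_smul_ez] at k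
    exact k
  filter_upwards [hconv] with x h1 hx
  have h2 := ((t0.const_add (x 2)).abs).const_mul M
  rw [add_zero] at h2
  refine le_of_tendsto_of_tendsto' h1.abs h2 fun n => step _ ?_ x hx
  rw [S02Aux.mol_rOut]
  refine mul_le_of_le_one_right hr.le ?_
  rw [div_le_one (by positivity)]
  linarith [(Nat.cast_nonneg n : (0 : ℝ) ≤ n)]

theorem slab_fubini {F : E → ℝ} (hF : Integrable F) :
    ∫ x, F x = ∫ s : ℝ, (1 / 2) * ∫ x in {x : E | |x 2| < 1}, F (hor x + s • ez) := by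
  let e : E ≃ᵐ ℝ × (Fin 2 → ℝ) := (MeasurableEquiv.toLp 2 (Fin 3 → ℝ)).symm.trans
    (MeasurableEquiv.piFinSuccAbove (fun _ => ℝ) 2)
  have he : MeasurePreserving e volume volume :=
    (EuclideanSpace.volume_preserving_symm_measurableEquiv_toLp (Fin 3)).trans
      (volume_preserving_piFinSuccAbove (fun _ => ℝ) 2)
  have e1 : ∀ x : E, (e x).1 = x 2 := fun x => rfl
  have e2 : ∀ (x : E) (s : ℝ), hor x + s • ez = e.symm (s, (e x).2) := by
    intro x s
    rw [← e.injective.eq_iff, e.apply_symm_apply]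
    refine Prod.ext ?_ (funext fun j => ?_)
    · rw [e1, PiLp.add_apply, hor_two, PiLp.smul_apply, S07.ez_two]
      simp
    · fin_cases j
      · show (hor x + s • ez) 0 = x 0
        simp [hor, S07.ez_zero]
      · show (hor x + s • ez) 1 = x 1
        simp [hor, S07.ez_one]
  have hS : MeasurableSet {x : E | |x 2| < 1} :=
    (isOpen_lt S07.cont_two.abs continuous_const).measurableSet
  have i1 : Integrable (fun z => F (e.symm z)) (volume.prod volume) :=
    (he.symm.integrable_comp_emb e.symm.measurableEmbedding).2 hF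
  rw [← he.symm.integral_comp' F, Measure.volume_eq_prod, integral_prod _ i1]
  refine integral_congr_ae (ae_of_all _ fun s => ?_)
  have k := he.integral_comp'
    (fun z : ℝ × (Fin 2 → ℝ) => (Ioo (-1 : ℝ) 1).indicator (fun _ => (1 : ℝ)) z.1 * F (e.symm (s, z.2)))
  rw [Measure.volume_eq_prod, integral_prod_mul ((Ioo (-1 : ℝ) 1).indicator fun _ => (1 : ℝ))
    (fun w => F (e.symm (s, w))), integral_indicator measurableSet_Ioo] at k
  have k2 : ∫ x in {x : E | |x 2| < 1}, F (hor x + s • ez) =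
      ∫ x, (Ioo (-1 : ℝ) 1).indicator (fun _ => (1 : ℝ)) (e x).1 * F (e.symm (s, (e x).2)) := by
    rw [← integral_indicator hS]
    refine integral_congr_ae (ae_of_all _ fun x => ?_)
    simp only [e1, ← e2]
    by_cases hx : |x 2| < 1
    · rw [indicator_of_mem (show x ∈ {x : E | |x 2| < 1} from hx),
        indicator_of_mem (show x 2 ∈ Ioo (-1 : ℝ) 1 from abs_lt.1 hx), one_mul]
    · rw [indicator_of_notMem (show x ∉ {x : E | |x 2| < 1} from hx),
        indicator_of_notMem (show x 2 ∉ Ioo (-1 : ℝ) 1 from fun h => hx (abs_lt.2 h)), zero_mul]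
  simp only
  rw [k2, k]
  norm_num
  ring

theorem dvg_eps (c : E) {ε : ℝ} (hε : 0 < ε) (x : E) :
    dvg (fun x => (√(‖x - c‖ ^ 2 + ε))⁻¹ • (x - c)) x =
      (3 - ‖x - c‖ ^ 2 / (‖x - c‖ ^ 2 + ε)) * (√(‖x - c‖ ^ 2 + ε))⁻¹ := by
  have h0 : 0 < ‖x - c‖ ^ 2 + ε := by positivity
  have h0' : √(‖x - c‖ ^ 2 + ε) ≠ 0 := (Real.sqrt_pos.2 h0).ne'
  have h1 := (hasFDerivAt_id (𝕜 := ℝ) x).sub_const c
  have h2 := ((((Real.hasDerivAt_sqrt h0.ne').inv h0').comp_hasFDerivAt x
    (h1.norm_sq.add_const ε))).smul h1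
  unfold dvg
  rw [show fderiv ℝ (fun x => (√(‖x - c‖ ^ 2 + ε))⁻¹ • (x - c)) x = _ from h2.fderiv]
  simp only [ContinuousLinearMap.toLinearMap_add, map_add, ContinuousLinearMap.toLinearMap_smul,
    map_smul, ContinuousLinearMap.coe_id, LinearMap.trace_id]
  rw [show ∀ (f : E →L[ℝ] ℝ) (v : E), LinearMap.trace ℝ E (f.smulRight v : E →ₗ[ℝ] E) = f v from
    fun f v => LinearMap.trace_smulRight (f : E →ₗ[ℝ] ℝ) v]
  have h3 : ⟪x, x - c⟫ = ‖x - c‖ ^ 2 + ⟪c, x - c⟫ := by
    rw [← real_inner_self_eq_norm_sq, inner_sub_left, sub_add_cancel]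
  simp [h3]
  rw [Real.sq_sqrt h0.le]
  field_simp
  ring

theorem int_cs {X : Type*} [NormedAddCommGroup X] {f : E → X} {K : Set E} (hK : IsCompact K)
    (hf : MemLp f 2 volume) (h0 : ∀ᵐ x, x ∉ K → f x = 0) : Integrable f := by
  have h1 : Integrable (K.indicator f) :=
    (integrable_indicator_iff hK.measurableSet).2 (S12_intOn hK (hf.restrict K))
  refine h1.congr ?_
  filter_upwards [h0] with x hx
  by_cases h : x ∈ K
  · simp [h]
  · simp [h, hx h]

theorem norm_lap (c : E) {χ : E → ℝ} (h : TF univ χ) : Integrable (fun x => χ x / ‖x - c‖) ∧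
    ∫ x, ⟪D (fun x => ‖x - c‖) x, D χ x⟫ = -∫ x, 2 * (χ x / ‖x - c‖) := by
  obtain ⟨K, hK, -, z1, z2⟩ := S12_supp h
  have i1 : Integrable (fun x => χ x / ‖x - c‖) :=
    int_cs hK (hardy h.h1 c).1 (z1.mono fun x hx hK => by rw [hx hK, zero_div])
  have i2 : Integrable (D χ) := int_cs hK h.h1.dl2 z2
  refine ⟨i1, ?_⟩
  have t0 : Tendsto (fun n : ℕ => (1 / ((n : ℝ) + 1))) atTop (𝓝 0) :=
    tendsto_one_div_add_atTop_nhds_zero_nat
  have p0 : ∀ n : ℕ, (0 : ℝ) < 1 / ((n : ℝ) + 1) := fun n => by positivity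
  have q0 : ∀ (n : ℕ) (x : E), 0 < ‖x - c‖ ^ 2 + 1 / ((n : ℝ) + 1) := fun n x => by positivity
  have hX : ∀ n : ℕ, ContDiff ℝ 1 fun x : E => (√(‖x - c‖ ^ 2 + 1 / ((n : ℝ) + 1)))⁻¹ • (x - c) :=
    fun n => (((((contDiff_id.sub contDiff_const).norm_sq ℝ).add contDiff_const).sqrt
      fun x => (q0 n x).ne').inv fun x => (Real.sqrt_pos.2 (q0 n x)).ne').smul
      (contDiff_id.sub contDiff_const)
  have hle : ∀ (n : ℕ) (x : E), ‖x - c‖ ≤ √(‖x - c‖ ^ 2 + 1 / ((n : ℝ) + 1)) := fun n x =>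
    Real.le_sqrt_of_sq_le (by linarith [p0 n])
  have hne : ∀ᵐ x : E, x ≠ c := by
    rw [ae_iff]
    simp
  have ts : ∀ x : E, x ≠ c → Tendsto (fun n : ℕ => (√(‖x - c‖ ^ 2 + 1 / ((n : ℝ) + 1)))⁻¹) atTop
      (𝓝 (‖x - c‖)⁻¹) := by
    intro x hx
    have h1 := (t0.const_add (‖x - c‖ ^ 2)).sqrt
    rw [add_zero, Real.sqrt_sq (norm_nonneg _)] at h1
    exact h1.inv₀ (norm_ne_zero_iff.2 (sub_ne_zero.2 hx))
  have l1 : Tendsto (fun n : ℕ => ∫ x, ⟪(√(‖x - c‖ ^ 2 + 1 / ((n : ℝ) + 1)))⁻¹ • (x - c), D χ x⟫)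
      atTop (𝓝 (∫ x, ⟪D (fun x => ‖x - c‖) x, D χ x⟫)) := by
    refine tendsto_integral_of_dominated_convergence (fun x => ‖D χ x‖)
      (fun n => (hX n).continuous.aestronglyMeasurable.inner i2.1) i2.norm
      (fun n => ae_of_all _ fun x => ?_) ?_
    · refine (norm_inner_le_norm _ _).trans (mul_le_of_le_one_left (norm_nonneg _) ?_)
      rw [norm_smul, Real.norm_of_nonneg (by positivity),
        inv_mul_le_iff₀ (Real.sqrt_pos.2 (q0 n x)), mul_one]
      exact hle n x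
    · filter_upwards [hne, (norm_sub_bl c).2] with x hx hD
      rw [hD]
      exact ((ts x hx).smul_const _).inner tendsto_const_nhds
  have l2 : Tendsto (fun n : ℕ => ∫ x, dvg (fun x =>
      (√(‖x - c‖ ^ 2 + 1 / ((n : ℝ) + 1)))⁻¹ • (x - c)) x * χ x) atTop
      (𝓝 (∫ x, 2 * (χ x / ‖x - c‖))) := by
    refine tendsto_integral_of_dominated_convergence (fun x => 3 * ‖χ x / ‖x - c‖‖)
      (fun n => (continuousOn_univ.1 (S12_dvg_cont isOpen_univ
        (hX n).contDiffOn)).aestronglyMeasurable.mul h.h1.l2.1) (i1.norm.const_mul 3)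
      (fun n => ?_) ?_
    · filter_upwards [hne] with x hx
      have r0 : 0 < ‖x - c‖ := norm_pos_iff.2 (sub_ne_zero.2 hx)
      have a1 : 0 ≤ ‖x - c‖ ^ 2 / (‖x - c‖ ^ 2 + 1 / ((n : ℝ) + 1)) := by positivity
      have a2 : ‖x - c‖ ^ 2 / (‖x - c‖ ^ 2 + 1 / ((n : ℝ) + 1)) ≤ 1 := by
        rw [div_le_one (q0 n x)]
        linarith [p0 n]
      rw [dvg_eps c (p0 n), norm_mul, norm_div, norm_norm, Real.norm_of_nonneg
        (mul_nonneg (by linarith) (by positivity)), div_eq_inv_mul ‖χ x‖, ← mul_assoc]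
      refine mul_le_mul_of_nonneg_right ?_ (norm_nonneg _)
      exact mul_le_mul (by linarith) (inv_anti₀ r0 (hle n x)) (by positivity) (by norm_num)
    · filter_upwards [hne] with x hx
      have r0 : 0 < ‖x - c‖ := norm_pos_iff.2 (sub_ne_zero.2 hx)
      simp only [fun n => dvg_eps c (p0 n)]
      have h1 := (tendsto_const_nhds (x := ‖x - c‖ ^ 2)).div (t0.const_add (‖x - c‖ ^ 2))
        (by positivity)
      have h2 := ((h1.const_sub 3).mul (ts x hx)).mul_const (χ x)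
      have e : (3 - ‖x - c‖ ^ 2 / (‖x - c‖ ^ 2 + 0)) * ‖x - c‖⁻¹ * χ x = 2 * (χ x / ‖x - c‖) := by
        rw [add_zero, div_self (by positivity)]
        ring
      rw [e] at h2
      exact h2
  refine tendsto_nhds_unique l1 (l2.neg.congr fun n => ?_)
  exact (ibp_field isOpen_univ (hX n).contDiffOn h.h1 h.cs).symm

end F0d

end

end Crest.Agent.R335
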