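import Crest.Agent.R335.S03

set_option autoImplicit false

open MeasureTheory Set Filter Topology Metric
open scoped Gradient ContDiff RealInnerProductSpace ENNReal

namespace Crest.Agent.R335

noncomputable section

variable {V : Type*} [NormedAddCommGroup V] [InnerProductSpace ℝ V] [FiniteDimensional ℝ V]
  [MeasurableSpace V] [BorelSpace V]

/-! products, quotients, truncation -/
theorem Bl.mul {u w : V → ℝ} (a : Bl u) (b : Bl w) :
    Bl (fun x => u x * w x) ∧ ∀ᵐ x, D (fun x => u x * w x) x = u x • D w x + w x • D u x := by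
  have hβ : ContDiff ℝ 1 (fun t : ℝ => t ^ 2) := by fun_prop
  have hd : ∀ t : ℝ, deriv (fun t : ℝ => t ^ 2) t = 2 * t := by intro t; simp
  obtain ⟨p1, p2⟩ := (a.add b).comp hβ
  obtain ⟨m1, m2⟩ := (a.sub b).comp hβ
  have e : (fun x => u x * w x) = fun x => (1 / 4) * ((u x + w x) ^ 2 - (u x - w x) ^ 2) := by
    funext x; ring
  rw [e]
  refine ⟨(p1.sub m1).smul _, ?_⟩
  filter_upwards [D_smul (1 / 4) (p1.sub m1).hl, D_sub p1.hl m1.hl, p2, m2, D_add a.hl b.hl,
    D_sub a.hl b.hl] with x h1 h2 h3 h4 h5 h6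
  rw [h1, h2, h3, h4, h5, h6, hd, hd]
  module

theorem Bl.inv {u : V → ℝ} (a : Bl u) (hp : LP u) :
    Bl (fun x => (u x)⁻¹) ∧ ∀ᵐ x, D (fun x => (u x)⁻¹) x = -((u x ^ 2)⁻¹) • D u x := by
  have hβ : ContDiffOn ℝ 1 (fun t : ℝ => t⁻¹) (Ioi 0) :=
    (contDiffOn_inv ℝ).mono fun t ht => ne_of_gt ht
  obtain ⟨p1, p2⟩ := a.comp_pos hp hβ
  refine ⟨p1, ?_⟩
  filter_upwards [p2] with x h
  rw [h, deriv_inv]

theorem Bl.div {u w : V → ℝ} (a : Bl u) (b : Bl w) (hp : LP w) :
    Bl (fun x => u x / w x) ∧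
      ∀ᵐ x, D (fun x => u x / w x) x = (w x ^ 2)⁻¹ • (w x • D u x - u x • D w x) := by
  obtain ⟨p1, p2⟩ := b.inv hp
  obtain ⟨q1, q2⟩ := a.mul p1
  have e : (fun x => u x / w x) = fun x => u x * (w x)⁻¹ := by
    funext x; rw [div_eq_mul_inv]
  rw [e]
  refine ⟨q1, ?_⟩
  filter_upwards [p2, q2] with x h1 h2
  rw [h2, h1]
  have : (w x)⁻¹ = (w x ^ 2)⁻¹ * w x := by
    by_cases h : w x = 0
    · simp [h]
    · field_simp
  rw [this]
  module

namespace S04

lemma ae_of_ball {P : V → Prop} (h : ∀ n : ℕ, ∀ᵐ x : V, x ∈ closedBall (0 : V) n → P x) :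
    ∀ᵐ x : V, P x := by
  filter_upwards [ae_all_iff.2 h] with x hx
  obtain ⟨n, hn⟩ := exists_nat_ge ‖x‖
  exact hx n (by simpa using hn)

lemma ae_pos {u : V → ℝ} (hp : LP u) : ∀ᵐ x, 0 < u x := by
  refine ae_of_ball fun n => ?_
  obtain ⟨c, hc, h⟩ := hp _ (isCompact_closedBall (0 : V) n)
  filter_upwards [h] with x hx hK using hc.trans_le (hx hK)

end S04

theorem Bl.sqrt {u : V → ℝ} (a : Bl u) (hp : LP u) :
    Bl (fun x => √(u x)) ∧ ∀ᵐ x, D (fun x => √(u x)) x = (2 * √(u x))⁻¹ • D u x := by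
  have hβ : ContDiffOn ℝ 1 (fun t : ℝ => √t) (Ioi 0) := fun t ht =>
    (Real.contDiffAt_sqrt (ne_of_gt ht)).contDiffWithinAt
  obtain ⟨p1, p2⟩ := a.comp_pos hp hβ
  refine ⟨p1, ?_⟩
  filter_upwards [p2, S04.ae_pos hp] with x h h0
  rw [h, (Real.hasDerivAt_sqrt h0.ne').deriv, one_div]

namespace S04

/-- clamp to `[-n, n]` -/
def T (n : ℕ) (t : ℝ) : ℝ := max (min t n) (-n)

open Classical in
/-- the gradient of the clamped function -/
def TD (n : ℕ) (u : V → ℝ) (x : V) : V := if -(n : ℝ) < min (u x) n ∧ u x < n then D u x else 0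

lemma T_abs (n : ℕ) (t : ℝ) : |T n t| ≤ |t| := by
  have hn : (0 : ℝ) ≤ n := Nat.cast_nonneg n
  unfold T
  rcases le_total 0 t with h | h
  · rw [abs_of_nonneg h, abs_le]
    constructor
    · exact le_max_of_le_left (le_min (by linarith) (by linarith))
    · exact max_le (min_le_left _ _) (by linarith)
  · rw [abs_of_nonpos h, abs_le]
    constructor
    · exact le_max_of_le_left (le_min (by linarith) (by linarith))
    · exact max_le ((min_le_left _ _).trans (by linarith)) (by linarith)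

lemma T_abs' (n : ℕ) (t : ℝ) : |T n t| ≤ n := by
  have hn : (0 : ℝ) ≤ n := Nat.cast_nonneg n
  unfold T
  rw [abs_le]
  exact ⟨le_max_right _ _, max_le (min_le_right _ _) (by linarith)⟩

lemma T_sign (n : ℕ) (t : ℝ) : 0 ≤ T n t * t := by
  have hn : (0 : ℝ) ≤ n := Nat.cast_nonneg n
  unfold T
  rcases le_total 0 t with h | h
  · exact mul_nonneg (le_max_of_le_left (le_min h hn)) h
  · exact mul_nonneg_of_nonpos_of_nonpos (max_le ((min_le_left _ _).trans h) (by linarith)) h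

lemma T_ev (t : ℝ) : ∀ᶠ n : ℕ in atTop, T n t = t := by
  obtain ⟨N, hN⟩ := exists_nat_ge |t|
  filter_upwards [eventually_ge_atTop N] with n hn
  have : (N : ℝ) ≤ n := by exact_mod_cast hn
  have h := abs_le.1 (hN.trans this)
  unfold T
  rw [min_eq_left h.2, max_eq_left h.1]

lemma TD_norm (n : ℕ) (u : V → ℝ) (x : V) : ‖TD n u x‖ ≤ ‖D u x‖ := by
  unfold TD
  split_ifs <;> simp

lemma TD_ev (u : V → ℝ) (x : V) : ∀ᶠ n : ℕ in atTop, TD n u x = D u x := by
  obtain ⟨N, hN⟩ := exists_nat_gt |u x|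
  filter_upwards [eventually_ge_atTop N] with n hn
  have : (N : ℝ) ≤ n := by exact_mod_cast hn
  have h := abs_lt.1 (hN.trans_le this)
  unfold TD
  rw [if_pos ⟨by rw [min_eq_left h.2.le]; exact h.1, h.2⟩]

lemma T_bl {u : V → ℝ} (a : Hl u) (n : ℕ) :
    Bl (fun x => T n (u x)) ∧ ∀ᵐ x, D (fun x => T n (u x)) x = TD n u x := by
  have c1 : Hl (fun _ : V => (n : ℝ)) := (bl_c1 contDiff_const).hl
  have c2 : Hl (fun _ : V => -(n : ℝ)) := (bl_c1 contDiff_const).hl
  obtain ⟨p1, p2⟩ := a.min c1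
  obtain ⟨q1, q2⟩ := p1.max c2
  refine ⟨⟨q1, fun K _ => ⟨n, Eventually.of_forall fun x _ => T_abs' n _⟩⟩, ?_⟩
  filter_upwards [p2, q2, D_const (V := V) (n : ℝ), D_const (V := V) (-(n : ℝ))] with x h1 h2 h3 h4
  unfold T TD
  rw [h2, h1, h3, h4]
  split_ifs <;> simp_all

lemma li_mul {A B : Type*} [NormedAddCommGroup A] [NormedAddCommGroup B] {f : V → A} {g : V → B}
    (hf : ∀ K, IsCompact K → MemLp f 2 (volume.restrict K))
    (hg : ∀ K, IsCompact K → MemLp g 2 (volume.restrict K)) :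
    LocallyIntegrable (fun x => ‖f x‖ * ‖g x‖) volume :=
  locallyIntegrable_iff.2 fun K hK => (hf K hK).norm.integrable_mul (hg K hK).norm

/-- dominated limits of weak gradients -/
lemma isW_dom {u : ℕ → V → ℝ} {g : ℕ → V → V} {u₀ : V → ℝ} {g₀ : V → V} (h : ∀ n, IsW (u n) (g n))
    {F G : V → ℝ} (hF : LocallyIntegrable F volume) (hG : LocallyIntegrable G volume)
    (h1 : ∀ n, ∀ᵐ x, ‖u n x‖ ≤ F x) (h2 : ∀ n, ∀ᵐ x, ‖g n x‖ ≤ G x)
    (h3 : ∀ᵐ x, Tendsto (fun n => u n x) atTop (𝓝 (u₀ x)))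
    (h4 : ∀ᵐ x, Tendsto (fun n => g n x) atTop (𝓝 (g₀ x))) : IsW u₀ g₀ := by
  have mu : ∀ n, AEStronglyMeasurable (u n) volume := fun n => (h n).lu.aestronglyMeasurable
  have mg : ∀ n, AEStronglyMeasurable (g n) volume := fun n => (h n).lg.aestronglyMeasurable
  refine ⟨?_, ?_, fun φ hφ v => ?_⟩
  · refine hF.mono (aestronglyMeasurable_of_tendsto_ae atTop mu h3) ?_
    filter_upwards [ae_all_iff.2 h1, h3] with x b t
    exact (le_of_tendsto' t.norm b).trans (le_abs_self _)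
  · refine hG.mono (aestronglyMeasurable_of_tendsto_ae atTop mg h4) ?_
    filter_upwards [ae_all_iff.2 h2, h4] with x b t
    exact (le_of_tendsto' t.norm b).trans (le_abs_self _)
  · have cφ : Continuous φ := hφ.1.continuous
    have e : ∀ x, ⟪∇ φ x, v⟫ = fderiv ℝ φ x v := fun x => by
      simp [gradient]
    have cg : Continuous fun x => fderiv ℝ φ x v :=
      (hφ.1.continuous_fderiv one_ne_zero).clm_apply continuous_const
    have sg : HasCompactSupport fun x => fderiv ℝ φ x v := hφ.2.fderiv_apply ℝ v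
    have t1 : Tendsto (fun n => ∫ x, u n x * ⟪∇ φ x, v⟫) atTop (𝓝 (∫ x, u₀ x * ⟪∇ φ x, v⟫)) := by
      simp_rw [e]
      refine tendsto_integral_of_dominated_convergence (fun x => F x * ‖fderiv ℝ φ x v‖)
        (fun n => (mu n).mul cg.aestronglyMeasurable)
        (hF.integrable_smul_right_of_hasCompactSupport cg.norm sg.norm) (fun n => ?_) ?_
      · filter_upwards [h1 n] with x hx
        rw [norm_mul]
        exact mul_le_mul_of_nonneg_right hx (norm_nonneg _)
      · filter_upwards [h3] with x hx using hx.mul_const _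
    have t2 : Tendsto (fun n => ∫ x, ⟪g n x, v⟫ * φ x) atTop (𝓝 (∫ x, ⟪g₀ x, v⟫ * φ x)) := by
      refine tendsto_integral_of_dominated_convergence (fun x => G x * (‖v‖ * ‖φ x‖))
        (fun n => ((mg n).inner aestronglyMeasurable_const).mul cφ.aestronglyMeasurable)
        (hG.integrable_smul_right_of_hasCompactSupport (continuous_const.mul cφ.norm)
          hφ.2.norm.mul_left) (fun n => ?_) ?_
      · filter_upwards [h2 n] with x hx
        rw [norm_mul, ← mul_assoc]
        refine mul_le_mul_of_nonneg_right ?_ (norm_nonneg _)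
        exact (norm_inner_le_norm _ _).trans (mul_le_mul_of_nonneg_right hx (norm_nonneg _))
      · filter_upwards [h4] with x hx using (hx.inner tendsto_const_nhds).mul_const _
    have t3 := t2.neg
    simp_rw [← (h _).ibp φ hφ v] at t3
    exact tendsto_nhds_unique t1 t3

end S04

/-- a product of two `H¹_loc` functions is `H¹_loc` if it and the Leibniz expression are locally `L²` -/
theorem Hl.mul {u w : V → ℝ} (a : Hl u) (b : Hl w)
    (h1 : ∀ K, IsCompact K → MemLp (fun x => u x * w x) 2 (volume.restrict K))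
    (h2 : ∀ K, IsCompact K → MemLp (fun x => u x • D w x + w x • D u x) 2 (volume.restrict K)) :
    Hl (fun x => u x * w x) ∧ ∀ᵐ x, D (fun x => u x * w x) x = u x • D w x + w x • D u x := by
  have hT : ∀ n : ℕ, IsW (fun x => S04.T n (u x) * S04.T n (w x))
      (fun x => S04.T n (u x) • S04.TD n w x + S04.T n (w x) • S04.TD n u x) := by
    intro n
    obtain ⟨a1, a2⟩ := S04.T_bl a n
    obtain ⟨b1, b2⟩ := S04.T_bl b n
    obtain ⟨c1, c2⟩ := a1.mul b1
    refine c1.hl.isW.congr (Eventually.of_forall fun _ => rfl) ?_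
    filter_upwards [a2, b2, c2] with x h1 h2 h3
    rw [h3, h1, h2]
  have hW : IsW (fun x => u x * w x) (fun x => u x • D w x + w x • D u x) := by
    refine S04.isW_dom hT (F := fun x => ‖u x‖ * ‖w x‖)
      (G := fun x => ‖u x‖ * ‖D w x‖ + ‖w x‖ * ‖D u x‖) (S04.li_mul a.l2 b.l2)
      ((S04.li_mul a.l2 b.dl2).add (S04.li_mul b.l2 a.dl2)) ?_ ?_ ?_ ?_
    · intro n
      refine Eventually.of_forall fun x => ?_
      rw [norm_mul]
      exact mul_le_mul (S04.T_abs n _) (S04.T_abs n _) (norm_nonneg _) (norm_nonneg _)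
    · intro n
      refine Eventually.of_forall fun x => ?_
      refine (norm_add_le _ _).trans ?_
      rw [norm_smul, norm_smul]
      exact add_le_add
        (mul_le_mul (S04.T_abs n _) (S04.TD_norm n _ _) (norm_nonneg _) (norm_nonneg _))
        (mul_le_mul (S04.T_abs n _) (S04.TD_norm n _ _) (norm_nonneg _) (norm_nonneg _))
    · refine Eventually.of_forall fun x => tendsto_const_nhds.congr' ?_
      filter_upwards [S04.T_ev (u x), S04.T_ev (w x)] with n e1 e2
      rw [e1, e2]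
    · refine Eventually.of_forall fun x => tendsto_const_nhds.congr' ?_
      filter_upwards [S04.T_ev (u x), S04.T_ev (w x), S04.TD_ev u x, S04.TD_ev w x]
        with n e1 e2 e3 e4
      rw [e1, e2, e3, e4]
  exact ⟨hW.hl h1 h2, hW.D_eq⟩

/-- multiplication by a bounded function with bounded gradient -/
theorem H1.mul_lip {u a : V → ℝ} (h : H1 u) (ha : Hl a) (hb : Bd a) (hg : Bd fun x => ‖D a x‖) :
    H1 (fun x => a x * u x) ∧ ∀ᵐ x, D (fun x => a x * u x) x = a x • D u x + u x • D a x := by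
  obtain ⟨M, hM⟩ := hb
  obtain ⟨N, hN⟩ := hg
  have m1 : MemLp (fun x => a x * u x) 2 volume := by
    refine h.l2.of_le_mul (c := M) (ha.aesm.mul h.l2.1) ?_
    filter_upwards [hM] with x hx
    rw [norm_mul]
    exact mul_le_mul_of_nonneg_right hx (norm_nonneg _)
  have m2 : MemLp (fun x => a x • D u x) 2 volume := by
    refine h.dl2.of_le_mul (c := M) (ha.aesm.smul h.dl2.1) ?_
    filter_upwards [hM] with x hx
    rw [norm_smul]
    exact mul_le_mul_of_nonneg_right hx (norm_nonneg _)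
  have m3 : MemLp (fun x => u x • D a x) 2 volume := by
    refine h.l2.of_le_mul (c := N) (h.l2.1.smul ha.aesm_D) ?_
    filter_upwards [hN] with x hx
    rw [norm_smul, mul_comm]
    exact mul_le_mul_of_nonneg_right ((le_abs_self _).trans hx) (norm_nonneg _)
  have m4 : MemLp (fun x => a x • D u x + u x • D a x) 2 volume := m2.add m3
  obtain ⟨p1, p2⟩ := ha.mul h.hl (fun K _ => m1.restrict K) (fun K _ => m4.restrict K)
  exact ⟨p1.h1 m1 (m4.ae_eq (by filter_upwards [p2] with x hx using hx.symm)), p2⟩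

theorem Hl.h1_of_cs {u : V → ℝ} (a : Hl u) (h : CS u univ) : H1 u := by
  obtain ⟨K, hK, -, h0⟩ := h
  refine a.h1 ?_ ?_
  · refine ((memLp_indicator_iff_restrict hK.measurableSet).2 (a.l2 K hK)).ae_eq ?_
    filter_upwards [h0] with x hx
    by_cases hxK : x ∈ K
    · simp [hxK]
    · simp [hxK, hx hxK]
  · refine ((memLp_indicator_iff_restrict hK.measurableSet).2 (a.dl2 K hK)).ae_eq ?_
    filter_upwards [h0, a.D_level 0] with x hx hD
    by_cases hxK : x ∈ K
    · simp [hxK]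
    · simp [hxK, hD (hx hxK)]

theorem Bl.tf {u : V → ℝ} {S : Set V} (a : Bl u) (h : CS u S) : TF S u := by
  obtain ⟨K, hK, hKS, h0⟩ := h
  refine ⟨a.hl.h1_of_cs ⟨K, hK, subset_univ _, h0⟩, ?_, ⟨K, hK, hKS, h0⟩⟩
  obtain ⟨M, hM⟩ := a.lb K hK
  refine ⟨max M 0, ?_⟩
  filter_upwards [h0, hM] with x h1 h2
  by_cases hxK : x ∈ K
  · exact (h2 hxK).trans (le_max_left _ _)
  · simp [h1 hxK]

theorem TF.mul {S : Set V} {χ u : V → ℝ} (h : TF S χ) (a : Bl u) : TF S fun x => u x * χ x := by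
  refine (a.mul h.bl).1.tf ?_
  obtain ⟨K, hK, hKS, h0⟩ := h.cs
  refine ⟨K, hK, hKS, ?_⟩
  filter_upwards [h0] with x h1 hx
  rw [h1 hx, mul_zero]

theorem CS.D_zero {u : V → ℝ} {K : Set V} (a : Hl u) (h : ∀ᵐ x, x ∉ K → u x = 0) :
    ∀ᵐ x, x ∉ K → D u x = 0 := by
  filter_upwards [h, a.D_level 0] with x h1 h2 hx using h2 (h1 hx)

/-- a smooth step with slope `≤ 2` -/
lemma S04.exists_step : ∃ σ : ℝ → ℝ, ContDiff ℝ ∞ σ ∧ (∀ t, 0 ≤ σ t ∧ σ t ≤ 1) ∧
    (∀ t, t ≤ 0 → σ t = 0) ∧ (∀ t, 1 ≤ t → σ t = 1) ∧ ∀ t t', |σ t - σ t'| ≤ 2 * |t - t'| := by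
  let f : ContDiffBump (1 / 2 : ℝ) := ⟨1 / 4, 1 / 2, by norm_num, by norm_num⟩
  set b : ℝ → ℝ := f.normed volume with hb
  have bc : Continuous b := f.continuous_normed
  have b0 : ∀ x, 0 ≤ b x := f.nonneg_normed
  have b2 : ∀ x, b x ≤ 2 := fun x => by
    refine (f.normed_le_div_measure_closedBall_rIn volume x).trans ?_
    rw [Real.volume_real_closedBall (by norm_num [f])]
    norm_num [f]
  have bs : Function.support b = Ioo 0 1 := by
    rw [hb, f.support_normed_eq, Real.ball_eq_Ioo]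
    norm_num [f]
  set σ : ℝ → ℝ := fun t => ∫ x in (0 : ℝ)..t, b x with hσ
  have hd : ∀ t, HasDerivAt σ (b t) t := fun t => (bc.integral_hasStrictDerivAt 0 t).hasDerivAt
  have hdf : Differentiable ℝ σ := fun t => (hd t).differentiableAt
  have hdv : deriv σ = b := funext fun t => (hd t).deriv
  have hm : Monotone σ := monotone_of_deriv_nonneg hdf fun t => by rw [hdv]; exact b0 t
  have z0 : ∀ t, t ≤ 0 → σ t = 0 := fun t ht => by
    simp only [hσ]
    rw [intervalIntegral.integral_congr (g := fun _ => 0), intervalIntegral.integral_zero]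
    intro x hx
    rw [uIcc_of_ge ht] at hx
    by_contra h
    have : x ∈ Function.support b := h
    rw [bs] at this
    linarith [this.1, hx.2]
  have z1 : ∀ t, 1 ≤ t → σ t = 1 := fun t ht => by
    simp only [hσ]
    rw [intervalIntegral.integral_eq_integral_of_support_subset, hb, f.integral_normed]
    rw [bs]
    exact fun x hx => ⟨hx.1, hx.2.le.trans ht⟩
  refine ⟨σ, ?_, fun t => ⟨?_, ?_⟩, z0, z1, fun t t' => ?_⟩
  · rw [contDiff_infty_iff_deriv, hdv]
    exact ⟨hdf, f.contDiff_normed⟩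
  · rw [← z0 (min t 0) (min_le_right _ _)]
    exact hm (min_le_left _ _)
  · rw [← z1 (max t 1) (le_max_right _ _)]
    exact hm (le_max_left _ _)
  · have := convex_univ.norm_image_sub_le_of_norm_deriv_le (f := σ) (C := 2)
      (fun x _ => hdf x) (fun x _ => by rw [hdv, Real.norm_eq_abs, abs_of_nonneg (b0 x)]; exact b2 x)
      (mem_univ t') (mem_univ t)
    simpa using this

/-- standard cutoffs: `1` on the ball of radius `r`, `0` outside radius `r + s`, slope `≤ 4/s`, radial -/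
theorem exists_cutoff (c : V) {r s : ℝ} (hr : 0 ≤ r) (hs : 0 < s) :
    ∃ j : V → ℝ, ContDiff ℝ ∞ j ∧ HasCompactSupport j ∧ (∀ x, 0 ≤ j x ∧ j x ≤ 1) ∧
      (∀ x, ‖x - c‖ ≤ r → j x = 1) ∧ (∀ x, r + s ≤ ‖x - c‖ → j x = 0) ∧
      (∀ x, ‖∇ j x‖ ≤ 4 / s) ∧ ∀ L : V ≃ₗᵢ[ℝ] V, L c = c → ∀ x, j (L x) = j x := by
  obtain ⟨σ, s1, s2, s3, s4, s5⟩ := S04.exists_step
  set ρ : ℝ → ℝ := fun t => 1 - σ ((t - (r + s / 4)) / (3 * s / 4)) with hρ
  have ρs : ContDiff ℝ ∞ ρ := contDiff_const.sub (s1.comp (by fun_prop))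
  have ρ1 : ∀ t, t ≤ r + s / 4 → ρ t = 1 := fun t ht => by
    simp only [hρ]
    rw [s3 _ (div_nonpos_of_nonpos_of_nonneg (by linarith) (by positivity)), sub_zero]
  have ρ0 : ∀ t, r + s ≤ t → ρ t = 0 := fun t ht => by
    simp only [hρ]
    rw [s4 _ (by rw [le_div_iff₀ (by positivity)]; linarith), sub_self]
  have ρl : ∀ t t', |ρ t - ρ t'| ≤ 4 / s * |t - t'| := fun t t' => by
    have := s5 ((t' - (r + s / 4)) / (3 * s / 4)) ((t - (r + s / 4)) / (3 * s / 4))
    have e1 : ρ t - ρ t' =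
        σ ((t' - (r + s / 4)) / (3 * s / 4)) - σ ((t - (r + s / 4)) / (3 * s / 4)) := by
      simp only [hρ]; ring
    have e2 : (t' - (r + s / 4)) / (3 * s / 4) - (t - (r + s / 4)) / (3 * s / 4) =
        -(4 / (3 * s)) * (t - t') := by field_simp; ring
    rw [e2, abs_mul, abs_neg, abs_of_pos (by positivity : 0 < 4 / (3 * s))] at this
    rw [e1]
    refine this.trans ?_
    rw [← mul_assoc]
    refine mul_le_mul_of_nonneg_right ?_ (abs_nonneg _)
    rw [← mul_div_assoc, div_le_div_iff₀ (by positivity) hs]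
    nlinarith
  refine ⟨fun x => ρ ‖x - c‖, ?_, ?_, fun x => ?_, fun x hx => ρ1 _ (by linarith),
    fun x hx => ρ0 _ hx, fun x => ?_, fun L hL x => ?_⟩
  · rw [contDiff_iff_contDiffAt]
    intro x
    by_cases hx : x = c
    · refine (contDiffAt_const (c := (1 : ℝ))).congr_of_eventuallyEq ?_
      subst hx
      filter_upwards [ball_mem_nhds x (by positivity : 0 < r + s / 4)] with y hy
      rw [mem_ball, dist_eq_norm] at hy
      exact ρ1 _ hy.le
    · exact ρs.contDiffAt.comp x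
        (ContDiffAt.norm ℝ (contDiffAt_id.sub contDiffAt_const) (sub_ne_zero.2 hx))
  · refine HasCompactSupport.intro (isCompact_closedBall c (r + s)) fun x hx => ρ0 _ ?_
    rw [mem_closedBall, dist_eq_norm, not_le] at hx
    exact hx.le
  · have := s2 ((‖x - c‖ - (r + s / 4)) / (3 * s / 4))
    simp only [hρ]
    constructor <;> linarith [this.1, this.2]
  · have : ‖fderiv ℝ (fun x => ρ ‖x - c‖) x‖ ≤ 4 / s := by
      refine norm_fderiv_le_of_lip' ℝ (by positivity) (Eventually.of_forall fun y => ?_)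
      refine (ρl _ _).trans (mul_le_mul_of_nonneg_left ?_ (by positivity))
      refine (abs_norm_sub_norm_le _ _).trans (le_of_eq ?_)
      congr 1; abel
    simpa [gradient] using this
  · have : L x - c = L (x - c) := by rw [map_sub, hL]
    simp only [this, LinearIsometryEquiv.norm_map]

/-- truncation: bounded compactly supported approximants dominated by `u` -/
theorem H1.trunc {u : V → ℝ} (h : H1 u) :
    ∃ w : ℕ → V → ℝ, (∀ n, TF univ (w n)) ∧ (∀ n x, |w n x| ≤ |u x| ∧ 0 ≤ w n x * u x) ∧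
      (∀ x, Tendsto (fun n => w n x) atTop (𝓝 (u x))) ∧
      (∀ n, ∀ᵐ x, ‖D (w n) x‖ ≤ ‖D u x‖ + |u x|) ∧
      (∀ᵐ x, Tendsto (fun n => D (w n) x) atTop (𝓝 (D u x))) ∧
      Tendsto (fun n => ∫ x, (u x - w n x) ^ 2) atTop (𝓝 0) ∧
      Tendsto (fun n => ∫ x, ‖D u x - D (w n) x‖ ^ 2) atTop (𝓝 0) := by
  have hj := fun n : ℕ => exists_cutoff (0 : V) (r := n) (s := 4) (Nat.cast_nonneg n) (by norm_num)
  choose j j1 j2 j3 j4 j5 j6 j7 using hj
  have jc : ∀ n, ContDiff ℝ 1 (j n) := fun n => (j1 n).of_le (by exact_mod_cast le_top)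
  set w : ℕ → V → ℝ := fun n x => j n x * S04.T n (u x) with hw
  have hb : ∀ n, Bl (w n) := fun n => ((bl_c1 (jc n)).mul (S04.T_bl h.hl n).1).1
  have hD : ∀ n, ∀ᵐ x, D (w n) x = j n x • S04.TD n u x + S04.T n (u x) • ∇ (j n) x := fun n => by
    filter_upwards [D_mul_c1 (S04.T_bl h.hl n).1.hl (jc n), (S04.T_bl h.hl n).2] with x h1 h2
    rw [← h2]; exact h1
  have tf : ∀ n, TF univ (w n) := fun n => (hb n).tf ⟨tsupport (j n), j2 n, subset_univ _,
    Eventually.of_forall fun x hx => by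
      simp only [hw]; rw [image_eq_zero_of_notMem_tsupport hx, zero_mul]⟩
  have w1 : ∀ n x, |w n x| ≤ |u x| := fun n x => by
    simp only [hw]
    rw [abs_mul, abs_of_nonneg (j3 n x).1]
    have := S04.T_abs n (u x)
    nlinarith [(j3 n x).1, (j3 n x).2, abs_nonneg (S04.T n (u x))]
  have jev : ∀ x : V, ∀ᶠ n : ℕ in atTop, j n x = 1 ∧ ∇ (j n) x = 0 := fun x => by
    obtain ⟨N, hN⟩ := exists_nat_gt ‖x‖
    filter_upwards [eventually_ge_atTop N] with n hn
    have hn' : (N : ℝ) ≤ n := by exact_mod_cast hn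
    refine ⟨j4 n x (by rw [sub_zero]; linarith), ?_⟩
    have : j n =ᶠ[𝓝 x] fun _ => 1 := by
      filter_upwards [isOpen_ball.mem_nhds (show x ∈ ball (0 : V) n by
        rw [mem_ball_zero_iff]; linarith)] with y hy
      rw [mem_ball_zero_iff] at hy
      exact j4 n y (by rw [sub_zero]; exact hy.le)
    rw [this.gradient_eq]
    simp
  have t1 : ∀ x, Tendsto (fun n => w n x) atTop (𝓝 (u x)) := fun x => by
    refine tendsto_const_nhds.congr' ?_
    filter_upwards [jev x, S04.T_ev (u x)] with n e1 e2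
    simp only [hw]
    rw [e1.1, e2, one_mul]
  have d1 : ∀ n, ∀ᵐ x, ‖D (w n) x‖ ≤ ‖D u x‖ + |u x| := fun n => by
    filter_upwards [hD n] with x hx
    rw [hx]
    refine (norm_add_le _ _).trans ?_
    rw [norm_smul, norm_smul, Real.norm_eq_abs, Real.norm_eq_abs, abs_of_nonneg (j3 n x).1]
    have a1 := S04.TD_norm n u x
    have a2 := S04.T_abs n (u x)
    have a3 : ‖∇ (j n) x‖ ≤ 1 := by simpa using j6 n x
    have a4 : j n x * ‖S04.TD n u x‖ ≤ 1 * ‖D u x‖ :=
      mul_le_mul (j3 n x).2 a1 (norm_nonneg _) zero_le_one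
    have a5 : |S04.T n (u x)| * ‖∇ (j n) x‖ ≤ |u x| * 1 :=
      mul_le_mul a2 a3 (norm_nonneg _) (abs_nonneg _)
    linarith
  have t2 : ∀ᵐ x, Tendsto (fun n => D (w n) x) atTop (𝓝 (D u x)) := by
    filter_upwards [ae_all_iff.2 hD] with x hx
    refine tendsto_const_nhds.congr' ?_
    filter_upwards [jev x, S04.TD_ev u x] with n e1 e2
    rw [hx n, e1.1, e1.2, e2, one_smul, smul_zero, add_zero]
  have i1 : Integrable (fun x => u x ^ 2) volume := h.l2.integrable_sq
  have i2 : Integrable (fun x => ‖D u x‖ ^ 2) volume := h.dl2.norm.integrable_sq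
  refine ⟨w, tf, fun n x => ⟨w1 n x, ?_⟩, t1, d1, t2, ?_, ?_⟩
  · simp only [hw]
    rw [mul_assoc]
    exact mul_nonneg (j3 n x).1 (S04.T_sign n _)
  · have := tendsto_integral_of_dominated_convergence (μ := volume)
      (F := fun n x => (u x - w n x) ^ 2) (f := fun _ => 0) (fun x => 4 * u x ^ 2)
      (fun n => (h.l2.1.sub (hb n).hl.aesm).pow 2) (i1.const_mul 4) (fun n => ?_) ?_
    · simpa using this
    · refine Eventually.of_forall fun x => ?_
      rw [Real.norm_eq_abs, abs_of_nonneg (sq_nonneg _)]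
      have a1 := w1 n x
      have a2 : w n x ^ 2 ≤ u x ^ 2 := sq_le_sq.2 a1
      nlinarith [sq_nonneg (u x + w n x)]
    · refine Eventually.of_forall fun x => ?_
      simpa using ((tendsto_const_nhds (x := u x)).sub (t1 x)).pow 2
  · have := tendsto_integral_of_dominated_convergence (μ := volume)
      (F := fun n x => ‖D u x - D (w n) x‖ ^ 2) (f := fun _ => 0)
      (fun x => 8 * ‖D u x‖ ^ 2 + 2 * u x ^ 2)
      (fun n => (h.dl2.1.sub (hb n).hl.aesm_D).norm.pow 2) ((i2.const_mul 8).add (i1.const_mul 2))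
      (fun n => ?_) ?_
    · simpa using this
    · filter_upwards [d1 n] with x hx
      rw [Real.norm_eq_abs, abs_of_nonneg (sq_nonneg _)]
      have a1 : ‖D u x - D (w n) x‖ ≤ 2 * ‖D u x‖ + |u x| := by
        linarith [norm_sub_le (D u x) (D (w n) x)]
      have a2 := pow_le_pow_left₀ (norm_nonneg _) a1 2
      nlinarith [sq_nonneg (2 * ‖D u x‖ - |u x|), sq_abs (u x)]
    · filter_upwards [t2] with x hx
      simpa using ((tendsto_const_nhds (x := D u x)).sub hx).norm.pow 2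


end

end Crest.Agent.R335
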