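import Crest.Agent.R335.Defs

/-! Row 335: radial integrals, Cauchy–Schwarz and continuity of correlations (for `Y1`). -/

set_option autoImplicit false

open MeasureTheory Set Filter Topology Metric
open scoped Gradient ContDiff RealInnerProductSpace ENNReal

namespace Crest.Agent.R335.Y1A

noncomputable section

theorem rad_int (f : ℝ → ℝ) :
    ∫ x : E, f ‖x‖ = 4 * Real.pi * ∫ y in Ioi (0 : ℝ), y ^ 2 * f y := by
  rw [integral_fun_norm_addHaar volume f]
  have h : (volume : Measure E).real (ball 0 1) = Real.pi * 4 / 3 := by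
    rw [Measure.real, EuclideanSpace.volume_ball_fin_three]
    simp
    positivity
  rw [h]
  simp only [finrank_euclideanSpace, Fintype.card_fin, smul_eq_mul, nsmul_eq_mul]
  norm_num
  ring

theorem rad_integrable {f : ℝ → ℝ} (h : IntegrableOn (fun y : ℝ => y ^ 2 * f y) (Ioi 0)) :
    Integrable (fun x : E => f ‖x‖) := by
  rw [integrable_fun_norm_addHaar volume]
  simpa using h

theorem cs {f g : E → ℝ} (hf : MemLp f 2 volume) (hg : MemLp g 2 volume) :
    (∫ x, f x * g x) ^ 2 ≤ (∫ x, f x ^ 2) * ∫ x, g x ^ 2 := by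
  have h1 : Integrable (fun x => f x ^ 2) := hf.integrable_sq
  have h2 : Integrable (fun x => g x ^ 2) := hg.integrable_sq
  have h3 : Integrable (fun x => f x * g x) := hf.integrable_mul hg
  have := discrim_le_zero (a := ∫ x, f x ^ 2) (b := 2 * ∫ x, f x * g x) (c := ∫ x, g x ^ 2)
    (fun t => by
      have e : (∫ x, f x ^ 2) * (t * t) + (2 * ∫ x, f x * g x) * t + ∫ x, g x ^ 2 =
          ∫ x, (t * f x + g x) ^ 2 := by
        have : (fun x => (t * f x + g x) ^ 2) =
            fun x => (t * t) * f x ^ 2 + (2 * t) * (f x * g x) + g x ^ 2 := by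
          funext x; ring
        have h4 : Integrable (fun x => (t * t) * f x ^ 2 + (2 * t) * (f x * g x)) :=
          (h1.const_mul _).add (h3.const_mul _)
        rw [this, integral_add h4 h2,
          integral_add (h1.const_mul _) (h3.const_mul _), integral_const_mul, integral_const_mul]
        ring
      rw [e]
      exact integral_nonneg fun x => sq_nonneg _)
  unfold discrim at this
  nlinarith

theorem memLp_sub_right {f : E → ℝ} (hf : MemLp f 2 volume) (z : E) :
    MemLp (fun y => f (y - z)) 2 volume :=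
  hf.comp_measurePreserving (measurePreserving_sub_right volume z)

theorem memLp_sub_left {f : E → ℝ} (hf : MemLp f 2 volume) (z : E) :
    MemLp (fun y => f (z - y)) 2 volume :=
  hf.comp_measurePreserving (Measure.measurePreserving_sub_left volume z)

theorem corr_cont {f g : E → ℝ} (hf : MemLp f 2 volume) (hg : MemLp g 2 volume) :
    Continuous fun z : E => ∫ y, f (y - z) * g y := by
  have e : (fun z : E => ∫ y, f (y - z) * g y) =
      fun z : E => ⟪hg.toLp g, (DomAddAct.mk (-z) +ᵥ hf.toLp f : Lp ℝ 2 (volume : Measure E))⟫ := by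
    funext z
    rw [L2.inner_def]
    refine integral_congr_ae ?_
    have h1 := DomAddAct.vadd_Lp_ae_eq (DomAddAct.mk (-z)) (hf.toLp f)
    have h2 : ∀ᵐ y ∂(volume : Measure E), (hf.toLp f) (-z + y) = f (-z + y) :=
      (measurePreserving_add_left volume (-z)).quasiMeasurePreserving.ae hf.coeFn_toLp
    filter_upwards [h1, h2, hg.coeFn_toLp] with y a b c
    rw [a, c]
    simp only [Equiv.symm_apply_apply, vadd_eq_add, b]
    simp [neg_add_eq_sub]
  rw [e]
  have : Fact ((2 : ℝ≥0∞) ≠ ⊤) := ⟨by simp⟩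
  refine continuous_const.inner ?_
  exact (DomAddAct.continuous_mk.comp continuous_neg).vadd continuous_const

theorem corr_bd {f g : E → ℝ} (hf : MemLp f 2 volume) (hg : MemLp g 2 volume) (z : E) :
    |∫ y, f (y - z) * g y| ≤ √((∫ x, f x ^ 2) * ∫ x, g x ^ 2) := by
  refine Real.abs_le_sqrt ?_
  have := cs (memLp_sub_right hf z) hg
  rwa [integral_sub_right_eq_self (fun x => f x ^ 2) z] at this

/-- Fubini for a kernel in `L¹` between two `L²` functions -/
theorem fub {K u χ : E → ℝ} (hK : Integrable K) (hu : MemLp u 2 volume) (hχ : MemLp χ 2 volume) :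
    Integrable (fun x => (∫ z, u (x - z) * K z) * χ x) ∧
    ∫ x, (∫ z, u (x - z) * K z) * χ x = ∫ z, K z * ∫ x, u (x - z) * χ x := by
  have hm : AEStronglyMeasurable (fun q : E × E => u (q.1 - q.2) * K q.2 * χ q.1)
      ((volume : Measure E).prod volume) := by
    refine (AEStronglyMeasurable.mul ?_ hK.1.comp_snd).mul hχ.1.comp_fst
    exact hu.1.comp_quasiMeasurePreserving
      (quasiMeasurePreserving_sub_of_right_invariant volume volume)
  have hi : Integrable (fun q : E × E => u (q.1 - q.2) * K q.2 * χ q.1)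
      ((volume : Measure E).prod volume) := by
    rw [integrable_prod_iff' hm]
    constructor
    · refine Eventually.of_forall fun z => ?_
      have := ((memLp_sub_right hu z).integrable_mul hχ).const_mul (K z)
      refine this.congr (Eventually.of_forall fun x => ?_)
      simp only [Pi.mul_apply]; ring
    · refine Integrable.mono' (hK.norm.mul_const √((∫ x, ‖u x‖ ^ 2) * ∫ x, ‖χ x‖ ^ 2))
        hm.norm.prod_swap.integral_prod_right' (Eventually.of_forall fun z => ?_)
      have h1 := corr_bd hu.norm hχ.norm z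
      have e : ∫ x, ‖u (x - z) * K z * χ x‖ = ‖K z‖ * ∫ x, ‖u (x - z)‖ * ‖χ x‖ := by
        rw [← integral_const_mul]
        refine integral_congr_ae (Eventually.of_forall fun x => ?_)
        simp only [norm_mul]; ring
      simp only [e]
      rw [norm_mul, norm_norm]
      exact mul_le_mul_of_nonneg_left h1 (norm_nonneg _)
  have e1 : (fun x => (∫ z, u (x - z) * K z) * χ x) = fun x => ∫ z, u (x - z) * K z * χ x := by
    funext x; rw [integral_mul_const]
  rw [e1]
  refine ⟨hi.integral_prod_left, ?_⟩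
  rw [integral_integral_swap (f := fun x z => u (x - z) * K z * χ x) hi]
  refine integral_congr_ae (Eventually.of_forall fun z => ?_)
  simp only
  rw [← integral_const_mul]
  refine integral_congr_ae (Eventually.of_forall fun x => ?_)
  simp only; ring

theorem int_exp {a : ℝ} (ha : 0 < a) :
    IntegrableOn (fun y : ℝ => Real.exp (-a * y)) (Ioi 0) ∧
      ∫ y in Ioi (0 : ℝ), Real.exp (-a * y) = 1 / a := by
  refine ⟨integrableOn_exp_mul_Ioi (by linarith) 0, ?_⟩
  rw [integral_exp_mul_Ioi (by linarith) 0]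
  simp

theorem int_mul_exp {a : ℝ} (ha : 0 < a) :
    IntegrableOn (fun y : ℝ => y * Real.exp (-a * y)) (Ioi 0) ∧
      ∫ y in Ioi (0 : ℝ), y * Real.exp (-a * y) = 1 / a ^ 2 := by
  have hd : ∀ y ∈ Ici (0 : ℝ), HasDerivAt (fun y => -((y / a + 1 / a ^ 2) * Real.exp (-a * y)))
      (y * Real.exp (-a * y)) y := by
    intro y _
    have h1 : HasDerivAt (fun y : ℝ => y / a + 1 / a ^ 2) (1 / a) y :=
      ((hasDerivAt_id y).div_const a).add_const _
    have h2 : HasDerivAt (fun y : ℝ => Real.exp (-a * y)) (Real.exp (-a * y) * -a) y := by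
      simpa using ((hasDerivAt_id y).const_mul (-a)).exp
    have h3 := (h1.mul h2).neg
    refine h3.congr_deriv ?_
    field_simp
    ring
  have hl : Tendsto (fun y => -((y / a + 1 / a ^ 2) * Real.exp (-a * y))) atTop (𝓝 0) := by
    have t0 : Tendsto (fun y : ℝ => a * y) atTop atTop := tendsto_id.const_mul_atTop ha
    have t1 := (Real.tendsto_pow_mul_exp_neg_atTop_nhds_zero 1).comp t0
    have t2 := Real.tendsto_exp_neg_atTop_nhds_zero.comp t0
    have := ((t1.add t2).const_mul (1 / a ^ 2)).neg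
    simp only [add_zero, mul_zero, neg_zero] at this
    refine this.congr fun y => ?_
    simp only [Function.comp, neg_mul]
    field_simp
  have hp : ∀ y ∈ Ioi (0 : ℝ), 0 ≤ y * Real.exp (-a * y) := fun y hy =>
    mul_nonneg (le_of_lt hy) (Real.exp_pos _).le
  refine ⟨integrableOn_Ioi_deriv_of_nonneg' hd hp hl, ?_⟩
  rw [integral_Ioi_of_hasDerivAt_of_nonneg' hd hp hl]
  simp

theorem Yk_nonneg (k : ℝ) (x : E) : 0 ≤ Yk k x := by unfold Yk; positivity

theorem Yk_meas (k : ℝ) : Measurable (Yk k) := by unfold Yk; fun_prop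

theorem Yk_neg (k : ℝ) (x : E) : Yk k (-x) = Yk k x := by unfold Yk; rw [norm_neg]

theorem Yk_facts {k : ℝ} (hk : 0 < k) : MemLp (Yk k) 2 volume ∧ Integrable (Yk k) ∧
    ∫ x, Yk k x ^ 2 = 1 / (2 * Real.pi * k) ∧ ∫ x, Yk k x = 2 / k ^ 2 := by
  have hpi := Real.pi_pos
  obtain ⟨a1, a2⟩ := int_exp (a := 2 * k) (by linarith)
  obtain ⟨b1, b2⟩ := int_mul_exp hk
  have e1 : ∀ y ∈ Ioi (0 : ℝ), y ^ 2 * (Real.exp (-(k * y)) / (2 * Real.pi * y)) ^ 2 =
      1 / (4 * Real.pi ^ 2) * Real.exp (-(2 * k) * y) := by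
    intro y hy
    have hy : 0 < y := hy
    rw [div_pow, ← Real.exp_nat_mul]
    have : ((2 : ℕ) : ℝ) * -(k * y) = -(2 * k) * y := by push_cast; ring
    rw [this]
    field_simp
    ring
  have e2 : ∀ y ∈ Ioi (0 : ℝ), y ^ 2 * (Real.exp (-(k * y)) / (2 * Real.pi * y)) =
      1 / (2 * Real.pi) * (y * Real.exp (-k * y)) := by
    intro y hy
    have hy : 0 < y := hy
    rw [neg_mul]
    field_simp
  refine ⟨?_, ?_, ?_, ?_⟩
  · rw [memLp_two_iff_integrable_sq (Yk_meas k).aestronglyMeasurable]
    exact rad_integrable (f := fun y => (Real.exp (-(k * y)) / (2 * Real.pi * y)) ^ 2)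
      (IntegrableOn.congr_fun (a1.const_mul _) (fun y hy => (e1 y hy).symm) measurableSet_Ioi)
  · exact rad_integrable (f := fun y => (Real.exp (-(k * y)) / (2 * Real.pi * y)))
      (IntegrableOn.congr_fun (b1.const_mul _) (fun y hy => (e2 y hy).symm) measurableSet_Ioi)
  · have := rad_int (fun y => (Real.exp (-(k * y)) / (2 * Real.pi * y)) ^ 2)
    unfold Yk
    rw [this, setIntegral_congr_fun measurableSet_Ioi e1, integral_const_mul, a2]
    field_simp
  · have := rad_int (fun y => (Real.exp (-(k * y)) / (2 * Real.pi * y)))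
    unfold Yk
    rw [this, setIntegral_congr_fun measurableSet_Ioi e2, integral_const_mul, b2]
    field_simp
    ring

/-- the limiting profile of the approximate identity -/
def g0 (w : E) : ℝ := 3 / (4 * Real.pi * √(‖w‖ ^ 2 + 1) ^ 5)

theorem g0_facts : Integrable g0 ∧ ∫ w, g0 w = 1 := by
  have hpi := Real.pi_pos
  have hd : ∀ y ∈ Ici (0 : ℝ), HasDerivAt (fun y : ℝ => (y / √(y ^ 2 + 1)) ^ 3)
      (4 * Real.pi * (y ^ 2 * (3 / (4 * Real.pi * √(y ^ 2 + 1) ^ 5)))) y := by
    intro y _
    have hp : 0 < y ^ 2 + 1 := by positivity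
    have hs : 0 < √(y ^ 2 + 1) := Real.sqrt_pos.2 hp
    have h1 : HasDerivAt (fun y : ℝ => √(y ^ 2 + 1)) (2 * y / (2 * √(y ^ 2 + 1))) y := by
      have := ((hasDerivAt_pow 2 y).add_const 1).sqrt hp.ne'
      simpa using this
    have h2 := ((hasDerivAt_id y).div h1 hs.ne').pow 3
    refine h2.congr_deriv ?_
    have hq : √(y ^ 2 + 1) ^ 2 = y ^ 2 + 1 := Real.sq_sqrt hp.le
    simp only [id, Pi.div_apply]
    generalize √(y ^ 2 + 1) = s at *
    norm_num
    field_simp
    linear_combination (y ^ 2) * hq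
  have hl : Tendsto (fun y : ℝ => (y / √(y ^ 2 + 1)) ^ 3) atTop (𝓝 1) := by
    have t1 : Tendsto (fun y : ℝ => (√(1 + (y⁻¹) ^ 2))⁻¹) atTop (𝓝 (√(1 + 0 ^ 2))⁻¹) :=
      ((tendsto_const_nhds.add (tendsto_inv_atTop_zero.pow 2)).sqrt).inv₀ (by simp)
    have t2 := t1.pow 3
    simp only [ne_eq, OfNat.ofNat_ne_zero, not_false_eq_true, zero_pow, add_zero, Real.sqrt_one,
      inv_one, one_pow] at t2
    refine t2.congr' ?_
    filter_upwards [eventually_gt_atTop 0] with y hy
    congr 1
    have : y ^ 2 + 1 = y ^ 2 * (1 + (y⁻¹) ^ 2) := by field_simp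
    rw [this, Real.sqrt_mul (sq_nonneg _), Real.sqrt_sq hy.le]
    field_simp
  have hp : ∀ y ∈ Ioi (0 : ℝ),
      0 ≤ 4 * Real.pi * (y ^ 2 * (3 / (4 * Real.pi * √(y ^ 2 + 1) ^ 5))) := fun y _ => by positivity
  have i1 := integrableOn_Ioi_deriv_of_nonneg' hd hp hl
  have i2 := integral_Ioi_of_hasDerivAt_of_nonneg' hd hp hl
  constructor
  · refine rad_integrable (f := fun y => 3 / (4 * Real.pi * √(y ^ 2 + 1) ^ 5)) ?_
    have := i1.const_mul (1 / (4 * Real.pi))
    refine this.congr (Eventually.of_forall fun y => ?_)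
    simp only
    field_simp
  · have := rad_int (fun y => 3 / (4 * Real.pi * √(y ^ 2 + 1) ^ 5))
    unfold g0
    rw [this, ← integral_const_mul, i2]
    simp

end

end Crest.Agent.R335.Y1A
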