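import Crest.Agent.R335.S12
import Crest.Agent.R335.Y1Aux1

/-! Row 335: the smoothed Yukawa kernel and the tested inequality (for `Y1`). -/

set_option autoImplicit false

open MeasureTheory Set Filter Topology Metric
open scoped Gradient ContDiff RealInnerProductSpace ENNReal

namespace Crest.Agent.R335.Y1A

noncomputable section

theorem nsq_fderiv (c y : E) :
    HasFDerivAt (fun y : E => ‖y - c‖ ^ 2) ((2 : ℝ) • innerSL ℝ (y - c)) y := by
  have := ((hasFDerivAt_id y).sub_const c).norm_sq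
  refine this.congr_fderiv ?_
  ext v
  simp

theorem rad_grad {H H1 : ℝ → ℝ} (c : E) (h : ∀ s, 0 ≤ s → HasDerivAt H (H1 s) s) (y : E) :
    ∇ (fun y : E => H (‖y - c‖ ^ 2)) y = (2 * H1 (‖y - c‖ ^ 2)) • (y - c) := by
  refine HasGradientAt.gradient ?_
  rw [hasGradientAt_iff_hasFDerivAt]
  have := (h _ (sq_nonneg ‖y - c‖)).comp_hasFDerivAt y (nsq_fderiv c y)
  refine this.congr_fderiv ?_
  ext v
  simp
  ring

theorem rad_lap {H H1 H2 : ℝ → ℝ} (c : E) (h : ∀ s, 0 ≤ s → HasDerivAt H (H1 s) s)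
    (h' : ∀ s, 0 ≤ s → HasDerivAt H1 (H2 s) s) (y : E) :
    lap (fun y : E => H (‖y - c‖ ^ 2)) y =
      6 * H1 (‖y - c‖ ^ 2) + 4 * H2 (‖y - c‖ ^ 2) * ‖y - c‖ ^ 2 := by
  unfold lap dvg
  have e : ∇ (fun y : E => H (‖y - c‖ ^ 2)) = fun y => (2 * H1 (‖y - c‖ ^ 2)) • (y - c) :=
    funext (rad_grad c h)
  have h1 := ((h' _ (sq_nonneg ‖y - c‖)).comp_hasFDerivAt y (nsq_fderiv c y)).const_mul 2
  have h2 := h1.smul ((hasFDerivAt_id y).sub_const c)
  have h3 : fderiv ℝ (fun y => (2 * H1 (‖y - c‖ ^ 2)) • (y - c)) y = _ := h2.fderiv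
  rw [e, h3]
  have t1 : ∀ (f : E →L[ℝ] ℝ) (v : E),
      LinearMap.trace ℝ E ((f.smulRight v : E →L[ℝ] E) : E →ₗ[ℝ] E) = f v := by
    intro f v
    exact LinearMap.trace_smulRight (f : E →ₗ[ℝ] ℝ) v
  rw [ContinuousLinearMap.toLinearMap_add, map_add, t1, ContinuousLinearMap.toLinearMap_smul,
    map_smul]
  simp only [Function.comp, id]
  generalize y - c = v
  simp
  ring

/-- profile of the smoothed kernel as a function of `‖y‖²` -/
def G0 (k ε s : ℝ) : ℝ := Real.exp (-(k * √(s + ε ^ 2))) / (2 * Real.pi * √(s + ε ^ 2))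
def G1 (k ε s : ℝ) : ℝ :=
  -((k * √(s + ε ^ 2) + 1) * Real.exp (-(k * √(s + ε ^ 2))) / (4 * Real.pi * √(s + ε ^ 2) ^ 3))
def G2 (k ε s : ℝ) : ℝ :=
  (k ^ 2 * √(s + ε ^ 2) ^ 2 + 3 * k * √(s + ε ^ 2) + 3) * Real.exp (-(k * √(s + ε ^ 2))) /
    (8 * Real.pi * √(s + ε ^ 2) ^ 5)

theorem G0_deriv (k : ℝ) {ε : ℝ} (hε : 0 < ε) (s : ℝ) (hs : 0 ≤ s) :
    HasDerivAt (G0 k ε) (G1 k ε s) s := by
  have hpi := Real.pi_pos
  have hp : 0 < s + ε ^ 2 := by positivity
  have hr : 0 < √(s + ε ^ 2) := Real.sqrt_pos.2 hp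
  have h1 : HasDerivAt (fun s : ℝ => √(s + ε ^ 2)) (1 / (2 * √(s + ε ^ 2))) s :=
    ((hasDerivAt_id s).add_const _).sqrt hp.ne'
  have h2 := ((h1.const_mul k).neg.exp).div (h1.const_mul (2 * Real.pi)) (by positivity)
  refine h2.congr_deriv ?_
  unfold G1
  simp only [Pi.neg_apply]
  field_simp
  ring

theorem G1_deriv (k : ℝ) {ε : ℝ} (hε : 0 < ε) (s : ℝ) (hs : 0 ≤ s) :
    HasDerivAt (G1 k ε) (G2 k ε s) s := by
  have hpi := Real.pi_pos
  have hp : 0 < s + ε ^ 2 := by positivity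
  have hr : 0 < √(s + ε ^ 2) := Real.sqrt_pos.2 hp
  have h1 : HasDerivAt (fun s : ℝ => √(s + ε ^ 2)) (1 / (2 * √(s + ε ^ 2))) s :=
    ((hasDerivAt_id s).add_const _).sqrt hp.ne'
  have h2 := ((((h1.const_mul k).add_const 1).mul ((h1.const_mul k).neg.exp)).div
    ((h1.pow 3).const_mul (4 * Real.pi)) (by simp only [Pi.pow_apply]; positivity)).neg
  refine h2.congr_deriv ?_
  unfold G2
  simp only [Pi.neg_apply, Pi.pow_apply, Pi.mul_apply]
  field_simp
  ring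

/-- the smoothed kernel -/
def Ye (k ε : ℝ) (z : E) : ℝ := G0 k ε (‖z‖ ^ 2)
/-- its source -/
def fe (k ε : ℝ) (z : E) : ℝ := 2 * ε ^ 2 * G2 k ε (‖z‖ ^ 2)

theorem Ye_nonneg (k ε : ℝ) (z : E) : 0 ≤ Ye k ε z := by unfold Ye G0; positivity

theorem Ye_le {k : ℝ} (hk : 0 < k) (ε : ℝ) {z : E} (hz : z ≠ 0) : Ye k ε z ≤ Yk k z := by
  have hpi := Real.pi_pos
  have h0 : 0 < ‖z‖ := norm_pos_iff.2 hz
  have h1 : ‖z‖ ≤ √(‖z‖ ^ 2 + ε ^ 2) := Real.le_sqrt_of_sq_le (by nlinarith [sq_nonneg ε])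
  unfold Ye G0 Yk
  gcongr

theorem ae_ne0 : ∀ᵐ z : E, z ≠ 0 := by simp [ae_iff]

theorem Ye_smooth (k : ℝ) {ε : ℝ} (hε : 0 < ε) : ContDiff ℝ 2 (Ye k ε) := by
  have hpi := Real.pi_pos
  have h1 : ContDiff ℝ 2 fun z : E => √(‖z‖ ^ 2 + ε ^ 2) :=
    ((contDiff_norm_sq ℝ).add contDiff_const).sqrt fun z => by positivity
  refine ((contDiff_const.mul h1).neg.exp).div (contDiff_const.mul h1) fun z => ?_
  have : 0 < √(‖z‖ ^ 2 + ε ^ 2) := Real.sqrt_pos.2 (by positivity)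
  positivity

theorem Ye_mem {k ε : ℝ} (hk : 0 < k) (hε : 0 < ε) :
    MemLp (Ye k ε) 2 volume ∧ Integrable (Ye k ε) := by
  have hm := (Ye_smooth k hε).continuous.aestronglyMeasurable (μ := volume)
  have hb : ∀ᵐ z : E, ‖Ye k ε z‖ ≤ ‖Yk k z‖ := by
    filter_upwards [ae_ne0] with z hz
    rw [Real.norm_of_nonneg (Ye_nonneg _ _ _), Real.norm_of_nonneg (Yk_nonneg _ _)]
    exact Ye_le hk ε hz
  exact ⟨(Yk_facts hk).1.of_le hm hb, (Yk_facts hk).2.1.mono hm hb⟩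

theorem fe_bd {k ε : ℝ} (hk : 0 < k) (hε : 0 < ε) (z : E) :
    0 ≤ fe k ε z ∧ fe k ε z ≤ (k ^ 2 + 3 * k / ε + 3 / ε ^ 2) * Ye k ε z := by
  have hpi := Real.pi_pos
  have h1 : ε ≤ √(‖z‖ ^ 2 + ε ^ 2) := Real.le_sqrt_of_sq_le (by nlinarith [sq_nonneg ‖z‖])
  unfold fe Ye G2 G0
  generalize √(‖z‖ ^ 2 + ε ^ 2) = r at *
  have hr : 0 < r := hε.trans_le h1
  refine ⟨by positivity, ?_⟩
  have e : 2 * ε ^ 2 * ((k ^ 2 * r ^ 2 + 3 * k * r + 3) * Real.exp (-(k * r)) / (8 * Real.pi * r ^ 5)) =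
      ((ε / r) ^ 2 / 2 * (k ^ 2 + 3 * k / r + 3 / r ^ 2)) * (Real.exp (-(k * r)) / (2 * Real.pi * r)) := by
    field_simp
    ring
  rw [e]
  refine mul_le_mul_of_nonneg_right ?_ (by positivity)
  have h2 : (ε / r) ^ 2 / 2 ≤ 1 := by
    have : ε / r ≤ 1 := (div_le_one hr).2 h1
    have h3 : 0 ≤ ε / r := by positivity
    nlinarith
  calc _ ≤ 1 * (k ^ 2 + 3 * k / ε + 3 / ε ^ 2) := by gcongr
    _ = _ := one_mul _

theorem fe_cont (k : ℝ) {ε : ℝ} (hε : 0 < ε) : Continuous (fe k ε) := by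
  have hpi := Real.pi_pos
  unfold fe G2
  refine continuous_const.mul (Continuous.div (by fun_prop) (by fun_prop) fun z => ?_)
  have : 0 < √(‖z‖ ^ 2 + ε ^ 2) := Real.sqrt_pos.2 (by positivity)
  positivity

theorem fe_mem {k ε : ℝ} (hk : 0 < k) (hε : 0 < ε) :
    MemLp (fe k ε) 2 volume ∧ Integrable (fe k ε) := by
  have hm := (fe_cont k hε).aestronglyMeasurable (μ := volume)
  have hb : ∀ᵐ z : E, ‖fe k ε z‖ ≤ ‖(k ^ 2 + 3 * k / ε + 3 / ε ^ 2) * Ye k ε z‖ :=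
    Eventually.of_forall fun z => by
      rw [Real.norm_of_nonneg (fe_bd hk hε z).1]
      exact (fe_bd hk hε z).2.trans (le_abs_self _)
  exact ⟨((Ye_mem hk hε).1.const_mul _).of_le hm hb, ((Ye_mem hk hε).2.const_mul _).mono hm hb⟩

theorem grad_bd {k ε : ℝ} (hk : 0 < k) (hε : 0 < ε) (c y : E) :
    ‖∇ (fun y : E => Ye k ε (y - c)) y‖ ≤ (k + 1 / ε) * Ye k ε (y - c) := by
  have hpi := Real.pi_pos
  have e := rad_grad c (G0_deriv k hε) y
  unfold Ye
  rw [e, norm_smul]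
  have h1 : ε ≤ √(‖y - c‖ ^ 2 + ε ^ 2) := Real.le_sqrt_of_sq_le (by nlinarith [sq_nonneg ‖y - c‖])
  have h2 : ‖y - c‖ ≤ √(‖y - c‖ ^ 2 + ε ^ 2) := Real.le_sqrt_of_sq_le (by nlinarith [sq_nonneg ε])
  unfold G1 G0
  generalize √(‖y - c‖ ^ 2 + ε ^ 2) = r at *
  have hr : 0 < r := hε.trans_le h1
  rw [Real.norm_eq_abs, mul_neg, abs_neg, abs_of_nonneg (by positivity)]
  calc _ ≤ 2 * ((k * r + 1) * Real.exp (-(k * r)) / (4 * Real.pi * r ^ 3)) * r := by gcongr
    _ = (k + 1 / r) * (Real.exp (-(k * r)) / (2 * Real.pi * r)) := by field_simp; ring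
    _ ≤ _ := by gcongr

theorem lap_eq (k : ℝ) {ε : ℝ} (hε : 0 < ε) (c y : E) :
    lap (fun y : E => Ye k ε (y - c)) y = k ^ 2 * Ye k ε (y - c) - 2 * fe k ε (y - c) := by
  have hpi := Real.pi_pos
  have e := rad_lap c (G0_deriv k hε) (G1_deriv k hε) y
  unfold Ye fe
  rw [e]
  have hp : 0 < ‖y - c‖ ^ 2 + ε ^ 2 := by positivity
  have hr : 0 < √(‖y - c‖ ^ 2 + ε ^ 2) := Real.sqrt_pos.2 hp
  have hq : √(‖y - c‖ ^ 2 + ε ^ 2) ^ 2 = ‖y - c‖ ^ 2 + ε ^ 2 := Real.sq_sqrt hp.le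
  unfold G0 G1 G2
  generalize √(‖y - c‖ ^ 2 + ε ^ 2) = r at *
  have : ‖y - c‖ ^ 2 = r ^ 2 - ε ^ 2 := by linarith
  rw [this]
  field_simp
  ring

theorem tend_zero {F : E → ℝ} (hF : MemLp F 2 volume) {g : ℕ → E → ℝ}
    (hg : ∀ n, MemLp (g n) 2 volume) (h : Tendsto (fun n => ∫ x, g n x ^ 2) atTop (𝓝 0)) :
    Tendsto (fun n => ∫ x, F x * g n x) atTop (𝓝 0) := by
  have h1 := (h.const_mul (∫ x, F x ^ 2)).sqrt
  simp only [mul_zero, Real.sqrt_zero] at h1
  refine squeeze_zero_norm (fun n => ?_) h1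
  exact Real.abs_le_sqrt (cs hF (hg n))

theorem inner_int {X Y : E → E} (hX : MemLp X 2 volume) (hY : MemLp Y 2 volume) :
    Integrable fun x => ⟪X x, Y x⟫ :=
  (hX.norm.integrable_mul hY.norm).mono' (hX.1.inner hY.1)
    (Eventually.of_forall fun x => norm_inner_le_norm _ _)

/-- integration by parts against a global `H¹` function -/
theorem ibp_glob {p q : E → ℝ} (hp : H1 p) (hq : ContDiff ℝ 2 q) (h1 : MemLp (∇ q) 2 volume)
    (h2 : MemLp (lap q) 2 volume) : ∫ x, ⟪∇ q x, D p x⟫ = -∫ x, lap q x * p x := by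
  obtain ⟨w, hw, -, -, -, -, c1, c2⟩ := hp.trunc
  have e : ∀ n, ∫ x, ⟪∇ q x, D (w n) x⟫ = -∫ x, lap q x * w n x := fun n =>
    ibp_lap isOpen_univ hq.contDiffOn (hw n).h1 (hw n).cs
  have t1 := tend_zero h2 (g := fun n x => p x - w n x) (fun n => hp.l2.sub (hw n).h1.l2) c1
  have t2 := tend_zero h1.norm (g := fun n x => ‖D p x - D (w n) x‖)
    (fun n => (hp.dl2.sub (hw n).h1.dl2).norm) c2
  have t3 : Tendsto (fun n => ∫ x, ⟪∇ q x, D p x - D (w n) x⟫) atTop (𝓝 0) := by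
    refine squeeze_zero_norm (fun n => ?_) t2
    refine norm_integral_le_of_norm_le (h1.norm.integrable_mul (hp.dl2.sub (hw n).h1.dl2).norm)
      (Eventually.of_forall fun x => norm_inner_le_norm _ _)
  have e2 : ∀ n, (∫ x, ⟪∇ q x, D p x - D (w n) x⟫) + ∫ x, lap q x * (p x - w n x) =
      (∫ x, ⟪∇ q x, D p x⟫) + ∫ x, lap q x * p x := by
    intro n
    have a : Integrable fun x => lap q x * p x := h2.integrable_mul hp.l2
    have b : Integrable fun x => lap q x * w n x := h2.integrable_mul (hw n).h1.l2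
    simp only [inner_sub_right, mul_sub]
    rw [integral_sub (inner_int h1 hp.dl2) (inner_int h1 (hw n).h1.dl2), integral_sub a b, e n]
    ring
  have t4 := t3.add t1
  simp only [e2, add_zero] at t4
  have := tendsto_nhds_unique tendsto_const_nhds t4
  linarith

/-- the tested inequality at every point -/
theorem tested {p S : E → ℝ} {k ε : ℝ} (hk : 0 < k) (hε : 0 < ε) (hp : H1 p)
    (hS : MemLp S 2 volume) (h : Sub univ p (fun x => S x - k ^ 2 / 2 * p x)) (c : E) :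
    ∫ z, p (c - z) * fe k ε z ≤ ∫ z, S (c - z) * Ye k ε z := by
  set q : E → ℝ := fun y => Ye k ε (y - c) with hq
  have q2 : ContDiff ℝ 2 q := (Ye_smooth k hε).comp (contDiff_id.sub contDiff_const)
  have q1 : ContDiff ℝ 1 q := q2.of_le (by norm_num)
  have qm : MemLp q 2 volume := memLp_sub_right (Ye_mem hk hε).1 c
  have fm : MemLp (fun y => fe k ε (y - c)) 2 volume := memLp_sub_right (fe_mem hk hε).1 c
  have gm : MemLp (∇ q) 2 volume := by
    refine (qm.const_mul (k + 1 / ε)).of_le (isW_c1 q1).lg.aestronglyMeasurable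
      (Eventually.of_forall fun y => (grad_bd hk hε c y).trans (le_abs_self _))
  have lm : MemLp (lap q) 2 volume := by
    have : lap q = fun y => k ^ 2 * q y - 2 * fe k ε (y - c) := funext (lap_eq k hε c)
    rw [this]
    exact (qm.const_mul _).sub (fm.const_mul _)
  have a1 := Sub.ext h hp (hS.sub (hp.l2.const_mul _)) ((isW_c1 q1).h1 qm gm)
    (Eventually.of_forall fun y => Ye_nonneg _ _ _)
  have a2 := ibp_glob hp q2 gm lm
  have a3 : ∫ x, (1 / 2) * ⟪D p x, D q x⟫ = (1 / 2) * ∫ x, ⟪∇ q x, D p x⟫ := by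
    rw [← integral_const_mul]
    refine integral_congr_ae ?_
    filter_upwards [D_c1 q1] with x hx
    rw [hx, real_inner_comm]
  have i1 : Integrable fun x => p x * q x := hp.l2.integrable_mul qm
  have i2 : Integrable fun x => S x * q x := hS.integrable_mul qm
  have i3 : Integrable fun x => p x * fe k ε (x - c) := hp.l2.integrable_mul fm
  have a4 : ∫ x, lap q x * p x = k ^ 2 * (∫ x, p x * q x) - 2 * ∫ x, p x * fe k ε (x - c) := by
    rw [← integral_const_mul, ← integral_const_mul, ← integral_sub (i1.const_mul _) (i3.const_mul _)]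
    refine integral_congr_ae (Eventually.of_forall fun x => ?_)
    simp only [hq, lap_eq k hε c x]; ring
  have a5 : ∫ x, (S x - k ^ 2 / 2 * p x) * q x =
      (∫ x, S x * q x) - k ^ 2 / 2 * ∫ x, p x * q x := by
    rw [← integral_const_mul, ← integral_sub i2 (i1.const_mul _)]
    refine integral_congr_ae (Eventually.of_forall fun x => ?_)
    simp only; ring
  have b1 : ∫ z, p (c - z) * fe k ε z = ∫ x, p x * fe k ε (x - c) := by
    rw [← integral_sub_left_eq_self (fun x => p x * fe k ε (x - c)) volume c]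
    refine integral_congr_ae (Eventually.of_forall fun z => ?_)
    simp [fe]
  have b2 : ∫ z, S (c - z) * Ye k ε z = ∫ x, S x * q x := by
    rw [← integral_sub_left_eq_self (fun x => S x * q x) volume c]
    refine integral_congr_ae (Eventually.of_forall fun z => ?_)
    simp [hq, Ye]
  rw [a3, a2, a4, a5] at a1
  rw [b1, b2]
  linarith

theorem lim_Ye {k : ℝ} (hk : 0 < k) {Φ : E → ℝ} {M : ℝ} (hΦ : Continuous Φ) (hM : ∀ z, |Φ z| ≤ M) :
    Tendsto (fun ε => ∫ z, Ye k ε z * Φ z) (𝓝[>] 0) (𝓝 (∫ z, Yk k z * Φ z)) := by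
  refine tendsto_integral_filter_of_dominated_convergence (fun z => Yk k z * M) ?_ ?_
    ((Yk_facts hk).2.1.mul_const _) ?_
  · filter_upwards [self_mem_nhdsWithin] with ε hε
    exact ((Ye_smooth k hε).continuous.mul hΦ).aestronglyMeasurable
  · refine Eventually.of_forall fun ε => ?_
    filter_upwards [ae_ne0] with z hz
    rw [norm_mul, Real.norm_of_nonneg (Ye_nonneg _ _ _), Real.norm_eq_abs]
    exact mul_le_mul (Ye_le hk ε hz) (hM z) (abs_nonneg _) (Yk_nonneg _ _)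
  · filter_upwards [ae_ne0] with z hz
    refine Tendsto.mul_const _ (tendsto_nhdsWithin_of_tendsto_nhds ?_)
    have hpi := Real.pi_pos
    have h0 : 0 < ‖z‖ := norm_pos_iff.2 hz
    have e : Yk k z = Ye k 0 z := by simp [Ye, G0, Yk, Real.sqrt_sq h0.le]
    rw [e]
    refine ContinuousAt.tendsto (f := fun ε => Ye k ε z) ?_
    unfold Ye G0
    refine ContinuousAt.div (by fun_prop) (by fun_prop) ?_
    have : 0 < √(‖z‖ ^ 2 + 0 ^ 2) := Real.sqrt_pos.2 (by positivity)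
    positivity

theorem poly_exp {a : ℝ} (ha : 0 ≤ a) : (a ^ 2 + 3 * a + 3) * Real.exp (-a) ≤ 3 := by
  have h := Real.quadratic_le_exp_of_nonneg ha
  rw [Real.exp_neg, ← div_eq_mul_inv, div_le_iff₀ (Real.exp_pos _)]
  nlinarith [sq_nonneg a]

theorem lim_fe {k : ℝ} (hk : 0 < k) {Φ : E → ℝ} {M : ℝ} (hΦ : Continuous Φ) (hM : ∀ z, |Φ z| ≤ M) :
    Tendsto (fun ε => ∫ z, fe k ε z * Φ z) (𝓝[>] 0) (𝓝 (Φ 0)) := by
  have hpi := Real.pi_pos
  set g : ℝ → E → ℝ := fun ε w =>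
    (((k * ε * √(‖w‖ ^ 2 + 1)) ^ 2 + 3 * (k * ε * √(‖w‖ ^ 2 + 1)) + 3) *
      Real.exp (-(k * ε * √(‖w‖ ^ 2 + 1))) / 3) * g0 w * Φ (ε • w) with hg
  have gc : Continuous g0 := by
    unfold g0
    refine Continuous.div (by fun_prop) (by fun_prop) fun z => ?_
    have : 0 < √(‖z‖ ^ 2 + 1) := Real.sqrt_pos.2 (by positivity)
    positivity
  have g0n : ∀ w, 0 ≤ g0 w := fun w => by unfold g0; positivity
  have e : ∀ ε : ℝ, 0 < ε → ∫ z, fe k ε z * Φ z = ∫ w, g ε w := by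
    intro ε hε
    have h1 := Measure.integral_comp_smul_of_nonneg volume (fun z : E => fe k ε z * Φ z) ε
      (hR := hε.le)
    simp only [finrank_euclideanSpace, Fintype.card_fin, smul_eq_mul] at h1
    have h2 : ∫ z, fe k ε z * Φ z = ε ^ 3 * ∫ w, fe k ε (ε • w) * Φ (ε • w) := by
      rw [h1]; field_simp
    rw [h2, ← integral_const_mul]
    refine integral_congr_ae (Eventually.of_forall fun w => ?_)
    have h3 : √(‖ε • w‖ ^ 2 + ε ^ 2) = ε * √(‖w‖ ^ 2 + 1) := by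
      rw [norm_smul, Real.norm_of_nonneg hε.le, show (ε * ‖w‖) ^ 2 + ε ^ 2 = ε ^ 2 * (‖w‖ ^ 2 + 1) by ring,
        Real.sqrt_mul (sq_nonneg _), Real.sqrt_sq hε.le]
    have h4 : 0 < √(‖w‖ ^ 2 + 1) := Real.sqrt_pos.2 (by positivity)
    simp only [hg, fe, G2, g0, h3]
    rw [← mul_assoc k]
    field_simp
    ring
  have t : Tendsto (fun ε => ∫ w, g ε w) (𝓝[>] 0) (𝓝 (∫ w, g0 w * Φ 0)) := by
    refine tendsto_integral_filter_of_dominated_convergence (fun z => g0 z * M) ?_ ?_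
      (g0_facts.1.mul_const _) ?_
    · refine Eventually.of_forall fun ε => Continuous.aestronglyMeasurable ?_
      simp only [hg]
      fun_prop
    · filter_upwards [self_mem_nhdsWithin] with ε hε
      have hε : 0 < ε := hε
      refine Eventually.of_forall fun w => ?_
      have h1 := poly_exp (a := k * ε * √(‖w‖ ^ 2 + 1)) (by positivity)
      simp only [hg]
      rw [norm_mul, Real.norm_of_nonneg (mul_nonneg (by positivity) (g0n w)), Real.norm_eq_abs]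
      refine mul_le_mul ?_ (hM _) (abs_nonneg _) (g0n w)
      refine mul_le_of_le_one_left (g0n w) ?_
      linarith
    · refine Eventually.of_forall fun w => tendsto_nhdsWithin_of_tendsto_nhds ?_
      have e0 : g0 w * Φ 0 = g 0 w := by simp [hg]
      rw [e0]
      refine Continuous.tendsto (f := fun ε => g ε w) ?_ 0
      simp only [hg]
      fun_prop
  rw [integral_mul_const, g0_facts.2, one_mul] at t
  refine t.congr' ?_
  filter_upwards [self_mem_nhdsWithin] with ε hε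
  exact (e ε hε).symm

end

end Crest.Agent.R335.Y1A
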