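import Crest.Agent.R335.S12
import Crest.Agent.R335.S07
import Crest.Agent.R335.Y1Aux2

set_option autoImplicit false

open MeasureTheory Set Filter Topology Metric
open scoped Gradient ContDiff RealInnerProductSpace ENNReal

namespace Crest.Agent.R335

noncomputable section

theorem Yk_memLp {k : ℝ} (hk : 0 < k) : MemLp (Yk k) 2 volume ∧ Integrable (Yk k) ∧
    ∫ x, Yk k x ^ 2 = 1 / (2 * Real.pi * k) ∧ ∫ x, Yk k x = 2 / k ^ 2 := Y1A.Yk_facts hk
theorem YP_integrable {k : ℝ} (hk : 0 < k) {S : E → ℝ} (hS : MemLp S 2 volume) (x : E) :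
    Integrable (fun y => Yk k (x - y) * S y) ∧ YP k S x ^ 2 ≤ nsq S / (2 * Real.pi * k) := by
  have h1 := Y1A.memLp_sub_left (Yk_memLp hk).1 x
  refine ⟨h1.integrable_mul hS, (Y1A.cs h1 hS).trans (le_of_eq ?_)⟩
  rw [integral_sub_left_eq_self (fun y => Yk k y ^ 2) volume x, (Yk_memLp hk).2.2.1, nsq]
  ring
theorem YP_continuous {k : ℝ} (hk : 0 < k) {S : E → ℝ} (hS : MemLp S 2 volume) :
    Continuous (YP k S) := by
  refine (Y1A.corr_cont (Yk_memLp hk).1 hS).congr fun x => ?_
  refine integral_congr_ae (Eventually.of_forall fun y => ?_)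
  simp only
  rw [← Y1A.Yk_neg, neg_sub]

/-! Yukawa representation: test with the smoothed kernel, then with a test function -/
theorem yukawa_le {p S : E → ℝ} {k : ℝ} (hk : 0 < k) (hp : H1 p) (hS : MemLp S 2 volume)
    (h : Sub univ p (fun x => S x - k ^ 2 / 2 * p x)) : ∀ᵐ x, p x ≤ YP k S x := by
  have key := ae_le_of_tests (A := p) (B := YP k S) isOpen_univ
    (fun K hK _ => hp.isW.lu.integrableOn_isCompact hK)
    (fun K hK _ => (YP_continuous hk hS).continuousOn.integrableOn_compact hK) ?_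
  · filter_upwards [key] with x hx using hx (mem_univ _)
  intro χ hχ _ h0
  have hc : MemLp χ 2 volume := hχ.h1.l2
  have t1 := Y1A.lim_fe hk (Y1A.corr_cont hp.l2 hc) (Y1A.corr_bd hp.l2 hc)
  have t2 := Y1A.lim_Ye hk (Y1A.corr_cont hS hc) (Y1A.corr_bd hS hc)
  simp only [sub_zero] at t1
  have e : ∫ x, YP k S x * χ x = ∫ z, Yk k z * ∫ y, S (y - z) * χ y := by
    rw [← (Y1A.fub (Yk_memLp hk).2.1 hS hc).2]
    refine integral_congr_ae (Eventually.of_forall fun x => ?_)
    simp only [YP]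
    congr 1
    rw [← integral_sub_left_eq_self (fun y => Yk k (x - y) * S y) volume x]
    refine integral_congr_ae (Eventually.of_forall fun z => ?_)
    simp only [sub_sub_cancel]; ring
  rw [e]
  refine le_of_tendsto_of_tendsto t1 t2 ?_
  filter_upwards [self_mem_nhdsWithin] with ε hε
  have a := Y1A.fub (Y1A.fe_mem hk hε).2 hp.l2 hc
  have b := Y1A.fub (Y1A.Ye_mem hk hε).2 hS hc
  rw [← a.2, ← b.2]
  exact integral_mono a.1 b.1 fun x =>
    mul_le_mul_of_nonneg_right (Y1A.tested hk hε hp hS h x) (h0 x)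
theorem yukawa_eq {p A : E → ℝ} {k : ℝ} (hk : 0 < k) (h : Sol p A) :
    ∀ᵐ x, p x = YP k (fun y => A y + k ^ 2 / 2 * p y) x := by
  have a := yukawa_le (S := fun y => A y + k ^ 2 / 2 * p y) hk h.h1
    (h.l2.add (h.h1.l2.const_mul _)) (by simpa using h.sub)
  have b := yukawa_le (S := fun y => -A y + k ^ 2 / 2 * -p y) hk h.neg.h1
    (h.neg.l2.add (h.neg.h1.l2.const_mul _)) (by simpa using h.neg.sub)
  filter_upwards [a, b] with x h1 h2
  have e : YP k (fun y => -A y + k ^ 2 / 2 * -p y) x = -YP k (fun y => A y + k ^ 2 / 2 * p y) x := by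
    unfold YP
    rw [← integral_neg]
    refine integral_congr_ae (Eventually.of_forall fun y => ?_)
    simp only; ring
  rw [e] at h2
  linarith
/-- contribution of a source supported in a ball -/
theorem YP_far {k r : ℝ} (hk : 0 < k) (hr : 0 < r) {S : E → ℝ} (hS : MemLp S 2 volume)
    (h0 : ∀ᵐ y, r ≤ ‖y‖ → S y = 0) {x : E} (hx : r + 1 ≤ ‖x‖) :
    |YP k S x| ≤ Real.exp (-(k * (‖x‖ - r))) * √(r ^ 3 * nsq S) := by
  have hpi := Real.pi_gt_three
  set c := Real.exp (-(k * (‖x‖ - r))) with hc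
  have c0 : 0 < c := Real.exp_pos _
  have hb : volume (ball (0 : E) r) ≠ ⊤ := measure_ball_lt_top.ne
  set f : E → ℝ := (ball (0 : E) r).indicator fun _ => 1 / (2 * Real.pi) with hf
  have fm : MemLp f 2 volume := memLp_indicator_const 2 measurableSet_ball _ (Or.inr hb)
  have h1 : |YP k S x| ≤ ∫ y, c * (f y * ‖S y‖) := by
    refine norm_integral_le_of_norm_le (f := fun y => Yk k (x - y) * S y)
      ((fm.integrable_mul hS.norm).const_mul c) ?_
    filter_upwards [h0] with y hy
    by_cases hyr : r ≤ ‖y‖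
    · simp [hy hyr]
    · have hm : y ∈ ball (0 : E) r := by simpa using hyr
      have h2 : ‖x‖ - r ≤ ‖x - y‖ := by linarith [norm_sub_norm_le x y]
      rw [norm_mul, Real.norm_of_nonneg (Y1A.Yk_nonneg _ _), ← mul_assoc, hf, indicator_of_mem hm]
      refine mul_le_mul_of_nonneg_right ?_ (norm_nonneg _)
      unfold Yk
      rw [mul_one_div]
      refine div_le_div₀ c0.le (Real.exp_le_exp.2 (by nlinarith)) (by positivity) ?_
      nlinarith
  rw [integral_const_mul] at h1
  refine h1.trans (mul_le_mul_of_nonneg_left ?_ c0.le)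
  refine (le_abs_self _).trans (Real.abs_le_sqrt ((Y1A.cs fm hS.norm).trans ?_))
  have e1 : ∫ y, ‖S y‖ ^ 2 = nsq S := by simp [nsq]
  have e2 : ∫ y, f y ^ 2 = r ^ 3 * (1 / (3 * Real.pi)) := by
    have : (fun y => f y ^ 2) = (ball (0 : E) r).indicator fun _ => (1 / (2 * Real.pi)) ^ 2 := by
      funext y
      by_cases hy : y ∈ ball (0 : E) r <;> simp [hf, hy]
    rw [this, integral_indicator_const _ measurableSet_ball, Measure.real,
      EuclideanSpace.volume_ball_fin_three, ENNReal.toReal_mul, ENNReal.toReal_pow,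
      ENNReal.toReal_ofReal hr.le, ENNReal.toReal_ofReal (by positivity), smul_eq_mul]
    field_simp
    ring
  rw [e1, e2]
  refine mul_le_mul_of_nonneg_right ?_ (integral_nonneg fun y => sq_nonneg _)
  refine mul_le_of_le_one_right (by positivity) ?_
  rw [div_le_one (by positivity)]
  linarith

end

end Crest.Agent.R335
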