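import Crest.Agent.R335.F0
import Crest.Agent.R335.Y1
import Crest.Agent.R335.Y2
import Crest.Agent.R335.S04
import Crest.Agent.R335.F0bAux1
import Crest.Agent.R335.F0dAux

set_option autoImplicit false

open MeasureTheory Set Filter Topology Metric
open scoped Gradient ContDiff RealInnerProductSpace ENNReal

namespace Crest.Agent.R335

noncomputable section

/-! numerics and regularity helpers -/
theorem num_good (N : ℕ) (A : ℝ) : Lg fun o => A ≤ o.d ∧ o.d ≤ o.L ∧ o.δ0 * (A * o.L ^ N) ≤ 1 ∧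
    A * (o.d * o.Γ0 / o.δ0) ^ 3 ≤ o.Γ1 := by
  have ht := (Real.tendsto_pow_mul_exp_neg_atTop_nhds_zero N).const_mul (|A| * 5 ^ N)
  rw [mul_zero] at ht
  obtain ⟨T, hT⟩ := eventually_atTop.1 (ht.eventually (gt_mem_nhds one_pos))
  refine ⟨max A (4 * T), fun o ho hd => ?_⟩
  have hA : A ≤ o.d := le_of_max_le_left hd
  have hT4 : 4 * T ≤ o.d := le_of_max_le_right hd
  obtain ⟨hδ0, hδ1⟩ := ho.δ
  obtain ⟨c1, -, c3⟩ := ho.C0
  have hd0 : 100 ≤ o.d := c1.trans c3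
  have hlog : Real.log o.δ0 ≤ -(o.d / 4) := by
    rw [Real.log_le_iff_le_exp hδ0]; exact hδ1
  set t := -Real.log o.δ0 with ht'
  have ht1 : o.d / 4 ≤ t := by linarith
  have hL : o.L = o.d + t := by
    rw [OD.L, abs_of_nonpos (by linarith)]
  have hδ : o.δ0 = Real.exp (-t) := by rw [ht', neg_neg, Real.exp_log hδ0]
  have ht0 : 0 ≤ t := by linarith
  refine ⟨hA, by linarith, ?_, ?_⟩
  · have h1 := hT t (by linarith)
    have h2 : o.L ^ N ≤ (5 * t) ^ N := pow_le_pow_left₀ (by linarith) (by linarith) N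
    have h3 : A * o.L ^ N ≤ |A| * (5 * t) ^ N :=
      mul_le_mul (le_abs_self A) h2 (pow_nonneg (by linarith) N) (abs_nonneg A)
    calc o.δ0 * (A * o.L ^ N) ≤ o.δ0 * (|A| * (5 * t) ^ N) := mul_le_mul_of_nonneg_left h3 hδ0.le
      _ = |A| * 5 ^ N * (t ^ N * Real.exp (-t)) := by rw [hδ, mul_pow]; ring
      _ ≤ 1 := h1.le
  · have e1 : o.d ≤ Real.exp o.d := by linarith [Real.add_one_le_exp o.d]
    have e2 : o.Γ0 ≤ Real.exp (o.d ^ 3) := by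
      rw [OD.Γ0]
      refine Real.exp_le_exp.2 ?_
      nlinarith [sq_nonneg o.d]
    have e3 : o.d * o.Γ0 / o.δ0 ≤ Real.exp (o.d + o.d ^ 3 + t) := by
      rw [hδ, Real.exp_neg, div_inv_eq_mul, Real.exp_add, Real.exp_add]
      have : 0 < o.Γ0 := Real.exp_pos _
      gcongr
    have e4 : 0 ≤ o.d * o.Γ0 / o.δ0 := by
      have : 0 < o.Γ0 := Real.exp_pos _
      have : 0 ≤ o.d := by linarith
      positivity
    have e5 : (o.d * o.Γ0 / o.δ0) ^ 3 ≤ Real.exp (o.d + o.d ^ 3 + t) ^ 3 :=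
      pow_le_pow_left₀ e4 e3 3
    have e6 : A * (o.d * o.Γ0 / o.δ0) ^ 3 ≤ Real.exp o.d * Real.exp (o.d + o.d ^ 3 + t) ^ 3 :=
      mul_le_mul (hA.trans e1) e5 (pow_nonneg e4 3) (Real.exp_pos _).le
    refine e6.trans ?_
    rw [← Real.exp_nat_mul, ← Real.exp_add, OD.Γ1]
    refine Real.exp_le_exp.2 ?_
    have l1 : o.d ≤ o.L := by linarith
    have l2 : t ≤ o.L := by linarith
    have l3 : 100 ≤ o.L := by linarith
    have l4 : o.d ^ 3 ≤ o.L ^ 3 := pow_le_pow_left₀ (by linarith) l1 3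
    have l5 : o.L ≤ o.L ^ 3 := le_self_pow₀ (by linarith) (by norm_num)
    have l6 : 100 * o.L ^ 3 ≤ o.L ^ 4 := by
      have := mul_le_mul_of_nonneg_right l3 (pow_nonneg (show 0 ≤ o.L by linarith) 3)
      linarith [pow_succ' o.L 3]
    push_cast
    linarith
theorem num_kappa (o : OD) (ho : o.OK) (c ε : ℝ) (hε : 0 < ε) : Sm o c fun m =>
    |m.κ - √(-2 * o.eu)| ≤ ε ∧ |m.κh - √(-2 * o.eg)| ≤ ε ∧ 99 / 100 ≤ m.κ ∧ m.κh ≤ 11 / 10 ∧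
      m.κ ^ 2 / 2 = m.I ∧ m.κh ^ 2 / 2 = m.I + m.dt ∧ o.δ0 / 2 ≤ m.dt ∧ m.dt ≤ 2 * o.δ0 ∧
      o.δ0 / 4 ≤ m.κh - m.κ ∧ m.κh - m.κ ≤ 3 * o.δ0 := by
  obtain ⟨hδ0, -⟩ := ho.δ
  obtain ⟨g0, g1⟩ := ho.γ0
  obtain ⟨n1, n2, n3⟩ := ho.en
  set μ := min (ε / 5) (min (1 / 250) (o.δ0 / 2)) with hμ
  have hμ0 : 0 < μ := lt_min (by linarith) (lt_min (by norm_num) (by linarith))
  have m1 : μ ≤ ε / 5 := min_le_left _ _
  have m2 : μ ≤ 1 / 250 := (min_le_right _ _).trans (min_le_left _ _)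
  have m3 : μ ≤ o.δ0 / 2 := (min_le_right _ _).trans (min_le_right _ _)
  have hc : 0 < |c| + 1 := by positivity
  refine ⟨μ / (|c| + 1), by positivity, fun m hm hl => ?_⟩
  have hcl : c * m.l ≤ μ := by
    rw [le_div_iff₀ hc] at hl
    have := mul_le_mul_of_nonneg_right (le_abs_self c) hm.l0.1.le
    nlinarith [hm.l0.1]
  obtain ⟨a1, a2⟩ := abs_le.1 (hm.num.1.trans hcl)
  obtain ⟨b1, b2⟩ := abs_le.1 (hm.num.2.trans hcl)
  have eδ : o.δ0 = o.eu - o.eg := rfl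
  have k1 : 99 / 100 ≤ m.κ := Real.le_sqrt_of_sq_le (by linarith)
  have k2 : m.κ ≤ m.κh := Real.sqrt_le_sqrt (by linarith)
  have k3 : m.κh ≤ 11 / 10 := Real.sqrt_le_iff.2 ⟨by norm_num, by linarith⟩
  have q1 : m.κ ^ 2 = 2 * m.I := Real.sq_sqrt (by linarith)
  have q2 : m.κh ^ 2 = 2 * (m.I + m.dt) := Real.sq_sqrt (by linarith)
  have q3 : (m.κh - m.κ) * (m.κh + m.κ) = 2 * m.dt := by linarith
  have r1 := mul_le_mul_of_nonneg_left (show m.κh + m.κ ≤ 11 / 5 by linarith) (sub_nonneg.2 k2)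
  have r2 := mul_le_mul_of_nonneg_left (show 99 / 50 ≤ m.κh + m.κ by linarith) (sub_nonneg.2 k2)
  refine ⟨?_, ?_, k1, k3, by linarith, by linarith, by linarith, by linarith, by linarith,
    by linarith⟩
  · refine (F0c_sqrt (η := 4 * μ) k1 (by linarith) (abs_le.2 ⟨by linarith, by linarith⟩)).trans ?_
    linarith
  · refine (F0c_sqrt (η := 4 * μ) (k1.trans k2) (by linarith)
      (abs_le.2 ⟨by linarith, by linarith⟩)).trans ?_
    linarith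
/-- gradient bound at small scale -/
theorem YP_reg_loc (a : ℝ) (ha : 0 < a) : ∃ C : ℝ, 0 < C ∧ ∀ (S : E → ℝ) (x₀ : E) (M N : ℝ),
    MemLp S 2 volume → 0 ≤ M → 0 ≤ N → nsq S ≤ N ^ 2 → (∀ᵐ y, ‖y - x₀‖ < 2 * a → |S y| ≤ M) →
    ContDiffOn ℝ 1 (YP 8 S) (ball x₀ a) ∧ ∀ x ∈ ball x₀ a, ‖∇ (YP 8 S) x‖ ≤ C * (M + N) := by
  obtain ⟨C, hC, h⟩ := F0c_int a ha
  refine ⟨2 * C, by positivity, fun S x₀ M N hS hM hN hSN hb => ?_⟩
  rw [mul_assoc]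
  exact F0c_reg isOpen_ball hS (h S x₀ M N hS hM hN hSN hb)
theorem Sol.eq_YP {p A : E → ℝ} {k : ℝ} (hk : 0 < k) (h : Sol p A) (hp : Continuous p) :
    MemLp (fun y => A y + k ^ 2 / 2 * p y) 2 volume ∧
      p = YP k fun y => A y + k ^ 2 / 2 * p y := by
  have hm : MemLp (fun y => A y + k ^ 2 / 2 * p y) 2 volume := h.l2.add (h.h1.l2.const_mul _)
  exact ⟨hm, (hp.ae_eq_iff_eq volume (YP_continuous hk hm)).1 (yukawa_eq hk h)⟩
/-- odd `C^{1,1/2}` functions near the plane -/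
theorem odd_holder {p : E → ℝ} {x₀ : E} {H : ℝ} (h0 : x₀ 2 = 0) (hp : ContDiffOn ℝ 1 p (ball x₀ 2))
    (ho : ∀ x, p (R x) = -p x)
    (hH : ∀ x ∈ ball x₀ 2, ∀ x' ∈ ball x₀ 2, ‖x - x'‖ ≤ 1 → ‖∇ p x - ∇ p x'‖ ≤ H * √‖x - x'‖)
    {s : ℝ} (hs : 0 < s) (hs1 : s ≤ 1 / 2) {z : ℝ} (hz : |z| ≤ 1) :
    ‖hor (∇ p (x₀ + z • ez))‖ ≤ H * √|z| ∧
      (|z| ≤ s → |∇ p (x₀ + z • ez) 2 - p (x₀ + s • ez) / s| ≤ 2 * H * √s) :=
  F0d.odd_holder h0 hp ho hH hs hs1 hz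
/-- a function vanishing below the plane with bounded weak gradient -/
theorem half_lip {p : E → ℝ} {x₀ : E} {M a : ℝ} (h0 : x₀ 2 = 0) (hp : Hl p)
    (hz : ∀ᵐ x, x 2 < 0 → p x = 0) (hM : ∀ᵐ x, x ∈ ball x₀ (2 * a) → ‖D p x‖ ≤ M) :
    ∀ᵐ x, x ∈ ball x₀ a → |p x| ≤ M * |x 2| :=
  F0d.half_lip h0 hp hz hM
theorem slab_fubini {F : E → ℝ} (hF : Integrable F) :
    ∫ x, F x = ∫ s : ℝ, (1 / 2) * ∫ x in {x : E | |x 2| < 1}, F (hor x + s • ez) :=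
  F0d.slab_fubini hF
/-- weak Laplacian of the distance to a point -/
theorem norm_lap (c : E) {χ : E → ℝ} (h : TF univ χ) : Integrable (fun x => χ x / ‖x - c‖) ∧
    ∫ x, ⟪D (fun x => ‖x - c‖) x, D χ x⟫ = -∫ x, 2 * (χ x / ‖x - c‖) :=
  F0d.norm_lap c h

end

end Crest.Agent.R335
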