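import Crest.Agent.R335.Fc
import Crest.Agent.R335.F0b

set_option autoImplicit false

open MeasureTheory Set Filter Topology Metric
open scoped Gradient ContDiff RealInnerProductSpace ENNReal

namespace Crest.Agent.R335

noncomputable section

theorem F1_rad_eq (a k : ℝ) (x : E) : rad a k x = Real.exp (a * Real.log (jb x) - k * jb x) := by
  have h : 0 < jb x := lt_of_lt_of_le one_pos (jb_facts x).1
  change jb x ^ a * Real.exp (-(k * jb x) + 0 / √(jb x)) = _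
  rw [zero_div, add_zero, Real.rpow_def_of_pos h, ← Real.exp_add, mul_comm (Real.log _)]
  rfl

theorem F1_log_nonneg (x : E) : 0 ≤ Real.log (jb x) := Real.log_nonneg (jb_facts x).1

theorem F1_log (N : ℝ) {η : ℝ} (hN : 0 < N) (hη : 0 < η) :
    ∃ C : ℝ, 0 ≤ C ∧ ∀ t : ℝ, 0 < t → N * Real.log t - η * t ≤ C := by
  refine ⟨|N * Real.log (N / η)|, abs_nonneg _, fun t ht => ?_⟩
  have h1 := Real.log_le_sub_one_of_pos (show 0 < t / (N / η) by positivity)
  rw [Real.log_div ht.ne' (by positivity)] at h1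
  have h2 : N * (t / (N / η)) = η * t := by field_simp
  have h3 := mul_le_mul_of_nonneg_left h1 hN.le
  have h4 := le_abs_self (N * Real.log (N / η))
  rw [mul_sub, mul_sub, h2] at h3
  linarith

theorem F1_low (ρ : ℝ) : ∃ β : ℝ, 0 < β ∧ ∀ a k : ℝ, -5 ≤ a → k ≤ 2 → ∀ x : E, ‖x‖ ≤ ρ →
    β ≤ rad a k x := by
  refine ⟨Real.exp (-(7 * (ρ + 1))), Real.exp_pos _, fun a k ha hk x hx => ?_⟩
  rw [F1_rad_eq]
  refine Real.exp_le_exp.2 ?_
  obtain ⟨h1, -, h3, -⟩ := jb_facts x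
  have h4 := F1_log_nonneg x
  have h5 := Real.log_le_sub_one_of_pos (show 0 < jb x by linarith)
  nlinarith

theorem F1_lap_mul {q : E → ℝ} (hq : ContDiff ℝ 2 q) (A : ℝ) (x : E) :
    lap (fun x => A * q x) x = A * lap q x := by
  have := lap_lin hq hq A 0 x
  simpa using this

theorem F1_c2 (a k b : ℝ) : ContDiff ℝ 2 (radb a k b) :=
  (radb_smooth a k b).of_le (by norm_cast)

theorem F1_bound {p S U q : E → ℝ} {ρ M β A : ℝ} (hρ : 0 ≤ ρ) (hp : H1 p)
    (a : Sub univ p fun x => -(U x * p x) + S x) (hM : ∀ᵐ x, |p x| ≤ M) (hq : ContDiff ℝ 2 q)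
    (hq0 : ∀ x, 0 < q x) (hβ : ∀ x, ‖x‖ ≤ ρ + 1 → β ≤ q x) (hA0 : 0 ≤ A) (hA : M ≤ A * β)
    (hU : AEStronglyMeasurable U volume) (hU' : ∀ x ∈ Ex ρ, 1 / 4 ≤ U x ∧ U x ≤ 2)
    (hS : ∀ᵐ x, x ∈ Ex ρ → S x ≤ A * (-(1 / 2) * lap q x + U x * q x)) :
    ∀ᵐ x, p x ≤ A * q x := by
  have hin : ∀ᵐ x, ‖x‖ ≤ ρ + 1 → p x ≤ A * q x := hM.mono fun x hx h =>
    (le_abs_self _).trans (hx.trans (hA.trans (mul_le_mul_of_nonneg_left (hβ x h) hA0)))
  have hq' : ContDiff ℝ 2 fun x => A * q x := contDiff_const.mul hq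
  have h := far_le (q := fun x => A * q x) (c0 := 1 / 4) (c1 := 2) (by norm_num) hρ
    (a.mono (subset_univ _) (fun K hK _ => a.li K hK (subset_univ _))
      (Eventually.of_forall fun _ _ => le_rfl))
    (Bd.lb ⟨M, hM⟩) hq' hU (Eventually.of_forall hU')
    (hS.mono fun x hx h => by rw [F1_lap_mul hq]; linarith [hx h])
    (hp.l2.of_le ((hp.l2.1.sub hq'.continuous.aestronglyMeasurable).sup aestronglyMeasurable_const)
      (Eventually.of_forall fun x => by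
        have h0 := mul_nonneg hA0 (hq0 x).le
        rw [Real.norm_eq_abs, Real.norm_eq_abs, abs_of_nonneg (le_max_right _ _)]
        exact max_le (by linarith [le_abs_self (p x)]) (abs_nonneg _)))
    (hin.mono fun x hx _ h => hx h.le)
  filter_upwards [h, hin] with x h1 h2
  by_cases hx : ρ < ‖x‖
  · exact h1 hx
  · exact h2 (by linarith [not_lt.1 hx])

theorem F1_R0 {o : OD} (ho : o.OK) : 100 ≤ o.d ∧ o.d ≤ o.R0 := by
  obtain ⟨c1, -, c3⟩ := ho.C0
  have hd : 100 ≤ o.d := c1.trans c3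
  refine ⟨hd, ?_⟩
  change o.d ≤ o.C0 * o.d ^ 2
  nlinarith

theorem F1_c0 {o : OD} {c : ℝ} {m : MD} (hm : m.OK o c) : 0 ≤ c :=
  (hm.w_bd 0).1.trans (hm.w_bd 0).2.1

theorem F1_pyth {o : OD} {c : ℝ} {m : MD} (hm : m.OK o c) :
    ∀ᵐ x, |m.f x| ≤ m.r x ∧ m.g x ≤ m.r x ∧ m.G x ≤ m.g x := by
  filter_upwards [hm.pyth] with x hx
  obtain ⟨h1, h2, h3, h4, -⟩ := hm.nn x
  refine ⟨abs_le.2 (abs_le_of_sq_le_sq' (by nlinarith [hx.2.1, sq_nonneg (m.g x)]) h1),
    (abs_le_of_sq_le_sq' ?_ h1).2, (abs_le_of_sq_le_sq' ?_ h4).2⟩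
  · nlinarith [hx.2.1, sq_nonneg (m.f x)]
  · nlinarith [hx.1, sq_nonneg (m.n x)]

theorem F1_exp_a {κ : ℝ} (h1 : 99 / 100 ≤ κ) (h2 : κ ≤ 11 / 10) : 1 ≤ 2 / κ ∧ 2 / κ ≤ 5 / 2 := by
  have h0 : 0 < κ := by linarith
  exact ⟨(le_div_iff₀ h0).2 (by linarith), (div_le_iff₀ h0).2 (by linarith)⟩

theorem F1 : Lg fun o => ∀ c, ∃ c1 : ℝ, 1 ≤ c1 ∧ Sm o c fun m => ∀ᵐ x,
    m.r x ≤ c1 * rad (2 / m.κ - 1) m.κ x ∧ m.N x ≤ c1 * rad (2 / m.κ - 1) m.κ x := by
  refine hom_bar.mono fun o ho hb c => ?_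
  obtain ⟨hd, hR⟩ := F1_R0 ho
  obtain ⟨β, hβ, hlow⟩ := F1_low (o.R0 + 1)
  set β' := Real.exp (-1) * β with hβ'
  have hβ'0 : 0 < β' := by positivity
  set A1 := |c| / β' with hA1
  have hA10 : 0 ≤ A1 := by positivity
  set A2 := A1 + 4 * |c| * A1 with hA2
  have hA20 : 0 ≤ A2 := by positivity
  have he : 0 < Real.exp 1 := Real.exp_pos _
  refine ⟨1 + Real.exp 1 * A2, by nlinarith [mul_nonneg he.le hA20],
    (num_kappa o ho c 1 one_pos).mono fun m hm hk => ?_⟩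
  obtain ⟨-, -, k1, k2, k3, -, -, -, k4, -⟩ := hk
  have hδ := ho.δ.1
  have k5 : m.κ ≤ 11 / 10 := by linarith
  have hc := F1_c0 hm
  obtain ⟨e1, e2⟩ := F1_exp_a k1 k5
  set q := radb (2 / m.κ - 1) m.κ (-1) with hq
  have hq0 : ∀ x, 0 < q x := fun x => (radb_facts _ _ _ x).1
  have hqβ : ∀ x : E, ‖x‖ ≤ o.R0 + 1 → β' ≤ q x := fun x hx => by
    have h1 := (radb_facts (2 / m.κ - 1) m.κ (-1) x).2.2.2.1
    rw [abs_neg, abs_one] at h1
    exact (mul_le_mul_of_nonneg_left (hlow _ _ (by linarith) (by linarith) x hx)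
      (Real.exp_pos _).le).trans h1
  have hA : c ≤ A1 * β' := by
    rw [hA1, div_mul_cancel₀ _ hβ'0.ne']; exact le_abs_self c
  have hI : 49 / 100 ≤ m.I ∧ m.I ≤ 1 := by constructor <;> nlinarith
  have hv := vx_facts o.d
  have hop : ∀ x ∈ Ex o.R0, 0 ≤ -(1 / 2) * lap q x + (o.v x + m.I) * q x ∧ -(1 / 10) ≤ o.v x := by
    intro x hx
    obtain ⟨b1, -, -, b4⟩ := hb m.κ k1 k5 x (le_of_lt hx)
    rw [k3] at b1
    refine ⟨le_trans ?_ b1, b4⟩
    have := hq0 x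
    have h1 : 0 < jb x := lt_of_lt_of_le one_pos (jb_facts x).1
    positivity
  have hr : ∀ᵐ x, m.r x ≤ A1 * q x := by
    refine F1_bound (U := fun x => o.v x + m.I) (S := fun _ => 0) (M := c) (by linarith) hm.h1.1
      (by simpa only [add_zero] using hm.ho)
      (hm.bd.mono fun x hx => by rw [abs_of_nonneg (hm.nn x).1]; exact hx.1) (F1_c2 _ _ _) hq0
      hqβ hA10 hA (hv.1.add_const _).aestronglyMeasurable (fun x hx => ?_)
      (Eventually.of_forall fun x hx => mul_nonneg hA10 (hop x hx).1)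
    have h1 := (hop x hx).2
    have h2 : o.v x ≤ 0 := (hv.2.1 x).1
    constructor <;> linarith [hI.1, hI.2]
  have hN : ∀ᵐ x, m.N x ≤ A2 * q x := by
    refine F1_bound (U := fun x => o.v x + m.I + 1 / 4) (S := fun x => c * m.r x) (M := c)
      (by linarith) hm.h1.2.2.2.2 hm.sN
      (hm.bd.mono fun x hx => by rw [abs_of_nonneg (hm.nn x).2.2.2.2]; exact hx.2) (F1_c2 _ _ _)
      hq0 hqβ hA20 (hA.trans (mul_le_mul_of_nonneg_right (by
        have : 0 ≤ 4 * |c| * A1 := by positivity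
        linarith) hβ'0.le))
      ((hv.1.add_const _).add_const _).aestronglyMeasurable (fun x hx => ?_)
      (hr.mono fun x h hx => ?_)
    · have h1 := (hop x hx).2
      have h2 : o.v x ≤ 0 := (hv.2.1 x).1
      constructor <;> linarith [hI.1, hI.2]
    · have h1 := mul_nonneg hA20 (hop x hx).1
      have h2 := mul_le_mul_of_nonneg_left h hc
      have h3 := mul_nonneg hA10 (hq0 x).le
      rw [hA2, abs_of_nonneg hc] at *
      nlinarith
  filter_upwards [hr, hN] with x h1 h2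
  have h3 := (radb_facts (2 / m.κ - 1) m.κ (-1) x).2.2.2.2.1
  rw [abs_neg, abs_one] at h3
  have h4 : 0 < rad (2 / m.κ - 1) m.κ x := (radb_facts _ _ _ x).1
  have h5 : A2 * q x ≤ (1 + Real.exp 1 * A2) * rad (2 / m.κ - 1) m.κ x := by
    have := mul_le_mul_of_nonneg_left h3 hA20
    nlinarith
  have h6 : A1 * q x ≤ A2 * q x := mul_le_mul_of_nonneg_right (by
    have : 0 ≤ 4 * |c| * A1 := by positivity
    linarith) (hq0 x).le
  exact ⟨h1.trans (h6.trans h5), h2.trans h5⟩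
theorem F2 : Lg fun o => ∀ c, ∃ c2 : ℝ, 1 ≤ c2 ∧ Sm o c fun m =>
    (∀ x, jb x * m.mh x ≤ c2 * m.Dm x ∧ jb x ^ 2 * Real.exp (-(‖x‖ / 10)) * m.Dm x ≤ c2 * m.mh x) ∧
    ∀ᵐ x, m.g x ≤ c2 * m.Dm x ∧ |m.ef x| ≤ c2 * m.l / jb x ^ 2 * m.Dm x := by
  obtain ⟨C, hC, hlap⟩ := lap_radb 5
  obtain ⟨C', hC', hvf⟩ := vx_far
  refine (F1.and (num_good 0 60)).mono fun o ho hh c => ?_
  obtain ⟨hF, -, -, hδ1, -⟩ := hh
  obtain ⟨c1, hc1, hF1⟩ := hF c
  obtain ⟨hd, -⟩ := F1_R0 ho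
  have hδ := ho.δ.1
  rw [pow_zero, mul_one] at hδ1
  obtain ⟨K1, hK1, hl1⟩ := F1_log 5 (η := o.δ0 / 4) (by norm_num) (by positivity)
  obtain ⟨K2, hK2, hl2⟩ := F1_log 4 (η := 1 / 20) (by norm_num) (by norm_num)
  set B := 5 + C + C' * o.d ^ 2 with hB
  have hB0 : 0 < B := by positivity
  set ρ := 2 * o.d + 4 * B / o.δ0 with hρ
  have hρ1 : 0 < 4 * B / o.δ0 := by positivity
  obtain ⟨β, hβ, hlow⟩ := F1_low (ρ + 1)
  set A := |c| / β + 4 * |c| * c1 / o.δ0 with hA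
  have hAa : 0 ≤ |c| / β := by positivity
  have hAb : 0 ≤ 4 * |c| * c1 / o.δ0 := by positivity
  have hA0 : 0 ≤ A := add_nonneg hAa hAb
  have hE : 0 < Real.exp (K1 + K2 + 1) := Real.exp_pos _
  have hcA : 0 ≤ |c| * A := by positivity
  refine ⟨1 + Real.exp (K1 + K2 + 1) + A + |c| * A, by linarith,
    (((num_kappa o ho c 1 one_pos).and hF1).and (Sm.le o c (a := 1 / 4) (by norm_num))).mono
      fun m hm hk => ?_⟩
  obtain ⟨⟨⟨-, -, k1, k2, k3, k3', k6, -, k4, k7⟩, hr⟩, hl⟩ := hk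
  have k5 : m.κ ≤ 11 / 10 := by linarith
  have hc := F1_c0 hm
  obtain ⟨e1, e2⟩ := F1_exp_a k1 k5
  obtain ⟨e3, e4⟩ := F1_exp_a (k1.trans (by linarith)) k2
  have hκ : 0 < m.κ := by linarith
  have hl0 := hm.l0.1
  have e5 : (2 - 2 * m.l) / m.κ = 2 / m.κ - 2 * m.l / m.κ := by ring
  have e6 : 0 ≤ 2 * m.l / m.κ ∧ 2 * m.l / m.κ ≤ 1 :=
    ⟨by positivity, (div_le_iff₀ hκ).2 (by linarith)⟩
  have hDm : ∀ x, 0 < m.Dm x := fun x => (radb_facts _ _ _ x).1
  have hmh : ∀ x, 0 < m.mh x := fun x => (radb_facts _ _ _ x).1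
  refine ⟨fun x => ?_, ?_⟩
  · obtain ⟨t1, -, t3, -⟩ := jb_facts x
    have t0 : 0 < jb x := by linarith
    have hlog := F1_log_nonneg x
    have h1 := hl1 _ t0
    have h2 := hl2 _ t0
    constructor
    · refine le_trans ?_ (mul_le_mul_of_nonneg_right
        (show Real.exp (K1 + K2 + 1) ≤ _ by linarith) (hDm x).le)
      change jb x * rad (2 / m.κh - 1) m.κh x ≤ _ * rad ((2 - 2 * m.l) / m.κ - 2) m.κ x
      rw [F1_rad_eq, F1_rad_eq, ← Real.exp_add]
      nth_rewrite 1 [← Real.exp_log t0]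
      rw [← Real.exp_add, e5]
      refine Real.exp_le_exp.2 ?_
      linarith [mul_le_mul_of_nonneg_right k4 t0.le, mul_le_mul_of_nonneg_right e4 hlog,
        mul_le_mul_of_nonneg_right e1 hlog, mul_le_mul_of_nonneg_right e6.2 hlog]
    · refine le_trans ?_ (mul_le_mul_of_nonneg_right
        (show Real.exp (K1 + K2 + 1) ≤ _ by linarith) (hmh x).le)
      change jb x ^ 2 * Real.exp (-(‖x‖ / 10)) * rad ((2 - 2 * m.l) / m.κ - 2) m.κ x ≤
        _ * rad (2 / m.κh - 1) m.κh x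
      rw [F1_rad_eq, F1_rad_eq, ← Real.exp_add]
      nth_rewrite 1 [← Real.exp_log t0]
      rw [← Real.exp_nat_mul, ← Real.exp_add, ← Real.exp_add, e5]
      refine Real.exp_le_exp.2 ?_
      push_cast
      linarith [mul_le_mul_of_nonneg_right k7 t0.le, mul_le_mul_of_nonneg_right e2 hlog,
        mul_le_mul_of_nonneg_right e3 hlog, mul_nonneg e6.1 hlog,
        mul_le_mul_of_nonneg_right hδ1 t0.le]
  set q := rad (2 / m.κ - 3) m.κ with hq
  have hq0 : ∀ x, 0 < q x := fun x => (radb_facts _ _ _ x).1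
  have hI : 49 / 100 ≤ m.I ∧ m.I + m.dt ≤ 1 := by
    have j1 := pow_le_pow_left₀ (by norm_num) k1 2
    have j2 := pow_le_pow_left₀ (by linarith) k2 2
    constructor <;> linarith
  have hv := vx_facts o.d
  have hfar : ∀ x ∈ Ex ρ, -(o.δ0 / 4) ≤ o.v x ∧
      o.δ0 / 4 * q x ≤ -(1 / 2) * lap q x + (o.v x + m.I + m.dt) * q x := by
    intro x hx
    have hx' : ρ < ‖x‖ := hx
    obtain ⟨t1, t2, -⟩ := jb_facts x
    have t0 : 0 < jb x := by linarith
    have h1 := (abs_le.1 (hvf o.d x (by linarith) (by linarith))).1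
    have h2 := (abs_le.1 (hlap (2 / m.κ - 3) m.κ 0 (abs_le.2 ⟨by linarith, by linarith⟩)
      (abs_le.2 ⟨by linarith, by linarith⟩) (by norm_num) x)).1
    have h3 : B / jb x ≤ o.δ0 / 4 := by
      rw [div_le_iff₀ t0]
      have : 4 * B / o.δ0 ≤ jb x := by linarith
      rw [div_le_iff₀ hδ] at this
      linarith
    have h4 : C' * o.d ^ 2 / jb x ^ 3 ≤ C' * o.d ^ 2 / jb x :=
      div_le_div_of_nonneg_left (by positivity) t0 (le_self_pow₀ t1 (by norm_num))
    have h5 : C / jb x ^ 2 ≤ C / jb x :=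
      div_le_div_of_nonneg_left hC.le t0 (le_self_pow₀ t1 (by norm_num))
    have h6 : B / jb x = 5 * (1 / jb x) + C / jb x + C' * o.d ^ 2 / jb x := by
      rw [hB]; ring
    have h7 : 0 < 1 / jb x := by positivity
    have h8 : 0 < C / jb x := by positivity
    have h9 : 2 / jb x = 2 * (1 / jb x) := by ring
    have h10 : m.κ * (2 / m.κ - 3 + 1) / jb x = (2 - 2 * m.κ) * (1 / jb x) := by
      field_simp
      ring
    have hvx : o.v x = vx o.d x := rfl
    refine ⟨by rw [hvx]; linarith, ?_⟩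
    rw [mul_zero, zero_div, sub_zero, h10, k3] at h2
    have h11 : o.δ0 / 4 ≤ -m.I + (2 - 2 * m.κ) * (1 / jb x) - C / jb x ^ 2 +
        (o.v x + m.I + m.dt) := by
      rw [hvx]
      linarith [mul_le_mul_of_nonneg_right k5 h7.le]
    have h12 := mul_le_mul_of_nonneg_right h11 (hq0 x).le
    change -(C / jb x ^ 2 * q x) ≤ -(1 / 2) * lap q x - q x * _ at h2
    linarith
  have hg : ∀ᵐ x, m.g x ≤ A * q x := by
    refine F1_bound (ρ := ρ) (U := fun x => o.v x + m.I + m.dt)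
      (S := fun x => c * m.l / jb x ^ 2 * |m.f x|) (M := c) (β := β) (by linarith)
      hm.h1.2.2.2.1 hm.sg ?_ (F1_c2 _ _ _) hq0
      (fun x hx => hlow _ _ (by linarith) (by linarith) x hx) hA0 ?_
      ((hv.1.add_const _).add_const _).aestronglyMeasurable (fun x hx => ?_) ?_
    · filter_upwards [hm.bd, F1_pyth hm] with x h1 h2
      rw [abs_of_nonneg (hm.nn x).2.2.2.1]
      exact h2.2.1.trans h1.1
    · rw [hA, add_mul, div_mul_cancel₀ _ hβ.ne']
      have := mul_nonneg hAb hβ.le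
      linarith [le_abs_self c]
    · have h1 := (hfar x hx).1
      have h2 : o.v x ≤ 0 := (hv.2.1 x).1
      constructor <;> linarith [hI.1, hI.2]
    · filter_upwards [hr, F1_pyth hm] with x h1 h2 hx
      have t0 : 0 < jb x := lt_of_lt_of_le one_pos (jb_facts x).1
      have h3 : rad (2 / m.κ - 1) m.κ x = jb x ^ 2 * q x := by
        have := (radb_facts (2 / m.κ - 3) m.κ 0 x).2.2.2.2.2 2
        rw [show 2 / m.κ - 3 + 2 = 2 / m.κ - 1 by ring, Real.rpow_two] at this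
        exact this
      have h4 : |m.f x| ≤ c1 * (jb x ^ 2 * q x) := h3 ▸ h2.1.trans h1.1
      have h5 : c * m.l / jb x ^ 2 * |m.f x| ≤ c * m.l * c1 * q x := by
        refine (mul_le_mul_of_nonneg_left h4 (by positivity)).trans (le_of_eq ?_)
        field_simp
      have h6 : c * m.l * c1 ≤ A * (o.δ0 / 4) := by
        have h7 : 4 * |c| * c1 / o.δ0 * (o.δ0 / 4) = c * c1 := by
          rw [abs_of_nonneg hc]; field_simp
        have h8 : 0 ≤ |c| / β * (o.δ0 / 4) := by positivity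
        have h9 : 0 ≤ c * c1 := by positivity
        rw [hA, add_mul, h7]
        linarith [mul_le_mul_of_nonneg_right hm.l0.2 h9]
      have h10 := mul_le_mul_of_nonneg_left (hfar x hx).2 hA0
      have h11 := mul_le_mul_of_nonneg_right h6 (hq0 x).le
      linarith
  filter_upwards [hg, hm.ef_bd] with x h1 h2
  have t0 : 0 < jb x := lt_of_lt_of_le one_pos (jb_facts x).1
  have h3 : q x ≤ m.Dm x := by
    change rad (2 / m.κ - 3) m.κ x ≤ rad ((2 - 2 * m.l) / m.κ - 2) m.κ x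
    rw [F1_rad_eq, F1_rad_eq, e5]
    refine Real.exp_le_exp.2 ?_
    linarith [mul_le_mul_of_nonneg_right e6.2 (F1_log_nonneg x)]
  have h4 : m.g x ≤ A * m.Dm x := h1.trans (mul_le_mul_of_nonneg_left h3 hA0)
  refine ⟨h4.trans (mul_le_mul_of_nonneg_right (by linarith) (hDm x).le), h2.trans ?_⟩
  have h5 : 0 ≤ m.l / jb x ^ 2 := by positivity
  have h6 : c * m.g x ≤ (1 + Real.exp (K1 + K2 + 1) + A + |c| * A) * m.Dm x := by
    refine (mul_le_mul_of_nonneg_left h4 hc).trans ?_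
    rw [← mul_assoc, abs_of_nonneg hc]
    rw [abs_of_nonneg hc] at hcA
    exact mul_le_mul_of_nonneg_right (by linarith) (hDm x).le
  have h7 := mul_le_mul_of_nonneg_left h6 h5
  calc c * m.l / jb x ^ 2 * m.g x = m.l / jb x ^ 2 * (c * m.g x) := by ring
    _ ≤ _ := h7
    _ = _ := by ring
theorem F6 : Lg fun o => ∀ c, ∃ a : ℝ, 0 < a ∧ Sm o c fun m => G6 o c a m := by
  obtain ⟨C, hC, hlap⟩ := lap_radb 5
  obtain ⟨K, hK, hlK⟩ := F1_log 3 (η := 1 / 20) (by norm_num) (by norm_num)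
  refine (((F1.and (num_good 0 60)).and hom_bar).and (Lg.ge (50 * (2 + C)))).mono
    fun o ho hh c => ?_
  obtain ⟨⟨⟨hF, -, -, hδ1, -⟩, hb⟩, hdC⟩ := hh
  obtain ⟨c1, hc1, hF1⟩ := hF c
  obtain ⟨hd, hR⟩ := F1_R0 ho
  have hδ := ho.δ.1
  rw [pow_zero, mul_one] at hδ1
  set a := 1 + 20 * (|c| * c1 ^ 2 * Real.exp (K + 1)) with ha
  have ha' : 0 ≤ |c| * c1 ^ 2 * Real.exp (K + 1) := by positivity
  have ha1 : 1 ≤ a := by linarith
  refine ⟨a, by linarith, ((num_kappa o ho c 1 one_pos).and hF1).mono fun m hm hk => ?_⟩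
  obtain ⟨⟨-, -, k1, k2, k3, -, k6, k8, k4, -⟩, hr⟩ := hk
  have k5 : m.κ ≤ 11 / 10 := by linarith
  have hc := F1_c0 hm
  obtain ⟨e1, e2⟩ := F1_exp_a k1 k5
  have e2' : 2 / m.κ ≤ 5 / 2 := e2
  have hl0 := hm.l0.1
  set q := rad 0 (m.κ + 1 / 10) with hq
  have hq0 : ∀ x, 0 < q x := fun x => (radb_facts _ _ _ x).1
  have hal : 0 < a * √m.l := mul_pos (by linarith) (Real.sqrt_pos.2 hl0)
  have hτ : m.τ a = fun x => a * √m.l * q x := rfl
  have hτc : ContDiff ℝ 2 (m.τ a) := contDiff_const.mul (F1_c2 _ _ _)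
  have hτ0 : ∀ x, 0 < m.τ a x := fun x => mul_pos hal (hq0 x)
  have hGt : ∀ x, m.Gt a x = √(m.G x ^ 2 + m.τ a x ^ 2) := fun _ => rfl
  have hτGt : ∀ x, m.τ a x ≤ m.Gt a x := fun x =>
    Real.le_sqrt_of_sq_le (by linarith [sq_nonneg (m.G x)])
  have hGGt : ∀ x, m.G x ≤ m.Gt a x := fun x =>
    Real.le_sqrt_of_sq_le (by linarith [sq_nonneg (m.τ a x)])
  have hGb : Bl m.G := ⟨hm.h1.2.1.hl, Bd.lb ⟨c, by
    filter_upwards [hm.bd, F1_pyth hm] with x h1 h2
    rw [abs_of_nonneg (hm.nn x).2.1]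
    exact h2.2.2.trans (h2.2.1.trans h1.1)⟩⟩
  have hτb : Bl (m.τ a) := bl_c1 (hτc.of_le (by norm_num))
  have hlp : ∀ {u w : E → ℝ}, Continuous w → (∀ x, 0 < w x) → (∀ x, w x ≤ u x) → LP u := by
    intro u w hw h0 hle K' hK'
    obtain ⟨b, hb0, hb1⟩ := Continuous.lp' hw h0 K' hK'
    exact ⟨b, hb0, hb1.mono fun x hx h => (hx h).trans (hle x)⟩
  have hBl : Bl (m.Gt a) := by
    have h1 : Bl fun x => m.G x ^ 2 + m.τ a x ^ 2 := by
      simpa only [sq] using (hGb.mul hGb).1.add (hτb.mul hτb).1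
    exact (h1.sqrt (hlp (hτc.continuous.pow 2) (fun x => pow_pos (hτ0 x) 2)
      fun x => le_add_of_nonneg_left (sq_nonneg _))).1
  have hL2 : MemLp (m.Gt a) 2 volume := by
    have h1 : MemLp (m.τ a) 2 volume :=
      ((radb_memLp 0 0 (show 0 < m.κ + 1 / 10 by linarith)).1).const_mul _
    refine (hm.h1.2.1.l2.add h1).of_le hBl.hl.aesm (Eventually.of_forall fun x => ?_)
    have g0 := (hm.nn x).2.1
    have g1 := hτ0 x
    rw [Real.norm_eq_abs, Real.norm_eq_abs, Pi.add_apply, abs_of_nonneg (g0.trans (hGGt x)),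
      abs_of_nonneg (by linarith), hGt]
    exact Real.sqrt_le_iff.2 ⟨by linarith, by linarith [mul_nonneg g0 g1.le]⟩
  refine ⟨⟨hBl, hlp hτc.continuous hτ0 hτGt, ?_, fun x => (hτ0 x).trans_le (hτGt x), hL2⟩, ?_⟩
  · refine hm.ev.2.1.mono fun x hx => ?_
    have : m.τ a (R x) = m.τ a x := by
      rw [hτ]
      exact congrArg _ (radb_facts _ _ _ x).2.1
    rw [hGt, hGt, hx, this]
  have hv := vx_facts o.d
  have hvb : ∀ x ∈ Ex o.R0, -(1 / 10) ≤ o.v x := fun x hx =>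
    (hb 1 (by norm_num) (by norm_num) x (le_of_lt hx)).2.2.2
  have hjc : Continuous jb := jb_smooth.continuous
  have hj0 : ∀ x, jb x ≠ 0 := fun x => (lt_of_lt_of_le one_pos (jb_facts x).1).ne'
  refine hm.sG (m.τ a) _ _ hτc hτ0 (fun K' hK' hKs => ?_) ?_
  · have hfin : IsFiniteMeasure (volume.restrict K') := isFiniteMeasure_restrict.2 hK'.measure_lt_top.ne
    refine Integrable.add (Integrable.neg ?_) (Integrable.add ?_ ?_)
    · refine Integrable.bdd_mul (c := 1 / 10 + |m.I + m.dt - c * m.l|)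
        ((hL2.restrict K').integrable (by norm_num))
        (((hv.1.add_const _).add_const _).sub_const _).aestronglyMeasurable ?_
      refine (ae_restrict_iff' hK'.measurableSet).2 (Eventually.of_forall fun x hx => ?_)
      have h1 := hvb x (hKs hx)
      have h2 : o.v x ≤ 0 := (hv.2.1 x).1
      rw [Real.norm_eq_abs, abs_le]
      constructor <;> linarith [le_abs_self (m.I + m.dt - c * m.l),
        neg_abs_le (m.I + m.dt - c * m.l)]
    · refine ContinuousOn.integrableOn_compact hK' (Continuous.continuousOn ?_)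
      have := hm.cf.1
      refine (continuous_const.mul (Continuous.add (Continuous.div (by fun_prop) (hjc.pow 3)
        fun x => pow_ne_zero _ (hj0 x)) (by fun_prop))).mul this.abs
    · refine IntegrableOn.continuousOn_mul (Continuous.continuousOn ?_)
        ((hm.h1.2.2.1.l2.restrict K').integrable (by norm_num)) hK'
      exact Continuous.div (by fun_prop) (hjc.pow 2) fun x => pow_ne_zero _ (hj0 x)
  · filter_upwards [hr] with x h1 hx
    have hx' : o.R0 < ‖x‖ := hx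
    obtain ⟨t1, t2, t3, -⟩ := jb_facts x
    have t0 : 0 < jb x := by linarith
    have hlog := F1_log_nonneg x
    rw [← hGt]
    have hsq : m.Gt a x ^ 2 = m.G x ^ 2 + m.τ a x ^ 2 := Real.sq_sqrt (by positivity)
    have T1 : 0 ≤ m.l * (o.C0 * o.d * |x 2| / jb x ^ 3 + c * Real.exp (-(‖x‖ / 8))) * |m.f x| := by
      have : 0 ≤ o.C0 := by linarith [ho.C0.1]
      have : 0 ≤ o.d := by linarith
      positivity
    have T2 : 0 ≤ c * m.l * |x 2| / jb x ^ 2 * m.n x := by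
      have := (hm.nn x).2.2.1
      positivity
    have T3 := mul_le_mul_of_nonneg_left (hGGt x) T1
    have T4 := mul_le_mul_of_nonneg_left (hGGt x) T2
    -- the barrier inequality
    have h2 := (abs_le.1 (hlap 0 (m.κ + 1 / 10) 0 (by norm_num)
      (abs_le.2 ⟨by linarith, by linarith⟩) (by norm_num) x)).2
    rw [mul_zero, zero_div, sub_zero, zero_add, mul_one] at h2
    change -(1 / 2) * lap q x - q x * _ ≤ C / jb x ^ 2 * q x at h2
    have h3 : (2 + C) / jb x ≤ 1 / 50 := by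
      rw [div_le_iff₀ t0]; linarith
    have h4 : C / jb x ^ 2 ≤ C / jb x :=
      div_le_div_of_nonneg_left hC.le t0 (le_self_pow₀ t1 (by norm_num))
    have h5 : (m.κ + 1 / 10) / jb x ≤ 2 / jb x :=
      div_le_div_of_nonneg_right (by linarith) t0.le
    have h6 : (2 + C) / jb x = 2 / jb x + C / jb x := add_div _ _ _
    have h7 : o.v x ≤ 0 := (hv.2.1 x).1
    have h8 : -((m.κ + 1 / 10) ^ 2 / 2) + (m.κ + 1 / 10) / jb x + C / jb x ^ 2 +
        (o.v x + m.I + m.dt - c * m.l) ≤ -(1 / 20) := by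
      linarith [mul_nonneg hc hl0.le]
    have h9 : -(1 / 2) * lap q x + (o.v x + m.I + m.dt - c * m.l) * q x ≤ -(1 / 20) * q x := by
      linarith [mul_le_mul_of_nonneg_right h8 (hq0 x).le]
    have hs : √m.l * √m.l = m.l := Real.mul_self_sqrt hl0.le
    have h10 : -((1 / 2) * m.τ a x * lap (m.τ a) x) + (o.v x + m.I + m.dt - c * m.l) * m.τ a x ^ 2 ≤
        -(1 / 20) * (a ^ 2 * m.l * q x ^ 2) := by
      have h11 := mul_le_mul_of_nonneg_left h9
        (show 0 ≤ a ^ 2 * m.l * q x from mul_nonneg (by positivity) (hq0 x).le)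
      rw [hτ, F1_lap_mul (F1_c2 _ _ _)]
      change -((1 / 2) * (a * √m.l * q x) * (a * √m.l * lap q x)) +
        (o.v x + m.I + m.dt - c * m.l) * (a * √m.l * q x) ^ 2 ≤ _
      have h12 : -((1 / 2) * (a * √m.l * q x) * (a * √m.l * lap q x)) +
          (o.v x + m.I + m.dt - c * m.l) * (a * √m.l * q x) ^ 2 =
          a ^ 2 * (√m.l * √m.l) * q x *
            (-(1 / 2) * lap q x + (o.v x + m.I + m.dt - c * m.l) * q x) := by ring
      rw [h12, hs]
      linarith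
    have h13 : Real.exp (-(‖x‖ / 4)) * rad (2 / m.κ - 1) m.κ x ^ 2 ≤ Real.exp (K + 1) * q x ^ 2 := by
      rw [hq, F1_rad_eq, F1_rad_eq, ← Real.exp_nat_mul, ← Real.exp_nat_mul, ← Real.exp_add,
        ← Real.exp_add]
      refine Real.exp_le_exp.2 ?_
      push_cast
      linarith [hlK _ t0, mul_le_mul_of_nonneg_right e2' hlog]
    have h14 : m.N x ^ 2 ≤ (c1 * rad (2 / m.κ - 1) m.κ x) ^ 2 :=
      pow_le_pow_left₀ (hm.nn x).2.2.2.2 h1.2 2
    have h15 : c * m.l * Real.exp (-(‖x‖ / 4)) * m.N x ^ 2 ≤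
        (1 / 20) * (a ^ 2 * m.l * q x ^ 2) := by
      have h16 := mul_le_mul_of_nonneg_left h14
        (show 0 ≤ c * m.l * Real.exp (-(‖x‖ / 4)) by positivity)
      have h17 := mul_le_mul_of_nonneg_left h13 (show 0 ≤ c * m.l * c1 ^ 2 by positivity)
      have h18 : 20 * (c * c1 ^ 2 * Real.exp (K + 1)) ≤ a ^ 2 := by
        have := le_self_pow₀ ha1 (show 2 ≠ 0 by norm_num)
        rw [abs_of_nonneg hc] at ha
        linarith
      have h19 := mul_le_mul_of_nonneg_right h18 (show 0 ≤ m.l * q x ^ 2 by positivity)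
      linarith
    have h20 : (o.v x + m.I + m.dt - c * m.l) * m.Gt a x * m.Gt a x =
        (o.v x + m.I + m.dt - c * m.l) * m.G x ^ 2 +
          (o.v x + m.I + m.dt - c * m.l) * m.τ a x ^ 2 := by
      rw [mul_assoc, ← sq, hsq, mul_add]
    rw [add_mul, add_mul, neg_mul, h20]
    linarith

end

end Crest.Agent.R335
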