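import Crest.Agent.R335.F11aAux1

set_option autoImplicit false

open MeasureTheory Set Filter Topology Metric
open scoped Gradient ContDiff RealInnerProductSpace ENNReal

namespace Crest.Agent.R335

noncomputable section

/-! weights for the lateral Hardy inequality -/

/-- vertical bracket -/
def F11z (x : E) : ℝ := √(1 + x 2 ^ 2)
/-- first weight -/
def F11q (k : ℝ) (x : E) : ℝ := Real.exp (-(k * F11z x))
/-- second weight -/
def F11r (l k : ℝ) (x : E) : ℝ := l * (F11z x * F11q k x) * (jb x ^ 3)⁻¹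

theorem F11z_c : ContDiff ℝ 1 F11z :=
  (contDiff_const.add (S07.contDiff_two.pow 2)).sqrt fun x => by positivity

theorem F11z_facts (x : E) : 1 ≤ F11z x ∧ |x 2| ≤ F11z x ∧ F11z x ≤ 1 + |x 2| ∧ F11z x ≤ jb x ∧
    ‖∇ F11z x‖ ≤ 1 := by
  have h0 := abs_nonneg (x 2)
  have h1 : 1 ≤ F11z x := Real.one_le_sqrt.2 (by nlinarith)
  have h2 : |x 2| ≤ F11z x := Real.le_sqrt_of_sq_le (by rw [sq_abs]; linarith)
  refine ⟨h1, h2, Real.sqrt_le_iff.2 ⟨by linarith, by nlinarith [sq_abs (x 2)]⟩,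
    Real.sqrt_le_sqrt (by nlinarith [norm_sq_hor x, sq_nonneg ‖hor x‖]), ?_⟩
  have hd : HasDerivAt (fun s : ℝ => √(1 + s ^ 2)) (x 2 / F11z x) (x 2) := by
    have := ((hasDerivAt_pow 2 (x 2)).const_add 1).sqrt (by positivity)
    refine this.congr_deriv ?_
    change _ / (2 * F11z x) = _
    field_simp
    norm_num
  have := F0a_grad_comp (q := fun x : E => x 2)
    ((S07.contDiff_two (n := 1)).differentiable one_ne_zero x) hd
  rw [coord_two.2] at this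
  change ∇ F11z x = _ at this
  rw [this, norm_smul, S07.norm_ez, mul_one, Real.norm_eq_abs, abs_div,
    abs_of_pos (by linarith : 0 < F11z x), div_le_one (by linarith)]
  exact h2

theorem F11q_c (k : ℝ) : ContDiff ℝ 1 (F11q k) := (contDiff_const.mul F11z_c).neg.exp

theorem F11q_facts {k : ℝ} (hk : 0 ≤ k) (x : E) : 0 < F11q k x ∧ F11q k x ≤ 1 ∧
    ‖∇ (F11q k) x‖ ≤ k * F11q k x ∧ F11q k x ≤ Real.exp (-(k * |x 2|)) ∧
    (|x 2| < 1 → Real.exp (-(k * 2)) ≤ F11q k x) := by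
  obtain ⟨z1, z2, z3, -, z5⟩ := F11z_facts x
  have h0 : 0 < F11q k x := Real.exp_pos _
  refine ⟨h0, Real.exp_le_one_iff.2 (by nlinarith), ?_, Real.exp_le_exp.2 (by nlinarith),
    fun h => Real.exp_le_exp.2 (by nlinarith)⟩
  have hd : HasDerivAt (fun s : ℝ => Real.exp (-(k * s))) (F11q k x * -k) (F11z x) := by
    have := ((hasDerivAt_id (F11z x)).const_mul k).neg.exp
    refine this.congr_deriv ?_
    simp [F11q]
  have := F0a_grad_comp (F11z_c.differentiable one_ne_zero x) hd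
  change ∇ (F11q k) x = _ at this
  rw [this, norm_smul, Real.norm_eq_abs, abs_mul, abs_neg, abs_of_pos h0, abs_of_nonneg hk]
  have : 0 ≤ F11q k x * k := by positivity
  nlinarith

theorem F11r_c (l k : ℝ) : ContDiff ℝ 1 (F11r l k) :=
  (contDiff_const.mul (F11z_c.mul (F11q_c k))).mul
    (((jb_smooth.of_le (by exact_mod_cast le_top)).pow 3).inv fun x =>
      pow_ne_zero 3 (by linarith [(jb_facts x).1]))

theorem F11r_facts {l k : ℝ} (hl : 0 ≤ l) (hl1 : l ≤ 1) (hk : 1 / 2 ≤ k) (x : E) :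
    F11r l k x = l * F11z x / jb x ^ 3 * F11q k x ∧ 0 ≤ l * F11z x / jb x ^ 3 ∧
      l * F11z x / jb x ^ 3 ≤ 1 ∧ ‖∇ (F11r l k) x‖ ≤ (k + 3 / jb x) * F11r l k x := by
  obtain ⟨z1, z2, z3, z4, z5⟩ := F11z_facts x
  obtain ⟨j1, j2, -, -, j5, -⟩ := jb_facts x
  have q0 : 0 < F11q k x := Real.exp_pos _
  have j0 : 0 < jb x := by linarith
  refine ⟨by unfold F11r; ring, by positivity, ?_, ?_⟩
  · rw [div_le_one (by positivity)]
    have a1 : jb x ≤ jb x ^ 3 := le_self_pow₀ j1 (by norm_num)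
    nlinarith
  have d1 : HasDerivAt (fun s : ℝ => l * (s * Real.exp (-(k * s))))
      (l * F11q k x * (1 - k * F11z x)) (F11z x) := by
    have := ((hasDerivAt_id (F11z x)).mul ((hasDerivAt_id (F11z x)).const_mul k).neg.exp).const_mul l
    refine this.congr_deriv ?_
    simp only [F11q, id, Pi.neg_apply]
    ring
  have d2 : HasDerivAt (fun s : ℝ => (s ^ 3)⁻¹) (-(3 / jb x) * (jb x ^ 3)⁻¹) (jb x) := by
    have := (hasDerivAt_pow 3 (jb x)).inv (pow_ne_zero 3 j0.ne')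
    refine this.congr_deriv ?_
    field_simp
    norm_num
    ring
  have dz := F11z_c.differentiable one_ne_zero x
  have dj : DifferentiableAt ℝ jb x := jb_smooth.differentiable (by simp) x
  have g1 := F0a_grad_comp dz d1
  have g2 := F0a_grad_comp dj d2
  have g3 := F0a_grad_mul (d1.differentiableAt.comp x dz) (d2.differentiableAt.comp x dj)
  change ∇ (F11r l k) x = (l * (F11z x * F11q k x)) • ∇ (fun x => (jb x ^ 3)⁻¹) x +
    (jb x ^ 3)⁻¹ • ∇ (fun x => l * (F11z x * Real.exp (-(k * F11z x)))) x at g3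
  rw [g3, g1, g2]
  have n1 : ‖∇ jb x‖ ≤ 1 := by
    rw [j5, norm_smul, Real.norm_of_nonneg (by positivity), inv_mul_le_iff₀ j0, mul_one]
    exact j2
  have n2 : |1 - k * F11z x| ≤ k * F11z x := by
    rw [abs_le]; constructor <;> nlinarith
  refine (norm_add_le _ _).trans ?_
  rw [norm_smul, norm_smul, norm_smul, norm_smul, Real.norm_of_nonneg (by positivity),
    Real.norm_of_nonneg (show 0 ≤ (jb x ^ 3)⁻¹ by positivity), Real.norm_eq_abs, Real.norm_eq_abs,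
    abs_mul, abs_neg, abs_of_nonneg (show 0 ≤ 3 / jb x by positivity),
    abs_of_nonneg (show 0 ≤ (jb x ^ 3)⁻¹ by positivity), abs_mul,
    abs_of_nonneg (show 0 ≤ l * F11q k x by positivity)]
  calc _ ≤ l * (F11z x * F11q k x) * (3 / jb x * (jb x ^ 3)⁻¹ * 1) +
        (jb x ^ 3)⁻¹ * (l * F11q k x * (k * F11z x) * 1) := by gcongr
    _ = _ := by unfold F11r; ring

theorem F11_hor_c : Continuous hor := continuous_id.sub (S07.cont_two.smul continuous_const)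

theorem F11_hor_add (x : E) (s : ℝ) : hor (x + s • ez) = hor x := by
  unfold hor
  rw [PiLp.add_apply, PiLp.smul_apply, S07.ez_two, smul_eq_mul, mul_one, add_smul]
  abel

theorem F11_hor_hor (x : E) : hor (hor x) = hor x := by
  conv_lhs => rw [hor, F0d.hor_two, zero_smul, sub_zero]

theorem F11_w {w : E → ℝ} {ρ ρ' : ℝ} (hw : ContDiff ℝ 1 w) (hl : ∀ x, w (hor x) = w x)
    (hs : ∀ x, w x ≠ 0 → ρ ≤ ‖hor x‖ ∧ ‖hor x‖ ≤ ρ') :
    (∀ x, ∇ w (hor x) = ∇ w x) ∧ (∀ x ∈ tsupport w, ρ ≤ ‖hor x‖ ∧ ‖hor x‖ ≤ ρ') ∧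
      ∃ M, ∀ x, |w x| ≤ M ∧ ‖∇ w x‖ ≤ M := by
  have h1 : ∀ x, ∇ w (hor x) = ∇ w x := by
    intro x
    have e : (fun y => w (y + (-x 2) • ez)) = w := by
      funext y; rw [← hl, F11_hor_add, hl]
    have e2 : hor x = x + (-x 2) • ez := by rw [hor, neg_smul, sub_eq_add_neg]
    unfold gradient
    rw [e2, ← fderiv_comp_add_right, e]
  have h2 : ∀ x ∈ tsupport w, ρ ≤ ‖hor x‖ ∧ ‖hor x‖ ≤ ρ' := by
    have hc : IsClosed {x : E | ρ ≤ ‖hor x‖ ∧ ‖hor x‖ ≤ ρ'} :=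
      (isClosed_le continuous_const F11_hor_c.norm).inter
        (isClosed_le F11_hor_c.norm continuous_const)
    exact closure_minimal (fun x hx => hs x hx) hc
  refine ⟨h1, h2, ?_⟩
  obtain ⟨M1, m1⟩ := s01_bd_cpt hw.continuous (isCompact_closedBall (0 : E) ρ')
  obtain ⟨M2, m2⟩ := s01_bd_cpt (S07.cont_grad hw) (isCompact_closedBall (0 : E) ρ')
  refine ⟨max (max M1 M2) 0, fun x => ?_⟩
  by_cases hx : x ∈ tsupport w
  · have hm : hor x ∈ closedBall (0 : E) ρ' := by simpa using (h2 x hx).2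
    have a1 := m1 _ hm
    have a2 := m2 _ hm
    rw [hl] at a1
    rw [h1] at a2
    exact ⟨a1.trans ((le_max_left _ _).trans (le_max_left _ _)),
      a2.trans ((le_max_right _ _).trans (le_max_left _ _))⟩
  · rw [image_eq_zero_of_notMem_tsupport hx, s01_grad_zero hx]
    simp

theorem F11_slab_int {b w : E → ℝ} {ρ ρ' : ℝ} (hb : Continuous b) (hw : ContDiff ℝ 1 w)
    (hs : ∀ x ∈ tsupport w, ρ ≤ ‖hor x‖ ∧ ‖hor x‖ ≤ ρ') :
    IntegrableOn (fun x => b x ^ 2 * ‖∇ w x‖ ^ 2) {x : E | |x 2| < 1} := by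
  have hc : Continuous fun x => b x ^ 2 * ‖∇ w x‖ ^ 2 :=
    (hb.pow 2).mul ((S07.cont_grad hw).norm.pow 2)
  have hK := hc.continuousOn.integrableOn_compact (μ := volume)
    (isCompact_closedBall (0 : E) (|ρ'| + 1))
  refine hK.of_forall_sdiff_eq_zero F11_slab_meas fun x hx => ?_
  have : x ∉ tsupport w := fun h => hx.2 (by
    have a1 := (hs x h).2.trans (le_abs_self ρ')
    have a2 : |x 2| < 1 := hx.1
    rw [mem_closedBall_zero_iff]
    refine abs_le_of_sq_le_sq' ?_ (by positivity) |>.2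
    rw [norm_sq_hor, ← sq_abs (x 2)]
    nlinarith [norm_nonneg (hor x), abs_nonneg (x 2), abs_nonneg ρ'])
  rw [s01_grad_zero this]
  simp

theorem F11_amgm {x y ε : ℝ} (hε : 0 < ε) : x * y ≤ ε * x ^ 2 + 1 / (4 * ε) * y ^ 2 := by
  have : ε * x ^ 2 + 1 / (4 * ε) * y ^ 2 - x * y = (2 * ε * x - y) ^ 2 / (4 * ε) := by
    field_simp; ring
  have h2 : 0 ≤ (2 * ε * x - y) ^ 2 / (4 * ε) := by positivity
  linarith

theorem F11_comb {μ X Y B B1 B2 Cd θ : ℝ} (hμ : 0 < μ) (hX : 0 ≤ X)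
    (h1 : μ / 4 * X ≤ 2 * Cd ^ 2 / μ * Y + 6 / μ * B1) (h2 : μ / 4 * Y ≤ θ ^ 2 / μ * X + 6 / μ * B2)
    (b1 : B1 ≤ B) (b2 : B2 ≤ B) (hθ : 64 * Cd ^ 2 * θ ^ 2 ≤ μ ^ 4) :
    X ≤ 8 / μ * (48 * Cd ^ 2 / μ ^ 3 + 6 / μ) * B := by
  have a1 : Y ≤ 4 / μ * (θ ^ 2 / μ * X + 6 / μ * B) := by
    have : 6 / μ * B2 ≤ 6 / μ * B := mul_le_mul_of_nonneg_left b2 (by positivity)
    rw [div_mul_eq_mul_div, le_div_iff₀ hμ]
    linarith
  have a2 : 6 / μ * B1 ≤ 6 / μ * B := mul_le_mul_of_nonneg_left b1 (by positivity)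
  have a3 := mul_le_mul_of_nonneg_left a1 (show 0 ≤ 2 * Cd ^ 2 / μ by positivity)
  have a4 : 2 * Cd ^ 2 / μ * (4 / μ * (θ ^ 2 / μ * X + 6 / μ * B)) =
      (64 * Cd ^ 2 * θ ^ 2) * (X / (8 * μ ^ 3)) + 48 * Cd ^ 2 / μ ^ 3 * B := by
    field_simp; ring
  have a5 := mul_le_mul_of_nonneg_right hθ (show 0 ≤ X / (8 * μ ^ 3) by positivity)
  have a6 : μ ^ 4 * (X / (8 * μ ^ 3)) = μ / 8 * X := by field_simp
  rw [mul_assoc, div_mul_eq_mul_div, le_div_iff₀ hμ]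
  nlinarith

theorem F11_main {Ω : Set E} {G f b S A e w : E → ℝ} {μ κ l Cd θ C Λ₁ Λ₂ ρ ρ' : ℝ}
    (hμ : 0 < μ) (hμ' : μ ≤ 1 / 100) (hκ : 99 / 100 ≤ κ) (hκ' : κ ≤ 11 / 10) (hl : 0 ≤ l)
    (hl1 : l ≤ 1) (hθ : 64 * Cd ^ 2 * θ ^ 2 ≤ μ ^ 4)
    (hsub : Sub Ω G S) (hG : LB G) (G0 : ∀ x, 0 ≤ G x) (G2 : MemLp G 2 volume)
    (hSm : AEStronglyMeasurable S volume) (hf : Sol f A)
    (hw : ContDiff ℝ 1 w) (hwl : ∀ x, w (hor x) = w x)
    (hws : ∀ x, w x ≠ 0 → ρ ≤ ‖hor x‖ ∧ ‖hor x‖ ≤ ρ') (hΩ : ∀ x, ρ ≤ ‖hor x‖ → x ∈ Ω)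
    (hb : Continuous b) (hbl : ∀ x, b (hor x) = b x)
    (hS : ∀ᵐ x, ρ ≤ ‖hor x‖ → -(C * G x) ≤ S x ∧
      S x ≤ -((κ ^ 2 / 2 - μ / 50 - μ / 8) * G x) + Cd * (l * F11z x / jb x ^ 3 * |f x|))
    (hA : ∀ᵐ x, ρ ≤ ‖hor x‖ → A x * f x ≤ -((κ ^ 2 / 2 - μ / 50) * f x ^ 2) + e x * |f x| ∧
      l * F11z x / jb x ^ 3 * e x ≤ θ * G x)
    (hj : ∀ x, ρ ≤ ‖hor x‖ → 3 / jb x ≤ μ / 100)
    (hup : ∀ᵐ x, ρ ≤ ‖hor x‖ → (G x + l * (1 + |x 2|) / jb x ^ 3 * |f x|) *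
      Real.exp (-((κ - μ) * |x 2|)) ≤ Λ₂ * b x / (1 + |x 2|))
    (hlow : ∀ᵐ x, ρ ≤ ‖hor x‖ → |x 2| < 1 → |b x| ≤ Λ₁ * G x) :
    ∫ x in {x : E | |x 2| < 1}, (b x * w x) ^ 2 ≤
      Λ₁ ^ 2 * Real.exp 5 * (8 / μ * (48 * Cd ^ 2 / μ ^ 3 + 6 / μ)) * (2 * Λ₂ ^ 2) *
        ∫ x in {x : E | |x 2| < 1}, b x ^ 2 * ‖∇ w x‖ ^ 2 := by
  obtain ⟨wl, ws, M, bw⟩ := F11_w hw hwl hws
  set k := κ - μ with hk
  have k0 : 1 / 2 ≤ k := by linarith
  have k1 : k ≤ 11 / 10 := by linarith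
  have qf := F11q_facts (show 0 ≤ k by linarith)
  have rf := F11r_facts hl hl1 k0
  have bq : ∀ x, 0 ≤ F11q k x ∧ F11q k x ≤ 1 ∧ ‖∇ (F11q k) x‖ ≤ 5 := fun x =>
    ⟨(qf x).1.le, (qf x).2.1, (qf x).2.2.1.trans (by nlinarith [(qf x).1, (qf x).2.1])⟩
  have br : ∀ x, 0 ≤ F11r l k x ∧ F11r l k x ≤ 1 ∧ ‖∇ (F11r l k) x‖ ≤ 5 := fun x => by
    obtain ⟨r1, r2, r3, r4⟩ := rf x
    have a1 : 0 ≤ F11r l k x := by rw [r1]; exact mul_nonneg r2 (bq x).1
    have a2 : F11r l k x ≤ 1 := by rw [r1]; exact mul_le_one₀ r3 (bq x).1 (bq x).2.1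
    have a3 : 3 / jb x ≤ 3 := div_le_self (by norm_num) (jb_facts x).1
    have a4 : 0 ≤ 3 / jb x := div_nonneg (by norm_num) (by linarith [(jb_facts x).1])
    exact ⟨a1, a2, r4.trans (by nlinarith)⟩
  have p1 := F11_prod_bd hw (F11q_c k) bw bq
  have p2 := F11_prod_bd hw (F11r_c l k) bw br
  have c1 := hw.mul (F11q_c k)
  have c2 := hw.mul (F11r_c l k)
  have iX := F11_int G2 c1.continuous fun x => (p1 x).2.1
  have iY := F11_int hf.h1.l2 c2.continuous fun x => (p2 x).2.1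
  have ea : ∀ x, w x * F11r l k x = l * F11z x / jb x ^ 3 * (w x * F11q k x) := fun x => by
    rw [(rf x).1]; ring
  have s1 : ∀ᵐ x, -(C * (G x * (w x * F11q k x)) ^ 2) ≤ S x * G x * (w x * F11q k x) ^ 2 ∧
      S x * G x * (w x * F11q k x) ^ 2 ≤
      -((κ ^ 2 / 2 - μ / 50 - μ / 4) * (G x * (w x * F11q k x)) ^ 2) +
        2 * Cd ^ 2 / μ * (f x * (w x * F11r l k x)) ^ 2 := by
    filter_upwards [hS] with x hx
    by_cases h0 : w x = 0
    · simp [h0]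
    obtain ⟨a1, a2⟩ := hx (hws x h0).1
    have n0 : 0 ≤ G x * (w x * F11q k x) ^ 2 := mul_nonneg (G0 x) (sq_nonneg _)
    have a3 := mul_le_mul_of_nonneg_right a1 n0
    have a4 := mul_le_mul_of_nonneg_right a2 n0
    have a5 := F11_amgm (x := G x * (w x * F11q k x))
      (y := Cd * (|f x| * (w x * F11r l k x))) (show 0 < μ / 8 by positivity)
    have a6 : 1 / (4 * (μ / 8)) * (Cd * (|f x| * (w x * F11r l k x))) ^ 2 =
        2 * Cd ^ 2 / μ * (f x * (w x * F11r l k x)) ^ 2 := by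
      rw [mul_pow Cd, mul_pow |f x|, sq_abs, ← mul_pow (f x)]
      field_simp
      ring
    rw [a6] at a5
    rw [ea] at a5 ⊢
    constructor
    · linarith
    · linarith
  have iS : Integrable fun x => S x * G x * (w x * F11q k x) ^ 2 := by
    refine ((iX.const_mul |C|).add (iY.const_mul (2 * Cd ^ 2 / μ))).mono'
      ((hSm.mul G2.1).mul (c1.continuous.pow 2).aestronglyMeasurable) ?_
    filter_upwards [s1] with x hx
    have a1 : 0 ≤ 2 * Cd ^ 2 / μ * (f x * (w x * F11r l k x)) ^ 2 := by positivity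
    have a2 : 0 ≤ (κ ^ 2 / 2 - μ / 50 - μ / 4) * (G x * (w x * F11q k x)) ^ 2 :=
      mul_nonneg (by nlinarith) (sq_nonneg _)
    have a3 := mul_le_mul_of_nonneg_right (le_abs_self C) (sq_nonneg (G x * (w x * F11q k x)))
    have a4 : 0 ≤ |C| * (G x * (w x * F11q k x)) ^ 2 := by positivity
    rw [Real.norm_eq_abs, abs_le, Pi.add_apply]
    constructor <;> linarith [hx.1, hx.2]
  have iA : Integrable fun x => A x * f x * (w x * F11r l k x) ^ 2 := by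
    refine (S11_int_mul hf.l2 hf.h1.l2).mul_bdd (c := (6 * M) ^ 2)
      (c2.continuous.pow 2).aestronglyMeasurable (Eventually.of_forall fun x => ?_)
    rw [norm_pow]
    exact pow_le_pow_left₀ (norm_nonneg _) (p2 x).2.1 2
  have s2 : ∀ᵐ x, A x * f x * (w x * F11r l k x) ^ 2 ≤
      -((κ ^ 2 / 2 - μ / 50 - μ / 4) * (f x * (w x * F11r l k x)) ^ 2) +
        θ ^ 2 / μ * (G x * (w x * F11q k x)) ^ 2 := by
    filter_upwards [hA] with x hx
    by_cases h0 : w x = 0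
    · simp [h0]
    obtain ⟨a1, a2⟩ := hx (hws x h0).1
    have a3 := mul_le_mul_of_nonneg_right a1 (sq_nonneg (w x * F11r l k x))
    have n0 : 0 ≤ |f x| * (w x * F11r l k x) * (w x * F11q k x) := by
      rw [ea]
      have := (rf x).2.1
      have : 0 ≤ |f x| * (l * F11z x / jb x ^ 3) * (w x * F11q k x) ^ 2 := by positivity
      linarith
    have a4 := mul_le_mul_of_nonneg_right a2 n0
    have a5 := F11_amgm (x := |f x| * (w x * F11r l k x))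
      (y := θ * (G x * (w x * F11q k x))) (show 0 < μ / 4 by positivity)
    have a6 : 1 / (4 * (μ / 4)) * (θ * (G x * (w x * F11q k x))) ^ 2 =
        θ ^ 2 / μ * (G x * (w x * F11q k x)) ^ 2 := by
      field_simp
    rw [a6, mul_pow |f x|, sq_abs] at a5
    have a7 : l * F11z x / jb x ^ 3 * e x * (|f x| * (w x * F11r l k x) * (w x * F11q k x)) =
        e x * |f x| * (w x * F11r l k x) ^ 2 := by rw [ea]; ring
    rw [a7] at a4
    linarith
  have E1 := F11_energy hsub hG G0 G2 c1 (fun x => (p1 x).2)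
    (fun x hx => hΩ x (ws x (tsupport_mul_subset_left hx)).1) iS
  have E2 := F11_loc hf c2 fun x => (p2 x).2
  have C1 := F11_core hμ hμ' hκ hκ' G2 hw (F11q_c k) bw bq iS (iY.const_mul _) E1
    (s1.mono fun x hx => hx.2) fun x _ => (qf x).2.2.1.trans
      (mul_le_mul_of_nonneg_right (by linarith) (qf x).1.le)
  have C2 := F11_core hμ hμ' hκ hκ' hf.h1.l2 hw (F11r_c l k) bw br iA (iX.const_mul _) E2 s2
    fun x hx => (rf x).2.2.2.trans
      (mul_le_mul_of_nonneg_right (by linarith [hj x (hws x hx).1]) (br x).1)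
  rw [integral_const_mul] at C1 C2
  obtain ⟨l1, l2⟩ := F11_lat (G := fun x => b x ^ 2 * ‖∇ w x‖ ^ 2) (fun x => by rw [hbl, wl])
    (F11_slab_int hb hw ws) integrable_inv_one_add_sq
  set I := ∫ x in {x : E | |x 2| < 1}, b x ^ 2 * ‖∇ w x‖ ^ 2 with hI
  have I0 : 0 ≤ I := integral_nonneg fun x => by positivity
  have hB : ∀ p q : E → ℝ, (∀ᵐ x, ρ ≤ ‖hor x‖ → |p x * q x| ≤ Λ₂ * b x / (1 + |x 2|)) →
      ∫ x, (p x * (q x * ‖∇ w x‖)) ^ 2 ≤ 2 * Λ₂ ^ 2 * I := by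
    intro p q h
    have a1 : ∫ x, (p x * (q x * ‖∇ w x‖)) ^ 2 ≤
        ∫ x : E, Λ₂ ^ 2 * ((1 + x 2 ^ 2)⁻¹ * (b x ^ 2 * ‖∇ w x‖ ^ 2)) := by
      refine integral_mono_of_nonneg (Eventually.of_forall fun x => sq_nonneg _)
        (l1.const_mul _) ?_
      filter_upwards [h] with x hx
      by_cases h0 : x ∈ tsupport w
      · have a2 := pow_le_pow_left₀ (abs_nonneg _) (hx (ws x h0).1) 2
        rw [sq_abs, div_pow] at a2
        have a3 : (Λ₂ * b x) ^ 2 / (1 + |x 2|) ^ 2 ≤ (Λ₂ * b x) ^ 2 / (1 + x 2 ^ 2) :=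
          div_le_div_of_nonneg_left (sq_nonneg _) (by positivity)
            (by nlinarith [sq_abs (x 2), abs_nonneg (x 2)])
        calc (p x * (q x * ‖∇ w x‖)) ^ 2 = (p x * q x) ^ 2 * ‖∇ w x‖ ^ 2 := by ring
          _ ≤ (Λ₂ * b x) ^ 2 / (1 + x 2 ^ 2) * ‖∇ w x‖ ^ 2 :=
            mul_le_mul_of_nonneg_right (a2.trans a3) (sq_nonneg _)
          _ = _ := by ring
      · rw [s01_grad_zero h0]
        simp
    rw [integral_const_mul, l2, integral_univ_inv_one_add_sq] at a1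
    have a4 : Real.pi * (1 / 2 * I) ≤ 4 * (1 / 2 * I) :=
      mul_le_mul_of_nonneg_right Real.pi_le_four (by positivity)
    have a5 := mul_le_mul_of_nonneg_left a4 (sq_nonneg Λ₂)
    linarith
  have B1 := hB G (F11q k) (by
    filter_upwards [hup] with x hx h
    refine le_trans ?_ (hx h)
    rw [abs_of_nonneg (mul_nonneg (G0 x) (bq x).1)]
    have j0 : 0 < jb x := by linarith [(jb_facts x).1]
    have : 0 ≤ l * (1 + |x 2|) / jb x ^ 3 * |f x| := by positivity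
    exact mul_le_mul (by linarith) (qf x).2.2.2.1 (bq x).1 (by linarith [G0 x]))
  have B2 := hB f (F11r l k) (by
    filter_upwards [hup] with x hx h
    refine le_trans ?_ (hx h)
    have j0 : 0 < jb x := by linarith [(jb_facts x).1]
    rw [abs_mul, abs_of_nonneg (br x).1, (rf x).1, ← mul_assoc, mul_comm |f x|]
    have a1 : l * F11z x / jb x ^ 3 * |f x| ≤ l * (1 + |x 2|) / jb x ^ 3 * |f x| := by
      have := (F11z_facts x).2.2.1
      gcongr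
    have : 0 ≤ l * (1 + |x 2|) / jb x ^ 3 * |f x| := by positivity
    exact mul_le_mul (by linarith [G0 x]) (qf x).2.2.2.1 (bq x).1 (by linarith [G0 x]))
  have X0 : 0 ≤ ∫ x, (G x * (w x * F11q k x)) ^ 2 := integral_nonneg fun x => sq_nonneg _
  have fin := F11_comb hμ X0 C1 C2 B1 B2 hθ
  have low : ∫ x in {x : E | |x 2| < 1}, (b x * w x) ^ 2 ≤
      Λ₁ ^ 2 * Real.exp 5 * ∫ x, (G x * (w x * F11q k x)) ^ 2 := by
    rw [← integral_const_mul]
    refine le_trans (integral_mono_of_nonneg (Eventually.of_forall fun x => sq_nonneg _)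
      (iX.const_mul _).integrableOn ?_) (setIntegral_le_integral (iX.const_mul _)
        (Eventually.of_forall fun x => by positivity))
    refine (ae_restrict_iff' F11_slab_meas).2 ?_
    filter_upwards [hlow] with x hx hz
    by_cases h0 : w x = 0
    · simp [h0]
    have a1 := pow_le_pow_left₀ (abs_nonneg _) (hx (hws x h0).1 hz) 2
    rw [sq_abs] at a1
    have a2 := pow_le_pow_left₀ (Real.exp_pos _).le ((qf x).2.2.2.2 hz) 2
    have a3 : 1 ≤ Real.exp 5 * Real.exp (-(k * 2)) ^ 2 := by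
      rw [← Real.exp_nat_mul, ← Real.exp_add]
      exact Real.one_le_exp (by push_cast; linarith)
    have a4 : 1 ≤ Real.exp 5 * F11q k x ^ 2 :=
      a3.trans (mul_le_mul_of_nonneg_left a2 (Real.exp_pos _).le)
    calc (b x * w x) ^ 2 = b x ^ 2 * w x ^ 2 * 1 := by ring
      _ ≤ (Λ₁ * G x) ^ 2 * w x ^ 2 * (Real.exp 5 * F11q k x ^ 2) := by gcongr
      _ = _ := by ring
  calc _ ≤ _ := low
    _ ≤ Λ₁ ^ 2 * Real.exp 5 * (8 / μ * (48 * Cd ^ 2 / μ ^ 3 + 6 / μ) * (2 * Λ₂ ^ 2 * I)) :=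
        mul_le_mul_of_nonneg_left fin (by positivity)
    _ = _ := by ring

theorem F11_sm (o : OD) (c K : ℝ) {ε : ℝ} (hε : 0 < ε) : Sm o c fun m => K * √m.l ≤ ε := by
  refine (Sm.le o c (show 0 < (ε / (|K| + 1)) ^ 2 by positivity)).mono fun m _ h => ?_
  have h1 : √m.l ≤ ε / (|K| + 1) := Real.sqrt_le_iff.2 ⟨by positivity, h⟩
  rw [le_div_iff₀ (by positivity)] at h1
  nlinarith [le_abs_self K, Real.sqrt_nonneg m.l]

theorem F11_v {d ρ : ℝ} (hρ : 0 < ρ) {x : E} (h : ρ ≤ ‖hor x‖) : -(2 / ρ) ≤ vx d x := by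
  have a1 : ρ ≤ ‖x + d • ez‖ := by
    rw [← F11_hor_add x d] at h
    exact h.trans (F0d.norm_hor_le _)
  have a2 : ρ ≤ ‖x - d • ez‖ := by
    rw [← F11_hor_add x (-d), neg_smul, ← sub_eq_add_neg] at h
    exact h.trans (F0d.norm_hor_le _)
  have b1 := one_div_le_one_div_of_le hρ a1
  have b2 := one_div_le_one_div_of_le hρ a2
  have : 2 / ρ = 1 / ρ + 1 / ρ := by ring
  unfold vx
  linarith

theorem F11_const {L Cd : ℝ} (hL : 3000000000 ≤ L) (h0 : 0 ≤ Cd) (hC : Cd ≤ L ^ 2) (N₁ N₂ : ℕ) :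
    (L ^ N₁) ^ 2 * Real.exp 5 * (8 / (1 / (10 * L ^ 4)) * (48 * Cd ^ 2 / (1 / (10 * L ^ 4)) ^ 3 +
      6 / (1 / (10 * L ^ 4)))) * (2 * (L ^ N₂) ^ 2) ≤ L ^ (2 * N₁ + 2 * N₂ + 21) := by
  have L0 : 0 < L := by linarith
  have L1 : 1 ≤ L := by linarith
  have e5 : Real.exp 5 ≤ 243 := by
    have : Real.exp 5 = Real.exp 1 ^ 5 := by rw [← Real.exp_nat_mul]; norm_num
    rw [this]
    calc Real.exp 1 ^ 5 ≤ 3 ^ 5 :=
          pow_le_pow_left₀ (Real.exp_pos _).le (by linarith [Real.exp_one_lt_d9]) 5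
      _ = 243 := by norm_num
  have a1 : 8 / (1 / (10 * L ^ 4)) * (48 * Cd ^ 2 / (1 / (10 * L ^ 4)) ^ 3 +
      6 / (1 / (10 * L ^ 4))) = 3840000 * (Cd ^ 2 * L ^ 16) + 4800 * L ^ 8 := by
    field_simp; ring
  have a2 : Cd ^ 2 * L ^ 16 ≤ L ^ 20 := by
    calc Cd ^ 2 * L ^ 16 ≤ (L ^ 2) ^ 2 * L ^ 16 := by gcongr
      _ = _ := by ring
  have a3 : L ^ 8 ≤ L ^ 20 := pow_le_pow_right₀ L1 (by norm_num)
  have a4 : 0 < L ^ 20 := by positivity
  rw [a1]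
  calc _ ≤ (L ^ N₁) ^ 2 * 243 * (3844800 * L ^ 20) * (2 * (L ^ N₂) ^ 2) := by
        gcongr
        linarith
    _ = 1868572800 * (L ^ (2 * N₁ + 2 * N₂ + 20)) := by ring
    _ ≤ L * (L ^ (2 * N₁ + 2 * N₂ + 20)) := by gcongr; linarith
    _ = _ := by ring

end

end Crest.Agent.R335
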