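import Crest.Agent.R335.Defs5
import Crest.Agent.R335.F0b

set_option autoImplicit false

open MeasureTheory Set Filter Topology Metric
open scoped Gradient ContDiff RealInnerProductSpace ENNReal

namespace Crest.Agent.R335

noncomputable section

/-! kernel estimates for `F9s` -/

theorem F9s_hor_two (x : E) : hor x 2 = 0 := by
  simp [hor, ez]

theorem F9s_hor_hor (x : E) : hor (hor x) = hor x := by
  rw [hor, F9s_hor_two, zero_smul, sub_zero]

theorem F9s_sub_hor (x : E) : ‖x - hor x‖ = |x 2| := by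
  rw [hor, sub_sub_cancel, norm_smul, S07.norm_ez, mul_one, Real.norm_eq_abs]

theorem F9s_hor_le (x : E) : ‖hor x‖ ≤ ‖x‖ := by
  have := norm_sq_hor x
  exact abs_le_of_sq_le_sq' (by nlinarith [sq_nonneg (x 2)]) (norm_nonneg _) |>.2

theorem F9s_two_le (x : E) : |x 2| ≤ ‖x‖ := by
  have := norm_sq_hor x
  exact abs_le_of_sq_le_sq (by nlinarith [sq_nonneg ‖hor x‖]) (norm_nonneg _)

theorem F9s_Yk_split (w : E) : Yk 8 w = Real.exp (-(5 * ‖w‖)) * Yk 3 w := by
  unfold Yk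
  rw [← mul_div_assoc, ← Real.exp_add]
  congr 2
  ring

theorem F9s_pow4 {u : ℝ} (hu : 0 ≤ u) : u ^ 4 ≤ 24 * Real.exp u := by
  have := Real.pow_div_factorial_le_exp u hu 4
  rw [div_le_iff₀ (by positivity)] at this
  norm_num [Nat.factorial] at this
  linarith

theorem F9s_ker : ∃ C : ℝ, 0 < C ∧ ∀ k : ℝ, 0 < k → k ≤ 2 → ∀ x y' y : E, ‖y' - hor x‖ ≤ 1 →
    y ≠ y' → Real.exp (-(4 * ‖x - y‖)) * (1 + ‖x - y‖) ^ 3 ≤
      C * (1 + |x 2|) * Real.exp (k * |x 2|) * Yk k (y' - y) := by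
  refine ⟨48 * Real.pi * Real.exp 3, by positivity, fun k k0 k2 x y' y h1 h2 => ?_⟩
  have r0 : 0 < ‖y' - y‖ := norm_pos_iff.2 (sub_ne_zero.2 h2.symm)
  have z0 := abs_nonneg (x 2)
  have u0 := norm_nonneg (x - y)
  have r1 : ‖y' - y‖ ≤ 1 + |x 2| + ‖x - y‖ := by
    have e : y' - y = (y' - hor x) - (x - hor x) + (x - y) := by abel
    rw [e]
    refine (norm_add_le _ _).trans (add_le_add ((norm_sub_le _ _).trans ?_) le_rfl)
    rw [F9s_sub_hor]
    linarith
  set u := ‖x - y‖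
  set r := ‖y' - y‖
  set z := |x 2|
  have hY : Yk k (y' - y) = Real.exp (-(k * r)) / (2 * Real.pi * r) := rfl
  rw [hY, ← mul_div_assoc, le_div_iff₀ (by positivity)]
  have a1 : r ≤ (1 + z) * (1 + u) := by nlinarith
  have a2 : (1 + u) ^ 4 ≤ 24 * Real.exp (1 + u) := F9s_pow4 (by linarith)
  have a3 : Real.exp (-(4 * u)) * Real.exp (1 + u) ≤
      Real.exp 3 * (Real.exp (k * z) * Real.exp (-(k * r))) := by
    rw [← Real.exp_add, ← Real.exp_add, ← Real.exp_add]
    refine Real.exp_le_exp.2 ?_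
    nlinarith
  calc Real.exp (-(4 * u)) * (1 + u) ^ 3 * (2 * Real.pi * r)
      ≤ Real.exp (-(4 * u)) * (1 + u) ^ 3 * (2 * Real.pi * ((1 + z) * (1 + u))) := by gcongr
    _ = 2 * Real.pi * (1 + z) * (Real.exp (-(4 * u)) * (1 + u) ^ 4) := by ring
    _ ≤ 2 * Real.pi * (1 + z) * (Real.exp (-(4 * u)) * (24 * Real.exp (1 + u))) := by gcongr
    _ = 48 * Real.pi * (1 + z) * (Real.exp (-(4 * u)) * Real.exp (1 + u)) := by ring
    _ ≤ 48 * Real.pi * (1 + z) * (Real.exp 3 * (Real.exp (k * z) * Real.exp (-(k * r)))) := by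
        gcongr
    _ = _ := by ring

theorem F9s_exp_le {w : E} (hw : w ≠ 0) : Real.exp (-(4 * ‖w‖)) ≤ Real.pi * Yk 2 w := by
  have r0 : 0 < ‖w‖ := norm_pos_iff.2 hw
  unfold Yk
  rw [← mul_div_assoc, le_div_iff₀ (by positivity)]
  have h1 : 2 * ‖w‖ ≤ Real.exp (2 * ‖w‖) := by linarith [Real.add_one_le_exp (2 * ‖w‖)]
  have h2 : Real.exp (-(2 * ‖w‖)) = Real.exp (-(4 * ‖w‖)) * Real.exp (2 * ‖w‖) := by
    rw [← Real.exp_add]
    congr 1
    ring
  rw [h2]
  calc Real.exp (-(4 * ‖w‖)) * (2 * Real.pi * ‖w‖)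
      = Real.pi * (Real.exp (-(4 * ‖w‖)) * (2 * ‖w‖)) := by ring
    _ ≤ _ := by gcongr

theorem F9s_int {g s : E → ℝ} (p : E) (hg : Continuous g)
    (h : ∀ y, 0 ≤ g y ∧ g y ≤ Real.exp (-(4 * ‖p - y‖))) (hs : MemLp s 2 volume) :
    Integrable fun y => g y * s y := by
  refine ((YP_integrable two_pos hs p).1.norm.const_mul Real.pi).mono'
    (hg.aestronglyMeasurable.mul hs.1) ?_
  filter_upwards [Measure.ae_ne volume p] with y hy
  rw [norm_mul, norm_mul, Real.norm_of_nonneg (h y).1, Real.norm_of_nonneg (Y1A.Yk_nonneg _ _),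
    ← mul_assoc]
  exact mul_le_mul_of_nonneg_right ((h y).2.trans (F9s_exp_le (sub_ne_zero.2 hy.symm)))
    (norm_nonneg _)

theorem F9s_int_Kb {s : E → ℝ} (hs : MemLp s 2 volume) (x : E) :
    Integrable fun y => Real.exp (-(4 * jb (hor x - y))) * s y := by
  refine F9s_int (hor x) ?_ (fun y => ⟨(Real.exp_pos _).le, Real.exp_le_exp.2 ?_⟩) hs
  · have := jb_smooth.continuous
    fun_prop
  · linarith [(jb_facts (hor x - y)).2.1]

theorem F9s_avg : ∃ C : ℝ, 0 < C ∧ ∀ s : E → ℝ, MemLp s 2 volume → (∀ y, 0 ≤ s y) →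
    ∀ (x : E) (a : ℝ), (∀ y, ‖y - hor x‖ ≤ 1 → a ≤ s y) → a ≤ C * Kb s x := by
  have p1 : 0 < volume.real (ball (0 : E) 1) :=
    ENNReal.toReal_pos (measure_ball_pos _ _ one_pos).ne' measure_ball_lt_top.ne
  refine ⟨Real.exp 8 / volume.real (ball (0 : E) 1), by positivity, fun s hs h0 x a h => ?_⟩
  have k : ∫ y, (ball (hor x) 1).indicator (fun _ => Real.exp (-8) * a) y ≤ Kb s x := by
    refine integral_mono ((integrableOn_const measure_ball_lt_top.ne).integrable_indicator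
      measurableSet_ball) (F9s_int_Kb hs x) fun y => ?_
    by_cases hy : y ∈ ball (hor x) 1
    · rw [indicator_of_mem hy]
      rw [mem_ball, dist_eq_norm] at hy
      refine (mul_le_mul_of_nonneg_left (h y hy.le) (Real.exp_pos _).le).trans
        (mul_le_mul_of_nonneg_right (Real.exp_le_exp.2 ?_) (h0 y))
      have := (jb_facts (hor x - y)).2.2.1
      rw [norm_sub_rev] at this
      linarith
    · rw [indicator_of_notMem hy]
      exact mul_nonneg (Real.exp_pos _).le (h0 y)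
  rw [integral_indicator measurableSet_ball, setIntegral_const, smul_eq_mul, Measure.real,
    Measure.addHaar_ball_center, ← Measure.real, Real.exp_neg] at k
  rw [div_mul_eq_mul_div, le_div_iff₀ p1]
  have e : a * volume.real (ball (0 : E) 1) =
      Real.exp 8 * (volume.real (ball (0 : E) 1) * ((Real.exp 8)⁻¹ * a)) := by
    field_simp
  rw [e]
  gcongr

/-- sup-norm bootstrap for the Yukawa representation -/
theorem F9s_up {s S w : E → ℝ} {c A B : ℝ} (x : E) (hs : MemLp s 2 volume)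
    (hS : MemLp S 2 volume) (hw : MemLp w 2 volume) (h0 : ∀ y, 0 ≤ s y ∧ s y ≤ c)
    (he : s = YP 8 S) (hA : 0 ≤ A) (hB : 0 ≤ B)
    (h : ∀ᵐ y, Real.exp (-(5 * ‖y - x‖)) * S y ≤
      35 * (Real.exp (-(5 * ‖y - x‖)) * s y) + A * |w y| + B) :
    s x ≤ 70 * (∫ y, Real.exp (-(4 * ‖x - y‖)) * s y) + 2 * A * √(nsq w) + B := by
  set σ : E → ℝ := fun y => Real.exp (-(5 * ‖y - x‖)) * s y with hσ
  have hb : BddAbove (range σ) := by
    refine ⟨c, ?_⟩
    rintro _ ⟨y, rfl⟩
    exact (mul_le_of_le_one_left (h0 y).1 (Real.exp_le_one_iff.2 (by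
      linarith [norm_nonneg (y - x)]))).trans (h0 y).2
  set M := ⨆ y, σ y with hM
  have hσM : ∀ y, σ y ≤ M := fun y => le_ciSup hb y
  have hσ0 : ∀ y, 0 ≤ σ y := fun y => mul_nonneg (Real.exp_pos _).le (h0 y).1
  have M0 : 0 ≤ M := (hσ0 x).trans (hσM x)
  obtain ⟨y1, y2, y3, y4⟩ := Yk_memLp (k := 3) (by norm_num)
  have i4 : Integrable fun y => Real.exp (-(4 * ‖x - y‖)) * s y :=
    F9s_int x (by fun_prop) (fun y => ⟨(Real.exp_pos _).le, le_rfl⟩) hs
  set P := ∫ y, Real.exp (-(4 * ‖x - y‖)) * s y with hP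
  have key : ∀ p, σ p ≤ M / 2 + 35 * P + A * √(nsq w) + B / 2 := by
    intro p
    have i1 : Integrable fun y => Yk 3 (p - y) ^ 2 :=
      ((memLp_two_iff_integrable_sq y1.1).1 y1).comp_sub_left p
    have i2 : Integrable fun y => Yk 3 (p - y) := y2.comp_sub_left p
    obtain ⟨i3, b3⟩ := YP_integrable (k := 3) (by norm_num) hw.abs p
    have e1 : ∫ y, Yk 3 (p - y) ^ 2 = 1 / (2 * Real.pi * 3) := by
      rw [← y3]
      exact integral_sub_left_eq_self (fun y => Yk 3 y ^ 2) volume p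
    have e2 : ∫ y, Yk 3 (p - y) = 2 / 3 ^ 2 := by
      rw [← y4]
      exact integral_sub_left_eq_self (Yk 3) volume p
    have e3 : ∫ y, Yk 3 (p - y) * |w| y ≤ √(nsq w) := by
      refine Real.le_sqrt_of_sq_le (b3.trans ?_)
      have e : nsq |w| = nsq w := by simp [nsq]
      have n0 : 0 ≤ nsq w := integral_nonneg fun _ => sq_nonneg _
      rw [e]
      exact div_le_self n0 (by linarith [Real.pi_gt_three])
    have k : σ p ≤ ∫ y, (35 / 4 * M * Yk 3 (p - y) ^ 2 + 35 * (Real.exp (-(4 * ‖x - y‖)) * s y) +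
        A * (Yk 3 (p - y) * |w| y) + B * Yk 3 (p - y)) := by
      have e : σ p = ∫ y, Real.exp (-(5 * ‖p - x‖)) * (Yk 8 (p - y) * S y) := by
        rw [integral_const_mul]
        simp only [hσ]
        rw [he]
        rfl
      rw [e]
      refine integral_mono_ae ((YP_integrable (by norm_num) hS p).1.const_mul _)
        ((((i1.const_mul _).add (i4.const_mul _)).add (i3.const_mul _)).add (i2.const_mul _)) ?_
      filter_upwards [h] with y hy
      have Y0 := Y1A.Yk_nonneg 3 (p - y)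
      set Y := Yk 3 (p - y)
      have R0 : 0 ≤ 35 * σ y + A * |w y| + B := by
        have := hσ0 y
        positivity
      have a1 : Real.exp (-(5 * ‖p - x‖)) * Real.exp (-(5 * ‖p - y‖)) * S y ≤
          35 * σ y + A * |w y| + B := by
        rcases le_total (S y) 0 with h1 | h1
        · exact (mul_nonpos_of_nonneg_of_nonpos (by positivity) h1).trans R0
        · refine le_trans (mul_le_mul_of_nonneg_right ?_ h1) hy
          rw [← Real.exp_add]
          refine Real.exp_le_exp.2 ?_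
          have : ‖y - x‖ ≤ ‖p - x‖ + ‖p - y‖ := by
            have e : y - x = (p - x) - (p - y) := by abel
            rw [e]
            exact norm_sub_le _ _
          linarith
      have a2 : σ y ≤ Real.exp (-(4 * ‖x - y‖)) * s y := by
        refine mul_le_mul_of_nonneg_right (Real.exp_le_exp.2 ?_) (h0 y).1
        rw [norm_sub_rev]
        linarith [norm_nonneg (x - y)]
      have a3 : Y * σ y ≤ 1 / 4 * M * Y ^ 2 + Real.exp (-(4 * ‖x - y‖)) * s y := by
        have b1 : Y ≤ Y ^ 2 / 4 + 1 := by nlinarith [sq_nonneg (Y - 2)]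
        have b2 := mul_le_mul_of_nonneg_right b1 (hσ0 y)
        have b3 := mul_le_mul_of_nonneg_left (hσM y) (sq_nonneg Y)
        nlinarith
      have a4 := mul_le_mul_of_nonneg_left a1 Y0
      simp only [Pi.abs_apply]
      rw [F9s_Yk_split]
      nlinarith
    rw [integral_add (((i1.const_mul _).fun_add (i4.const_mul _)).fun_add (i3.const_mul _))
      (i2.const_mul _), integral_add ((i1.const_mul _).fun_add (i4.const_mul _)) (i3.const_mul _),
      integral_add (i1.const_mul _) (i4.const_mul _), integral_const_mul, integral_const_mul,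
      integral_const_mul, integral_const_mul, e1, e2] at k
    have a1 : 35 / 4 * M * (1 / (2 * Real.pi * 3)) ≤ M / 2 := by
      have : 1 / (2 * Real.pi * 3) ≤ 1 / 18 :=
        one_div_le_one_div_of_le (by norm_num) (by linarith [Real.pi_gt_three])
      nlinarith
    have a2 := mul_le_mul_of_nonneg_left e3 hA
    linarith
  have k1 : M ≤ M / 2 + 35 * P + A * √(nsq w) + B / 2 := ciSup_le key
  have k2 := hσM x
  simp only [hσ, sub_self, norm_zero, mul_zero, neg_zero, Real.exp_zero, one_mul] at k2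
  linarith

/-- consequences of the lower Yukawa inequality `F8` -/
theorem F9s_rep : ∃ C : ℝ, 1 ≤ C ∧ ∀ (s f : E → ℝ) (k β C0 l d c : ℝ), 0 < k → k ≤ 2 → 0 < β →
    1 ≤ C0 → 0 < l → l ≤ 1 → 0 ≤ d → MemLp s 2 volume → MemLp f 2 volume → Continuous f →
    (∀ y, 0 ≤ s y) → (∀ y, |f y| ≤ c) →
    (∀ x, YP k (fun y => s y / β +
      l * (if 4 * d ≤ ‖y‖ then |y 2| * |f y| / (C0 * jb y ^ 3) else 0)) x ≤ s x) → ∀ x,
    ∫ y, Real.exp (-(4 * ‖x - y‖)) * s y ≤
      C * β * ((1 + |x 2|) * Real.exp (k * |x 2|) * Kb s x) ∧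
    (|x 2| ≤ 1 → Kb s x ≤ C * β * s x) ∧
    l * (∫ y, Real.exp (-(4 * ‖x - y‖)) * (|y 2| * |f y|)) / jb x ^ 3 ≤
      C * C0 * ((1 + |x 2|) * Real.exp (k * |x 2|) * Kb s x) +
        4 * d * c * Real.exp (16 * d) * volume.real (ball (0 : E) (4 * d)) *
          Real.exp (-(4 * ‖x‖)) := by
  obtain ⟨C1, hC1, h1⟩ := F9s_ker
  obtain ⟨C2, hC2, h2⟩ := F9s_avg
  refine ⟨C1 * C2 + C1 + 1, by nlinarith [mul_pos hC1 hC2], ?_⟩
  intro s f k β C0 l d c k0 k2 β0 hC0 l0 l1 d0 hs hf cf s0 fc h8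
  have jb0 : ∀ y, 0 < jb y := fun y => by linarith [(jb_facts y).1]
  set g : E → ℝ := fun y => if 4 * d ≤ ‖y‖ then |y 2| * |f y| / (C0 * jb y ^ 3) else 0 with hg
  have g0 : ∀ y, 0 ≤ g y := fun y => by
    have := jb0 y
    simp only [hg]
    split_ifs
    · positivity
    · exact le_rfl
  have gm : MemLp g 2 volume := by
    refine hf.of_le ?_ (.of_forall fun y => ?_)
    · refine (Measurable.ite (measurableSet_le measurable_const measurable_norm) ?_
        measurable_const).aestronglyMeasurable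
      have := jb_smooth.continuous
      have := S07.cont_two
      exact Measurable.div (by fun_prop) (by fun_prop)
    · rw [Real.norm_of_nonneg (g0 y), Real.norm_eq_abs]
      simp only [hg]
      split_ifs
      · have a1 := jb0 y
        have a2 := (jb_facts y).1
        rw [div_le_iff₀ (by positivity), mul_comm]
        refine mul_le_mul_of_nonneg_left ?_ (abs_nonneg _)
        have a3 : jb y ≤ jb y ^ 3 := le_self_pow₀ a2 (by norm_num)
        have a4 := F9s_two_le y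
        have a5 := (jb_facts y).2.1
        nlinarith
      · exact abs_nonneg _
  set h : E → ℝ := fun y => s y / β + l * g y with hh
  have hm : MemLp h 2 volume := by
    simp only [hh, div_eq_mul_inv]
    exact (hs.mul_const β⁻¹).add (gm.const_mul l)
  have h0 : ∀ y, s y / β ≤ h y ∧ l * g y ≤ h y := fun y =>
    ⟨le_add_of_nonneg_right (mul_nonneg l0.le (g0 y)),
      le_add_of_nonneg_left (div_nonneg (s0 y) β0.le)⟩
  have K0 : ∀ x, 0 ≤ Kb s x := fun x =>
    integral_nonneg fun y => mul_nonneg (Real.exp_pos _).le (s0 y)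
  have p1 : ∀ x y', ‖y' - hor x‖ ≤ 1 → ∫ y, Real.exp (-(4 * ‖x - y‖)) * s y ≤
      C1 * β * ((1 + |x 2|) * Real.exp (k * |x 2|)) * s y' := by
    intro x y' hy'
    refine le_trans ?_ (mul_le_mul_of_nonneg_left (h8 y') (by positivity))
    rw [YP, ← integral_const_mul]
    refine integral_mono_of_nonneg (.of_forall fun y => mul_nonneg (Real.exp_pos _).le (s0 y))
      ((YP_integrable k0 hm y').1.const_mul _) ?_
    filter_upwards [Measure.ae_ne volume y'] with y hy
    have a1 := h1 k k0 k2 x y' y hy' hy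
    have a2 : Real.exp (-(4 * ‖x - y‖)) ≤ Real.exp (-(4 * ‖x - y‖)) * (1 + ‖x - y‖) ^ 3 :=
      le_mul_of_one_le_right (Real.exp_pos _).le (one_le_pow₀ (by linarith [norm_nonneg (x - y)]))
    have a3 : s y ≤ β * h y := by
      have := (h0 y).1
      rwa [div_le_iff₀' β0] at this
    have Y0 := Y1A.Yk_nonneg k (y' - y)
    refine (mul_le_mul (a2.trans a1) a3 (s0 y) (by positivity)).trans_eq ?_
    ring
  have p2 : ∀ x y', ‖y' - hor x‖ ≤ 1 →
      l * (∫ y, Real.exp (-(4 * ‖x - y‖)) * (|y 2| * |f y|)) / jb x ^ 3 ≤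
      C1 * C0 * ((1 + |x 2|) * Real.exp (k * |x 2|)) * s y' +
        4 * d * c * Real.exp (16 * d) * volume.real (ball (0 : E) (4 * d)) *
          Real.exp (-(4 * ‖x‖)) := by
    intro x y' hy'
    have t0 := jb0 x
    have t1 := (jb_facts x).1
    have c0 : 0 ≤ c := (abs_nonneg _).trans (fc 0)
    refine le_trans ?_ (add_le_add (mul_le_mul_of_nonneg_left (h8 y') (by positivity)) le_rfl)
    have i1 := (YP_integrable k0 hm y').1.const_mul
      (C1 * C0 * ((1 + |x 2|) * Real.exp (k * |x 2|)))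
    have i2 : Integrable ((ball (0 : E) (4 * d)).indicator fun _ =>
        4 * d * c * Real.exp (16 * d) * Real.exp (-(4 * ‖x‖))) :=
      (integrableOn_const measure_ball_lt_top.ne).integrable_indicator measurableSet_ball
    have e : 4 * d * c * Real.exp (16 * d) * volume.real (ball (0 : E) (4 * d)) *
        Real.exp (-(4 * ‖x‖)) = ∫ y, (ball (0 : E) (4 * d)).indicator (fun _ =>
        4 * d * c * Real.exp (16 * d) * Real.exp (-(4 * ‖x‖))) y := by
      rw [integral_indicator measurableSet_ball, setIntegral_const, smul_eq_mul]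
      ring
    rw [e, YP, ← integral_const_mul, ← integral_const_mul, ← integral_div, ← integral_add i1 i2]
    refine integral_mono_of_nonneg (.of_forall fun y => by positivity) (i1.add i2) ?_
    filter_upwards [Measure.ae_ne volume y'] with y hy
    have Y0 := Y1A.Yk_nonneg k (y' - y)
    have hy0 : 0 ≤ h y := (mul_nonneg l0.le (g0 y)).trans (h0 y).2
    by_cases hb : 4 * d ≤ ‖y‖
    · rw [indicator_of_notMem (by simpa using hb), add_zero]
      have a1 := h1 k k0 k2 x y' y hy' hy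
      have a2 : jb y ≤ jb x * (1 + ‖x - y‖) := by
        have := (abs_le.1 ((jb_facts x).2.2.2.2.2.2 y)).1
        nlinarith [norm_nonneg (x - y)]
      have y0 := jb0 y
      have a3 : l * (|y 2| * |f y|) ≤ C0 * jb y ^ 3 * h y := by
        have := (h0 y).2
        simp only [hg, if_pos hb] at this
        rwa [← mul_div_assoc, div_le_iff₀' (by positivity)] at this
      rw [div_le_iff₀ (by positivity)]
      calc l * (Real.exp (-(4 * ‖x - y‖)) * (|y 2| * |f y|))
          = Real.exp (-(4 * ‖x - y‖)) * (l * (|y 2| * |f y|)) := by ring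
        _ ≤ Real.exp (-(4 * ‖x - y‖)) * (C0 * (jb x * (1 + ‖x - y‖)) ^ 3 * h y) := by
          refine mul_le_mul_of_nonneg_left (a3.trans ?_) (Real.exp_pos _).le
          gcongr
        _ = Real.exp (-(4 * ‖x - y‖)) * (1 + ‖x - y‖) ^ 3 * (C0 * h y * jb x ^ 3) := by ring
        _ ≤ C1 * (1 + |x 2|) * Real.exp (k * |x 2|) * Yk k (y' - y) * (C0 * h y * jb x ^ 3) := by
          gcongr
        _ = _ := by ring
    · rw [not_le] at hb
      rw [indicator_of_mem (by simpa using hb)]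
      refine le_add_of_nonneg_of_le (by positivity) ?_
      refine (div_le_self (by positivity) (one_le_pow₀ t1)).trans
        ((mul_le_of_le_one_left (by positivity) l1).trans ?_)
      have a1 : Real.exp (-(4 * ‖x - y‖)) ≤ Real.exp (16 * d) * Real.exp (-(4 * ‖x‖)) := by
        rw [← Real.exp_add]
        refine Real.exp_le_exp.2 ?_
        linarith [norm_sub_norm_le x y]
      have a2 : |y 2| * |f y| ≤ 4 * d * c :=
        mul_le_mul ((F9s_two_le y).trans hb.le) (fc y) (abs_nonneg _) (by positivity)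
      refine (mul_le_mul a1 a2 (by positivity) (by positivity)).trans_eq ?_
      ring
  intro x
  have W0 : 0 < (1 + |x 2|) * Real.exp (k * |x 2|) := by positivity
  set W := (1 + |x 2|) * Real.exp (k * |x 2|) with hW
  have Kx := K0 x
  refine ⟨?_, fun hx => ?_, ?_⟩
  · have := h2 s hs s0 x ((∫ y, Real.exp (-(4 * ‖x - y‖)) * s y) / (C1 * β * W)) fun y hy => by
      rw [div_le_iff₀' (by positivity)]
      exact p1 x y hy
    rw [div_le_iff₀' (by positivity)] at this
    refine this.trans ?_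
    have a1 : 0 ≤ β * (W * Kb s x) := by positivity
    nlinarith
  · have a1 := p1 (hor x) x (by rw [F9s_hor_hor, F9s_sub_hor]; exact hx)
    rw [F9s_hor_two] at a1
    simp only [abs_zero, add_zero, mul_zero, Real.exp_zero, mul_one] at a1
    have a2 : Kb s x ≤ ∫ y, Real.exp (-(4 * ‖hor x - y‖)) * s y := by
      refine integral_mono (F9s_int_Kb hs x)
        (F9s_int (hor x) (by fun_prop) (fun y => ⟨(Real.exp_pos _).le, le_rfl⟩) hs) fun y => ?_
      refine mul_le_mul_of_nonneg_right (Real.exp_le_exp.2 ?_) (s0 y)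
      linarith [(jb_facts (hor x - y)).2.1]
    have a3 : 0 ≤ β * s x := mul_nonneg β0.le (s0 x)
    nlinarith [mul_pos hC1 hC2]
  · rw [← sub_le_iff_le_add]
    have := h2 s hs s0 x ((l * (∫ y, Real.exp (-(4 * ‖x - y‖)) * (|y 2| * |f y|)) / jb x ^ 3 -
        4 * d * c * Real.exp (16 * d) * volume.real (ball (0 : E) (4 * d)) *
          Real.exp (-(4 * ‖x‖))) / (C1 * C0 * W)) fun y hy => by
      rw [div_le_iff₀' (by positivity), sub_le_iff_le_add]
      exact p2 x y hy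
    rw [div_le_iff₀' (by positivity)] at this
    refine this.trans ?_
    have a1 : 0 ≤ C0 * (W * Kb s x) := by positivity
    nlinarith

theorem F9s_all_le {p : E → ℝ} {c : ℝ} (hp : Continuous p) (h : ∀ᵐ x, p x ≤ c) (x : E) :
    p x ≤ c := by
  have e : (fun x => max (p x) c) = fun _ => c :=
    ((hp.max continuous_const).ae_eq_iff_eq volume continuous_const).1 (by
      filter_upwards [h] with x hx using max_eq_right hx)
  exact (le_max_left _ _).trans (congrFun e x).le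

theorem F9s_bd {o : OD} {c : ℝ} {m : MD} (hm : m.OK o c) :
    0 ≤ c ∧ (∀ y, |m.s y| ≤ c) ∧ ∀ y, |m.f y| ≤ c := by
  have k : ∀ᵐ y, |m.s y| ≤ c ∧ |m.f y| ≤ c := by
    filter_upwards [hm.bd, hm.pyth] with y h1 h2
    obtain ⟨n1, n2, n3, n4, -⟩ := hm.nn y
    have a1 : m.G y ≤ m.r y := abs_le_of_sq_le_sq' (by
      nlinarith [h2.1, h2.2.1, sq_nonneg (m.n y), sq_nonneg (m.f y)]) n1 |>.2
    have a2 : |m.f y| ≤ m.r y := abs_le_of_sq_le_sq (by nlinarith [h2.2.1, sq_nonneg (m.g y)]) n1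
    exact ⟨h2.2.2.trans (a1.trans h1.1), a2.trans h1.1⟩
  have k1 := F9s_all_le hm.cf.2.1.abs (k.mono fun y h => h.1)
  exact ⟨(abs_nonneg _).trans (k1 0), k1, F9s_all_le hm.cf.1.abs (k.mono fun y h => h.2)⟩

theorem F9s_rad_pos (a k : ℝ) (x : E) : 0 < rad a k x := (radb_facts a k 0 x).1

theorem F9s_mm_low {m : MD} (l0 : 0 < m.l) (k0 : 0 < m.κh) (k2 : m.κh ≤ 2) (y : E) :
    Real.exp (-(2 * ‖y‖ + 2)) ≤ m.mm y := by
  have t1 := (jb_facts y).1
  have t2 := (jb_facts y).2.2.1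
  have a1 : Real.exp (-(2 * ‖y‖ + 2)) ≤ m.mh y := by
    simp only [MD.mh, rad, radb, zero_div, add_zero]
    have b1 : 1 ≤ jb y ^ (2 / m.κh - 1) := Real.one_le_rpow t1 (by
      rw [sub_nonneg, le_div_iff₀ k0]
      linarith)
    refine le_trans (Real.exp_le_exp.2 ?_) (le_mul_of_one_le_left (Real.exp_pos _).le b1)
    nlinarith
  refine a1.trans (le_add_of_nonneg_right ?_)
  have := F9s_rad_pos ((2 - 2 * m.l) / m.κ - 2) m.κ y
  unfold MD.Dm
  positivity

theorem F9s_negl {K Γ b : ℝ} {x : E} (hΓ : 0 < Γ) (h1 : K * Γ ^ 2 * Real.exp 2 ≤ ‖hor x‖)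
    (h2 : Real.exp (-(2 * ‖hor x‖ + 2)) / Γ ^ 2 ≤ b) :
    K * Real.exp (-(4 * ‖x‖)) ≤ b := by
  refine le_trans ?_ h2
  have a0 := norm_nonneg (hor x)
  have a1 := F9s_hor_le x
  have a2 : ‖hor x‖ ≤ Real.exp (2 * ‖hor x‖) := by linarith [Real.add_one_le_exp (2 * ‖hor x‖)]
  rw [le_div_iff₀ (by positivity)]
  have a3 : Real.exp (-(4 * ‖x‖)) * Real.exp (2 * ‖hor x‖) ≤
      Real.exp (-(2 * ‖hor x‖ + 2)) * Real.exp 2 := by
    rw [← Real.exp_add, ← Real.exp_add]
    exact Real.exp_le_exp.2 (by linarith)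
  have a4 := mul_le_mul_of_nonneg_left (h1.trans a2) (Real.exp_pos (-(4 * ‖x‖))).le
  have a5 : K * Real.exp (-(4 * ‖x‖)) * Γ ^ 2 * Real.exp 2 ≤
      Real.exp (-(2 * ‖hor x‖ + 2)) * Real.exp 2 := by linarith
  exact le_of_mul_le_mul_right a5 (Real.exp_pos 2)

theorem F9s_vx {d : ℝ} (hd : 0 ≤ d) {y : E} (hy : d + 1 ≤ ‖y‖) : -vx d y ≤ 2 := by
  have e : ‖d • ez‖ = d := by rw [norm_smul, S07.norm_ez, mul_one, Real.norm_of_nonneg hd]
  have a1 : 1 ≤ ‖y - d • ez‖ := by linarith [norm_sub_norm_le y (d • ez)]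
  have a2 : 1 ≤ ‖y + d • ez‖ := by
    have := norm_sub_norm_le y (-(d • ez))
    rw [norm_neg, sub_neg_eq_add] at this
    linarith
  have b1 : 1 / ‖y - d • ez‖ ≤ 1 := div_le_one_of_le₀ a1 (norm_nonneg _)
  have b2 : 1 / ‖y + d • ez‖ ≤ 1 := div_le_one_of_le₀ a2 (norm_nonneg _)
  unfold vx
  linarith

theorem F9s_dip {x y : E} : Real.exp (-(5 * ‖y - x‖)) * ((1 + |y 2|) / jb y ^ 3) *
    Real.exp (4 * ‖y - x‖) ≤ 72 * ((1 + |x 2|) / jb x ^ 3) := by
  have u0 := norm_nonneg (y - x)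
  have t1 := (jb_facts x).1
  have y1 := (jb_facts y).1
  have a1 : jb x ≤ jb y * (1 + ‖y - x‖) := by
    have := (abs_le.1 ((jb_facts y).2.2.2.2.2.2 x)).1
    nlinarith
  have a2 : 1 + |y 2| ≤ (1 + |x 2|) * (1 + ‖y - x‖) := by
    have b1 := F9s_two_le (y - x)
    have b2 : |y 2| ≤ |x 2| + |(y - x) 2| := by
      have e : y 2 = x 2 + (y - x) 2 := by simp
      exact (congrArg abs e).le.trans (abs_add_le _ _)
    nlinarith [abs_nonneg (x 2)]
  set u := ‖y - x‖
  have a3 : (1 + |y 2|) / jb y ^ 3 ≤ (1 + u) ^ 4 * ((1 + |x 2|) / jb x ^ 3) := by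
    rw [← mul_div_assoc, div_le_div_iff₀ (by positivity) (by positivity)]
    calc (1 + |y 2|) * jb x ^ 3 ≤ (1 + |x 2|) * (1 + u) * (jb y * (1 + u)) ^ 3 := by gcongr
      _ = _ := by ring
  have a4 : Real.exp (-(5 * u)) * (1 + u) ^ 4 * Real.exp (4 * u) ≤ 72 := by
    have b1 := F9s_pow4 (u := 1 + u) (by linarith)
    have b2 : Real.exp (-(5 * u)) * Real.exp (1 + u) * Real.exp (4 * u) = Real.exp 1 := by
      rw [← Real.exp_add, ← Real.exp_add]
      congr 1
      ring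
    calc Real.exp (-(5 * u)) * (1 + u) ^ 4 * Real.exp (4 * u)
        ≤ Real.exp (-(5 * u)) * (24 * Real.exp (1 + u)) * Real.exp (4 * u) := by gcongr
      _ = 24 * (Real.exp (-(5 * u)) * Real.exp (1 + u) * Real.exp (4 * u)) := by ring
      _ ≤ 72 := by
        rw [b2]
        linarith [Real.exp_one_lt_d9]
  calc Real.exp (-(5 * u)) * ((1 + |y 2|) / jb y ^ 3) * Real.exp (4 * u)
      ≤ Real.exp (-(5 * u)) * ((1 + u) ^ 4 * ((1 + |x 2|) / jb x ^ 3)) * Real.exp (4 * u) := by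
        gcongr
    _ = Real.exp (-(5 * u)) * (1 + u) ^ 4 * Real.exp (4 * u) * ((1 + |x 2|) / jb x ^ 3) := by ring
    _ ≤ _ := by gcongr

theorem F9s_num {s P T b Z W C1 Cf C0 d L : ℝ} (b0 : 0 ≤ b) (Z1 : 1 ≤ Z) (W1 : 1 ≤ W)
    (C11 : 1 ≤ C1) (Cf0 : 0 ≤ Cf) (C00 : 0 ≤ C0) (d0 : 0 ≤ d) (h1 : C0 ≤ L) (h2 : d ≤ L)
    (hL : 5600 * C1 + 1 + (72 * Cf + 1) * (C1 + 1) ≤ L)
    (hP : P ≤ C1 * (8 * (10 * L ^ 4)) * (W * b)) (hT : T ≤ C1 * C0 * (W * b) + b)
    (hs : s ≤ 70 * P + b + 72 * Cf * C0 * d ^ 3 * (Z * T)) :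
    s + Z * T ≤ L ^ 6 * (Z * W * b) := by
  have L1 : 1 ≤ L := by nlinarith
  have q0 : 0 ≤ W * b := by positivity
  have q1 : b ≤ W * b := le_mul_of_one_le_left b0 W1
  have q2 : W * b ≤ Z * W * b := by
    rw [mul_assoc]
    exact le_mul_of_one_le_left q0 Z1
  have l4 : 1 ≤ L ^ 4 := one_le_pow₀ L1
  have l5 : L ^ 4 ≤ L ^ 5 := pow_le_pow_right₀ L1 (by norm_num)
  have a1 : T ≤ (C1 + 1) * L * (W * b) := by
    have : C1 * C0 * (W * b) ≤ C1 * L * (W * b) := by gcongr
    have : W * b ≤ L * (W * b) := le_mul_of_one_le_left q0 L1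
    nlinarith
  have a2 : 72 * Cf * C0 * d ^ 3 + 1 ≤ (72 * Cf + 1) * L ^ 4 := by
    have : 72 * Cf * C0 * d ^ 3 ≤ 72 * Cf * L * L ^ 3 := by gcongr
    nlinarith
  have a3 : (72 * Cf * C0 * d ^ 3 + 1) * (Z * T) ≤
      (72 * Cf + 1) * L ^ 4 * (Z * ((C1 + 1) * L * (W * b))) :=
    (mul_le_mul_of_nonneg_left (mul_le_mul_of_nonneg_left a1 (by linarith)) (by positivity)).trans
      (mul_le_mul_of_nonneg_right a2 (by positivity))
  have a4 : 70 * P ≤ 5600 * C1 * (L ^ 5 * (Z * W * b)) := by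
    have : L ^ 4 * (W * b) ≤ L ^ 5 * (Z * W * b) := by gcongr
    nlinarith
  have a5 : b ≤ L ^ 5 * (Z * W * b) :=
    (q1.trans q2).trans (le_mul_of_one_le_left (by positivity) (l4.trans l5))
  calc s + Z * T ≤ 70 * P + b + (72 * Cf * C0 * d ^ 3 + 1) * (Z * T) := by linarith
    _ ≤ (5600 * C1 + 1 + (72 * Cf + 1) * (C1 + 1)) * (L ^ 5 * (Z * W * b)) := by
      nlinarith
    _ ≤ L * (L ^ 5 * (Z * W * b)) := by gcongr
    _ = _ := by ring

end

end Crest.Agent.R335
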