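import Crest.Agent.R335.F9
import Crest.Agent.R335.F9sAux1

set_option autoImplicit false

open MeasureTheory Set Filter Topology Metric
open scoped Gradient ContDiff RealInnerProductSpace ENNReal

namespace Crest.Agent.R335

noncomputable section

theorem F9s_L {o : OD} (ho : o.OK) : 100 ≤ o.d ∧ o.d ≤ o.L ∧ 100 ≤ o.C0 ∧ o.C0 ≤ o.L ∧
    100 ≤ o.ℓ ∧ 0 < 1 / o.ℓ ∧ 1 / o.ℓ ≤ 1 / 100 := by
  obtain ⟨c1, -, c3⟩ := ho.C0
  have a1 : o.d ≤ o.L := le_add_of_nonneg_right (abs_nonneg _)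
  have a2 : o.L ≤ o.L ^ 4 := le_self_pow₀ (by linarith) (by norm_num)
  have a3 : 100 ≤ o.ℓ := by
    unfold OD.ℓ
    linarith
  exact ⟨by linarith, a1, c1, by linarith, a3, by positivity,
    one_div_le_one_div_of_le (by norm_num) a3⟩

theorem F9s_int_J {f : E → ℝ} (hf : MemLp f 2 volume) (x : E) :
    Integrable fun y => Real.exp (-(4 * ‖hor x - y‖)) * (|y 2| * |f y|) := by
  obtain ⟨C, hC, h⟩ := F9s_ker
  have c2 := S07.cont_two
  refine ((YP_integrable two_pos hf (hor x)).1.norm.const_mul C).mono'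
    ((Continuous.aestronglyMeasurable (by fun_prop)).mul
      ((Continuous.aestronglyMeasurable (by fun_prop)).mul hf.1.norm)) ?_
  filter_upwards [Measure.ae_ne volume (hor x)] with y hy
  have a1 := h 2 two_pos le_rfl (hor x) (hor x) y (by rw [F9s_hor_hor]; simp) hy
  rw [F9s_hor_two] at a1
  simp only [abs_zero, add_zero, mul_zero, Real.exp_zero, mul_one] at a1
  have u0 := norm_nonneg (hor x - y)
  have a2 : |y 2| ≤ (1 + ‖hor x - y‖) ^ 3 := by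
    have b1 := F9s_two_le (hor x - y)
    have b2 : (hor x - y) 2 = -y 2 := by simp [F9s_hor_two]
    rw [b2, abs_neg] at b1
    exact (b1.trans (by linarith)).trans (le_self_pow₀ (by linarith) (by norm_num))
  rw [Real.norm_of_nonneg (by positivity), norm_mul, Real.norm_of_nonneg (Y1A.Yk_nonneg _ _),
    Real.norm_eq_abs, ← mul_assoc, ← mul_assoc]
  exact mul_le_mul_of_nonneg_right
    ((mul_le_mul_of_nonneg_left a2 (Real.exp_pos _).le).trans a1) (abs_nonneg _)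

theorem F9s_main : Lg fun o => ∀ c, ∃ ρ : ℝ, Sm o c fun m =>
    (∀ x, 0 < m.s x) ∧ (∀ x, |x 2| ≤ 1 → m.bt x ≤ o.L ^ 5 * m.s x) ∧
    ∀ x, ρ < ‖hor x‖ → m.s x + m.l * (1 + |x 2|) / jb x ^ 3 * m.J x ≤
      o.L ^ 6 * (1 + |x 2|) ^ 2 * Real.exp ((m.κ + 1 / o.ℓ) * |x 2|) * m.bt x := by
  obtain ⟨C1, hC1, h1⟩ := F9s_rep
  obtain ⟨Cf, hCf, h9f⟩ := F9f
  refine ((((F8.and F9c).and h9f).and F7c).and
    (Lg.ge (5600 * C1 + 1 + (72 * Cf + 1) * (C1 + 1)))).mono ?_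
  rintro o ho ⟨⟨⟨⟨h8, h9c⟩, h9f⟩, h7c⟩, hA⟩ c
  obtain ⟨d1, d2, d3, d4, d5, d6, d7⟩ := F9s_L ho
  obtain ⟨ρ1, h9c⟩ := h9c c
  obtain ⟨ρ2, h9f⟩ := h9f c
  obtain ⟨c7, hc7, h7c⟩ := h7c c
  obtain ⟨j, j1, j2, -, j4, -⟩ := exists_cutoff (0 : E) (r := o.d + 1) (s := 1) (by linarith)
    one_pos
  have hw : MemLp (fun y => vx o.d y * j y) 2 volume :=
    ((vx_facts o.d).2.2 j (Tst.h1 ⟨j1.of_le (by simp), j2⟩)).1
  set K1 : ℝ := 4 * o.d * c * Real.exp (16 * o.d) * volume.real (ball (0 : E) (4 * o.d)) with hK1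
  set K2 : ℝ := 2 * (c * Real.exp (5 * (o.d + 1))) * √(nsq fun y => vx o.d y * j y) with hK2
  refine ⟨max (max ρ1 ρ2) (max (K1 * o.Γ1 ^ 2 * Real.exp 2) (K2 * o.Γ1 ^ 2 * Real.exp 2)), ?_⟩
  refine (((((h8 c).and h9c).and h9f).and h7c).and ((num_kappa o ho c 1 one_pos).and
    (Sm.le o c (a := 1 / c7 ^ 2) (by positivity)))).mono ?_
  rintro m hm ⟨⟨⟨⟨h8, -, h9c⟩, h9f⟩, -, s0, hes⟩, ⟨-, -, k1, k2, -, k4, -, -, k7, -⟩, hl⟩
  obtain ⟨c0, sb, fb⟩ := F9s_bd hm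
  obtain ⟨l0, l1⟩ := hm.l0
  have δ0 := ho.δ.1
  have kk : 0 < m.κ + 1 / o.ℓ ∧ m.κ + 1 / o.ℓ ≤ 2 := ⟨by linarith, by linarith⟩
  have hr := h1 m.s m.f (m.κ + 1 / o.ℓ) (8 * o.ℓ) o.C0 m.l o.d c kk.1 kk.2 (by linarith)
    (by linarith) l0 l1 (by linarith) hm.ss.h1.l2 hm.sf.h1.l2 hm.cf.1 (fun y => (s0 y).le) fb
    (h8 _ le_rfl kk.2)
  refine ⟨s0, fun x hx => ?_, fun x hx => ?_⟩
  · refine ((hr x).2.1 hx).trans (mul_le_mul_of_nonneg_right ?_ (s0 x).le)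
    have a1 : 80 * C1 ≤ o.L := by nlinarith
    have a2 : 0 ≤ o.L ^ 4 := by positivity
    unfold OD.ℓ
    nlinarith
  have x1 : ρ1 ≤ ‖hor x‖ := (le_max_left _ _).trans ((le_max_left _ _).trans hx.le)
  have x2 : ρ2 ≤ ‖x‖ :=
    ((le_max_right _ _).trans ((le_max_left _ _).trans hx.le)).trans (F9s_hor_le x)
  have x3 : K1 * o.Γ1 ^ 2 * Real.exp 2 ≤ ‖hor x‖ :=
    (le_max_left _ _).trans ((le_max_right _ _).trans hx.le)
  have x4 : K2 * o.Γ1 ^ 2 * Real.exp 2 ≤ ‖hor x‖ :=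
    (le_max_right _ _).trans ((le_max_right _ _).trans hx.le)
  have Γ0 : 0 < o.Γ1 := Real.exp_pos _
  have bl : Real.exp (-(2 * ‖hor x‖ + 2)) / o.Γ1 ^ 2 ≤ m.bt x :=
    le_trans (div_le_div_of_nonneg_right (F9s_mm_low l0 (by linarith) (by linarith) _)
      (by positivity)) (h9c x x1).2.2.1
  have b0 : 0 ≤ m.bt x := le_trans (by positivity) bl
  have n1 := F9s_negl Γ0 x3 bl
  have n2 := F9s_negl Γ0 x4 bl
  have t1 := (jb_facts x).1
  have J0 : 0 ≤ m.J x := integral_nonneg fun y => by positivity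
  obtain ⟨hS, he⟩ := hm.ss.eq_YP (k := 8) (by norm_num) hm.cf.2.1
  have up := F9s_up (c := c) (A := c * Real.exp (5 * (o.d + 1)) * Real.exp (-(4 * ‖x‖)))
    (B := 72 * Cf * o.C0 * o.d ^ 3 * ((1 + |x 2|) * (m.l * m.J x / jb x ^ 3))) x hm.ss.h1.l2 hS hw
    (fun y => ⟨(s0 y).le, (le_abs_self _).trans (sb y)⟩) he (by positivity) (by positivity) (by
      filter_upwards [hes] with y hy
      have y0 := s0 y
      have y1 := (jb_facts y).1
      have e0 := Real.exp_pos (-(5 * ‖y - x‖))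
      have a1 : m.es y ≤ m.s y := by
        refine (le_abs_self _).trans (hy.trans (mul_le_of_le_one_left y0.le ?_))
        have b1 : √m.l ≤ 1 / c7 := Real.sqrt_le_iff.2 ⟨by positivity, by rw [div_pow, one_pow]; exact hl⟩
        rw [le_div_iff₀' (by linarith)] at b1
        exact b1
      have a2 : 0 ≤ (m.I + m.dt) * m.s y := mul_nonneg (by nlinarith [sq_nonneg m.κh]) y0.le
      have a3 : Real.exp (-(5 * ‖y - x‖)) * (-vx o.d y * m.s y) ≤
          2 * (Real.exp (-(5 * ‖y - x‖)) * m.s y) +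
            c * Real.exp (5 * (o.d + 1)) * Real.exp (-(4 * ‖x‖)) * |vx o.d y * j y| := by
        rcases le_total (o.d + 1) ‖y‖ with hb | hb
        · refine le_add_of_le_of_nonneg ?_ (by positivity)
          have := mul_le_mul_of_nonneg_left (mul_le_mul_of_nonneg_right
            (F9s_vx (by linarith) hb) y0.le) e0.le
          linarith
        · refine le_add_of_nonneg_of_le (by positivity) ?_
          rw [j4 y (by rwa [sub_zero]), mul_one]
          have b1 : Real.exp (-(5 * ‖y - x‖)) ≤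
              Real.exp (5 * (o.d + 1)) * Real.exp (-(4 * ‖x‖)) := by
            rw [← Real.exp_add]
            refine Real.exp_le_exp.2 ?_
            have := norm_sub_norm_le x y
            rw [norm_sub_rev] at this
            linarith [norm_nonneg (y - x)]
          have b2 : -vx o.d y * m.s y ≤ |vx o.d y| * c :=
            mul_le_mul (neg_le_abs _) ((le_abs_self _).trans (sb y)) y0.le (abs_nonneg _)
          refine ((mul_le_mul_of_nonneg_left b2 e0.le).trans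
            (mul_le_mul_of_nonneg_right b1 (by positivity))).trans_eq ?_
          ring
      have a4 : Real.exp (-(5 * ‖y - x‖)) * (m.l * o.U y * m.f y) ≤
          72 * Cf * o.C0 * o.d ^ 3 * ((1 + |x 2|) * (m.l * m.J x / jb x ^ 3)) := by
        have b1 : o.U y * m.f y ≤ o.C0 * o.d ^ 3 * (1 + |y 2|) / jb y ^ 3 *
            (Cf * Real.exp (4 * ‖y - x‖) * m.J x) := by
          refine (le_abs_self _).trans ?_
          rw [abs_mul]
          exact mul_le_mul (ho.U_up y) (h9f x x2 y) (abs_nonneg _) (by positivity)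
        have b2 := mul_le_mul_of_nonneg_left (F9s_dip (x := x) (y := y))
          (show 0 ≤ m.l * o.C0 * o.d ^ 3 * Cf * m.J x by positivity)
        calc Real.exp (-(5 * ‖y - x‖)) * (m.l * o.U y * m.f y)
            = Real.exp (-(5 * ‖y - x‖)) * m.l * (o.U y * m.f y) := by ring
          _ ≤ Real.exp (-(5 * ‖y - x‖)) * m.l * (o.C0 * o.d ^ 3 * (1 + |y 2|) / jb y ^ 3 *
            (Cf * Real.exp (4 * ‖y - x‖) * m.J x)) := by gcongr
          _ = m.l * o.C0 * o.d ^ 3 * Cf * m.J x * (Real.exp (-(5 * ‖y - x‖)) *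
            ((1 + |y 2|) / jb y ^ 3) * Real.exp (4 * ‖y - x‖)) := by ring
          _ ≤ _ := b2
          _ = _ := by ring
      have a5 := mul_le_mul_of_nonneg_left a1 e0.le
      have a6 := mul_nonneg e0.le a2
      change Real.exp (-(5 * ‖y - x‖)) * (-((vx o.d y + m.I + m.dt) * m.s y) +
        m.l * o.U y * m.f y + m.es y + 8 ^ 2 / 2 * m.s y) ≤ _
      nlinarith)
  have hP := (hr x).1
  have hT := (hr x).2.2
  have key := F9s_num (s := m.s x) (T := m.l * m.J x / jb x ^ 3) (b := m.bt x) (Z := 1 + |x 2|)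
    (W := (1 + |x 2|) * Real.exp ((m.κ + 1 / o.ℓ) * |x 2|)) (C1 := C1) (Cf := Cf) (C0 := o.C0)
    (d := o.d) (L := o.L) b0 (by linarith [abs_nonneg (x 2)])
    (one_le_mul_of_one_le_of_one_le (by linarith [abs_nonneg (x 2)])
      (Real.one_le_exp (mul_nonneg kk.1.le (abs_nonneg _)))) hC1 hCf.le (by linarith)
    (by linarith) d4 d2 (hA.trans d2) hP (hT.trans (add_le_add le_rfl n1))
    (up.trans (by rw [hK2] at n2; linarith))
  refine le_trans (le_of_eq ?_) (key.trans_eq ?_) <;> ring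

theorem F9s : ∃ N : ℕ, Lg fun o => ∀ c, ∃ ρ : ℝ, Sm o c fun m =>
    (∀ x ∈ Sl ρ, m.bt x / o.L ^ N ≤ m.s x ∧ m.s x ≤ o.L ^ N * m.bt x ∧
      m.l * m.Dt x / jb x ^ 3 ≤ o.L ^ N * m.bt x) ∧
    ∀ x, ρ < ‖hor x‖ → m.s x + m.l * (1 + |x 2|) / jb x ^ 3 * m.J x ≤
      o.L ^ N * (1 + |x 2|) ^ 2 * Real.exp ((m.κ + 1 / o.ℓ) * |x 2|) * m.bt x := by
  refine ⟨7, F9s_main.mono fun o ho h c => ?_⟩
  obtain ⟨d1, d2, d3, d4, d5, d6, d7⟩ := F9s_L ho
  obtain ⟨ρ, h⟩ := h c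
  refine ⟨ρ, (h.and (num_kappa o ho c 1 one_pos)).mono ?_⟩
  rintro m hm ⟨⟨s0, h1, h2⟩, -, -, k1, k2, -, -, -, -, k7, -⟩
  obtain ⟨l0, l1⟩ := hm.l0
  have δ0 := ho.δ.1
  have L1 : 1 ≤ o.L := by linarith
  have b0 : ∀ x, 0 ≤ m.bt x := fun x =>
    integral_nonneg fun y => mul_nonneg (Real.exp_pos _).le (s0 y).le
  have J0 : ∀ x, 0 ≤ m.J x := fun x => integral_nonneg fun y => by positivity
  have l6 : o.L ^ 6 ≤ o.L ^ 7 := pow_le_pow_right₀ L1 (by norm_num)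
  refine ⟨fun x hx => ⟨?_, ?_, ?_⟩, fun x hx => (h2 x hx).trans ?_⟩
  · rw [div_le_iff₀' (by positivity)]
    exact (h1 x hx.1.le).trans (mul_le_mul_of_nonneg_right (pow_le_pow_right₀ L1 (by norm_num))
      (s0 x).le)
  · have t1 := (jb_facts x).1
    have a0 := J0 x
    refine (le_add_of_nonneg_right (by positivity)).trans ((h2 x hx.2).trans
      (mul_le_mul_of_nonneg_right ?_ (b0 x)))
    have z0 := abs_nonneg (x 2)
    have z1 : |x 2| < 1 := hx.1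
    have a1 : (1 + |x 2|) ^ 2 ≤ 4 := by nlinarith
    have a2 : Real.exp ((m.κ + 1 / o.ℓ) * |x 2|) ≤ 9 := by
      refine (Real.exp_le_exp.2 (show _ ≤ (1 : ℝ) + 1 by nlinarith)).trans ?_
      rw [Real.exp_add]
      nlinarith [Real.exp_one_lt_d9, Real.exp_pos 1]
    calc o.L ^ 6 * (1 + |x 2|) ^ 2 * Real.exp ((m.κ + 1 / o.ℓ) * |x 2|)
        ≤ o.L ^ 6 * 4 * 9 := by gcongr
      _ = o.L ^ 6 * 36 := by ring
      _ ≤ o.L ^ 6 * o.L := by gcongr; linarith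
      _ = _ := by ring
  · have a1 := h2 (hor x) (by rw [F9s_hor_hor]; exact hx.2)
    have e : m.bt (hor x) = m.bt x := by simp only [MD.bt, F9s_hor_hor]
    rw [F9s_hor_two, e] at a1
    simp only [abs_zero, add_zero, mul_zero, Real.exp_zero, mul_one, one_pow] at a1
    have t1 := (jb_facts (hor x)).1
    have t2 := (jb_facts x).2.2.2.2.2.1
    have a2 : m.Dt x ≤ m.J (hor x) := by
      refine integral_mono_of_nonneg (.of_forall fun y => by positivity)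
        (F9s_int_J hm.sf.h1.l2 x) (.of_forall fun y => ?_)
      refine mul_le_mul_of_nonneg_right (Real.exp_le_exp.2 ?_) (by positivity)
      linarith [(jb_facts (hor x - y)).2.1]
    have a3 : m.l * m.Dt x / jb x ^ 3 ≤ m.l / jb (hor x) ^ 3 * m.J (hor x) := by
      rw [div_mul_eq_mul_div]
      have := J0 (hor x)
      gcongr
    have a4 := mul_le_mul_of_nonneg_right l6 (b0 x)
    linarith [s0 (hor x)]
  · have := b0 x
    gcongr

theorem F10_cmp {m : MD} (l0 : 0 < m.l) (k1 : 99 / 100 ≤ m.κ) (k2 : m.κ ≤ m.κh) (x : E) :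
    m.mm x ≤ (1 + |x 2|) ^ 3 * m.mm (hor x) ∧
      m.l / jb x ^ 3 * m.Dm x ≤ m.mm (hor x) := by
  have t0 := (jb_facts (hor x)).1
  have t1 := (jb_facts x).2.2.2.2.2.1
  have z0 := abs_nonneg (x 2)
  have t2 : jb x ≤ jb (hor x) * (1 + |x 2|) := by
    have := (abs_le.1 ((jb_facts x).2.2.2.2.2.2 (hor x))).2
    rw [F9s_sub_hor] at this
    nlinarith
  have p0 := F9s_rad_pos (2 / m.κh - 1) m.κh (hor x)
  have p1 := F9s_rad_pos ((2 - 2 * m.l) / m.κ - 2) m.κ (hor x)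
  have e : m.mm (hor x) = m.mh (hor x) + m.l / jb (hor x) ^ 3 * m.Dm (hor x) := by
    simp only [MD.mm, F9s_hor_two]
    ring
  have a1 : m.mh x ≤ (1 + |x 2|) ^ 3 * m.mh (hor x) := by
    simp only [MD.mh, rad, radb, zero_div, add_zero]
    have b0 : 2 / m.κh - 1 ≤ 3 := by
      rw [sub_le_iff_le_add, div_le_iff₀ (by linarith)]
      linarith
    have b1 : jb x ^ (2 / m.κh - 1) ≤ (1 + |x 2|) ^ 3 * jb (hor x) ^ (2 / m.κh - 1) := by
      rcases le_total (2 / m.κh - 1) 0 with h | h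
      · exact (Real.rpow_le_rpow_of_nonpos (by linarith) t1 h).trans
          (le_mul_of_one_le_left (by positivity) (one_le_pow₀ (by linarith)))
      · refine (Real.rpow_le_rpow (by linarith) t2 h).trans ?_
        rw [Real.mul_rpow (by linarith) (by linarith), mul_comm]
        refine mul_le_mul_of_nonneg_right ?_ (by positivity)
        rw [← Real.rpow_natCast]
        exact Real.rpow_le_rpow_of_exponent_le (by linarith) (by exact_mod_cast b0)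
    rw [← mul_assoc]
    refine mul_le_mul b1 (Real.exp_le_exp.2 ?_) (Real.exp_pos _).le (by positivity)
    nlinarith
  have a2 : m.l / jb x ^ 3 * m.Dm x ≤ m.l / jb (hor x) ^ 3 * m.Dm (hor x) := by
    have b0 : ∀ y, m.l / jb y ^ 3 * m.Dm y =
        m.l * (jb y ^ ((2 - 2 * m.l) / m.κ - 2 - 3) * Real.exp (-(m.κ * jb y))) := fun y => by
      have := (jb_facts y).1
      simp only [MD.Dm, rad, radb, zero_div, add_zero]
      rw [Real.rpow_sub (by linarith) _ 3, Real.rpow_ofNat]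
      ring
    rw [b0, b0]
    refine mul_le_mul_of_nonneg_left (mul_le_mul (Real.rpow_le_rpow_of_nonpos (by linarith) t1 ?_)
      (Real.exp_le_exp.2 (by nlinarith)) (Real.exp_pos _).le (by positivity)) l0.le
    have : (2 - 2 * m.l) / m.κ ≤ 5 := by
      rw [div_le_iff₀ (by linarith)]
      linarith
    linarith
  have q0 : 0 < m.mh (hor x) := p0
  have q1 : 0 < m.Dm (hor x) := p1
  refine ⟨?_, by rw [e]; linarith⟩
  have a3 : 1 + x 2 ^ 2 ≤ (1 + |x 2|) ^ 3 := by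
    rw [← sq_abs]
    nlinarith [pow_nonneg z0 3]
  have a4 : m.l * (1 + x 2 ^ 2) / jb x ^ 3 * m.Dm x ≤
      (1 + |x 2|) ^ 3 * (m.l / jb (hor x) ^ 3 * m.Dm (hor x)) := by
    refine le_trans (le_of_eq (by ring)) (mul_le_mul a3 a2 ?_ (by positivity))
    have := F9s_rad_pos ((2 - 2 * m.l) / m.κ - 2) m.κ x
    have : 0 < jb x := by linarith
    unfold MD.Dm
    positivity
  rw [e, MD.mm]
  linarith

theorem F10_num {L z k : ℝ} (hL : 100 ≤ L) (hz : 10 * L ^ 4 ≤ z) (hk : 98 / 100 ≤ k) :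
    2 * Real.exp (L ^ 4) ^ 3 * (1 + z) ^ 4 * Real.exp (-(k * z)) ≤ L ^ 2 := by
  have l0 : 0 ≤ L ^ 4 := by positivity
  have z0 : 0 ≤ z := by linarith
  have a1 := F9s_pow4 (u := (1 + z) / 2) (by linarith)
  have a2 : (1 + z) ^ 4 ≤ 384 * Real.exp ((1 + z) / 2) := by
    rw [div_pow] at a1
    linarith
  have a3 : Real.exp (L ^ 4) ^ 3 * Real.exp ((1 + z) / 2) * Real.exp (-(k * z)) ≤ Real.exp 1 := by
    rw [← Real.exp_nat_mul, ← Real.exp_add, ← Real.exp_add]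
    refine Real.exp_le_exp.2 ?_
    push_cast
    nlinarith
  calc 2 * Real.exp (L ^ 4) ^ 3 * (1 + z) ^ 4 * Real.exp (-(k * z))
      ≤ 2 * Real.exp (L ^ 4) ^ 3 * (384 * Real.exp ((1 + z) / 2)) * Real.exp (-(k * z)) := by
        gcongr
    _ = 768 * (Real.exp (L ^ 4) ^ 3 * Real.exp ((1 + z) / 2) * Real.exp (-(k * z))) := by ring
    _ ≤ L ^ 2 := by nlinarith [Real.exp_one_lt_d9]

theorem F10 : ∃ N : ℕ, Lg fun o => ∀ c a : ℝ, 0 < a → ∃ ρ : ℝ, Sm o c fun m => G6 o c a m →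
    ∀ᵐ x, ρ < ‖hor x‖ → (m.Gt a x + m.l * (1 + |x 2|) / jb x ^ 3 * |m.f x|) *
      Real.exp (-((m.κ - 1 / o.ℓ) * |x 2|)) ≤ o.L ^ N * m.bt x / (1 + |x 2|) := by
  obtain ⟨Cf, hCf, h9f⟩ := F9f
  refine ⟨22, (((((((F9s_main.and F9c).and h9f).and F7b).and F7d).and F3).and
    (num_good 0 30)).and (Lg.ge ((2 + Cf) * 9 * 11 ^ 3))).mono ?_⟩
  rintro o ho ⟨⟨⟨⟨⟨⟨⟨h9, h9c⟩, h9f⟩, h7b⟩, h7d⟩, h3⟩, -, -, hδ, hΓ⟩, hA⟩ c a ha
  obtain ⟨d1, d2, d3, d4, d5, d6, d7⟩ := F9s_L ho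
  obtain ⟨ρ0, h9⟩ := h9 c
  obtain ⟨ρ1, h9c⟩ := h9c c
  obtain ⟨ρ2, h9f⟩ := h9f c
  refine ⟨max (max ρ0 ρ1) (max ρ2 o.R0), ?_⟩
  refine ((((((h9.and h9c).and h9f).and (h7b c a ha)).and (h7d c a ha)).and (h3 c)).and
    (num_kappa o ho c 1 one_pos)).mono ?_
  rintro m hm ⟨⟨⟨⟨⟨⟨⟨s0, -, h9⟩, -, h9c⟩, h9f⟩, h7b⟩, h7d⟩, h3⟩,
    -, -, k1, k2, -, -, -, -, k7, -⟩ hG
  obtain ⟨l0, l1⟩ := hm.l0
  have δ0 := ho.δ.1
  have L1 : 1 ≤ o.L := by linarith
  filter_upwards [h7b hG, h7d hG] with x hb hd hx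
  have x0 : ρ0 < ‖hor x‖ := ((le_max_left _ _).trans (le_max_left _ _)).trans_lt hx
  have x1 : ρ1 ≤ ‖hor x‖ := (le_max_right _ _).trans ((le_max_left _ _).trans hx.le)
  have x2 : ρ2 ≤ ‖x‖ :=
    ((le_max_left _ _).trans ((le_max_right _ _).trans hx.le)).trans (F9s_hor_le x)
  have x3 : o.R0 < ‖x‖ :=
    (((le_max_right _ _).trans (le_max_right _ _)).trans_lt hx).trans_le (F9s_hor_le x)
  have b0 : 0 ≤ m.bt x := integral_nonneg fun y => mul_nonneg (Real.exp_pos _).le (s0 y).le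
  have J0 : 0 ≤ m.J x := integral_nonneg fun y => by positivity
  have z0 := abs_nonneg (x 2)
  have t1 := (jb_facts x).1
  have sx := s0 x
  rw [le_div_iff₀ (by linarith)]
  rcases le_total |x 2| o.ℓ with hz | hz
  · have a1 : |m.f x| ≤ Cf * m.J x := by simpa using h9f x x2 x
    have a2 : m.Gt a x + m.l * (1 + |x 2|) / jb x ^ 3 * |m.f x| ≤
        (2 + Cf) * o.L ^ 3 * (m.s x + m.l * (1 + |x 2|) / jb x ^ 3 * m.J x) := by
      have b1 : o.d ^ 3 ≤ o.L ^ 3 := by gcongr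
      have b2 : 1 ≤ o.L ^ 3 := one_le_pow₀ L1
      have b3 : 0 ≤ m.l * (1 + |x 2|) / jb x ^ 3 := by positivity
      have b4 := mul_le_mul_of_nonneg_left a1 b3
      have b5 := mul_le_mul_of_nonneg_right b1 sx.le
      have b6 := mul_nonneg b3 J0
      have b7 := mul_le_mul_of_nonneg_right b2 (mul_nonneg hCf.le b6)
      have b8 : 0 ≤ Cf * o.L ^ 3 * m.s x := by positivity
      have b9 : 0 ≤ o.L ^ 3 * (m.l * (1 + |x 2|) / jb x ^ 3 * m.J x) := by positivity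
      nlinarith [hd x3]
    have a3 : Real.exp ((m.κ + 1 / o.ℓ) * |x 2|) * Real.exp (-((m.κ - 1 / o.ℓ) * |x 2|)) ≤ 9 := by
      rw [← Real.exp_add]
      have b1 : 1 / o.ℓ * |x 2| ≤ 1 := by
        rw [one_div, inv_mul_le_iff₀ (by linarith)]
        linarith
      refine (Real.exp_le_exp.2 (show _ ≤ (1 : ℝ) + 1 by linarith)).trans ?_
      rw [Real.exp_add]
      nlinarith [Real.exp_one_lt_d9, Real.exp_pos 1]
    have a4 : 1 + |x 2| ≤ 11 * o.L ^ 4 := by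
      have : 1 ≤ o.L ^ 4 := one_le_pow₀ L1
      unfold OD.ℓ at hz
      linarith
    calc (m.Gt a x + m.l * (1 + |x 2|) / jb x ^ 3 * |m.f x|) *
          Real.exp (-((m.κ - 1 / o.ℓ) * |x 2|)) * (1 + |x 2|)
        ≤ (2 + Cf) * o.L ^ 3 * (o.L ^ 6 * (1 + |x 2|) ^ 2 *
            Real.exp ((m.κ + 1 / o.ℓ) * |x 2|) * m.bt x) *
          Real.exp (-((m.κ - 1 / o.ℓ) * |x 2|)) * (1 + |x 2|) := by
          gcongr
          exact a2.trans (mul_le_mul_of_nonneg_left (h9 x x0) (by positivity))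
      _ = (2 + Cf) * o.L ^ 9 * (1 + |x 2|) ^ 3 * (Real.exp ((m.κ + 1 / o.ℓ) * |x 2|) *
          Real.exp (-((m.κ - 1 / o.ℓ) * |x 2|))) * m.bt x := by ring
      _ ≤ (2 + Cf) * o.L ^ 9 * (11 * o.L ^ 4) ^ 3 * 9 * m.bt x := by gcongr
      _ = (2 + Cf) * 9 * 11 ^ 3 * o.L ^ 21 * m.bt x := by ring
      _ ≤ o.L * o.L ^ 21 * m.bt x := by gcongr; exact hA.trans d2
      _ = _ := by ring
  · obtain ⟨c1, c2⟩ := F10_cmp l0 k1 (by linarith) x
    have Γ0 : 1 ≤ o.Γ0 := Real.one_le_exp (by positivity)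
    have Γ1 : 0 < o.Γ1 := Real.exp_pos _
    have g1 : 30 * o.Γ0 ≤ o.Γ1 := by
      refine le_trans (mul_le_mul_of_nonneg_left ?_ (by norm_num)) hΓ
      have b1 : o.Γ0 ≤ o.d * o.Γ0 / o.δ0 := by
        rw [le_div_iff₀ δ0]
        simp only [pow_zero, mul_one] at hδ
        nlinarith
      exact b1.trans (le_self_pow₀ (Γ0.trans b1) (by norm_num))
    have D0 : 0 < m.Dm x := F9s_rad_pos _ _ x
    have a1 : |m.f x| ≤ o.Γ1 * (|x 2| * m.Dm x) := by
      refine le_trans ?_ (mul_le_mul_of_nonneg_right g1 (by positivity))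
      rcases le_total 0 (x 2) with h | h
      · obtain ⟨b1, b2⟩ := h3 x h x3.le
        rw [abs_of_nonneg h, abs_of_nonneg (le_trans (by positivity) b1)]
        exact b2
      · have hR : 0 ≤ R x 2 := by rw [R_two]; linarith
        obtain ⟨b1, b2⟩ := h3 (R x) hR (by rw [norm_R]; exact x3.le)
        have e : m.Dm (R x) = m.Dm x := (radb_facts _ _ _ x).2.1
        rw [e] at b1 b2
        have b3 : 0 ≤ m.f (R x) := le_trans (by positivity) b1
        rw [hm.cf.2.2] at b2 b3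
        rw [R_two] at b2
        rw [abs_of_nonpos h, abs_of_nonpos (by linarith)]
        exact b2
    have m0 : 0 ≤ m.mm (hor x) := le_trans (by positivity) c2
    have a2 : m.l * (1 + |x 2|) / jb x ^ 3 * |m.f x| ≤
        o.Γ1 * ((1 + |x 2|) ^ 3 * m.mm (hor x)) := by
      have b1 : (1 + |x 2|) * |x 2| ≤ (1 + |x 2|) ^ 3 := by nlinarith [pow_nonneg z0 3]
      calc m.l * (1 + |x 2|) / jb x ^ 3 * |m.f x|
          ≤ m.l * (1 + |x 2|) / jb x ^ 3 * (o.Γ1 * (|x 2| * m.Dm x)) := by gcongr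
        _ = o.Γ1 * ((1 + |x 2|) * |x 2| * (m.l / jb x ^ 3 * m.Dm x)) := by ring
        _ ≤ _ := by gcongr
    have a3 := (hb x3).trans (mul_le_mul_of_nonneg_left c1 Γ1.le)
    have a4 : m.mm (hor x) ≤ o.Γ1 ^ 2 * m.bt x := by
      have := (h9c x x1).2.2.1
      rwa [div_le_iff₀' (by positivity)] at this
    have a5 := F10_num (L := o.L) (z := |x 2|) (k := m.κ - 1 / o.ℓ) (by linarith) hz (by linarith)
    calc (m.Gt a x + m.l * (1 + |x 2|) / jb x ^ 3 * |m.f x|) *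
          Real.exp (-((m.κ - 1 / o.ℓ) * |x 2|)) * (1 + |x 2|)
        ≤ 2 * (o.Γ1 * ((1 + |x 2|) ^ 3 * m.mm (hor x))) *
          Real.exp (-((m.κ - 1 / o.ℓ) * |x 2|)) * (1 + |x 2|) := by
          gcongr
          linarith
      _ ≤ 2 * (o.Γ1 * ((1 + |x 2|) ^ 3 * (o.Γ1 ^ 2 * m.bt x))) *
          Real.exp (-((m.κ - 1 / o.ℓ) * |x 2|)) * (1 + |x 2|) := by gcongr
      _ = 2 * o.Γ1 ^ 3 * (1 + |x 2|) ^ 4 * Real.exp (-((m.κ - 1 / o.ℓ) * |x 2|)) * m.bt x := by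
          ring
      _ ≤ o.L ^ 2 * m.bt x := mul_le_mul_of_nonneg_right a5 b0
      _ ≤ _ := mul_le_mul_of_nonneg_right (pow_le_pow_right₀ L1 (by norm_num)) b0

end

end Crest.Agent.R335
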