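import Crest.Agent.R335.F11Aux1
import Crest.Agent.R335.F9s
import Crest.Agent.R335.S11
import Crest.Agent.R335.S02
import Crest.Agent.R335.F11aAux2

set_option autoImplicit false

open MeasureTheory Set Filter Topology Metric
open scoped Gradient ContDiff RealInnerProductSpace ENNReal

namespace Crest.Agent.R335

noncomputable section

set_option maxHeartbeats 1600000 in
theorem F11a : ∃ N : ℕ, Lg fun o => ∀ c a : ℝ, 0 < a → ∃ ρ : ℝ, Sm o c fun m => G6 o c a m →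
    ∀ (w : E → ℝ) (ρ' : ℝ), ContDiff ℝ 1 w → (∀ x, w (hor x) = w x) →
      (∀ x, w x ≠ 0 → ρ ≤ ‖hor x‖ ∧ ‖hor x‖ ≤ ρ') →
      ∫ x in {x : E | |x 2| < 1}, (m.bt x * w x) ^ 2 ≤
        o.L ^ N * ∫ x in {x : E | |x 2| < 1}, m.bt x ^ 2 * ‖∇ w x‖ ^ 2 := by
  obtain ⟨N₁, h1⟩ := F9s
  obtain ⟨N₂, h2⟩ := F10
  obtain ⟨CK, -, hK⟩ := Kb_reg
  refine ⟨2 * N₁ + 2 * N₂ + 21, ((((((h1.and h2).and F7e).and F7c).and F2).and
    (num_good 0 3000000000))).mono ?_⟩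
  rintro o ho ⟨⟨⟨⟨⟨h1, h2⟩, h3⟩, h4⟩, h5⟩, hd, hL, -⟩ c a ha
  obtain ⟨ρ₁, h1⟩ := h1 c
  obtain ⟨ρ₂, h2⟩ := h2 c a ha
  obtain ⟨c7, -, h3⟩ := h3 c
  obtain ⟨c8, -, h4⟩ := h4 c
  obtain ⟨c2, hc2, h5⟩ := h5 c
  have L0 : 3000000000 ≤ o.L := hd.trans hL
  have l0 : 100 ≤ o.ℓ := by
    have : o.L ≤ o.L ^ 4 := le_self_pow₀ (by linarith) (by norm_num)
    unfold OD.ℓ
    linarith
  have hC0 := ho.C0
  have Γ0 : 0 < o.Γ1 := Real.exp_pos _
  set μ := 1 / o.ℓ with hμ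
  have μ0 : 0 < μ := by positivity
  have μ1 : μ ≤ 1 / 100 := one_div_le_one_div_of_le (by norm_num) l0
  set ρ := max (max (ρ₁ + 1) (ρ₂ + 1)) (max (o.R0 + 1) (300 * o.ℓ)) with hρ
  have r1 : ρ₁ < ρ := (lt_add_one _).trans_le ((le_max_left _ _).trans (le_max_left _ _))
  have r2 : ρ₂ < ρ := (lt_add_one _).trans_le ((le_max_right _ _).trans (le_max_left _ _))
  have r3 : o.R0 < ρ := (lt_add_one _).trans_le ((le_max_left _ _).trans (le_max_right _ _))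
  have r4 : 300 * o.ℓ ≤ ρ := (le_max_right _ _).trans (le_max_right _ _)
  have r0 : 0 < ρ := by linarith
  have r5 : 3 / ρ ≤ μ / 100 := by
    rw [hμ, div_div, div_le_div_iff₀ r0 (by positivity)]
    linarith
  refine ⟨ρ, ((((((((h1.and h2).and h3).and h4).and h5).and (num_kappa o ho c 1 one_pos)).and
    (F11_sm o c c (show 0 < μ / 100 by positivity))).and
    (F11_sm o c (c7 * o.Γ1) (show 0 < μ / 8 by positivity))).and
    (F11_sm o c (8 * (o.C0 * o.d) * (c2 * o.Γ1)) (show 0 < μ ^ 2 by positivity))).mono ?_⟩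
  rintro m hm ⟨⟨⟨⟨⟨⟨⟨⟨h1, h2⟩, h3⟩, h4⟩, h5⟩, -, -, k1, k2, k3, -, k5, -, k7, -⟩, s1⟩, s2⟩, s3⟩
    hG w ρ' hw hwl hws
  have δ0 := ho.δ.1
  obtain ⟨ml0, ml1⟩ := hm.l0
  have sl : m.l ≤ √m.l := Real.le_sqrt_of_sq_le (by nlinarith)
  have c0 : 0 ≤ c := by
    have := (abs_nonneg _).trans hm.num.1
    exact nonneg_of_mul_nonneg_left this ml0
  have cd0 : 0 ≤ o.C0 * o.d := by nlinarith [hC0.1, hC0.2.2]
  have G0 : ∀ x, 0 ≤ m.Gt a x := fun x => (hG.reg.2.2.2.1 x).le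
  have nx : ∀ x : E, ρ ≤ ‖hor x‖ → ρ ≤ ‖x‖ := fun x hx => hx.trans (F0d.norm_hor_le x)
  have hv : ∀ x, ρ ≤ ‖hor x‖ → -(μ / 100) ≤ o.v x := fun x hx => by
    have := F11_v (d := o.d) r0 hx
    have e : 2 / ρ ≤ 3 / ρ := div_le_div_of_nonneg_right (by norm_num) r0.le
    exact le_trans (by linarith) this
  have sG : ∀ᵐ x, m.s x ≤ m.Gt a x := by
    filter_upwards [hm.pyth] with x hx
    refine (le_abs_self _).trans (hx.2.2.trans (Real.le_sqrt_of_sq_le ?_))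
    nlinarith [sq_nonneg (m.τ a x)]
  have mG : ∀ᵐ x, ρ ≤ ‖hor x‖ → m.mm x ≤ o.Γ1 * m.Gt a x := by
    filter_upwards [sG] with x hx h
    have := h4.1 x (r3.le.trans (nx x h))
    rw [div_le_iff₀ Γ0] at this
    nlinarith
  obtain ⟨b1, b2⟩ := hK m.s hm.cf.2.1.aestronglyMeasurable (fun x => (h4.2.1 x).le) ⟨c, by
      filter_upwards [hm.pyth, hm.bd] with x hx hb
      have a1 : m.G x ≤ m.r x := by
        refine abs_le_of_sq_le_sq' ?_ (hm.nn x).1 |>.2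
        nlinarith [sq_nonneg (m.n x), sq_nonneg (m.f x), hx.1, hx.2.1]
      have a2 : c ≤ c * jb x := le_mul_of_one_le_right c0 (jb_facts x).1
      linarith [le_abs_self (m.s x), hx.2.2, hb.1]⟩
    (fun h => by
      obtain ⟨x, hx⟩ := h.exists
      exact (h4.2.1 x).ne' hx)
  have cj := jb_smooth.continuous
  have j0 : ∀ x, jb x ≠ 0 := fun x => by linarith [(jb_facts x).1]
  refine le_trans (F11_main (b := m.bt) (e := fun x => |m.ef x|) (Cd := o.C0 * o.d) (l := m.l)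
    (θ := c2 * m.l * o.Γ1) (C := m.I + m.dt) (Λ₁ := o.L ^ N₁) (Λ₂ := o.L ^ N₂) μ0 μ1 k1
    (by linarith) ml0.le ml1 ?_ hG.sub hG.reg.1.lb G0 hG.reg.2.2.2.2 ?_ hm.sf hw hwl hws
    (fun x hx => r3.trans_le (nx x hx)) b1.continuous (fun x => (b2 x).2.1) ?_ ?_ ?_ ?_ ?_) ?_
  · have a1 : 8 * (o.C0 * o.d) * (c2 * o.Γ1) * m.l ≤ μ ^ 2 :=
      (mul_le_mul_of_nonneg_left sl (by positivity)).trans s3
    have a2 := pow_le_pow_left₀ (by positivity) a1 2
    linarith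
  · have m1 : AEStronglyMeasurable o.v volume := (vx_facts o.d).1.aestronglyMeasurable
    have m2 : Continuous fun x : E => m.l * (o.C0 * o.d * |x 2| / jb x ^ 3 +
        c * Real.exp (-(‖x‖ / 8))) * |m.f x| :=
      (continuous_const.mul (((continuous_const.mul S07.cont_two.abs).div (cj.pow 3)
        fun x => pow_ne_zero 3 (j0 x)).add (by fun_prop))).mul hm.cf.1.abs
    have m3 : Continuous fun x : E => c * m.l * |x 2| / jb x ^ 2 :=
      (continuous_const.mul S07.cont_two.abs).div (cj.pow 2) fun x => pow_ne_zero 2 (j0 x)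
    exact ((((m1.add aestronglyMeasurable_const).add aestronglyMeasurable_const).sub
      aestronglyMeasurable_const).mul hG.reg.1.hl.aesm).neg.add
      (m2.aestronglyMeasurable.add (m3.aestronglyMeasurable.mul hm.h1.2.2.1.hl.aesm))
  · filter_upwards [h3, mG] with x hx hx2 h
    have jp : 0 < jb x := by linarith [(jb_facts x).1]
    have n0 := (hm.nn x).2.2.1
    have v0 : o.v x ≤ 0 := ((vx_facts o.d).2.1 x).1
    have a1 : 0 ≤ m.l * (o.C0 * o.d * |x 2| / jb x ^ 3) * |m.f x| := by positivity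
    have a2 : 0 ≤ m.l * (c * Real.exp (-(‖x‖ / 8))) * |m.f x| := by positivity
    have a3 : 0 ≤ c * m.l * |x 2| / jb x ^ 2 * m.n x := by positivity
    have a4 : 0 ≤ c * m.l * ((1 + |x 2|) / jb x ^ 3 * (m.n x + √m.l * |m.f x|)) := by positivity
    have a5 : 0 ≤ (c * m.l - o.v x) * m.Gt a x := mul_nonneg (by nlinarith) (G0 x)
    have a6 : c * m.l ≤ μ / 100 := (mul_le_mul_of_nonneg_left sl c0).trans s1
    have a7 : 0 ≤ (o.v x + m.dt - c * m.l + μ / 50) * m.Gt a x :=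
      mul_nonneg (by linarith [hv x h]) (G0 x)
    have a8 : m.l * (o.C0 * o.d * |x 2| / jb x ^ 3) * |m.f x| ≤
        o.C0 * o.d * (m.l * F11z x / jb x ^ 3 * |m.f x|) := by
      have := (F11z_facts x).2.1
      calc _ = o.C0 * o.d * (m.l * |x 2| / jb x ^ 3 * |m.f x|) := by ring
        _ ≤ _ := by gcongr
    have mm0 : 0 ≤ m.mm x := by
      have := (radb_facts (2 / m.κh - 1) m.κh 0 x).1
      have := (radb_facts ((2 - 2 * m.l) / m.κ - 2) m.κ 0 x).1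
      unfold MD.mm MD.mh MD.Dm
      positivity
    have a9 : c7 * √m.l * m.mm x ≤ μ / 8 * m.Gt a x := by
      by_cases h7 : 0 ≤ c7
      · calc c7 * √m.l * m.mm x ≤ c7 * √m.l * (o.Γ1 * m.Gt a x) :=
              mul_le_mul_of_nonneg_left (hx2 h) (by positivity)
          _ = c7 * o.Γ1 * √m.l * m.Gt a x := by ring
          _ ≤ _ := mul_le_mul_of_nonneg_right s2 (G0 x)
      · have : c7 * (√m.l * m.mm x) ≤ 0 :=
          mul_nonpos_of_nonpos_of_nonneg (not_le.1 h7).le (by positivity)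
        have : 0 ≤ μ / 8 * m.Gt a x := mul_nonneg (by positivity) (G0 x)
        linarith
    rw [k3]
    constructor
    · linarith
    · linarith
  · filter_upwards [h5.2, mG] with x hx hx2 h
    have jp := (jb_facts x).1
    constructor
    · have a1 : 0 ≤ (o.v x + m.l * m.w x + μ / 50) * m.f x ^ 2 :=
        mul_nonneg (by nlinarith [hv x h, (hm.w_bd x).1]) (sq_nonneg _)
      have a2 : m.ef x * m.f x ≤ |m.ef x| * |m.f x| := by rw [← abs_mul]; exact le_abs_self _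
      rw [k3]
      linarith
    · have p1 := (radb_facts (2 / m.κh - 1) m.κh 0 x).1
      have p2 : 0 < m.Dm x := (radb_facts ((2 - 2 * m.l) / m.κ - 2) m.κ 0 x).1
      obtain ⟨z1, -, -, z4, -⟩ := F11z_facts x
      have a1 : F11z x / jb x ^ 2 ≤ 1 + x 2 ^ 2 := by
        have : F11z x / jb x ^ 2 ≤ 1 := by
          rw [div_le_one (by positivity)]
          nlinarith
        nlinarith [sq_nonneg (x 2)]
      have a2 : m.l * (1 + x 2 ^ 2) / jb x ^ 3 * m.Dm x ≤ m.mm x := by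
        unfold MD.mm MD.mh
        linarith
      calc m.l * F11z x / jb x ^ 3 * |m.ef x|
          ≤ m.l * F11z x / jb x ^ 3 * (c2 * m.l / jb x ^ 2 * m.Dm x) :=
            mul_le_mul_of_nonneg_left hx.2 (by positivity)
        _ = c2 * m.l * (m.l * (F11z x / jb x ^ 2) / jb x ^ 3 * m.Dm x) := by ring
        _ ≤ c2 * m.l * (m.l * (1 + x 2 ^ 2) / jb x ^ 3 * m.Dm x) := by gcongr
        _ ≤ c2 * m.l * (o.Γ1 * m.Gt a x) :=
            mul_le_mul_of_nonneg_left (a2.trans (hx2 h)) (by positivity)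
        _ = _ := by ring
  · intro x hx
    exact le_trans (div_le_div_of_nonneg_left (by norm_num) r0
      ((nx x hx).trans (jb_facts x).2.1)) r5
  · filter_upwards [h2 hG] with x hx h
    exact hx (r2.trans_le h)
  · filter_upwards [sG] with x hx h hz
    have a1 := (h1.1 x ⟨hz, r1.trans_le h⟩).1
    have a2 : 0 < m.bt x := (b2 x).1
    have a3 : 0 < o.L ^ N₁ := by positivity
    rw [div_le_iff₀ a3] at a1
    rw [abs_of_pos a2]
    nlinarith
  · refine mul_le_mul_of_nonneg_right (F11_const L0 cd0 ?_ N₁ N₂)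
      (integral_nonneg fun x => by positivity)
    nlinarith [hC0.1, hC0.2.2]
theorem F11b {b : E → ℝ} {Λ ρ : ℝ} (hb : Continuous b) (hl : ∀ x, b (hor x) = b x) (hΛ : 0 ≤ Λ)
    (h : ∀ (w : E → ℝ) (ρ' : ℝ), ContDiff ℝ 1 w → (∀ x, w (hor x) = w x) →
      (∀ x, w x ≠ 0 → ρ ≤ ‖hor x‖ ∧ ‖hor x‖ ≤ ρ') →
      ∫ x in {x : E | |x 2| < 1}, (b x * w x) ^ 2 ≤ Λ * ∫ x in {x : E | |x 2| < 1}, b x ^ 2 * ‖∇ w x‖ ^ 2)
    {ℓ : ℝ} (h0 : 0 < ℓ) (h1 : ℓ ≤ 1) {w : E → ℝ} (hw : TF {x | ρ + 2 < ‖x‖} w) :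
    ∫ x in {x : E | |x 2| < ℓ}, (b x * w x) ^ 2 ≤
      Λ * ∫ x in {x : E | |x 2| < ℓ}, b x ^ 2 * ‖D w x‖ ^ 2 := by
  have _ := h0
  exact F11x.main hb hl hΛ h h1 hw

end

end Crest.Agent.R335
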