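import Crest.Agent.R335.F0b
import Crest.Agent.R335.S02

set_option autoImplicit false

open MeasureTheory Set Filter Topology Metric
open scoped Gradient ContDiff RealInnerProductSpace ENNReal

namespace Crest.Agent.R335

noncomputable section

namespace F11x

/-- the horizontal projection as a continuous linear map -/
def horL : E →L[ℝ] E :=
  ContinuousLinearMap.id ℝ E - (EuclideanSpace.proj (𝕜 := ℝ) (2 : Fin 3)).smulRight ez

theorem horL_apply (x : E) : horL x = hor x := rfl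

theorem hor_c1 : ContDiff ℝ 1 hor := horL.contDiff

theorem hor_add (x : E) (s : ℝ) : hor (hor x + s • ez) = hor x := by
  have h : (hor x + s • ez) 2 = s := by
    simp only [PiLp.add_apply, PiLp.smul_apply, F0d.hor_two, S07.ez_two, smul_eq_mul]
    ring
  conv_lhs => unfold hor
  rw [show (x - x 2 • ez + s • ez) 2 = s from h]
  unfold hor
  abel

theorem two_add (x : E) (s : ℝ) : (hor x + s • ez) 2 = s := by
  simp only [PiLp.add_apply, PiLp.smul_apply, F0d.hor_two, S07.ez_two, smul_eq_mul]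
  ring

theorem hor_hor (x : E) : hor (hor x) = hor x := by
  simpa using hor_add x 0

theorem norm_le (x : E) : ‖x‖ ≤ ‖hor x‖ + |x 2| := by
  have h : x = hor x + x 2 • ez := by
    unfold hor
    abel
  calc ‖x‖ = ‖hor x + x 2 • ez‖ := by rw [← h]
    _ ≤ ‖hor x‖ + ‖x 2 • ez‖ := norm_add_le _ _
    _ = _ := by rw [F0d.norm_smul_ez]

theorem lift_c1 (s : ℝ) : ContDiff ℝ 1 fun x : E => hor x + s • ez := hor_c1.add contDiff_const

theorem grad_le {φ : E → ℝ} (h : ContDiff ℝ 1 φ) (s : ℝ) (x : E) :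
    ‖∇ (fun x => φ (hor x + s • ez)) x‖ ≤ ‖∇ φ (hor x + s • ez)‖ := by
  rw [s05_norm_grad, s05_norm_grad]
  have h1 : HasFDerivAt (fun x : E => hor x + s • ez) horL x := horL.hasFDerivAt.add_const _
  have h2 := ((h.differentiable one_ne_zero (hor x + s • ez)).hasFDerivAt).comp x h1
  have h3 : fderiv ℝ (fun x => φ (hor x + s • ez)) x = _ := h2.fderiv
  rw [h3]
  refine ContinuousLinearMap.opNorm_le_bound _ (norm_nonneg _) fun v => ?_
  rw [ContinuousLinearMap.comp_apply]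
  exact (ContinuousLinearMap.le_opNorm _ _).trans
    (mul_le_mul_of_nonneg_left (F0d.norm_hor_le v) (norm_nonneg _))

theorem mSl (s : ℝ) : MeasurableSet {x : E | |x 2| < s} :=
  (isOpen_lt S07.cont_two.abs continuous_const).measurableSet

theorem int_slab {G : E → ℝ} (hG : Continuous G) (hc : HasCompactSupport G) (s : ℝ) :
    IntegrableOn (fun x => G (hor x + s • ez)) {x : E | |x 2| < 1} volume := by
  obtain ⟨r, hr⟩ := hc.isBounded.subset_closedBall (0 : E)
  have h1 : IntegrableOn (fun x => G (hor x + s • ez)) (closedBall (0 : E) (r + 1)) volume :=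
    (hG.comp (lift_c1 s).continuous).continuousOn.integrableOn_compact (isCompact_closedBall _ _)
  refine h1.of_forall_sdiff_eq_zero (mSl 1) fun x hx => ?_
  refine image_eq_zero_of_notMem_tsupport fun hm => hx.2 ?_
  have a := hr hm
  rw [mem_closedBall_zero_iff] at a ⊢
  have b := F0d.norm_hor_le (hor x + s • ez)
  rw [hor_add] at b
  have c := norm_le x
  have d : |x 2| < 1 := hx.1
  linarith

theorem smooth {b : E → ℝ} {Λ ρ : ℝ} (hb : Continuous b) (hl : ∀ x, b (hor x) = b x) (hΛ : 0 ≤ Λ)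
    (h : ∀ (w : E → ℝ) (ρ' : ℝ), ContDiff ℝ 1 w → (∀ x, w (hor x) = w x) →
      (∀ x, w x ≠ 0 → ρ ≤ ‖hor x‖ ∧ ‖hor x‖ ≤ ρ') →
      ∫ x in {x : E | |x 2| < 1}, (b x * w x) ^ 2 ≤
        Λ * ∫ x in {x : E | |x 2| < 1}, b x ^ 2 * ‖∇ w x‖ ^ 2)
    {ℓ : ℝ} (h1 : ℓ ≤ 1) {φ : E → ℝ} (hφ : ContDiff ℝ 1 φ) (hc : HasCompactSupport φ)
    (hs : tsupport φ ⊆ {x | ρ + 1 < ‖x‖}) :
    ∫ x in {x : E | |x 2| < ℓ}, (b x * φ x) ^ 2 ≤
      Λ * ∫ x in {x : E | |x 2| < ℓ}, b x ^ 2 * ‖∇ φ x‖ ^ 2 := by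
  have c1 : Continuous fun x => (b x * φ x) ^ 2 := (hb.mul hφ.continuous).pow 2
  have s1 : HasCompactSupport fun x => (b x * φ x) ^ 2 :=
    hc.mono' fun x hx => subset_tsupport _ fun h0 => hx (by simp [h0])
  have c2 : Continuous fun x => b x ^ 2 * ‖∇ φ x‖ ^ 2 :=
    (hb.pow 2).mul ((s01_cont_grad hφ).norm.pow 2)
  have s2 : HasCompactSupport fun x => b x ^ 2 * ‖∇ φ x‖ ^ 2 :=
    (s01_supp_grad hc).mono' fun x hx => subset_tsupport _ fun h0 => hx (by simp [h0])
  have i1 := c1.integrable_of_hasCompactSupport (μ := volume) s1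
  have i2 := c2.integrable_of_hasCompactSupport (μ := volume) s2
  have iF : Integrable ({x : E | |x 2| < ℓ}.indicator fun x =>
      Λ * (b x ^ 2 * ‖∇ φ x‖ ^ 2) - (b x * φ x) ^ 2) :=
    ((i2.const_mul Λ).sub i1).indicator (mSl ℓ)
  have key := slab_fubini iF
  rw [integral_indicator (mSl ℓ), integral_sub (i2.const_mul Λ).integrableOn i1.integrableOn,
    integral_const_mul] at key
  rw [← sub_nonneg, key]
  refine integral_nonneg fun s => mul_nonneg (by norm_num) ?_
  by_cases hs' : |s| < ℓ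
  · have e : ∀ x : E, ({x : E | |x 2| < ℓ}.indicator fun x =>
        Λ * (b x ^ 2 * ‖∇ φ x‖ ^ 2) - (b x * φ x) ^ 2) (hor x + s • ez) =
        Λ * (b (hor x + s • ez) ^ 2 * ‖∇ φ (hor x + s • ez)‖ ^ 2) -
          (b (hor x + s • ez) * φ (hor x + s • ez)) ^ 2 := fun x =>
      indicator_of_mem (by rw [mem_ofPred_eq, two_add]; exact hs') _
    simp only [e]
    have j1 := int_slab c1 s1 s
    have j2 := int_slab c2 s2 s
    rw [integral_sub (j2.const_mul Λ) j1, integral_const_mul, sub_nonneg]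
    have hb' : ∀ x, b (hor x + s • ez) = b x := fun x => by rw [← hl, hor_add, hl]
    obtain ⟨r, hr⟩ := hc.isBounded.subset_closedBall (0 : E)
    have k := h (fun x => φ (hor x + s • ez)) r (hφ.comp (lift_c1 s))
      (fun x => by simp only [hor_hor]) fun x hx => by
        have m : hor x + s • ez ∈ tsupport φ := subset_tsupport _ hx
        have a := hr m
        rw [mem_closedBall_zero_iff] at a
        have a' : ρ + 1 < ‖hor x + s • ez‖ := hs m
        have b1 := F0d.norm_hor_le (hor x + s • ez)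
        have b2 := norm_le (hor x + s • ez)
        rw [hor_add] at b1 b2
        rw [two_add] at b2
        constructor <;> linarith
    simp only [hb'] at j2 ⊢
    refine k.trans (mul_le_mul_of_nonneg_left ?_ hΛ)
    refine integral_mono_of_nonneg (ae_of_all _ fun x => by positivity) j2 (ae_of_all _ fun x => ?_)
    exact mul_le_mul_of_nonneg_left (pow_le_pow_left₀ (norm_nonneg _) (grad_le hφ s x) 2)
      (sq_nonneg _)
  · refine le_of_eq (integral_eq_zero_of_ae (ae_of_all _ fun x => ?_)).symm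
    exact indicator_of_notMem (by rw [mem_ofPred_eq, two_add]; exact hs') _

theorem main {b : E → ℝ} {Λ ρ : ℝ} (hb : Continuous b) (hl : ∀ x, b (hor x) = b x) (hΛ : 0 ≤ Λ)
    (h : ∀ (w : E → ℝ) (ρ' : ℝ), ContDiff ℝ 1 w → (∀ x, w (hor x) = w x) →
      (∀ x, w x ≠ 0 → ρ ≤ ‖hor x‖ ∧ ‖hor x‖ ≤ ρ') →
      ∫ x in {x : E | |x 2| < 1}, (b x * w x) ^ 2 ≤
        Λ * ∫ x in {x : E | |x 2| < 1}, b x ^ 2 * ‖∇ w x‖ ^ 2)
    {ℓ : ℝ} (h1 : ℓ ≤ 1) {w : E → ℝ} (hw : TF {x | ρ + 2 < ‖x‖} w) :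
    ∫ x in {x : E | |x 2| < ℓ}, (b x * w x) ^ 2 ≤
      Λ * ∫ x in {x : E | |x 2| < ℓ}, b x ^ 2 * ‖D w x‖ ^ 2 := by
  obtain ⟨K, hK, hKS, h0⟩ := hw.cs
  obtain ⟨r, hr⟩ := hK.isBounded.subset_ball (0 : E)
  obtain ⟨M, hM⟩ := s01_bd_cpt hb (isCompact_closedBall (0 : E) r)
  have hM2 : ∀ x ∈ ball (0 : E) r, b x ^ 2 ≤ M ^ 2 := fun x hx => by
    have := hM x (ball_subset_closedBall hx)
    rw [Real.norm_eq_abs] at this
    exact sq_le_sq' (by linarith [neg_abs_le (b x)]) ((le_abs_self _).trans this)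
  have hD := CS.D_zero hw.h1.hl h0
  have iD : Integrable fun x => ‖D w x‖ ^ 2 := (memLp_two_iff_integrable_sq_norm hw.h1.dl2.1).1 hw.h1.dl2
  have iB : Integrable fun x => b x ^ 2 * ‖D w x‖ ^ 2 := by
    refine (iD.const_mul (M ^ 2)).mono' ((hb.pow 2).aestronglyMeasurable.mul iD.1) ?_
    filter_upwards [hD] with x hx
    rw [Real.norm_eq_abs, abs_of_nonneg (by positivity)]
    by_cases hk : x ∈ K
    · exact mul_le_mul_of_nonneg_right (hM2 x (hr hk)) (sq_nonneg _)
    · simp [hx hk]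
  set A := ∫ x in {x : E | |x 2| < ℓ}, (b x * w x) ^ 2
  set B := ∫ x in {x : E | |x 2| < ℓ}, b x ^ 2 * ‖D w x‖ ^ 2
  have key : ∀ δ : ℝ, 0 < δ →
      A ≤ (1 + δ) * (Λ * ((1 + δ) * B + M ^ 2 * (δ ^ 2 + δ))) + M ^ 2 * (δ ^ 2 + δ) := by
    intro δ hδ
    have hU : IsOpen ({x : E | ρ + 1 < ‖x‖} ∩ ball 0 r) :=
      (isOpen_lt continuous_const continuous_norm).inter isOpen_ball
    obtain ⟨φ, hφ, hc, hs, -, -, e1, e2⟩ := hw.h1.approx_cs hK hU
      (fun x hx => ⟨by have : ρ + 2 < ‖x‖ := hKS hx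
                       show ρ + 1 < ‖x‖
                       linarith, hr hx⟩) h0 le_rfl le_rfl (δ ^ 2) (by positivity)
    have hφ1 : ContDiff ℝ 1 φ := hφ.of_le (by exact_mod_cast le_top)
    have ht : Tst φ := ⟨hφ1, hc⟩
    have k := smooth hb hl hΛ h h1 hφ1 hc (hs.trans inter_subset_left)
    have c1 : Continuous fun x => (b x * φ x) ^ 2 := (hb.mul hφ.continuous).pow 2
    have s1 : HasCompactSupport fun x => (b x * φ x) ^ 2 :=
      hc.mono' fun x hx => subset_tsupport _ fun h0 => hx (by simp [h0])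
    have i1 := c1.integrable_of_hasCompactSupport (μ := volume) s1
    have m1 : MemLp (fun x => w x - φ x) 2 volume := hw.h1.l2.sub ht.h1.l2
    have j1 : Integrable fun x => (w x - φ x) ^ 2 := m1.integrable_sq
    have m2 : MemLp (fun x => D w x - ∇ φ x) 2 volume := hw.h1.dl2.sub (S06_grad_mem ht)
    have j2 : Integrable fun x => ‖D w x - ∇ φ x‖ ^ 2 :=
      (memLp_two_iff_integrable_sq_norm m2.1).1 m2
    have hp : 0 ≤ (1 + δ⁻¹) * M ^ 2 := by positivity
    have ee : (1 + δ⁻¹) * M ^ 2 * δ ^ 2 = M ^ 2 * (δ ^ 2 + δ) := by field_simp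
    have t1 : A ≤ (1 + δ) * (∫ x in {x : E | |x 2| < ℓ}, (b x * φ x) ^ 2) + M ^ 2 * (δ ^ 2 + δ) := by
      have : A ≤ ∫ x in {x : E | |x 2| < ℓ},
          ((1 + δ) * (b x * φ x) ^ 2 + (1 + δ⁻¹) * M ^ 2 * (w x - φ x) ^ 2) := by
        refine integral_mono_of_nonneg (ae_of_all _ fun x => sq_nonneg _)
          ((i1.const_mul _).add (j1.const_mul _)).integrableOn (ae_restrict_of_ae ?_)
        filter_upwards [h0] with x hx
        by_cases hk : x ∈ K
        · have a := s05_sq_add (a := b x * φ x) (b := b x * (w x - φ x)) hδ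
          have e : b x * φ x + b x * (w x - φ x) = b x * w x := by ring
          rw [e, mul_pow (b x) (w x - φ x)] at a
          have a' : (1 + δ⁻¹) * (b x ^ 2 * (w x - φ x) ^ 2) ≤ (1 + δ⁻¹) * (M ^ 2 * (w x - φ x) ^ 2) :=
            mul_le_mul_of_nonneg_left (mul_le_mul_of_nonneg_right (hM2 x (hr hk)) (sq_nonneg _))
              (by positivity)
          show (b x * w x) ^ 2 ≤ _
          linarith
        · show (b x * w x) ^ 2 ≤ _
          rw [hx hk, mul_zero, sq, mul_zero]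
          positivity
      rw [integral_add (i1.const_mul _).integrableOn (j1.const_mul _).integrableOn,
        integral_const_mul, integral_const_mul] at this
      have u : ∫ x in {x : E | |x 2| < ℓ}, (w x - φ x) ^ 2 ≤ δ ^ 2 :=
        (setIntegral_le_integral j1 (ae_of_all _ fun x => sq_nonneg _)).trans e1
      have := mul_le_mul_of_nonneg_left u hp
      linarith
    have t2 : ∫ x in {x : E | |x 2| < ℓ}, b x ^ 2 * ‖∇ φ x‖ ^ 2 ≤
        (1 + δ) * B + M ^ 2 * (δ ^ 2 + δ) := by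
      have : ∫ x in {x : E | |x 2| < ℓ}, b x ^ 2 * ‖∇ φ x‖ ^ 2 ≤ ∫ x in {x : E | |x 2| < ℓ},
          ((1 + δ) * (b x ^ 2 * ‖D w x‖ ^ 2) + (1 + δ⁻¹) * M ^ 2 * ‖D w x - ∇ φ x‖ ^ 2) := by
        refine integral_mono_of_nonneg (ae_of_all _ fun x => by positivity)
          ((iB.const_mul _).add (j2.const_mul _)).integrableOn (ae_of_all _ fun x => ?_)
        show b x ^ 2 * ‖∇ φ x‖ ^ 2 ≤ _
        by_cases hk : x ∈ tsupport φ
        · have a := s05_sq_add (a := ‖D w x‖) (b := ‖D w x - ∇ φ x‖) hδ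
          have n : ‖∇ φ x‖ ≤ ‖D w x‖ + ‖D w x - ∇ φ x‖ := by
            have := norm_sub_le (D w x) (D w x - ∇ φ x)
            rwa [sub_sub_cancel] at this
          have a1 := mul_le_mul_of_nonneg_left
            ((pow_le_pow_left₀ (norm_nonneg _) n 2).trans a) (sq_nonneg (b x))
          have a' : (1 + δ⁻¹) * (b x ^ 2 * ‖D w x - ∇ φ x‖ ^ 2) ≤
              (1 + δ⁻¹) * (M ^ 2 * ‖D w x - ∇ φ x‖ ^ 2) :=
            mul_le_mul_of_nonneg_left
              (mul_le_mul_of_nonneg_right (hM2 x (hs hk).2) (sq_nonneg _)) (by positivity)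
          linarith
        · rw [s01_grad_zero hk, norm_zero, sq (0 : ℝ), mul_zero, mul_zero]
          positivity
      rw [integral_add (iB.const_mul _).integrableOn (j2.const_mul _).integrableOn,
        integral_const_mul, integral_const_mul] at this
      have u : ∫ x in {x : E | |x 2| < ℓ}, ‖D w x - ∇ φ x‖ ^ 2 ≤ δ ^ 2 :=
        (setIntegral_le_integral j2 (ae_of_all _ fun x => sq_nonneg _)).trans e2
      have := mul_le_mul_of_nonneg_left u hp
      linarith
    have t3 := mul_le_mul_of_nonneg_left (k.trans (mul_le_mul_of_nonneg_left t2 hΛ))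
      (show 0 ≤ 1 + δ by positivity)
    linarith
  have hc : Continuous fun δ : ℝ =>
      (1 + δ) * (Λ * ((1 + δ) * B + M ^ 2 * (δ ^ 2 + δ))) + M ^ 2 * (δ ^ 2 + δ) := by fun_prop
  have lim := (hc.tendsto 0).mono_left (nhdsWithin_le_nhds (s := Ioi 0))
  have := ge_of_tendsto lim (eventually_nhdsWithin_of_forall fun δ hδ => key δ hδ)
  simpa using this

end F11x

end

end Crest.Agent.R335
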