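import Crest.Agent.R335.F0b
import Crest.Agent.R335.F0
import Crest.Agent.R335.S11
import Crest.Agent.R335.S12

set_option autoImplicit false

open MeasureTheory Set Filter Topology Metric
open scoped Gradient ContDiff RealInnerProductSpace ENNReal

namespace Crest.Agent.R335

noncomputable section

/-! analytic lemmas for the lateral Hardy inequality -/

theorem F11_slab_meas : MeasurableSet {x : E | |x 2| < 1} :=
  (isOpen_lt S07.cont_two.abs continuous_const).measurableSet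

/-- lateral functions times a vertical profile -/
theorem F11_lat {G : E → ℝ} (hl : ∀ x, G (hor x) = G x)
    (hG : IntegrableOn G {x : E | |x 2| < 1}) {k : ℝ → ℝ} (hk : Integrable k) :
    Integrable (fun x : E => k (x 2) * G x) ∧
      ∫ x : E, k (x 2) * G x = (∫ s, k s) * ((1 / 2) * ∫ x in {x : E | |x 2| < 1}, G x) := by
  let e : E ≃ᵐ ℝ × (Fin 2 → ℝ) := (MeasurableEquiv.toLp 2 (Fin 3 → ℝ)).symm.trans
    (MeasurableEquiv.piFinSuccAbove (fun _ => ℝ) 2)
  have he : MeasurePreserving e volume volume :=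
    (EuclideanSpace.volume_preserving_symm_measurableEquiv_toLp (Fin 3)).trans
      (volume_preserving_piFinSuccAbove (fun _ => ℝ) 2)
  have e1 : ∀ x : E, (e x).1 = x 2 := fun x => rfl
  have e2 : ∀ x : E, hor x = e.symm (0, (e x).2) := by
    intro x
    rw [← e.injective.eq_iff, e.apply_symm_apply]
    refine Prod.ext ?_ (funext fun j => ?_)
    · rw [e1, F0d.hor_two]
    · fin_cases j
      · show (hor x) 0 = x 0
        simp [hor, S07.ez_zero]
      · show (hor x) 1 = x 1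
        simp [hor, S07.ez_one]
  set g : (Fin 2 → ℝ) → ℝ := fun w => G (e.symm (0, w)) with hg
  have e3 : ∀ x, G x = g (e x).2 := fun x => by rw [hg]; simp only; rw [← e2, hl]
  have key : ∀ k : ℝ → ℝ, (Integrable (fun x : E => k (x 2) * G x) ↔
      Integrable (fun z : ℝ × (Fin 2 → ℝ) => k z.1 * g z.2) (volume.prod volume)) ∧
      ∫ x : E, k (x 2) * G x = (∫ s, k s) * ∫ w, g w := by
    intro k
    have e4 : (fun x : E => k (x 2) * G x) =
        fun x => (fun z : ℝ × (Fin 2 → ℝ) => k z.1 * g z.2) (e x) := by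
      funext x; simp only [e1, ← e3]
    rw [e4]
    refine ⟨he.integrable_comp_emb (g := fun z : ℝ × (Fin 2 → ℝ) => k z.1 * g z.2)
      e.measurableEmbedding, ?_⟩
    rw [he.integral_comp' (fun z : ℝ × (Fin 2 → ℝ) => k z.1 * g z.2), Measure.volume_eq_prod,
      integral_prod_mul]
  have e5 : (fun x : E => (Ioo (-1 : ℝ) 1).indicator (fun _ => (1 : ℝ)) (x 2) * G x) =
      {x : E | |x 2| < 1}.indicator G := by
    funext x
    by_cases hx : |x 2| < 1
    · rw [indicator_of_mem (show x ∈ {x : E | |x 2| < 1} from hx),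
        indicator_of_mem (show x 2 ∈ Ioo (-1 : ℝ) 1 from abs_lt.1 hx), one_mul]
    · rw [indicator_of_notMem (show x ∉ {x : E | |x 2| < 1} from hx),
        indicator_of_notMem (show x 2 ∉ Ioo (-1 : ℝ) 1 from fun h => hx (abs_lt.2 h)), zero_mul]
  obtain ⟨k1, k2⟩ := key ((Ioo (-1 : ℝ) 1).indicator fun _ => (1 : ℝ))
  rw [e5] at k1 k2
  rw [integral_indicator F11_slab_meas, integral_indicator measurableSet_Ioo] at k2
  have ig : Integrable g := by
    have h1 := (k1.1 ((integrable_indicator_iff F11_slab_meas).2 hG)).prod_right_ae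
    have h2 : volume (Ioo (-1 : ℝ) 1) ≠ 0 := by simp
    obtain ⟨s, hs, h3⟩ := Measure.exists_mem_of_measure_ne_zero_of_ae h2 (ae_restrict_of_ae h1)
    simpa only [indicator_of_mem hs, one_mul] using h3
  refine ⟨(key k).1.2 (hk.mul_prod ig), ?_⟩
  have e6 : ∫ _ in Ioo (-1 : ℝ) 1, (1 : ℝ) = 2 := by norm_num
  rw [(key k).2, k2, e6]
  ring

theorem F11_int {p b : E → ℝ} {M : ℝ} (hp : MemLp p 2 volume) (hb : Continuous b)
    (hM : ∀ x, |b x| ≤ M) : Integrable fun x => (p x * b x) ^ 2 := by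
  have : MemLp (fun x => p x * b x) 2 volume :=
    hp.of_le_mul (c := M) (hp.1.mul hb.aestronglyMeasurable) (Eventually.of_forall fun x => by
      rw [norm_mul, mul_comm]
      exact mul_le_mul_of_nonneg_right (hM x) (norm_nonneg _))
  exact this.integrable_sq

/-- the energy inequality for weights without compact support -/
theorem F11_energy {Ω : Set E} {p S a : E → ℝ} {M : ℝ} (h : Sub Ω p S) (hp : LB p)
    (h0 : ∀ x, 0 ≤ p x) (h2 : MemLp p 2 volume) (ha : ContDiff ℝ 1 a)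
    (hM : ∀ x, |a x| ≤ M ∧ ‖∇ a x‖ ≤ M) (hs : tsupport a ⊆ Ω)
    (hS : Integrable fun x => S x * p x * a x ^ 2) :
    0 ≤ (∫ x, S x * p x * a x ^ 2) + ∫ x, (1 / 2) * (p x * ‖∇ a x‖) ^ 2 := by
  choose χ c1 c2 c3 c4 _ c6 _ using fun n : ℕ =>
    exists_cutoff (0 : E) (r := n) (s := (n : ℝ) + 1) (by positivity) (by positivity)
  have cχ : ∀ n, ContDiff ℝ 1 (χ n) := fun n => (c1 n).of_le (by exact_mod_cast le_top)
  have cj : ∀ n, ContDiff ℝ 1 fun x => χ n x * a x := fun n => (cχ n).mul ha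
  have gj : ∀ n x, ∇ (fun x => χ n x * a x) x = χ n x • ∇ a x + a x • ∇ (χ n) x := fun n x =>
    F0a_grad_mul ((cχ n).differentiable one_ne_zero x) (ha.differentiable one_ne_zero x)
  have M0 : 0 ≤ M := (abs_nonneg _).trans (hM 0).1
  have ev : ∀ x, ∀ᶠ n : ℕ in atTop, χ n x = 1 := fun x => by
    filter_upwards [tendsto_natCast_atTop_atTop.eventually_ge_atTop ‖x‖] with n hn
    exact c4 n x (by simpa using hn)
  have tχ : ∀ x, Tendsto (fun n => χ n x) atTop (𝓝 1) := fun x =>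
    tendsto_const_nhds.congr' ((ev x).mono fun n hn => hn.symm)
  have tg : ∀ x, Tendsto (fun n => ∇ (χ n) x) atTop (𝓝 0) := fun x => by
    refine squeeze_zero_norm (fun n => c6 n x) ?_
    simpa [div_eq_mul_inv] using tendsto_one_div_add_atTop_nhds_zero_nat.const_mul (4 : ℝ)
  have t1 : Tendsto (fun n => ∫ x, S x * p x * (χ n x * a x) ^ 2) atTop
      (𝓝 (∫ x, S x * p x * a x ^ 2)) := by
    refine tendsto_integral_of_dominated_convergence (fun x => ‖S x * p x * a x ^ 2‖)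
      (fun n => ?_) hS.norm (fun n => Eventually.of_forall fun x => ?_)
      (Eventually.of_forall fun x => ?_)
    · refine (((cχ n).continuous.pow 2).aestronglyMeasurable.mul hS.1).congr
        (Eventually.of_forall fun x => ?_)
      simp only [Pi.mul_apply, Pi.pow_apply]
      ring
    · have e : S x * p x * (χ n x * a x) ^ 2 = χ n x ^ 2 * (S x * p x * a x ^ 2) := by ring
      rw [e, norm_mul]
      refine mul_le_of_le_one_left (norm_nonneg _) ?_
      rw [Real.norm_of_nonneg (sq_nonneg _)]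
      exact pow_le_one₀ (c3 n x).1 (c3 n x).2
    · have := (((tχ x).mul_const (a x)).pow 2).const_mul (S x * p x)
      rwa [one_mul] at this
  have t2 : Tendsto (fun n => ∫ x, (1 / 2) * (p x * ‖∇ (fun x => χ n x * a x) x‖) ^ 2) atTop
      (𝓝 (∫ x, (1 / 2) * (p x * ‖∇ a x‖) ^ 2)) := by
    refine tendsto_integral_of_dominated_convergence (fun x => (1 / 2) * (5 * M) ^ 2 * p x ^ 2)
      (fun n => ?_) (h2.integrable_sq.const_mul _) (fun n => Eventually.of_forall fun x => ?_)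
      (Eventually.of_forall fun x => ?_)
    · exact ((h2.1.mul (S07.cont_grad (cj n)).norm.aestronglyMeasurable).pow 2).const_mul _
    · rw [Real.norm_of_nonneg (by positivity), mul_pow, mul_assoc, mul_comm ((5 * M) ^ 2)]
      gcongr
      rw [gj]
      refine (norm_add_le _ _).trans ?_
      rw [norm_smul, norm_smul, Real.norm_of_nonneg (c3 n x).1, Real.norm_eq_abs]
      have a1 : χ n x * ‖∇ a x‖ ≤ 1 * M := mul_le_mul (c3 n x).2 (hM x).2 (norm_nonneg _) zero_le_one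
      have a2 : (4 : ℝ) / (n + 1) ≤ 4 := div_le_self (by norm_num) (by simp)
      have a3 : |a x| * ‖∇ (χ n) x‖ ≤ M * 4 :=
        mul_le_mul (hM x).1 ((c6 n x).trans a2) (norm_nonneg _) M0
      linarith
    · simp only [gj]
      have := ((((tχ x).smul_const (∇ a x)).add ((tg x).const_smul (a x))).norm.const_mul
        (p x)).pow 2 |>.const_mul (1 / 2 : ℝ)
      rwa [one_smul, smul_zero, add_zero] at this
  refine ge_of_tendsto' (t1.add t2) fun n => ?_
  have tf : TF Ω fun x => χ n x * a x :=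
    Tst.tf ⟨cj n, (c2 n).mul_right⟩ ((tsupport_mul_subset_right).trans hs)
  have := WSub.energy aestronglyMeasurable_const S12_lb_one h hp
    (Eventually.of_forall fun x _ => h0 x) tf
  refine le_trans (integral_nonneg fun x => by positivity) (this.trans (le_of_eq ?_))
  congr 1
  refine integral_congr_ae ?_
  filter_upwards [D_c1 (cj n)] with x hx
  rw [hx]
  ring

theorem F11_loc {p A a : E → ℝ} {M : ℝ} (h : Sol p A) (ha : ContDiff ℝ 1 a)
    (hM : ∀ x, |a x| ≤ M ∧ ‖∇ a x‖ ≤ M) :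
    0 ≤ (∫ x, A x * p x * a x ^ 2) + ∫ x, (1 / 2) * (p x * ‖∇ a x‖) ^ 2 := by
  have hb : Bd fun x => ‖D a x‖ := ⟨M, by
    filter_upwards [D_c1 ha] with x hx
    rw [hx, abs_norm]
    exact (hM x).2⟩
  have := (h.loc (bl_c1 ha).hl ⟨M, Eventually.of_forall fun x => (hM x).1⟩ hb).2
  have e1 : ∫ x, A x * a x ^ 2 * p x = ∫ x, A x * p x * a x ^ 2 := by
    congr 1; funext x; ring
  have e2 : (1 / 2) * ∫ x, ‖D a x‖ ^ 2 * p x ^ 2 = ∫ x, (1 / 2) * (p x * ‖∇ a x‖) ^ 2 := by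
    rw [← integral_const_mul]
    refine integral_congr_ae ?_
    filter_upwards [D_c1 ha] with x hx
    rw [hx]
    ring
  rw [← e1, ← e2, ← this]
  have := S11_dir_nonneg fun x => a x * p x
  positivity

theorem F11_prod_bd {w q : E → ℝ} {M : ℝ} (hw : ContDiff ℝ 1 w) (hq : ContDiff ℝ 1 q)
    (bw : ∀ x, |w x| ≤ M ∧ ‖∇ w x‖ ≤ M) (bq : ∀ x, 0 ≤ q x ∧ q x ≤ 1 ∧ ‖∇ q x‖ ≤ 5) (x : E) :
    ‖∇ (fun x => w x * q x) x‖ ≤ |w x| * ‖∇ q x‖ + q x * ‖∇ w x‖ ∧
      |w x * q x| ≤ 6 * M ∧ ‖∇ (fun x => w x * q x) x‖ ≤ 6 * M := by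
  have M0 : 0 ≤ M := (abs_nonneg _).trans (bw 0).1
  have h1 : ‖∇ (fun x => w x * q x) x‖ ≤ |w x| * ‖∇ q x‖ + q x * ‖∇ w x‖ := by
    rw [F0a_grad_mul (hw.differentiable one_ne_zero x) (hq.differentiable one_ne_zero x)]
    refine (norm_add_le _ _).trans (le_of_eq ?_)
    rw [norm_smul, norm_smul, Real.norm_of_nonneg (bq x).1, Real.norm_eq_abs]
  refine ⟨h1, ?_, h1.trans ?_⟩
  · rw [abs_mul, abs_of_nonneg (bq x).1]
    have := mul_le_mul (bw x).1 (bq x).2.1 (bq x).1 M0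
    linarith
  · have a1 := mul_le_mul (bw x).1 (bq x).2.2 (norm_nonneg _) M0
    have a2 := mul_le_mul (bq x).2.1 (bw x).2 (norm_nonneg _) zero_le_one
    linarith

theorem F11_num {μ κ : ℝ} (hμ : 0 < μ) (hμ' : μ ≤ 1 / 100) (hκ : 99 / 100 ≤ κ)
    (hκ' : κ ≤ 11 / 10) :
    (1 / 2) * ((1 + μ / 10) * (κ - μ + μ / 100) ^ 2) ≤ κ ^ 2 / 2 - μ / 50 - μ / 2 ∧
      (1 / 2) * (1 + 1 / (μ / 10)) ≤ 6 / μ := by
  constructor
  · have a1 : (κ - μ + μ / 100) ^ 2 ≤ κ ^ 2 - 19 / 10 * μ := by nlinarith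
    have a2 : (κ - μ + μ / 100) ^ 2 ≤ 2 := by nlinarith
    nlinarith
  · rw [le_div_iff₀ hμ]
    have : (1 / 2) * (1 + 1 / (μ / 10)) * μ = μ / 2 + 5 := by field_simp; ring
    linarith

theorem F11_core {p w q Z A : E → ℝ} {μ κ M : ℝ} (hμ : 0 < μ) (hμ' : μ ≤ 1 / 100)
    (hκ : 99 / 100 ≤ κ) (hκ' : κ ≤ 11 / 10) (hp : MemLp p 2 volume) (hw : ContDiff ℝ 1 w)
    (hq : ContDiff ℝ 1 q) (bw : ∀ x, |w x| ≤ M ∧ ‖∇ w x‖ ≤ M)
    (bq : ∀ x, 0 ≤ q x ∧ q x ≤ 1 ∧ ‖∇ q x‖ ≤ 5) (hA : Integrable A) (hZ : Integrable Z)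
    (hE : 0 ≤ (∫ x, A x) + ∫ x, (1 / 2) * (p x * ‖∇ (fun x => w x * q x) x‖) ^ 2)
    (hpt : ∀ᵐ x, A x ≤ -((κ ^ 2 / 2 - μ / 50 - μ / 4) * (p x * (w x * q x)) ^ 2) + Z x)
    (hg : ∀ x, w x ≠ 0 → ‖∇ q x‖ ≤ (κ - μ + μ / 100) * q x) :
    μ / 4 * ∫ x, (p x * (w x * q x)) ^ 2 ≤
      (∫ x, Z x) + 6 / μ * ∫ x, (p x * (q x * ‖∇ w x‖)) ^ 2 := by
  obtain ⟨n1, n2⟩ := F11_num hμ hμ' hκ hκ'
  have pb := F11_prod_bd hw hq bw bq
  have i1 := F11_int hp (hw.mul hq).continuous fun x => (pb x).2.1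
  have i2 := F11_int hp (S07.cont_grad (hw.mul hq)).norm (M := 6 * M) fun x => by
    rw [abs_norm]; exact (pb x).2.2
  have i3 := F11_int hp (hq.continuous.mul (S07.cont_grad hw).norm) (M := M) fun x => by
    rw [Pi.mul_apply, abs_of_nonneg (mul_nonneg (bq x).1 (norm_nonneg _))]
    have := mul_le_mul (bq x).2.1 (bw x).2 (norm_nonneg _) zero_le_one
    linarith
  simp only [Pi.mul_apply] at i3
  rw [← integral_add hA (i2.const_mul _)] at hE
  have hle : ∀ᵐ x, A x + (1 / 2) * (p x * ‖∇ (fun x => w x * q x) x‖) ^ 2 ≤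
      (-(μ / 4)) * (p x * (w x * q x)) ^ 2 + 1 * Z x + 6 / μ * (p x * (q x * ‖∇ w x‖)) ^ 2 := by
    filter_upwards [hpt] with x hx
    have g1 : |w x| * ‖∇ q x‖ ≤ (κ - μ + μ / 100) * |w x * q x| := by
      by_cases h0 : w x = 0
      · simp [h0]
      · rw [abs_mul, abs_of_nonneg (bq x).1, mul_left_comm]
        exact mul_le_mul_of_nonneg_left (hg x h0) (abs_nonneg _)
    have g2 : ‖∇ (fun x => w x * q x) x‖ ^ 2 ≤
        ((κ - μ + μ / 100) * |w x * q x| + q x * ‖∇ w x‖) ^ 2 :=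
      pow_le_pow_left₀ (norm_nonneg _) ((pb x).1.trans (by linarith)) 2
    have g3 := S07.sq_add_le (a := (κ - μ + μ / 100) * |w x * q x|) (b := q x * ‖∇ w x‖)
      (show 0 < μ / 10 by positivity)
    rw [mul_pow, sq_abs] at g3
    have g4 := mul_le_mul_of_nonneg_left (g2.trans g3) (sq_nonneg (p x))
    have g5 := mul_le_mul_of_nonneg_right n1 (sq_nonneg (p x * (w x * q x)))
    have g6 := mul_le_mul_of_nonneg_right n2 (sq_nonneg (p x * (q x * ‖∇ w x‖)))
    simp only [mul_pow] at g4 g5 g6 hx ⊢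
    linarith
  have := integral_mono_ae (hA.add (i2.const_mul _))
    (((i1.const_mul _).add (hZ.const_mul _)).add (i3.const_mul _)) hle
  erw [S11_int3 i1 hZ i3] at this
  have h' : 0 ≤ -(μ / 4) * (∫ x, (p x * (w x * q x)) ^ 2) + 1 * (∫ x, Z x) +
      6 / μ * ∫ x, (p x * (q x * ‖∇ w x‖)) ^ 2 := hE.trans this
  linarith

end

end Crest.Agent.R335
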