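import Crest.Agent.R335.F11Aux1
import Crest.Agent.R335.Defs5

set_option autoImplicit false

open MeasureTheory Set Filter Topology Metric
open scoped Gradient ContDiff RealInnerProductSpace ENNReal

namespace Crest.Agent.R335

noncomputable section

namespace F12x

theorem rad_eq (a k : ℝ) (x : E) : rad a k x = jb x ^ a * Real.exp (-(k * jb x)) := by
  simp [radb]

theorem jb_le {x : E} (hx : |x 2| ≤ 1) : jb x ≤ 2 * jb (hor x) := by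
  have h := (jb_facts x).2.2.2.2.2.2 (hor x)
  have e : x - hor x = x 2 • ez := by
    unfold hor
    abel
  rw [e, F0d.norm_smul_ez] at h
  have := (jb_facts (hor x)).1
  have := le_abs_self (jb x - jb (hor x))
  linarith

theorem rad_hor {a k : ℝ} (ha : a ≤ 2) (hk : 0 ≤ k) {x : E} (hx : |x 2| ≤ 1) :
    rad a k x ≤ 4 * rad a k (hor x) := by
  rw [rad_eq, rad_eq]
  have t1 := (jb_facts (hor x)).1
  have t0 : 0 < jb (hor x) := by linarith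
  have t2 := (jb_facts x).2.2.2.2.2.1
  have t3 := jb_le hx
  have q1 : 1 ≤ jb x / jb (hor x) := (one_le_div t0).2 t2
  have q2 : jb x / jb (hor x) ≤ 2 := (div_le_iff₀ t0).2 t3
  have a1 : jb x ^ a ≤ 4 * jb (hor x) ^ a := by
    have e : jb x ^ a = (jb x / jb (hor x)) ^ a * jb (hor x) ^ a := by
      rw [← Real.mul_rpow (by positivity) t0.le, div_mul_cancel₀ _ t0.ne']
    rw [e]
    refine mul_le_mul_of_nonneg_right ?_ (by positivity)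
    calc (jb x / jb (hor x)) ^ a ≤ (jb x / jb (hor x)) ^ (2 : ℝ) :=
          Real.rpow_le_rpow_of_exponent_le q1 ha
      _ = (jb x / jb (hor x)) ^ 2 := Real.rpow_two _
      _ ≤ 2 ^ 2 := pow_le_pow_left₀ (by positivity) q2 2
      _ = 4 := by norm_num
  have a2 : Real.exp (-(k * jb x)) ≤ Real.exp (-(k * jb (hor x))) :=
    Real.exp_le_exp.2 (neg_le_neg (mul_le_mul_of_nonneg_left t2 hk))
  calc jb x ^ a * Real.exp (-(k * jb x)) ≤ (4 * jb (hor x) ^ a) * Real.exp (-(k * jb (hor x))) :=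
        mul_le_mul a1 a2 (Real.exp_pos _).le (by positivity)
    _ = _ := by ring

theorem away (o : OD) {x : E} (h : 1 ≤ ‖hor x‖) : x ∈ o.away := by
  have e : ∀ s : ℝ, hor (x + s • ez) = hor x := fun s => by
    have : x + s • ez = hor x + (x 2 + s) • ez := by
      unfold hor
      module
    rw [this, F11x.hor_add]
  have a := F0d.norm_hor_le (x + (-o.d) • ez)
  have b := F0d.norm_hor_le (x + o.d • ez)
  rw [e] at a b
  rw [neg_smul, ← sub_eq_add_neg] at a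
  constructor <;> linarith

theorem sm_sqrt (o : OD) (c A : ℝ) : Sm o c fun m => √m.l * A ≤ 1 ∧ m.l * A ≤ 1 := by
  have p : 0 < |A| + 1 := by positivity
  refine (Sm.le o c (a := (1 / (|A| + 1)) ^ 2) (by positivity)).mono fun m hm h => ?_
  have h1 : √m.l ≤ 1 / (|A| + 1) := Real.sqrt_le_iff.2 ⟨by positivity, h⟩
  have h2 : m.l ≤ √m.l := by
    have a : √m.l ≤ 1 := Real.sqrt_le_one.2 hm.l0.2
    have b := Real.mul_self_sqrt hm.l0.1.le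
    nlinarith [Real.sqrt_nonneg m.l]
  have h3 : √m.l * |A| ≤ 1 := by
    rw [le_div_iff₀ p] at h1
    nlinarith [Real.sqrt_nonneg m.l]
  have h4 := mul_le_mul_of_nonneg_left (le_abs_self A) (Real.sqrt_nonneg m.l)
  have h5 := mul_le_mul_of_nonneg_left (le_abs_self A) hm.l0.1.le
  have h6 := mul_le_mul_of_nonneg_right h2 (abs_nonneg A)
  constructor <;> linarith

theorem tau_c1 (m : MD) (a : ℝ) : ContDiff ℝ 1 (m.τ a) :=
  contDiff_const.mul ((radb_smooth 0 (m.κ + 1 / 10) 0).of_le (by exact_mod_cast le_top))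

theorem tau_nn (m : MD) {a : ℝ} (ha : 0 ≤ a) (x : E) : 0 ≤ m.τ a x :=
  mul_nonneg (mul_nonneg ha (Real.sqrt_nonneg _)) (radb_facts _ _ _ x).1.le

theorem tau_grad (m : MD) {a : ℝ} (ha : 0 ≤ a) (h0 : 0 ≤ m.κ) (h1 : m.κ ≤ 11 / 10) (x : E) :
    ‖∇ (m.τ a) x‖ ≤ 2 * m.τ a x := by
  have hs : DifferentiableAt ℝ (rad 0 (m.κ + 1 / 10)) x :=
    (radb_smooth 0 (m.κ + 1 / 10) 0).differentiable (by simp) x
  have e : ‖∇ (m.τ a) x‖ = a * √m.l * ‖∇ (rad 0 (m.κ + 1 / 10)) x‖ := by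
    rw [s05_norm_grad, s05_norm_grad]
    have : fderiv ℝ (m.τ a) x = (a * √m.l) • fderiv ℝ (rad 0 (m.κ + 1 / 10)) x :=
      fderiv_const_mul hs (a * √m.l)
    rw [this, norm_smul, Real.norm_eq_abs, abs_of_nonneg (by positivity)]
  obtain ⟨p, -, g, -⟩ := radb_facts 0 (m.κ + 1 / 10) 0 x
  obtain ⟨j1, j2, -⟩ := jb_facts x
  have j0 : 0 < jb x := by linarith
  have el : ell 0 (m.κ + 1 / 10) 0 x = -(m.κ + 1 / 10) := by simp [ell]
  have n : ‖∇ (rad 0 (m.κ + 1 / 10)) x‖ ≤ 2 * rad 0 (m.κ + 1 / 10) x := by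
    rw [g, norm_smul, Real.norm_eq_abs, el, abs_div, abs_of_pos j0, abs_mul, abs_of_pos p, abs_neg,
      abs_of_nonneg (by linarith), div_mul_eq_mul_div, div_le_iff₀ j0]
    exact mul_le_mul (by nlinarith) j2 (norm_nonneg _) (by positivity)
  rw [e]
  calc a * √m.l * ‖∇ (rad 0 (m.κ + 1 / 10)) x‖ ≤ a * √m.l * (2 * rad 0 (m.κ + 1 / 10) x) :=
        mul_le_mul_of_nonneg_left n (by positivity)
    _ = 2 * m.τ a x := by unfold MD.τ; ring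

theorem cube {e : ℝ} (he : 0 < e) :
    ∃ u : ℝ, 0 < u ∧ e = u ^ 3 ∧ e ^ (2 / 3 : ℝ) = u ^ 2 ∧ e ^ (4 / 3 : ℝ) = u ^ 4 := by
  refine ⟨e ^ (1 / 3 : ℝ), by positivity, ?_, ?_, ?_⟩ <;>
    rw [← Real.rpow_natCast, ← Real.rpow_mul he.le] <;> norm_num

/-- the two parts of the model are controlled by `η` -/
theorem low {Γ t P H T e l : ℝ} (hΓ : 1 ≤ Γ) (ht : 1 ≤ t) (hP : 0 < P) (hH : 0 < H) (he : 0 < e)
    (hl : 0 < l) (h2 : T ≤ Γ * P) (h3 : (H + l / t ^ 3 * P) / Γ ^ 2 ≤ e * T) :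
    H / P ≤ Γ ^ 3 * e ∧ l / t ^ 3 ≤ Γ ^ 3 * e := by
  rw [div_le_iff₀ (by positivity)] at h3
  have a : e * T * Γ ^ 2 ≤ Γ ^ 3 * e * P := by
    have := mul_le_mul_of_nonneg_left h2 (show 0 ≤ e * Γ ^ 2 by positivity)
    linarith
  have b : 0 ≤ l / t ^ 3 * P := by positivity
  constructor
  · rw [div_le_iff₀ hP]
    linarith
  · refine le_of_mul_le_mul_right ?_ hP
    linarith

theorem mid {Γ c2 θ t P H T u l : ℝ} (hΓ : 1 ≤ Γ) (ht : 1 ≤ t) (hP : 0 < P) (hH : 0 < H)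
    (hu : 0 < u) (hl : 0 < l) (hθ : 0 < θ) (h1 : P / Γ ≤ T) (a1 : H / P ≤ Γ ^ 3 * u ^ 3)
    (a2 : l / t ^ 3 ≤ Γ ^ 3 * u ^ 3) (h5 : t * H ≤ c2 * P) (h6 : c2 * Γ ^ 6 / θ ^ 3 ≤ t)
    (h7 : l * (Γ ^ 6 / θ ^ 3) ≤ 1) : H + l / t ^ 2 * P ≤ 2 * θ * Γ * (u ^ 2 * T) := by
  have t0 : 0 < t := by linarith
  have G0 : 0 < Γ := by linarith
  have b1 : H / P ≤ θ * u ^ 2 := by
    refine le_of_pow_le_pow_left₀ three_ne_zero (by positivity) ?_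
    have c1 : H / P * Γ ^ 6 ≤ θ ^ 3 := by
      rw [div_le_iff₀ (by positivity)] at h6
      have d : H / P ≤ c2 / t := by
        rw [div_le_div_iff₀ hP t0]
        linarith
      calc H / P * Γ ^ 6 ≤ c2 / t * Γ ^ 6 := mul_le_mul_of_nonneg_right d (by positivity)
        _ = c2 * Γ ^ 6 / t := by ring
        _ ≤ θ ^ 3 := by
          rw [div_le_iff₀ t0]
          linarith
    calc (H / P) ^ 3 = H / P * (H / P) ^ 2 := by ring
      _ ≤ H / P * (Γ ^ 3 * u ^ 3) ^ 2 :=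
          mul_le_mul_of_nonneg_left (pow_le_pow_left₀ (by positivity) a1 2) (by positivity)
      _ = H / P * Γ ^ 6 * u ^ 6 := by ring
      _ ≤ θ ^ 3 * u ^ 6 := mul_le_mul_of_nonneg_right c1 (by positivity)
      _ = _ := by ring
  have b2 : l / t ^ 2 ≤ θ * u ^ 2 := by
    refine le_of_pow_le_pow_left₀ three_ne_zero (by positivity) ?_
    have c1 : l * Γ ^ 6 ≤ θ ^ 3 := by
      rw [← mul_div_assoc, div_le_one (by positivity)] at h7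
      exact h7
    calc (l / t ^ 2) ^ 3 = l * (l / t ^ 3) ^ 2 := by ring
      _ ≤ l * (Γ ^ 3 * u ^ 3) ^ 2 :=
          mul_le_mul_of_nonneg_left (pow_le_pow_left₀ (by positivity) a2 2) (by positivity)
      _ = l * Γ ^ 6 * u ^ 6 := by ring
      _ ≤ θ ^ 3 * u ^ 6 := mul_le_mul_of_nonneg_right c1 (by positivity)
      _ = _ := by ring
  rw [div_le_iff₀ G0] at h1
  rw [div_le_iff₀ hP] at b1
  have b3 := mul_le_mul_of_nonneg_right b2 hP.le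
  have b4 := mul_le_mul_of_nonneg_left h1 (show 0 ≤ θ * u ^ 2 by positivity)
  linarith

theorem up {Γ c2 t P H T e l η : ℝ} (hΓ : 1 ≤ Γ) (ht : 1 ≤ t) (hP : 0 < P) (hc : 0 ≤ c2)
    (hl : l ≤ 1) (hη : 0 < η) (h1 : P / Γ ≤ T) (h4 : e * T ≤ Γ ^ 2 * (H + l / t ^ 3 * P))
    (h5 : t * H ≤ c2 * P) (h6 : Γ ^ 3 * (c2 + 1) / η ≤ t) : e ≤ η := by
  have t0 : 0 < t := by linarith
  have G0 : 0 < Γ := by linarith
  have T0 : 0 < T := lt_of_lt_of_le (by positivity) h1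
  rw [div_le_iff₀ G0] at h1
  rw [div_le_iff₀ hη] at h6
  have a1 : H ≤ c2 / t * P := by
    rw [div_mul_eq_mul_div, le_div_iff₀ t0]
    linarith
  have a2 : l / t ^ 3 ≤ 1 / t := by
    rw [div_le_div_iff₀ (by positivity) t0]
    have : t ≤ t ^ 3 := le_self_pow₀ ht three_ne_zero
    nlinarith
  have a3 : H + l / t ^ 3 * P ≤ (c2 + 1) / t * (T * Γ) := by
    have := mul_le_mul_of_nonneg_right a2 hP.le
    have := mul_le_mul_of_nonneg_left h1 (show 0 ≤ (c2 + 1) / t by positivity)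
    have e : (c2 + 1) / t * P = c2 / t * P + 1 / t * P := by ring
    linarith
  have a4 : Γ ^ 3 * (c2 + 1) / t ≤ η := by
    rw [div_le_iff₀ t0]
    linarith
  refine le_of_mul_le_mul_right ?_ T0
  calc e * T ≤ Γ ^ 2 * ((c2 + 1) / t * (T * Γ)) :=
        h4.trans (mul_le_mul_of_nonneg_left a3 (by positivity))
    _ = Γ ^ 3 * (c2 + 1) / t * T := by ring
    _ ≤ η * T := mul_le_mul_of_nonneg_right a4 T0.le

theorem tau_small {Γ t P H T u a s k τ : ℝ} (hΓ : 1 ≤ Γ) (ht : 1 ≤ t) (hP : 0 < P) (hu : 0 < u)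
    (ha : 0 ≤ a) (hs : 0 ≤ s) (h1 : P / Γ ≤ T) (a1 : H / P ≤ Γ ^ 3 * u ^ 3)
    (h2 : Real.exp (-(t / 100)) * P ≤ H) (h3 : Real.exp (-(k * t)) ≤ t ^ 2 * P)
    (h4 : τ ≤ a * s * Real.exp (-((k + 1 / 10) * t))) (h5 : s * (2304 * a * Γ ^ 6) ≤ 1) :
    τ ≤ u ^ 5 * T / 8 := by
  have t0 : 0 < t := by linarith
  have G0 : 0 < Γ := by linarith
  have T0 : 0 < T := lt_of_lt_of_le (by positivity) h1
  rw [div_le_iff₀ G0] at h1
  have b1 : Real.exp (-(t / 300)) ≤ Γ * u := by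
    refine le_of_pow_le_pow_left₀ three_ne_zero (by positivity) ?_
    rw [← Real.exp_nat_mul, mul_pow]
    refine le_trans ?_ a1
    rw [le_div_iff₀ hP]
    refine le_trans (le_of_eq ?_) h2
    congr 2
    push_cast
    ring
  have b2 : Real.exp (-(t / 12)) * t ^ 2 ≤ 288 := by
    have := Real.quadratic_le_exp_of_nonneg (show 0 ≤ t / 12 by positivity)
    rw [Real.exp_neg, inv_mul_le_iff₀ (Real.exp_pos _)]
    nlinarith
  have e : Real.exp (-((k + 1 / 10) * t)) =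
      Real.exp (-(k * t)) * Real.exp (-(t / 12)) * Real.exp (-(t / 300)) ^ 5 := by
    rw [← Real.exp_nat_mul, ← Real.exp_add, ← Real.exp_add]
    congr 1
    push_cast
    ring
  have b3 : Real.exp (-(k * t)) * Real.exp (-(t / 12)) ≤ 288 * (T * Γ) := by
    calc _ ≤ t ^ 2 * P * Real.exp (-(t / 12)) :=
          mul_le_mul_of_nonneg_right h3 (Real.exp_pos _).le
      _ = Real.exp (-(t / 12)) * t ^ 2 * P := by ring
      _ ≤ 288 * (T * Γ) := mul_le_mul b2 h1 hP.le (by norm_num)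
  have b4 : Real.exp (-((k + 1 / 10) * t)) ≤ 288 * (T * Γ) * (Γ * u) ^ 5 := by
    rw [e]
    exact mul_le_mul b3 (pow_le_pow_left₀ (Real.exp_pos _).le b1 5) (by positivity) (by positivity)
  calc τ ≤ a * s * (288 * (T * Γ) * (Γ * u) ^ 5) :=
        h4.trans (mul_le_mul_of_nonneg_left b4 (by positivity))
    _ = s * (2304 * a * Γ ^ 6) * (u ^ 5 * T / 8) := by ring
    _ ≤ 1 * (u ^ 5 * T / 8) := mul_le_mul_of_nonneg_right h5 (by positivity)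
    _ = _ := one_mul _

theorem fin {u T z τ n G Gt : ℝ} {DG Dn Dτ DGt Dν : E} (hu : 0 < u) (hu1 : u ≤ 1) (hT : 0 < T)
    (hτ0 : 0 ≤ τ) (hτ : τ ≤ u ^ 5 * T / 8) (hDτ : ‖Dτ‖ ≤ 2 * τ)
    (hDG : ‖DG‖ ≤ u ^ 2 * T / 4) (hDn : ‖Dn‖ ≤ u ^ 2 * T / 4) (hn0 : 0 ≤ n)
    (hn : n ≤ |z| * (u ^ 2 * T / 4)) (hG : 0 ≤ G) (hGt : 0 < Gt) (e : Gt ^ 2 = G ^ 2 + τ ^ 2)
    (eD : Gt • DGt + Gt • DGt = (G • DG + G • DG) + (τ • Dτ + τ • Dτ))
    (eν : Dν = (n • Dn + n • Dn) - (τ • Dτ + τ • Dτ)) :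
    ‖DGt‖ ≤ u ^ 2 * T ∧ |n ^ 2 - τ ^ 2| ≤ u ^ 4 * T ^ 2 * √(z ^ 2 + (u ^ 3) ^ 2) ^ 2 ∧
      ‖Dν‖ ≤ u ^ 4 * T ^ 2 * √(z ^ 2 + (u ^ 3) ^ 2) := by
  have u3 : u ^ 3 ≤ 1 := pow_le_one₀ hu.le hu1
  have g1 : G ≤ Gt := le_of_pow_le_pow_left₀ two_ne_zero hGt.le (by nlinarith [sq_nonneg τ])
  have g2 : τ ≤ Gt := le_of_pow_le_pow_left₀ two_ne_zero hGt.le (by nlinarith [sq_nonneg G])
  have w0 : 0 < u ^ 2 * T := by positivity
  have s1 : |z| ≤ √(z ^ 2 + (u ^ 3) ^ 2) := Real.abs_le_sqrt (by nlinarith [sq_nonneg (u ^ 3)])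
  have s2 : u ^ 3 ≤ √(z ^ 2 + (u ^ 3) ^ 2) :=
    Real.le_sqrt_of_sq_le (by nlinarith [sq_nonneg z])
  have t1 : τ ≤ u ^ 3 * (u ^ 2 * T / 8) := by linarith [show u ^ 5 * T / 8 = u ^ 3 * (u ^ 2 * T / 8) by ring]
  have t2 : τ ≤ u ^ 2 * T / 8 := t1.trans (mul_le_of_le_one_left (by positivity) u3)
  have nn : ∀ (s : ℝ) (v : E), 0 ≤ s → ‖s • v + s • v‖ = 2 * (s * ‖v‖) := fun s v hs => by
    rw [← two_smul ℝ, norm_smul, norm_smul, Real.norm_eq_abs, Real.norm_eq_abs, abs_of_nonneg hs,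
      abs_two]
  refine ⟨?_, ?_, ?_⟩
  · have a := norm_add_le (G • DG + G • DG) (τ • Dτ + τ • Dτ)
    rw [← eD, nn _ _ hGt.le, nn _ _ hG, nn _ _ hτ0] at a
    have b1 := mul_le_mul g1 hDG (norm_nonneg _) hGt.le
    have b2 := mul_le_mul g2 (hDτ.trans (show 2 * τ ≤ u ^ 2 * T / 4 by linarith)) (norm_nonneg _)
      hGt.le
    refine le_of_mul_le_mul_left ?_ hGt
    have : 0 ≤ Gt * (u ^ 2 * T) := by positivity
    linarith
  · rw [Real.sq_sqrt (by positivity)]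
    have a1 := pow_le_pow_left₀ hn0 hn 2
    have a2 := pow_le_pow_left₀ hτ0 t1 2
    rw [mul_pow, sq_abs] at a1
    have b1 : 0 ≤ z ^ 2 * (u ^ 2 * T) ^ 2 := by positivity
    have b2 : 0 ≤ (u ^ 3) ^ 2 * (u ^ 2 * T) ^ 2 := by positivity
    rw [abs_le]
    constructor <;> nlinarith [sq_nonneg n, sq_nonneg τ]
  · have a := norm_sub_le (n • Dn + n • Dn) (τ • Dτ + τ • Dτ)
    rw [← eν, nn _ _ hn0, nn _ _ hτ0] at a
    have b1 := mul_le_mul (hn.trans (mul_le_mul_of_nonneg_right s1 (by positivity))) hDn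
      (norm_nonneg _) (by positivity)
    have b2 := mul_le_mul (t1.trans (mul_le_mul_of_nonneg_right s2 (by positivity)))
      (hDτ.trans (show 2 * τ ≤ u ^ 2 * T / 4 by linarith)) (norm_nonneg _) (by positivity)
    have : 0 ≤ u ^ 4 * T ^ 2 * √(z ^ 2 + (u ^ 3) ^ 2) := by positivity
    nlinarith

/-- exponent facts for the models -/
theorem models {o : OD} {c : ℝ} {m : MD} (hm : m.OK o c) (k1 : 99 / 100 ≤ m.κ) (k2 : m.κ ≤ m.κh)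
    (k3 : m.κh ≤ 11 / 10) (k4 : m.κh - m.κ ≤ 1 / 100) (y : E) :
    0 < m.Dm y ∧ 0 < m.mh y ∧ Real.exp (-(jb y / 100)) * m.Dm y ≤ m.mh y ∧
      Real.exp (-(m.κ * jb y)) ≤ jb y ^ 2 * m.Dm y ∧
      (|y 2| ≤ 1 → m.Dm y ≤ 4 * m.Dm (hor y) ∧ m.mh y ≤ 4 * m.mh (hor y)) := by
  have l0 := hm.l0.1
  have l1 := hm.l0.2
  have κ0 : 0 < m.κ := by linarith
  have κ1 : 0 < m.κh := by linarith
  have j1 := (jb_facts y).1
  have j0 : 0 < jb y := by linarith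
  have p1 : (2 - 2 * m.l) / m.κ ≤ 21 / 10 := by
    rw [div_le_iff₀ κ0]
    linarith
  have p2 : 0 ≤ (2 - 2 * m.l) / m.κ := div_nonneg (by linarith) κ0.le
  have q1 : 3 / 2 ≤ 2 / m.κh := by
    rw [le_div_iff₀ κ1]
    linarith
  have q2 : 2 / m.κh ≤ 3 := by
    rw [div_le_iff₀ κ1]
    linarith
  refine ⟨(radb_facts _ _ _ y).1, (radb_facts _ _ _ y).1, ?_, ?_, fun h =>
    ⟨rad_hor (by linarith) κ0.le h, rad_hor (by linarith) κ1.le h⟩⟩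
  · unfold MD.Dm MD.mh
    rw [rad_eq, rad_eq, mul_left_comm, ← Real.exp_add]
    refine mul_le_mul (Real.rpow_le_rpow_of_exponent_le j1 (by linarith))
      (Real.exp_le_exp.2 ?_) (Real.exp_pos _).le (by positivity)
    nlinarith
  · unfold MD.Dm
    rw [rad_eq, ← mul_assoc, ← Real.rpow_two, ← Real.rpow_add j0]
    exact le_mul_of_one_le_left (Real.exp_pos _).le (Real.one_le_rpow j1 (by linarith))

theorem mm_hor (m : MD) (x : E) :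
    m.mm (hor x) = m.mh (hor x) + m.l / jb (hor x) ^ 3 * m.Dm (hor x) := by
  unfold MD.mm
  rw [F0d.hor_two]
  ring

theorem mg_le {m : MD} (hl : 0 ≤ m.l) {x : E} (hx : |x 2| ≤ 1) (h0 : 0 < m.Dm x)
    (h0' : 0 < m.mh (hor x)) (h1 : m.Dm x ≤ 4 * m.Dm (hor x)) (h2 : m.mh x ≤ 4 * m.mh (hor x)) :
    m.mg x ≤ 8 * (m.mh (hor x) + m.l / jb (hor x) ^ 2 * m.Dm (hor x)) := by
  unfold MD.mg
  have t1 := (jb_facts (hor x)).1
  have t2 := (jb_facts x).2.2.2.2.2.1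
  have a : m.l * (1 + |x 2|) / jb x ^ 2 ≤ m.l * 2 / jb (hor x) ^ 2 :=
    div_le_div₀ (by positivity) (mul_le_mul_of_nonneg_left (by linarith) hl) (by positivity)
      (pow_le_pow_left₀ (by linarith) t2 2)
  have b := mul_le_mul a h1 h0.le (by positivity)
  have e : m.l * 2 / jb (hor x) ^ 2 * (4 * m.Dm (hor x)) =
      8 * (m.l / jb (hor x) ^ 2 * m.Dm (hor x)) := by ring
  linarith

theorem bd {o : OD} {c : ℝ} {m : MD} (hm : m.OK o c) :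
    ∀ᵐ x, |m.f x| ≤ c ∧ m.g x ≤ c ∧ m.G x ≤ c ∧ m.n x ≤ c ∧ |m.s x| ≤ c := by
  filter_upwards [hm.bd, hm.pyth] with x h1 h2
  obtain ⟨n1, n2, n3, n4, -⟩ := hm.nn x
  have a1 : |m.f x| ≤ m.r x :=
    le_of_pow_le_pow_left₀ two_ne_zero n1 (by rw [sq_abs]; nlinarith [sq_nonneg (m.g x)])
  have a2 : m.g x ≤ m.r x := le_of_pow_le_pow_left₀ two_ne_zero n1 (by nlinarith [sq_nonneg (m.f x)])
  have a3 : m.G x ≤ m.g x := le_of_pow_le_pow_left₀ two_ne_zero n4 (by nlinarith [sq_nonneg (m.n x)])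
  have a4 : m.n x ≤ m.g x := le_of_pow_le_pow_left₀ two_ne_zero n4 (by nlinarith [sq_nonneg (m.G x)])
  have := h1.1
  have := h2.2.2
  refine ⟨?_, ?_, ?_, ?_, ?_⟩ <;> linarith

theorem grads {o : OD} {c a : ℝ} {m : MD} (hm : m.OK o c) (h6 : G6 o c a m) : ∀ᵐ x,
    m.r x ^ 2 - m.f x ^ 2 - m.Gt a x ^ 2 = m.n x ^ 2 - m.τ a x ^ 2 ∧
    m.Gt a x • D (m.Gt a) x + m.Gt a x • D (m.Gt a) x = (m.G x • D m.G x + m.G x • D m.G x) +
      (m.τ a x • ∇ (m.τ a) x + m.τ a x • ∇ (m.τ a) x) ∧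
    D (fun x => m.r x ^ 2 - m.f x ^ 2 - m.Gt a x ^ 2) x = (m.n x • D m.n x + m.n x • D m.n x) -
      (m.τ a x • ∇ (m.τ a) x + m.τ a x • ∇ (m.τ a) x) := by
  have bG : Bl m.G := ⟨hm.h1.2.1.hl, Bd.lb ⟨c, (bd hm).mono fun x h => by
    rw [abs_of_nonneg (hm.nn x).2.1]; exact h.2.2.1⟩⟩
  have bn : Bl m.n := ⟨hm.h1.2.2.1.hl, Bd.lb ⟨c, (bd hm).mono fun x h => by
    rw [abs_of_nonneg (hm.nn x).2.2.1]; exact h.2.2.2.1⟩⟩
  have bτ : Bl (m.τ a) := bl_c1 (tau_c1 m a)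
  have sq : ∀ x, m.Gt a x ^ 2 = m.G x ^ 2 + m.τ a x ^ 2 := fun x => Real.sq_sqrt (by positivity)
  have e1 : ∀ᵐ x, m.r x ^ 2 - m.f x ^ 2 - m.Gt a x ^ 2 = m.n x * m.n x - m.τ a x * m.τ a x := by
    filter_upwards [hm.pyth] with x h
    rw [sq x, h.2.1, h.1]
    ring
  have e2 : ∀ᵐ x, m.Gt a x * m.Gt a x = m.G x * m.G x + m.τ a x * m.τ a x :=
    ae_of_all _ fun x => by linarith [sq x]
  filter_upwards [e1, D_congr e1, D_congr e2, (h6.reg.1.mul h6.reg.1).2, (bG.mul bG).2,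
    (bn.mul bn).2, (bτ.mul bτ).2, D_c1 (tau_c1 m a), D_add (bG.mul bG).1.hl (bτ.mul bτ).1.hl,
    D_sub (bn.mul bn).1.hl (bτ.mul bτ).1.hl] with x a1 a2 a3 a4 a5 a6 a7 a8 a9 a10
  refine ⟨by rw [a1]; ring, ?_, ?_⟩
  · rw [← a4, a3, a9, a5, a7, a8]
  · rw [a2, a10, a6, a7, a8]

theorem pw {o : OD} {c : ℝ} {m : MD} (hm : m.OK o c) (k1 : 99 / 100 ≤ m.κ) (k2 : m.κ ≤ m.κh)
    (k3 : m.κh ≤ 11 / 10) (k4 : m.κh - m.κ ≤ 1 / 100) {Γ c2 c5 θ a η0 : ℝ} (hΓ : 1 ≤ Γ)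
    (hc2 : 1 ≤ c2) (hc5 : 1 ≤ c5) (hθ : 0 < θ) (eθ : θ * (64 * c5 * Γ) = 1) (ha : 0 < a)
    (hη : 0 < η0) (l1 : m.l * (Γ ^ 6 / θ ^ 3) ≤ 1) (l2 : √m.l * (2304 * a * Γ ^ 6) ≤ 1) {x : E}
    (x1 : |x 2| ≤ 1) (b1 : m.Dm (hor x) / Γ ≤ m.Dt x) (b2 : m.Dt x ≤ Γ * m.Dm (hor x))
    (b3 : m.mm (hor x) / Γ ^ 2 ≤ m.bt x) (b4 : m.bt x ≤ Γ ^ 2 * m.mm (hor x))
    (b9 : jb (hor x) * m.mh (hor x) ≤ c2 * m.Dm (hor x)) (r1 : c2 * Γ ^ 6 / θ ^ 3 ≤ ‖hor x‖)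
    (r2 : Γ ^ 3 * (c2 + 1) / η0 ≤ ‖hor x‖) (r3 : Γ ^ 3 * (c2 + 1) / 1 ≤ ‖hor x‖) :
    0 < m.Dt x ∧ 0 < m.η x ∧ m.η x ≤ η0 ∧ m.η x ≤ 1 ∧
      m.mh (hor x) + m.l / jb (hor x) ^ 3 * m.Dm (hor x) ≤ Γ ^ 2 * (m.η x * m.Dt x) ∧
      ∀ u : ℝ, 0 < u → m.η x = u ^ 3 → c5 * m.mg x ≤ u ^ 2 * m.Dt x / 4 ∧
        m.τ a x ≤ u ^ 5 * m.Dt x / 8 := by
  have l0 := hm.l0.1
  have G0 : 0 < Γ := by linarith
  obtain ⟨P0, H0, b5, b6, -⟩ := models hm k1 k2 k3 k4 (hor x)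
  obtain ⟨P1, -, -, -, b7⟩ := models hm k1 k2 k3 k4 x
  obtain ⟨b7, b8⟩ := b7 x1
  obtain ⟨t1, t2, -⟩ := jb_facts (hor x)
  have T0 : 0 < m.Dt x := lt_of_lt_of_le (by positivity) b1
  rw [mm_hor] at b3 b4
  have B0 : 0 < m.bt x := lt_of_lt_of_le (by positivity) b3
  have e0 : 0 < m.η x := div_pos B0 T0
  have eb : m.bt x = m.η x * m.Dt x := (div_mul_cancel₀ _ T0.ne').symm
  rw [eb] at b3 b4
  refine ⟨T0, e0, up hΓ t1 P0 (by linarith) hm.l0.2 hη b1 b4 b9 (r2.trans t2),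
    up hΓ t1 P0 (by linarith) hm.l0.2 one_pos b1 b4 b9 (r3.trans t2), ?_, fun u hu eu => ?_⟩
  · rw [div_le_iff₀ (by positivity)] at b3
    linarith
  obtain ⟨a1, a2⟩ := low hΓ t1 P0 H0 e0 l0 b2 b3
  rw [eu] at a1 a2
  constructor
  · have a3 := mid hΓ t1 P0 H0 hu l0 hθ b1 a1 a2 b9 (r1.trans t2) l1
    have a4 := (mg_le l0.le x1 P1 H0 b7 b8).trans (mul_le_mul_of_nonneg_left a3 (by norm_num))
    calc c5 * m.mg x ≤ c5 * (8 * (2 * θ * Γ * (u ^ 2 * m.Dt x))) :=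
          mul_le_mul_of_nonneg_left a4 (by linarith)
      _ = θ * (64 * c5 * Γ) * (u ^ 2 * m.Dt x / 4) := by ring
      _ = _ := by rw [eθ, one_mul]
  · refine tau_small hΓ t1 P0 hu ha.le (Real.sqrt_nonneg m.l) b1 a1 b5 b6 ?_ l2
    unfold MD.τ
    rw [rad_eq, Real.rpow_zero, one_mul]
    exact mul_le_mul_of_nonneg_left (Real.exp_le_exp.2 (neg_le_neg (mul_le_mul_of_nonneg_left
      (jb_facts x).2.2.2.2.2.1 (by linarith)))) (by positivity)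

theorem efb {o : OD} {c : ℝ} {m : MD} (hm : m.OK o c) (k1 : 99 / 100 ≤ m.κ) (k2 : m.κ ≤ m.κh)
    (k3 : m.κh ≤ 11 / 10) (k4 : m.κh - m.κ ≤ 1 / 100) {Γ c4 L : ℝ} (hc4 : 1 ≤ c4) (hL : 0 ≤ L)
    (l3 : m.l * (2 * c * L) ≤ 1) (l4 : m.l * (16 * c * c4 * Γ ^ 2) ≤ 1) {x : E} (x1 : |x 2| ≤ 1)
    (T0 : 0 < m.Dt x) (f1 : |m.f x| ≤ L * (|x 2| * m.Dt x)) (a2 : m.g x ≤ c4 * m.mg x)
    (a5 : |m.ef x| ≤ c * m.l / jb x ^ 2 * m.g x)
    (bm : m.mh (hor x) + m.l / jb (hor x) ^ 3 * m.Dm (hor x) ≤ Γ ^ 2 * (m.η x * m.Dt x)) :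
    |-(m.l * m.w x * m.f x) + m.ef x| ≤ m.Dt x * sg m.η x := by
  have l0 := hm.l0.1
  have c0 : 0 ≤ c := (hm.w_bd 0).1.trans (hm.w_bd 0).2.1
  have s1 : |x 2| ≤ sg m.η x := Real.abs_le_sqrt (by nlinarith [sq_nonneg (m.η x)])
  have s2 : m.η x ≤ sg m.η x := Real.le_sqrt_of_sq_le (by nlinarith [sq_nonneg (x 2)])
  have s0 : 0 ≤ sg m.η x := (abs_nonneg _).trans s1
  obtain ⟨w0, w1, -⟩ := hm.w_bd x
  have p1 : |m.l * m.w x * m.f x| ≤ m.Dt x * sg m.η x / 2 := by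
    rw [abs_mul, abs_of_nonneg (mul_nonneg l0.le w0)]
    calc m.l * m.w x * |m.f x| ≤ m.l * c * (L * (sg m.η x * m.Dt x)) :=
          mul_le_mul (mul_le_mul_of_nonneg_left w1 l0.le) (f1.trans (mul_le_mul_of_nonneg_left
            (mul_le_mul_of_nonneg_right s1 T0.le) hL)) (abs_nonneg _) (by positivity)
      _ = m.l * (2 * c * L) * (m.Dt x * sg m.η x / 2) := by ring
      _ ≤ _ := mul_le_of_le_one_left (by positivity) l3
  have p2 : |m.ef x| ≤ m.Dt x * sg m.η x / 2 := by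
    obtain ⟨P0, H0, -⟩ := models hm k1 k2 k3 k4 (hor x)
    obtain ⟨P1, -, -, -, b7⟩ := models hm k1 k2 k3 k4 x
    obtain ⟨b7, b8⟩ := b7 x1
    have t1 := (jb_facts (hor x)).1
    have t2 := (jb_facts x).2.2.2.2.2.1
    have t0 : 0 < jb (hor x) := by linarith
    have q1 := a2.trans (mul_le_mul_of_nonneg_left (mg_le l0.le x1 P1 H0 b7 b8) (by linarith))
    have q2 : c * m.l / jb x ^ 2 ≤ c * m.l / jb (hor x) :=
      div_le_div_of_nonneg_left (by positivity) t0 (by nlinarith)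
    have q3 : (m.mh (hor x) + m.l / jb (hor x) ^ 2 * m.Dm (hor x)) / jb (hor x) ≤
        Γ ^ 2 * (sg m.η x * m.Dt x) := by
      have e : (m.mh (hor x) + m.l / jb (hor x) ^ 2 * m.Dm (hor x)) / jb (hor x) =
          m.mh (hor x) / jb (hor x) + m.l / jb (hor x) ^ 3 * m.Dm (hor x) := by field_simp
      have := div_le_self H0.le t1
      have := mul_le_mul_of_nonneg_left (mul_le_mul_of_nonneg_right s2 T0.le) (sq_nonneg Γ)
      linarith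
    calc |m.ef x| ≤ c * m.l / jb (hor x) *
          (c4 * (8 * (m.mh (hor x) + m.l / jb (hor x) ^ 2 * m.Dm (hor x)))) :=
          a5.trans (mul_le_mul q2 q1 (hm.nn x).2.2.2.1 (by positivity))
      _ = m.l * (8 * c * c4) *
          ((m.mh (hor x) + m.l / jb (hor x) ^ 2 * m.Dm (hor x)) / jb (hor x)) := by ring
      _ ≤ m.l * (8 * c * c4) * (Γ ^ 2 * (sg m.η x * m.Dt x)) :=
          mul_le_mul_of_nonneg_left q3 (by positivity)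
      _ = m.l * (16 * c * c4 * Γ ^ 2) * (m.Dt x * sg m.η x / 2) := by ring
      _ ≤ _ := mul_le_of_le_one_left (by positivity) l4
  have := abs_add_le (-(m.l * m.w x * m.f x)) (m.ef x)
  rw [abs_neg] at this
  linarith

theorem kb_ne {h : E → ℝ} {x : E} (hx : 0 < Kb h x) : ¬ ∀ᵐ y, h y = 0 := fun h0 => by
  refine hx.ne' (integral_eq_zero_of_ae ?_)
  filter_upwards [h0] with y hy
  simp [hy]

theorem exists_hor (r : ℝ) : ∃ x : E, r ≤ ‖hor x‖ := by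
  refine ⟨EuclideanSpace.single 0 r, ?_⟩
  have : hor (EuclideanSpace.single 0 r) = EuclideanSpace.single 0 r := by simp [hor]
  rw [this]
  simpa using le_abs_self r

theorem sl_mono {R ρ : ℝ} (h : ρ ≤ R) {x : E} (hx : x ∈ Sl R) : x ∈ Sl ρ := ⟨hx.1, h.trans_lt hx.2⟩

theorem sl_norm {R : ℝ} {x : E} (hx : x ∈ Sl R) : R < ‖x‖ := hx.2.trans_le (F0d.norm_hor_le x)

theorem eta_low {o : OD} {c : ℝ} {m : MD} (hm : m.OK o c) (k1 : 99 / 100 ≤ m.κ) (k2 : m.κ ≤ m.κh)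
    (k3 : m.κh ≤ 11 / 10) (k4 : m.κh - m.κ ≤ 1 / 100) {Γ R : ℝ} (hΓ : 1 ≤ Γ) {x : E}
    (b1 : m.Dm (hor x) / Γ ≤ m.Dt x) (b2 : m.Dt x ≤ Γ * m.Dm (hor x))
    (b3 : m.mm (hor x) / Γ ^ 2 ≤ m.bt x) :
    (‖hor x‖ ≤ R + 3 → Real.exp (-((R + 4) / 100)) / Γ ^ 3 ≤ m.η x) ∧
      m.l / Γ ^ 2 * rad (-10) m.κ x ≤ m.bt x := by
  have l0 := hm.l0.1
  have G0 : 0 < Γ := by linarith
  obtain ⟨P0, H0, b5, b6, -⟩ := models hm k1 k2 k3 k4 (hor x)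
  obtain ⟨t1, -, t2, -⟩ := jb_facts (hor x)
  have t3 := (jb_facts x).2.2.2.2.2.1
  have t0 : 0 < jb (hor x) := by linarith
  have T0 : 0 < m.Dt x := lt_of_lt_of_le (by positivity) b1
  rw [mm_hor] at b3
  have B0 : 0 < m.bt x := lt_of_lt_of_le (by positivity) b3
  constructor
  · intro h
    have e0 : 0 < m.η x := div_pos B0 T0
    have eb : m.bt x = m.η x * m.Dt x := (div_mul_cancel₀ _ T0.ne').symm
    rw [eb] at b3
    have a1 := (low hΓ t1 P0 H0 e0 l0 b2 b3).1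
    rw [div_le_iff₀ (by positivity)]
    have a2 : Real.exp (-((R + 4) / 100)) ≤ Real.exp (-(jb (hor x) / 100)) :=
      Real.exp_le_exp.2 (by linarith)
    have a3 := (le_div_iff₀ P0).2 b5
    linarith
  · have a1 : rad (-10) m.κ x ≤ 1 / jb (hor x) ^ 3 * m.Dm (hor x) := by
      rw [rad_eq]
      have c1 : jb x ^ (-10 : ℝ) ≤ 1 / jb (hor x) ^ 5 := by
        calc jb x ^ (-10 : ℝ) ≤ jb x ^ (-5 : ℝ) :=
              Real.rpow_le_rpow_of_exponent_le (by linarith) (by norm_num)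
          _ = 1 / jb x ^ 5 := by
              rw [Real.rpow_neg (by linarith), one_div]
              congr 1
              exact_mod_cast Real.rpow_natCast (jb x) 5
          _ ≤ 1 / jb (hor x) ^ 5 :=
              one_div_le_one_div_of_le (by positivity) (pow_le_pow_left₀ t0.le t3 5)
      have c2 : Real.exp (-(m.κ * jb x)) ≤ jb (hor x) ^ 2 * m.Dm (hor x) :=
        (Real.exp_le_exp.2 (neg_le_neg (mul_le_mul_of_nonneg_left t3 (by linarith)))).trans b6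
      calc _ ≤ 1 / jb (hor x) ^ 5 * (jb (hor x) ^ 2 * m.Dm (hor x)) :=
            mul_le_mul c1 c2 (Real.exp_pos _).le (by positivity)
        _ = _ := by field_simp
    refine le_trans ?_ b3
    calc m.l / Γ ^ 2 * rad (-10) m.κ x ≤ m.l / Γ ^ 2 * (1 / jb (hor x) ^ 3 * m.Dm (hor x)) :=
          mul_le_mul_of_nonneg_left a1 (by positivity)
      _ = (m.l / jb (hor x) ^ 3 * m.Dm (hor x)) / Γ ^ 2 := by ring
      _ ≤ _ := div_le_div_of_nonneg_right (by linarith) (by positivity)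

theorem pows {L : ℝ} {a b : ℕ} (hL : 2 ≤ L) {d C0 : ℝ} (h0 : 0 ≤ C0) (h1 : C0 ≤ d) (h2 : d ≤ L) :
    L ≤ L ^ (a + b + 4) ∧ L ^ a ≤ L ^ (a + b + 4) ∧ L ^ b ≤ L ^ (a + b + 4) ∧
      2 * d ^ 3 * L ^ a ≤ L ^ (a + b + 4) ∧ C0 * d * L * L ^ a + 1 ≤ L ^ (a + b + 4) := by
  have l1 : 1 ≤ L := by linarith
  have d0 : 0 ≤ d := h0.trans h1
  have p : L ^ (a + 4) ≤ L ^ (a + b + 4) := pow_le_pow_right₀ l1 (by omega)
  have q : 1 ≤ L ^ 3 * L ^ a := one_le_mul_of_one_le_of_one_le (one_le_pow₀ l1) (one_le_pow₀ l1)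
  have r : 2 * (L ^ 3 * L ^ a) ≤ L ^ (a + 4) := by
    calc 2 * (L ^ 3 * L ^ a) ≤ L * (L ^ 3 * L ^ a) := mul_le_mul_of_nonneg_right hL (by positivity)
      _ = _ := by ring
  refine ⟨le_self_pow₀ l1 (by omega), pow_le_pow_right₀ l1 (by omega),
    pow_le_pow_right₀ l1 (by omega), ?_, ?_⟩
  · have := mul_le_mul_of_nonneg_right (pow_le_pow_left₀ d0 h2 3) (show 0 ≤ L ^ a by positivity)
    linarith
  · have : C0 * d * L * L ^ a ≤ L * L * L * L ^ a := by gcongr; linarith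
    have e : L * L * L * L ^ a = L ^ 3 * L ^ a := by ring
    linarith

theorem subineq {o : OD} {c : ℝ} {m : MD} (hm : m.OK o c) {x : E} {Gt c7 Γ L M Λ : ℝ}
    (h0 : 0 ≤ o.C0 * o.d) (hG : 0 ≤ Gt) (hd : c * m.l ≤ m.dt) (x1 : |x 2| ≤ 1) (T0 : 0 < m.Dt x)
    (B0 : 0 < m.bt x) (hL : 0 ≤ L) (hΓ : 0 < Γ) (h7 : 0 ≤ c7)
    (f1 : |m.f x| ≤ L * (|x 2| * m.Dt x)) (s1 : m.s x ≤ M * m.bt x)
    (s2 : m.l * m.Dt x / jb x ^ 3 ≤ M * m.bt x) (s3 : m.mm x / Γ ≤ m.s x)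
    (e1 : m.l * (c * Real.exp (-(‖x‖ / 8))) * |m.f x| + c * m.l * |x 2| / jb x ^ 2 * m.n x +
      c * m.l * ((1 + |x 2|) / jb x ^ 3 * (m.n x + √m.l * |m.f x|)) ≤ c7 * √m.l * m.mm x)
    (l1 : √m.l * (c7 * Γ * M) ≤ 1) (hΛ : o.C0 * o.d * L * M + 1 ≤ Λ) :
    -((o.v x + m.I + m.dt - c * m.l) * Gt) +
      (m.l * (o.C0 * o.d * |x 2| / jb x ^ 3 + c * Real.exp (-(‖x‖ / 8))) * |m.f x| +
        c * m.l * |x 2| / jb x ^ 2 * m.n x) ≤ -((o.v x + m.I) * Gt) + Λ * m.bt x := by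
  have l0 := hm.l0.1
  have c0 : 0 ≤ c := (hm.w_bd 0).1.trans (hm.w_bd 0).2.1
  have n0 := (hm.nn x).2.2.1
  have j0 : 0 < jb x := lt_of_lt_of_le one_pos (jb_facts x).1
  have a1 : 0 ≤ (m.dt - c * m.l) * Gt := mul_nonneg (by linarith) hG
  have a2 : 0 ≤ c * m.l * ((1 + |x 2|) / jb x ^ 3 * (m.n x + √m.l * |m.f x|)) := by positivity
  have a3 : c7 * √m.l * m.mm x ≤ m.bt x := by
    rw [div_le_iff₀ hΓ] at s3
    calc c7 * √m.l * m.mm x ≤ c7 * √m.l * (M * m.bt x * Γ) :=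
          mul_le_mul_of_nonneg_left (s3.trans (mul_le_mul_of_nonneg_right s1 hΓ.le)) (by positivity)
      _ = √m.l * (c7 * Γ * M) * m.bt x := by ring
      _ ≤ _ := mul_le_of_le_one_left B0.le l1
  have a4 : m.l * (o.C0 * o.d * |x 2| / jb x ^ 3) * |m.f x| ≤ o.C0 * o.d * L * M * m.bt x := by
    have b1 : |x 2| * |m.f x| ≤ 1 * (L * (1 * m.Dt x)) :=
      mul_le_mul x1 (f1.trans (mul_le_mul_of_nonneg_left (mul_le_mul_of_nonneg_right x1 T0.le) hL))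
        (abs_nonneg _) zero_le_one
    calc m.l * (o.C0 * o.d * |x 2| / jb x ^ 3) * |m.f x|
        = o.C0 * o.d * (m.l / jb x ^ 3) * (|x 2| * |m.f x|) := by ring
      _ ≤ o.C0 * o.d * (m.l / jb x ^ 3) * (1 * (L * (1 * m.Dt x))) :=
          mul_le_mul_of_nonneg_left b1 (by positivity)
      _ = o.C0 * o.d * L * (m.l * m.Dt x / jb x ^ 3) := by ring
      _ ≤ o.C0 * o.d * L * (M * m.bt x) := mul_le_mul_of_nonneg_left s2 (by positivity)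
      _ = _ := by ring
  have a5 := mul_le_mul_of_nonneg_right hΛ B0.le
  linarith

theorem gt_close {o : OD} {c : ℝ} {m : MD} {a ε : ℝ} (ha : 0 ≤ a) (hε : 0 < ε) (k : 0 ≤ m.κ) {x : E}
    (hG : 0 ≤ m.G x) (h : |m.G x - √2 * o.g0 x| ≤ c * √m.l) (l1 : √m.l * ((c + a) / ε) ≤ 1) :
    m.G x ≤ m.Gt a x ∧ |m.Gt a x - √2 * o.g0 x| ≤ ε := by
  have t0 := tau_nn m ha x
  have a1 : m.G x ≤ m.Gt a x := Real.le_sqrt_of_sq_le (by nlinarith [sq_nonneg (m.τ a x)])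
  have a2 : m.Gt a x ≤ m.G x + m.τ a x :=
    Real.sqrt_le_iff.2 ⟨by positivity, by nlinarith [mul_nonneg hG t0]⟩
  have a3 : m.τ a x ≤ a * √m.l := by
    unfold MD.τ
    rw [rad_eq, Real.rpow_zero, one_mul]
    refine mul_le_of_le_one_right (by positivity) (Real.exp_le_one_iff.2 ?_)
    have := (jb_facts x).1
    have : 0 ≤ (m.κ + 1 / 10) * jb x := by positivity
    linarith
  rw [← mul_div_assoc, div_le_one hε] at l1
  rw [abs_le] at h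
  refine ⟨a1, abs_le.2 ⟨?_, ?_⟩⟩ <;> nlinarith [Real.sqrt_nonneg m.l]

end F12x

end

end Crest.Agent.R335
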