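import Crest.Agent.R335.F11
import Crest.Agent.R335.F12Aux1

set_option autoImplicit false

open MeasureTheory Set Filter Topology Metric
open scoped Gradient ContDiff RealInnerProductSpace ENNReal

namespace Crest.Agent.R335

noncomputable section

theorem F12 : Lg fun o => ∀ c a η0 : ℝ, 0 < a → 0 < η0 → ∃ ρ : ℝ, Sm o c fun m => G6 o c a m →
    (∀ x ∈ Sl ρ, m.η x ≤ η0) ∧ ∀ᵐ x, x ∈ Sl ρ → ‖D (m.Gt a) x‖ ≤ m.η x ^ (2 / 3 : ℝ) * m.Dt x ∧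
    |m.r x ^ 2 - m.f x ^ 2 - m.Gt a x ^ 2| ≤ m.η x ^ (4 / 3 : ℝ) * m.Dt x ^ 2 * sg m.η x ^ 2 ∧
    ‖D (fun x => m.r x ^ 2 - m.f x ^ 2 - m.Gt a x ^ 2) x‖ ≤
      m.η x ^ (4 / 3 : ℝ) * m.Dt x ^ 2 * sg m.η x ∧
    |-(m.l * m.w x * m.f x) + m.ef x| ≤ m.Dt x * sg m.η x := by
  refine (((((F2.and F4).and F5b).and F9c).and F9g).and (num_good 0 300)).mono
    fun o ho ⟨⟨⟨⟨⟨h2, h4⟩, h5⟩, h9c⟩, h9g⟩, hn⟩ c a η0 ha hη => ?_
  obtain ⟨c2, hc2, s2⟩ := h2 c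
  obtain ⟨c4, hc4, s4⟩ := h4 c
  obtain ⟨c5, hc5, s5⟩ := h5 c
  obtain ⟨ρc, sc⟩ := h9c c
  obtain ⟨ρg, sg'⟩ := h9g c
  have hΓ : 1 ≤ o.Γ1 := Real.one_le_exp (by positivity)
  have hδ : o.δ0 ≤ 1 / 300 := by
    have := hn.2.2.1
    rw [pow_zero] at this
    linarith
  have hL : 0 ≤ o.L := by linarith [hn.1, hn.2.1]
  generalize o.Γ1 = Γ at sc hΓ
  have G0 : 0 < Γ := by linarith
  obtain ⟨θ, hθ, eθ⟩ : ∃ θ : ℝ, 0 < θ ∧ θ * (64 * c5 * Γ) = 1 :=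
    ⟨1 / (64 * c5 * Γ), by positivity, by field_simp⟩
  obtain ⟨ρ, r1, r2, r3, r4, r5, r6⟩ : ∃ ρ : ℝ, ρc ≤ ρ ∧ ρg ≤ ρ ∧ 1 ≤ ρ ∧ c2 * Γ ^ 6 / θ ^ 3 ≤ ρ ∧
      Γ ^ 3 * (c2 + 1) / η0 ≤ ρ ∧ Γ ^ 3 * (c2 + 1) / 1 ≤ ρ :=
    ⟨max (max (max ρc ρg) (max 1 (c2 * Γ ^ 6 / θ ^ 3)))
      (max (Γ ^ 3 * (c2 + 1) / η0) (Γ ^ 3 * (c2 + 1) / 1)), by simp only [le_max_iff, le_refl,
        true_or, or_true, and_self]⟩
  refine ⟨ρ, (((((((((s2.and s4).and s5).and sc).and sg').and (num_kappa o ho c 1 one_pos)).and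
    (F12x.sm_sqrt o c (Γ ^ 6 / θ ^ 3))).and (F12x.sm_sqrt o c (2304 * a * Γ ^ 6))).and
    (F12x.sm_sqrt o c (2 * c * o.L))).and (F12x.sm_sqrt o c (16 * c * c4 * Γ ^ 2))).mono
    fun m hm ⟨⟨⟨⟨⟨⟨⟨⟨⟨g2, g4⟩, g5⟩, gc⟩, gg⟩, gk⟩, l1⟩, l2⟩, l3⟩, l4⟩ h6 => ?_⟩
  obtain ⟨-, -, k1, k3, -, -, -, -, k2', k4'⟩ := gk
  have k2 : m.κ ≤ m.κh := by linarith only [k2', ho.δ.1]
  have k4 : m.κh - m.κ ≤ 1 / 100 := by linarith only [k4', hδ]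
  have pw := fun (x : E) (hx : x ∈ Sl ρ) =>
    F12x.pw hm k1 k2 k3 k4 hΓ hc2 hc5 hθ eθ ha hη l1.2 l2.1 hx.1.le
      (gc.2 x (r1.trans hx.2.le)).1 (gc.2 x (r1.trans hx.2.le)).2.1
      (gc.2 x (r1.trans hx.2.le)).2.2.1 (gc.2 x (r1.trans hx.2.le)).2.2.2 (g2.1 (hor x)).1
      (r4.trans hx.2.le) (r5.trans hx.2.le) (r6.trans hx.2.le)
  refine ⟨fun x hx => (pw x hx).2.2.1, ?_⟩
  filter_upwards [F12x.grads hm h6, g4, g5.1, g5.2, hm.ef_bd] with x a1 a2 a3 a4 a5 hx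
  obtain ⟨T0, e0, -, e1, bm, hu⟩ := pw x hx
  obtain ⟨u, u0, eu, eu2, eu4⟩ := F12x.cube e0
  obtain ⟨v1, v2⟩ := hu u u0 eu
  have x1 : |x 2| ≤ 1 := hx.1.le
  obtain ⟨a31, a32, -⟩ := a3 (F12x.away o (r3.trans hx.2.le))
  have u1 : u ≤ 1 :=
    le_of_pow_le_pow_left₀ three_ne_zero zero_le_one (by rw [← eu, one_pow]; exact e1)
  have fn := F12x.fin (z := x 2) u0 u1 T0 (F12x.tau_nn m ha.le x) v2
    (F12x.tau_grad m ha.le (by linarith only [k1]) (k2.trans k3) x) (a31.trans v1) (a32.trans v1)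
    (hm.nn x).2.2.1 ((a4 x1).trans (by
      rw [mul_left_comm]
      exact mul_le_mul_of_nonneg_left v1 (abs_nonneg _))) (hm.nn x).2.1 (h6.reg.2.2.2.1 x)
    (Real.sq_sqrt (by positivity)) a1.2.1 a1.2.2
  exact ⟨by rw [eu2]; exact fn.1, by rw [eu4, a1.1]; unfold sg; rw [eu]; exact fn.2.1,
    by rw [eu4]; unfold sg; rw [eu]; exact fn.2.2,
    F12x.efb hm k1 k2 k3 k4 hc4 hL l3.2 l4.2 x1 T0 (gg.1 x (F12x.sl_mono r2 hx)).2 a2 a5 bm⟩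
theorem F_SD : ∃ N : ℕ, Lg fun o => ∀ c η0 ρ : ℝ, 0 < η0 → ∃ R η1 : ℝ, ρ ≤ R ∧ 0 < η1 ∧
    ∀ ε > 0, Sm o c fun m => ∃ η Dt Gt, SD o m (o.L ^ N) R η0 η1 ε η Dt Gt := by
  obtain ⟨C, hC, hK⟩ := Kb_reg
  obtain ⟨N9, h9s⟩ := F9s
  obtain ⟨N11, h11⟩ := F11a
  refine ⟨N9 + N11 + 4, (((((((((((F6.and F9g).and h9s).and F9c).and h11).and F12).and F7c).and
    F7d).and F7e).and F3).and hom_bar).and (num_good 0 (6 * (C + 1) ^ 2 + 300))).mono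
    fun o ho ⟨⟨⟨⟨⟨⟨⟨⟨⟨⟨⟨h6, h9g⟩, h9s⟩, h9c⟩, h11⟩, h12⟩, h7c⟩, h7d⟩, h7e⟩, h3⟩, hb⟩, hn⟩
      c η0 ρ hη => ?_⟩
  obtain ⟨a, ha, s6⟩ := h6 c
  obtain ⟨ρg, sg'⟩ := h9g c
  obtain ⟨ρs, ss⟩ := h9s c
  obtain ⟨ρc, sc⟩ := h9c c
  obtain ⟨ρ11, s11⟩ := h11 c a ha
  obtain ⟨ρ12, s12⟩ := h12 c a η0 ha hη
  obtain ⟨c7, -, s7c⟩ := h7c c
  obtain ⟨c8, hc8, s7e⟩ := h7e c
  have hΓ : 1 ≤ o.Γ1 := Real.one_le_exp (by positivity)
  have δ0 := ho.δ.1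
  have q0 : 0 ≤ 6 * (C + 1) ^ 2 := by positivity
  have hδ : o.δ0 ≤ 1 / 300 := by
    have := hn.2.2.1
    rw [pow_zero] at this
    nlinarith only [this, δ0, q0]
  have hL : 2 ≤ o.L := by linarith only [hn.1, hn.2.1, q0]
  have hCL : 6 * (C + 1) ^ 2 ≤ o.L := by linarith only [hn.1, hn.2.1]
  have hCL' : 2 * (C + 1) ≤ o.L := by nlinarith only [hCL, hC]
  have C0 : 0 ≤ o.C0 := by linarith only [ho.C0.1]
  obtain ⟨p1, p2, p3, p4, p5⟩ := F12x.pows (a := N9) (b := N11) hL C0 ho.C0.2.2 hn.2.1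
  have L0 : 0 < o.L := by linarith only [hL]
  have M0 : 0 < o.L ^ N9 := by positivity
  generalize o.L ^ (N9 + N11 + 4) = Λ at p1 p2 p3 p4 p5 ⊢
  have Λ0 : 0 < Λ := L0.trans_le p1
  obtain ⟨R, r0, r1, r2, r3, r4, r5, r6⟩ : ∃ R : ℝ, ρ ≤ R ∧ ρg ≤ R ∧ ρs ≤ R ∧ ρc ≤ R ∧ ρ11 ≤ R ∧
      ρ12 ≤ R ∧ o.R0 ≤ R :=
    ⟨max (max (max ρ ρg) (max ρs ρc)) (max (max ρ11 ρ12) o.R0), by simp only [le_max_iff, le_refl,
        true_or, or_true, and_self]⟩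
  refine ⟨R, Real.exp (-((R + 4) / 100)) / o.Γ1 ^ 3, r0, by positivity, fun ε hε => ?_⟩
  refine (((((((((((((s6.and sg').and ss).and sc).and s11).and s12).and s7c).and (h7d c a ha)).and
    s7e).and (h3 c)).and (num_kappa o ho c 1 one_pos)).and (F12x.sm_sqrt o c ((c + a) / ε))).and
    (F12x.sm_sqrt o c (2 * c / o.δ0))).and (F12x.sm_sqrt o c (c8 * o.Γ1 * o.L ^ N9))).mono
    fun m hm ⟨⟨⟨⟨⟨⟨⟨⟨⟨⟨⟨⟨⟨g6, gg⟩, gs⟩, gc⟩, g11⟩, g12⟩, g7c⟩, g7d⟩, g7e⟩, g3⟩, gk⟩, l1⟩, l2⟩, l3⟩ =>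
      ⟨m.η, m.Dt, m.Gt a, ?_⟩
  obtain ⟨-, -, k1, k3, k5, -, k6, -, k2', k4'⟩ := gk
  have k2 : m.κ ≤ m.κh := by linarith only [k2', δ0]
  have k4 : m.κh - m.κ ≤ 1 / 100 := by linarith only [k4', hδ]
  have c0 : 0 ≤ c := (hm.w_bd 0).1.trans (hm.w_bd 0).2.1
  have l0 := hm.l0.1
  have G0 : 0 < o.Γ1 := by linarith only [hΓ]
  obtain ⟨x0, hx0⟩ := F12x.exists_hor ρc
  have P0 := fun x => (F12x.models hm k1 k2 k3 k4 x).1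
  have H0 := fun x => (F12x.models hm k1 k2 k3 k4 x).2.1
  have kD := hK (fun y => |y 2| * |m.f y|) (S07.cont_two.abs.mul hm.cf.1.abs).aestronglyMeasurable
    (fun y => by positivity) ⟨c, (F12x.bd hm).mono fun y hy => by
      rw [mul_comm]
      exact mul_le_mul hy.1 (((Real.norm_eq_abs _).symm.trans_le (PiLp.norm_apply_le y 2)).trans
        (jb_facts y).2.1) (abs_nonneg _) c0⟩
    (F12x.kb_ne (x := x0) (lt_of_lt_of_le (div_pos (P0 _) G0) (gc.2 x0 hx0).1))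
  have kB := hK m.s hm.cf.2.1.aestronglyMeasurable (fun y => (g7c.2.1 y).le)
    ⟨c, (F12x.bd hm).mono fun y hy => ((le_abs_self _).trans hy.2.2.2.2).trans
      (le_mul_of_one_le_right c0 (jb_facts y).1)⟩
    (F12x.kb_ne (x := x0) (lt_of_lt_of_le (div_pos (by
      rw [F12x.mm_hor]
      have := P0 (hor x0)
      have := H0 (hor x0)
      have := (jb_facts (hor x0)).1
      positivity) (pow_pos G0 2)) (gc.2 x0 hx0).2.2.1))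
  change ContDiff ℝ 2 m.Dt ∧ ∀ x, 0 < m.Dt x ∧ m.Dt (hor x) = m.Dt x ∧ ‖∇ m.Dt x‖ ≤ C * m.Dt x ∧
    |lap m.Dt x| ≤ C * m.Dt x ∧ _ at kD
  change ContDiff ℝ 2 m.bt ∧ ∀ x, 0 < m.bt x ∧ m.bt (hor x) = m.bt x ∧ ‖∇ m.bt x‖ ≤ C * m.bt x ∧
    |lap m.bt x| ≤ C * m.bt x ∧ _ at kB
  have T0 := fun x => (kD.2 x).1
  have B0 := fun x => (kB.2 x).1
  have up : ∀ {s t : ℝ}, 0 < t → s ≤ C * t → s ≤ (C + 1) * t := fun h0 h => by linarith only [h0, h]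
  have kq := quot_reg kB.1 kD.1 (C := C + 1) (by linarith only [hC]) fun x =>
    ⟨B0 x, T0 x, up (B0 x) (kB.2 x).2.2.1, up (T0 x) (kD.2 x).2.2.1, up (B0 x) (kB.2 x).2.2.2.1,
      up (T0 x) (kD.2 x).2.2.2.1⟩
  change ContDiff ℝ 2 m.η ∧ ∀ x, ‖∇ m.η x‖ ≤ 2 * (C + 1) * m.η x ∧
    |lap m.η x| ≤ 6 * (C + 1) ^ 2 * m.η x at kq
  have e0 : ∀ x, 0 < m.η x := fun x => div_pos (B0 x) (T0 x)
  have eb : ∀ x, m.η x * m.Dt x = m.bt x := fun x => div_mul_cancel₀ _ (T0 x).ne'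
  have el := fun (x : E) (hx : x ∈ Sl R) => F12x.eta_low (R := R) hm k1 k2 k3 k4 hΓ
    (gc.2 x (r3.trans hx.2.le)).1 (gc.2 x (r3.trans hx.2.le)).2.1 (gc.2 x (r3.trans hx.2.le)).2.2.1
  have pot : ∀ x, R ≤ ‖x‖ → 1 / 4 ≤ o.v x + m.I ∧ o.v x + m.I ≤ 1 := fun x hx => by
    have a1 := (hb 1 (by norm_num) (by norm_num) x (r6.trans hx)).2.2.2
    have a2 : o.v x ≤ 0 := ((vx_facts o.d).2.1 x).1
    constructor <;> nlinarith only [a1, a2, k1, k2, k3, k5]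
  have ex : ∀ {x : E}, x ∈ Sl R → x ∈ Ex o.R0 := fun hx => r6.trans_lt (F12x.sl_norm hx)
  obtain ⟨g12a, g12b⟩ := g12 g6
  refine
    { Λ1 := by linarith only [p1, hL]
      η_c := kq.1
      Dt_c := kD.1.continuous
      lat := fun x => ⟨by unfold MD.η; rw [(kB.2 x).2.1, (kD.2 x).2.1], (kD.2 x).2.1⟩
      pos := fun x => ⟨e0 x, T0 x⟩
      η_bd := fun x hx => ⟨g12a x (F12x.sl_mono r5 hx),
        (kq.2 x).1.trans (mul_le_mul_of_nonneg_right (hCL'.trans p1) (e0 x).le),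
        (kq.2 x).2.trans (mul_le_mul_of_nonneg_right (hCL.trans p1) (e0 x).le), (el x hx).1⟩
      f_bd := fun x hx => ?_
      df := ?_
      Gt_r := ⟨g6.reg.1, g6.reg.2.1, g6.reg.2.2.1, g6.reg.2.2.2.1⟩
      Gt_bd := ?_
      ν_bd := g12b.mono fun x h hx => ⟨(h (F12x.sl_mono r5 hx)).2.1, (h (F12x.sl_mono r5 hx)).2.2.1⟩
      sub := ?_
      ef := g12b.mono fun x h hx => (h (F12x.sl_mono r5 hx)).2.2.2
      pot := pot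
      hardy := fun ℓ h0 h1 w hw => ?_
      low := ⟨m.l / o.Γ1 ^ 2, by positivity, fun x hx => by rw [eb]; exact (el x hx).2⟩ }
  · obtain ⟨a1, a2⟩ := gg.1 x (F12x.sl_mono r1 hx)
    have n : 0 ≤ |x 2| * m.Dt x := mul_nonneg (abs_nonneg _) (T0 x).le
    refine ⟨(div_le_div_of_nonneg_left n L0 p1).trans a1,
      a2.trans (mul_le_mul_of_nonneg_right p1 n), fun hz => le_trans ?_ (g3 x hz (ex hx).le).1⟩
    exact div_nonneg (mul_nonneg hz (P0 x).le) (mul_nonneg (by norm_num) (Real.exp_pos _).le)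
  · filter_upwards [gg.2] with x h hx
    obtain ⟨a1, a2, a3⟩ := h (F12x.sl_mono r1 hx)
    exact ⟨a1.trans (mul_le_mul_of_nonneg_right p1 (T0 x).le),
      a2.trans (mul_le_mul_of_nonneg_right p1 (mul_nonneg (Real.sqrt_nonneg _) (T0 x).le)),
      fun hz => (div_le_div_of_nonneg_left (T0 x).le L0 p1).trans
        (a3 (hz.trans (one_div_le_one_div_of_le L0 p1)))⟩
  · filter_upwards [g12b, g7d g6, hm.pyth, hm.close.2.1] with x a1 a2 a3 a4 hx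
    obtain ⟨b1, b2, -⟩ := gs.1 x (F12x.sl_mono r2 hx)
    obtain ⟨b3, b4⟩ := F12x.gt_close ha.le hε (by linarith only [k1]) (hm.nn x).2.1 a4.1 l1.1
    rw [eb]
    refine ⟨(((div_le_div_of_nonneg_left (B0 x).le M0 p2).trans b1).trans
      ((le_abs_self _).trans a3.2.2)).trans b3, (a2 (ex hx)).trans ?_,
      (a1 (F12x.sl_mono r5 hx)).1, b4⟩
    have d0 : 0 ≤ o.d := C0.trans ho.C0.2.2
    calc 2 * o.d ^ 3 * m.s x ≤ 2 * o.d ^ 3 * (o.L ^ N9 * m.bt x) :=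
          mul_le_mul_of_nonneg_left b2 (by positivity)
      _ = 2 * o.d ^ 3 * o.L ^ N9 * m.bt x := by ring
      _ ≤ _ := mul_le_mul_of_nonneg_right p4 (B0 x).le
  · refine WSub.mono g6.sub (fun x hx => ex hx) (fun K hK hKS => ?_) ?_
    · refine (Fc_int (U := fun x => o.v x + m.I) (ρ := R) (c0 := 1 / 4) (c1 := 1) (by norm_num)
        g6.reg.1.hl ((vx_facts o.d).1.add_const _).aestronglyMeasurable
        (ae_of_all _ fun x hx => pot x (le_of_lt hx)) hK fun x hx => F12x.sl_norm (hKS hx)).add ?_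
      exact (continuous_const.mul (kq.1.continuous.mul kD.1.continuous)).continuousOn.integrableOn_compact
        hK
    · filter_upwards [g7e] with x a1 hx
      obtain ⟨-, b2, b3⟩ := gs.1 x (F12x.sl_mono r2 hx)
      rw [eb]
      refine F12x.subineq hm (mul_nonneg C0 (C0.trans ho.C0.2.2)) (g6.reg.2.2.2.1 x).le ?_ hx.1.le
        (T0 x) (B0 x) L0.le G0 (by linarith only [hc8]) (gg.1 x (F12x.sl_mono r1 hx)).2 b2 b3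
        (g7c.1 x (ex hx).le) a1 l3.1 p5
      have := l2.2
      rw [← mul_div_assoc, div_le_one δ0] at this
      linarith only [this, k6]
  · simp only [eb]
    refine (F11b (ρ := R) kB.1.continuous (fun x => (kB.2 x).2.1) (pow_pos L0 N11).le
      (fun w ρ' w1 w2 w3 => g11 g6 w ρ' w1 w2 fun x hx => ⟨r4.trans (w3 x hx).1, (w3 x hx).2⟩)
      h0 h1 hw).trans (mul_le_mul_of_nonneg_right p3 (integral_nonneg fun x => by positivity))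

end

end Crest.Agent.R335
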