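import Crest.Agent.R335.Defs5
import Crest.Agent.R335.F0

set_option autoImplicit false

open MeasureTheory Set Filter Topology Metric
open scoped Gradient ContDiff RealInnerProductSpace ENNReal

namespace Crest.Agent.R335

noncomputable section

/-! the smoothing kernel `Kb` -/

/-- the kernel -/
def Kk_G (w : E) : ℝ := Real.exp (-(4 * jb w))

/-- the horizontal projection as a linear map -/
def Kk_P : E →L[ℝ] E :=
  ContinuousLinearMap.id ℝ E - (EuclideanSpace.proj (2 : Fin 3) : E →L[ℝ] ℝ).smulRight ez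

theorem Kk_P_apply (x : E) : Kk_P x = hor x := rfl

theorem Kk_hor_le (x : E) : ‖hor x‖ ≤ ‖x‖ := by
  have h := norm_sq_hor x
  exact (sq_le_sq₀ (norm_nonneg _) (norm_nonneg x)).1 (by nlinarith [sq_nonneg (x 2)])

theorem Kk_comp_le {X : Type} [NormedAddCommGroup X] [NormedSpace ℝ X] (L : E →L[ℝ] X) :
    ‖L ∘L Kk_P‖ ≤ ‖L‖ :=
  ContinuousLinearMap.opNorm_le_bound _ (norm_nonneg _) fun x =>
    (L.le_opNorm _).trans (mul_le_mul_of_nonneg_left (Kk_hor_le x) (norm_nonneg _))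

theorem Kk_G_pos (w : E) : 0 < Kk_G w := Real.exp_pos _

theorem Kk_G_smooth : ContDiff ℝ ∞ Kk_G := (contDiff_const.mul jb_smooth).neg.exp

theorem Kk_G_cmp (w w' : E) : Kk_G w' ≤ Real.exp (4 * ‖w' - w‖) * Kk_G w := by
  show Real.exp _ ≤ Real.exp _ * Real.exp _
  rw [← Real.exp_add]
  have := (abs_le.1 ((jb_facts w').2.2.2.2.2.2 w)).1
  exact Real.exp_le_exp.2 (by linarith)

theorem Kk_jb_fd (w : E) : HasFDerivAt jb ((jb w)⁻¹ • innerSL ℝ w) w := by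
  have h := F0a_fd (jb_smooth.differentiable (by simp) w)
  rwa [(jb_facts w).2.2.2.2.1, map_smul] at h

theorem Kk_G_fd (w : E) : HasFDerivAt Kk_G ((-4 * Kk_G w * (jb w)⁻¹) • innerSL ℝ w) w := by
  refine (((Kk_jb_fd w).const_mul 4).neg.exp).congr_fderiv ?_
  show Kk_G w • -((4 : ℝ) • (jb w)⁻¹ • innerSL ℝ w) = _
  rw [smul_smul, ← neg_smul, smul_smul]
  congr 1
  ring

theorem Kk_unit (w : E) : (jb w)⁻¹ * ‖w‖ ≤ 1 := by
  obtain ⟨h1, h2, -⟩ := jb_facts w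
  rw [inv_mul_le_iff₀ (by linarith), mul_one]
  exact h2

theorem Kk_G_d1 (w : E) : ‖fderiv ℝ Kk_G w‖ ≤ 4 * Kk_G w := by
  have h1 := (jb_facts w).1
  have h2 := Kk_G_pos w
  have h3 : 0 < (jb w)⁻¹ := inv_pos.2 (by linarith)
  rw [(Kk_G_fd w).fderiv, norm_smul, innerSL_apply_norm, Real.norm_eq_abs, abs_mul, abs_mul,
    abs_of_pos h2, abs_of_pos h3, abs_neg, abs_of_pos (by norm_num : (0 : ℝ) < 4), mul_assoc]
  exact mul_le_of_le_one_right (by positivity) (Kk_unit w)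

theorem Kk_G_d2 (w : E) : ‖fderiv ℝ (fderiv ℝ Kk_G) w‖ ≤ 24 * Kk_G w := by
  have h1 := (jb_facts w).1
  have h0 : jb w ≠ 0 := by linarith
  have h2 := Kk_G_pos w
  have h3 : 0 < (jb w)⁻¹ := inv_pos.2 (by linarith)
  have h4 : (jb w)⁻¹ ≤ 1 := inv_le_one_of_one_le₀ h1
  have h5 := Kk_unit w
  have e : fderiv ℝ Kk_G = fun w => (-4 * Kk_G w * (jb w)⁻¹) • innerSL ℝ w :=
    funext fun w => (Kk_G_fd w).fderiv
  have a1 : HasFDerivAt (fun w => (jb w)⁻¹) ((-(jb w ^ 2)⁻¹) • (jb w)⁻¹ • innerSL ℝ w) w :=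
    (hasDerivAt_inv h0).comp_hasFDerivAt w (Kk_jb_fd w)
  have a2 := ((Kk_G_fd w).const_mul (-4)).mul a1
  have a3 : HasFDerivAt (fun w : E => innerSL ℝ w) (innerSL ℝ : E →L[ℝ] E →L[ℝ] ℝ) w :=
    (innerSL ℝ : E →L[ℝ] E →L[ℝ] ℝ).hasFDerivAt
  have a4 := a2.smul a3
  have a5 : fderiv ℝ (fun w : E => (-4 * Kk_G w * (jb w)⁻¹) • innerSL ℝ w) w = _ := a4.fderiv
  rw [e, a5]
  refine (ContinuousLinearMap.opNorm_add_le _ _).trans ?_
  rw [ContinuousLinearMap.norm_smulRight_apply, innerSL_apply_norm]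
  have b1 : ‖(-4 * Kk_G w * (jb w)⁻¹) • (innerSL ℝ : E →L[ℝ] E →L[ℝ] ℝ)‖ ≤ 4 * Kk_G w := by
    refine (ContinuousLinearMap.opNorm_smul_le _ _).trans ?_
    rw [Real.norm_eq_abs, abs_mul, abs_mul,
      abs_of_pos h2, abs_of_pos h3, abs_neg, abs_of_pos (by norm_num : (0 : ℝ) < 4), mul_assoc]
    refine mul_le_of_le_one_right (by positivity)
      (mul_le_one₀ h4 (ContinuousLinearMap.opNorm_nonneg _) ?_)
    exact norm_innerSL_le ℝ
  have b2 : ‖(-4 * Kk_G w) • (-(jb w ^ 2)⁻¹) • (jb w)⁻¹ • innerSL ℝ w +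
      (jb w)⁻¹ • (-4 : ℝ) • (-4 * Kk_G w * (jb w)⁻¹) • innerSL ℝ w‖ * ‖w‖ ≤ 20 * Kk_G w := by
    simp only [smul_smul]
    rw [← add_smul, norm_smul, innerSL_apply_norm, Real.norm_eq_abs]
    have e2 : -4 * Kk_G w * (-(jb w ^ 2)⁻¹ * (jb w)⁻¹) +
        (jb w)⁻¹ * (-4 * (-4 * Kk_G w * (jb w)⁻¹)) =
        (4 * (jb w)⁻¹ + 16) * Kk_G w * (jb w)⁻¹ ^ 2 := by
      rw [← inv_pow]
      ring
    rw [e2, abs_of_nonneg (by positivity)]
    have h6 : ((jb w)⁻¹ * ‖w‖) ^ 2 ≤ 1 := pow_le_one₀ (by positivity) h5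
    calc (4 * (jb w)⁻¹ + 16) * Kk_G w * (jb w)⁻¹ ^ 2 * ‖w‖ * ‖w‖
        = (4 * (jb w)⁻¹ + 16) * Kk_G w * ((jb w)⁻¹ * ‖w‖) ^ 2 := by ring
      _ ≤ (4 * (jb w)⁻¹ + 16) * Kk_G w := mul_le_of_le_one_right (by positivity) h6
      _ ≤ 20 * Kk_G w := mul_le_mul_of_nonneg_right (by linarith) h2.le
  have b3 := add_le_add b1 b2
  refine le_trans ?_ (b3.trans (le_of_eq (by ring)))
  exact le_rfl

theorem Kk_lap_le (f : E → ℝ) (x : E) : |lap f x| ≤ 3 * ‖fderiv ℝ (fderiv ℝ f) x‖ := by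
  have e : fderiv ℝ (∇ f) x = _ :=
    (InnerProductSpace.toDual ℝ E).symm.comp_fderiv (f := fderiv ℝ f) (x := x)
  have b : ∀ v : E, ‖fderiv ℝ (∇ f) x v‖ ≤ ‖fderiv ℝ (fderiv ℝ f) x‖ * ‖v‖ := by
    intro v
    rw [e]
    exact ((InnerProductSpace.toDual ℝ E).symm.norm_map _).le.trans
      ((fderiv ℝ (fderiv ℝ f) x).le_opNorm v)
  show |LinearMap.trace ℝ E (fderiv ℝ (∇ f) x : E →ₗ[ℝ] E)| ≤ _
  rw [LinearMap.trace_eq_sum_inner _ (EuclideanSpace.basisFun (Fin 3) ℝ)]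
  refine (Finset.abs_sum_le_sum_abs _ _).trans ?_
  refine (Finset.sum_le_card_nsmul _ _ ‖fderiv ℝ (fderiv ℝ f) x‖ fun i _ => ?_).trans (by simp)
  have h1 : ‖EuclideanSpace.basisFun (Fin 3) ℝ i‖ = 1 :=
    (EuclideanSpace.basisFun (Fin 3) ℝ).orthonormal.1 i
  refine (abs_real_inner_le_norm _ _).trans ?_
  have h2 := b (EuclideanSpace.basisFun (Fin 3) ℝ i)
  rw [h1, mul_one] at h2
  rw [h1, one_mul]
  exact h2

section par

variable {X : Type} [NormedAddCommGroup X] [NormedSpace ℝ X] {h : E → ℝ}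

theorem Kk_meas (hm : AEStronglyMeasurable h volume) {F : E → X} (hF : Continuous F) (w : E) :
    AEStronglyMeasurable (fun y => h y • F (w - y)) volume :=
  hm.smul (hF.comp (continuous_const.sub continuous_id)).aestronglyMeasurable

theorem Kk_bd (h0 : ∀ x, 0 ≤ h x) {v : X} {A : ℝ} {w : E} (hF : ‖v‖ ≤ A * Kk_G w) (y : E) :
    ‖h y • v‖ ≤ A * (Kk_G w * h y) := by
  rw [norm_smul, Real.norm_of_nonneg (h0 y)]
  nlinarith [mul_le_mul_of_nonneg_left hF (h0 y)]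

theorem Kk_near (h0 : ∀ x, 0 ≤ h x) {v : X} {A : ℝ} (hA : 0 ≤ A) {x x₀ y : E} (hx : x ∈ ball x₀ 1)
    (hF : ‖v‖ ≤ A * Kk_G (hor x - y)) :
    ‖h y • v‖ ≤ (A * Real.exp 4) * (Kk_G (hor x₀ - y) * h y) := by
  refine Kk_bd h0 (hF.trans ?_) y
  rw [mul_assoc]
  refine mul_le_mul_of_nonneg_left ((Kk_G_cmp (hor x₀ - y) (hor x - y)).trans ?_) hA
  refine mul_le_mul_of_nonneg_right (Real.exp_le_exp.2 ?_) (Kk_G_pos _).le
  have e : hor x - y - (hor x₀ - y) = hor (x - x₀) := by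
    rw [sub_sub_sub_cancel_right, ← Kk_P_apply, ← Kk_P_apply, ← map_sub, Kk_P_apply]
  rw [e]
  have := Kk_hor_le (x - x₀)
  rw [mem_ball_iff_norm] at hx
  linarith

theorem Kk_norm (h0 : ∀ x, 0 ≤ h x) (hi : ∀ w, Integrable fun y => Kk_G (w - y) * h y)
    {F : E → X} {A : ℝ} (hF : ∀ w, ‖F w‖ ≤ A * Kk_G w) (x : E) :
    ‖∫ y, h y • F (hor x - y)‖ ≤ A * Kb h x := by
  refine (norm_integral_le_of_norm_le ((hi (hor x)).const_mul A)
    (Eventually.of_forall fun y => Kk_bd h0 (hF _) y)).trans ?_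
  rw [integral_const_mul]
  exact le_rfl

theorem Kk_cont (hm : AEStronglyMeasurable h volume) (h0 : ∀ x, 0 ≤ h x)
    (hi : ∀ w, Integrable fun y => Kk_G (w - y) * h y) {F : E → X} (hc : Continuous F) {A : ℝ}
    (hA : 0 ≤ A) (hF : ∀ w, ‖F w‖ ≤ A * Kk_G w) :
    Continuous fun x => ∫ y, h y • F (hor x - y) := by
  refine continuous_iff_continuousAt.2 fun x₀ => ?_
  refine continuousAt_of_dominated (Eventually.of_forall fun x => Kk_meas hm hc _) ?_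
    ((hi (hor x₀)).const_mul (A * Real.exp 4)) (Eventually.of_forall fun y => ?_)
  · filter_upwards [ball_mem_nhds x₀ one_pos] with x hx
    exact Eventually.of_forall fun y => Kk_near h0 hA hx (hF _)
  · exact ((hc.comp (Kk_P.continuous.sub continuous_const)).const_smul (h y)).continuousAt

theorem Kk_deriv (hm : AEStronglyMeasurable h volume) (h0 : ∀ x, 0 ≤ h x)
    (hi : ∀ w, Integrable fun y => Kk_G (w - y) * h y) {F : E → X} (hc : ContDiff ℝ 1 F) {A B : ℝ}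
    (hB : 0 ≤ B) (hF : ∀ w, ‖F w‖ ≤ A * Kk_G w) (hF' : ∀ w, ‖fderiv ℝ F w‖ ≤ B * Kk_G w) (x₀ : E) :
    HasFDerivAt (fun x => ∫ y, h y • F (hor x - y))
      (∫ y, h y • (fderiv ℝ F (hor x₀ - y) ∘L Kk_P)) x₀ := by
  refine hasFDerivAt_integral_of_dominated_of_fderiv_le (𝕜 := ℝ)
    (F' := fun x y => h y • (fderiv ℝ F (hor x - y) ∘L Kk_P)) (ball_mem_nhds x₀ one_pos)
    (Eventually.of_forall fun x => Kk_meas hm hc.continuous _) ?_
    (Kk_meas (F := fun w => fderiv ℝ F w ∘L Kk_P) hm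
      ((hc.continuous_fderiv one_ne_zero).clm_comp continuous_const) _)
    (Eventually.of_forall fun y x hx => Kk_near h0 hB hx ((Kk_comp_le _).trans (hF' _)))
    ((hi (hor x₀)).const_mul (B * Real.exp 4)) (Eventually.of_forall fun y x _ => ?_)
  · exact ((hi (hor x₀)).const_mul A).mono' (Kk_meas hm hc.continuous _)
      (Eventually.of_forall fun y => Kk_bd h0 (hF _) y)
  · exact (((hc.differentiable one_ne_zero (hor x - y)).hasFDerivAt.comp x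
      (Kk_P.hasFDerivAt.sub_const y))).const_smul (h y)

end par

theorem Kk_int {h : E → ℝ} (hm : AEStronglyMeasurable h volume) (h0 : ∀ x, 0 ≤ h x)
    (hb : ∃ M : ℝ, ∀ᵐ x, h x ≤ M * jb x) (w : E) : Integrable fun y => Kk_G (w - y) * h y := by
  obtain ⟨M, hM⟩ := hb
  have h1 : Integrable (radb 1 4 0) := (radb_memLp 1 0 (by norm_num : (0 : ℝ) < 4)).2.1
  refine (h1.const_mul (Real.exp (4 * ‖w‖) * M)).mono'
    ((Kk_G_smooth.continuous.comp (continuous_const.sub continuous_id)).aestronglyMeasurable.mul hm)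
    ?_
  filter_upwards [hM] with y hy
  have h2 := Kk_G_cmp (-y) (w - y)
  have e1 : Kk_G (-y) = Kk_G y := by
    show Real.exp (-(4 * √(1 + ‖-y‖ ^ 2))) = Real.exp (-(4 * √(1 + ‖y‖ ^ 2)))
    rw [norm_neg]
  have e2 : radb 1 4 0 y = jb y * Kk_G y := by
    show jb y ^ (1 : ℝ) * Real.exp (-(4 * jb y) + 0 / √(jb y)) = jb y * Real.exp (-(4 * jb y))
    rw [Real.rpow_one, zero_div, add_zero]
  rw [sub_neg_eq_add, sub_add_cancel, e1] at h2
  rw [Real.norm_of_nonneg (mul_nonneg (Kk_G_pos _).le (h0 y)), e2]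
  calc Kk_G (w - y) * h y ≤ (Real.exp (4 * ‖w‖) * Kk_G y) * (M * jb y) :=
        mul_le_mul h2 hy (h0 y) (mul_pos (Real.exp_pos _) (Kk_G_pos _)).le
    _ = _ := by ring

theorem Kk_reg (h : E → ℝ) (hm : AEStronglyMeasurable h volume) (h0 : ∀ x, 0 ≤ h x)
    (hb : ∃ M : ℝ, ∀ᵐ x, h x ≤ M * jb x) (hn : ¬ ∀ᵐ x, h x = 0) :
    ContDiff ℝ 2 (Kb h) ∧ ∀ x, 0 < Kb h x ∧ Kb h (hor x) = Kb h x ∧ ‖∇ (Kb h) x‖ ≤ 72 * Kb h x ∧
      |lap (Kb h) x| ≤ 72 * Kb h x ∧ ∀ x', Kb h x' ≤ Real.exp (4 * ‖x' - x‖) * Kb h x := by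
  have hi := Kk_int hm h0 hb
  have e0 : Kb h = fun x => ∫ y, h y • Kk_G (hor x - y) :=
    funext fun x => integral_congr_ae (Eventually.of_forall fun y => mul_comm _ _)
  have s1 : ContDiff ℝ 1 (fderiv ℝ Kk_G) := Kk_G_smooth.fderiv_right (m := 1) (by norm_cast)
  obtain ⟨F1, hF1⟩ : ∃ F1 : E → E →L[ℝ] ℝ, F1 = fun w => fderiv ℝ Kk_G w ∘L Kk_P := ⟨_, rfl⟩
  have c1 : ContDiff ℝ 1 F1 := hF1 ▸ s1.clm_comp contDiff_const
  have b1 : ∀ w, ‖F1 w‖ ≤ 4 * Kk_G w := fun w => hF1 ▸ (Kk_comp_le _).trans (Kk_G_d1 w)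
  have b2 : ∀ w, ‖fderiv ℝ F1 w‖ ≤ 24 * Kk_G w := by
    intro w
    have a1 : HasFDerivAt F1 (((ContinuousLinearMap.compL ℝ E E ℝ).flip Kk_P) ∘L
        fderiv ℝ (fderiv ℝ Kk_G) w) w :=
      hF1 ▸ ((ContinuousLinearMap.compL ℝ E E ℝ).flip Kk_P).hasFDerivAt.comp w
        (s1.differentiable one_ne_zero w).hasFDerivAt
    rw [a1.fderiv]
    refine le_trans (ContinuousLinearMap.opNorm_le_bound _ (ContinuousLinearMap.opNorm_nonneg _)
      fun v => ?_) (Kk_G_d2 w)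
    exact (Kk_comp_le (fderiv ℝ (fderiv ℝ Kk_G) w v)).trans
      ((fderiv ℝ (fderiv ℝ Kk_G) w).le_opNorm v)
  have d1 : ∀ x, HasFDerivAt (Kb h) (∫ y, h y • F1 (hor x - y)) x := by
    intro x
    rw [e0, hF1]
    exact Kk_deriv hm h0 hi (Kk_G_smooth.of_le (by norm_cast)) (A := 1) (by norm_num)
      (fun w => by rw [Real.norm_of_nonneg (Kk_G_pos w).le, one_mul]) Kk_G_d1 x
  have e1 : fderiv ℝ (Kb h) = fun x => ∫ y, h y • F1 (hor x - y) := funext fun x => (d1 x).fderiv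
  have d2 := Kk_deriv hm h0 hi c1 (by norm_num) b1 b2
  have e2 : fderiv ℝ (fderiv ℝ (Kb h)) = fun x => ∫ y, h y • (fderiv ℝ F1 (hor x - y) ∘L Kk_P) := by
    rw [e1]
    exact funext fun x => (d2 x).fderiv
  have b3 : ∀ w, ‖fderiv ℝ F1 w ∘L Kk_P‖ ≤ 24 * Kk_G w := fun w => (Kk_comp_le _).trans (b2 w)
  refine ⟨?_, fun x => ?_⟩
  · rw [show (2 : WithTop ℕ∞) = 1 + 1 from rfl, contDiff_succ_iff_fderiv]
    refine ⟨fun x => (d1 x).differentiableAt, by simp, contDiff_one_iff_fderiv.2 ⟨?_, ?_⟩⟩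
    · rw [e1]
      exact fun x => (d2 x).differentiableAt
    · rw [e2]
      exact Kk_cont (F := fun w => fderiv ℝ F1 w ∘L Kk_P) hm h0 hi
        ((c1.continuous_fderiv one_ne_zero).clm_comp continuous_const) (by norm_num) b3
  have nn : ∀ y, 0 ≤ Kk_G (hor x - y) * h y := fun y => mul_nonneg (Kk_G_pos _).le (h0 y)
  have pos : 0 < Kb h x := by
    refine lt_of_le_of_ne (integral_nonneg nn) fun hz => hn ?_
    filter_upwards [(integral_eq_zero_iff_of_nonneg nn (hi (hor x))).1 hz.symm] with y hy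
    exact (mul_eq_zero.1 hy).resolve_left (Kk_G_pos _).ne'
  refine ⟨pos, ?_, ?_, ?_, fun x' => ?_⟩
  · have e : hor (hor x) = hor x := by
      have h2 : hor x 2 = 0 := by
        simp [hor, ez]
      show hor x - (hor x 2) • ez = hor x
      rw [h2, zero_smul, sub_zero]
    show ∫ y, Kk_G (hor (hor x) - y) * h y = ∫ y, Kk_G (hor x - y) * h y
    rw [e]
  · have ng : ‖∇ (Kb h) x‖ = ‖fderiv ℝ (Kb h) x‖ := (InnerProductSpace.toDual ℝ E).symm.norm_map _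
    rw [ng, e1]
    refine (Kk_norm h0 hi b1 x).trans ?_
    linarith
  · refine (Kk_lap_le _ x).trans ?_
    rw [e2]
    have := Kk_norm (F := fun w => fderiv ℝ F1 w ∘L Kk_P) h0 hi b3 x
    linarith
  · show ∫ y, Kk_G (hor x' - y) * h y ≤ _ * ∫ y, Kk_G (hor x - y) * h y
    rw [← integral_const_mul]
    refine integral_mono (hi _) ((hi _).const_mul _) fun y => ?_
    show Kk_G (hor x' - y) * h y ≤ _ * (Kk_G (hor x - y) * h y)
    rw [← mul_assoc]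
    refine mul_le_mul_of_nonneg_right ((Kk_G_cmp (hor x - y) (hor x' - y)).trans ?_) (h0 y)
    refine mul_le_mul_of_nonneg_right (Real.exp_le_exp.2 ?_) (Kk_G_pos _).le
    have e : hor x' - y - (hor x - y) = hor (x' - x) := by
      rw [sub_sub_sub_cancel_right, ← Kk_P_apply, ← Kk_P_apply, ← map_sub, Kk_P_apply]
    rw [e]
    have := Kk_hor_le (x' - x)
    linarith

theorem Kk_quot {p q : E → ℝ} {C : ℝ} (hp : ContDiff ℝ 2 p) (hq : ContDiff ℝ 2 q) (hC : 1 ≤ C)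
    (h : ∀ x, 0 < p x ∧ 0 < q x ∧ ‖∇ p x‖ ≤ C * p x ∧ ‖∇ q x‖ ≤ C * q x ∧ |lap p x| ≤ C * p x ∧
      |lap q x| ≤ C * q x) : ContDiff ℝ 2 (fun x => p x / q x) ∧ ∀ x,
      ‖∇ (fun x => p x / q x) x‖ ≤ 2 * C * (p x / q x) ∧
      |lap (fun x => p x / q x) x| ≤ 6 * C ^ 2 * (p x / q x) := by
  have hr : ContDiff ℝ 2 (fun x => p x / q x) := hp.div hq fun x => (h x).2.1.ne'
  refine ⟨hr, fun x => ?_⟩
  obtain ⟨r, hr'⟩ : ∃ r : E → ℝ, r = fun x => p x / q x := ⟨_, rfl⟩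
  have hrx : p x / q x = r x := by rw [hr']
  rw [← hr'] at hr ⊢
  rw [hrx]
  have e : p = fun x => r x * q x := funext fun x => by
    rw [hr']
    exact (div_mul_cancel₀ _ (h x).2.1.ne').symm
  obtain ⟨h1, h2, h3, h4, h5, h6⟩ := h x
  have r0 : 0 < r x := hrx ▸ div_pos h1 h2
  have e0 : p x = r x * q x := congrFun e x
  have e1 : ∇ p x = r x • ∇ q x + q x • ∇ r x := by
    rw [e]
    exact F0a_grad_mul (hr.differentiable two_ne_zero x) (hq.differentiable two_ne_zero x)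
  have e2 : lap p x = r x * lap q x + 2 * ⟪∇ r x, ∇ q x⟫ + q x * lap r x := by
    rw [e]
    exact lap_mul hr hq x
  have g1 : ‖∇ r x‖ ≤ 2 * C * r x := by
    have a1 : q x * ‖∇ r x‖ ≤ ‖∇ p x‖ + r x * ‖∇ q x‖ := by
      have a2 : q x • ∇ r x = ∇ p x - r x • ∇ q x := by rw [e1, add_sub_cancel_left]
      have a3 := norm_sub_le (∇ p x) (r x • ∇ q x)
      rwa [← a2, norm_smul, norm_smul, Real.norm_of_nonneg h2.le, Real.norm_of_nonneg r0.le] at a3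
    refine le_of_mul_le_mul_left ?_ h2
    rw [e0] at h3
    nlinarith [mul_le_mul_of_nonneg_left h4 r0.le]
  refine ⟨g1, le_of_mul_le_mul_left ?_ h2⟩
  have a1 : q x * lap r x = lap p x - r x * lap q x - 2 * ⟪∇ r x, ∇ q x⟫ := by rw [e2]; ring
  have a2 : |⟪∇ r x, ∇ q x⟫| ≤ (2 * C * r x) * (C * q x) :=
    (abs_real_inner_le_norm _ _).trans (mul_le_mul g1 h4 (norm_nonneg _) (by positivity))
  have a3 : |r x * lap q x| ≤ r x * (C * q x) := by
    rw [abs_mul, abs_of_pos r0]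
    exact mul_le_mul_of_nonneg_left h6 r0.le
  have a4 : C * (r x * q x) ≤ C ^ 2 * (r x * q x) :=
    mul_le_mul_of_nonneg_right (by nlinarith) (by positivity)
  rw [e0] at h5
  rw [← abs_of_pos h2, ← abs_mul, a1, abs_of_pos h2, abs_le]
  rw [abs_le] at a2 a3 h5
  constructor <;> nlinarith [a2.1, a2.2, a3.1, a3.2, h5.1, h5.2]

end

end Crest.Agent.R335
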