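import Crest.Agent.R335.Defs5
import Crest.Agent.R335.F0
import Crest.Agent.R335.FcAuxK

set_option autoImplicit false

open MeasureTheory Set Filter Topology Metric
open scoped Gradient ContDiff RealInnerProductSpace ENNReal

namespace Crest.Agent.R335

noncomputable section

/-! comparison with smooth barriers outside a ball -/
theorem Fc_int {u U : E → ℝ} {ρ c0 c1 : ℝ} (hc : 0 < c0) (hu : Hl u)
    (hU : AEStronglyMeasurable U volume) (hU' : ∀ᵐ x, x ∈ Ex ρ → c0 ≤ U x ∧ U x ≤ c1) {K : Set E}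
    (hK : IsCompact K) (h : K ⊆ Ex ρ) : IntegrableOn (fun x => -(U x * u x)) K volume := by
  refine Integrable.neg (Integrable.bdd_mul (c := c1) (S12_intOn hK (hu.l2 K hK)) hU.restrict ?_)
  rw [ae_restrict_iff' hK.measurableSet]
  filter_upwards [hU'] with x hx hxK
  obtain ⟨a, b⟩ := hx (h hxK)
  rwa [Real.norm_eq_abs, abs_of_nonneg (by linarith)]
theorem Fc_core {p S U q : E → ℝ} {Ω : Set E} {ρ c0 c1 : ℝ} (hc : 0 < c0) (hΩ : Ω ⊆ Ex ρ)
    (a : Sub Ω p fun x => -(U x * p x) + S x) (hq : ContDiff ℝ 2 q)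
    (hU : AEStronglyMeasurable U volume) (hU' : ∀ᵐ x, x ∈ Ex ρ → c0 ≤ U x ∧ U x ≤ c1)
    (hS : ∀ᵐ x, x ∈ Ω → S x ≤ -(1 / 2) * lap q x + U x * q x) {r : E → ℝ} (hr : Hl r)
    (he : ∀ x ∈ Ω, r x = p x - q x) : Sub Ω r fun x => -(U x * r x) := by
  have hq1 : Hl q := (bl_c1 (hq.of_le (by norm_num))).hl
  have b0 := (sub_c2 hq1 isOpen_univ hq.contDiffOn).2
  have b1 : Sub Ω (fun x => -q x) fun x => (1 / 2) * lap q x :=
    b0.mono (subset_univ _) (fun K hK _ => b0.li K hK (subset_univ _)) (ae_of_all _ fun _ _ => le_rfl)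
  have b2 := WSub.add aestronglyMeasurable_const S12_lb_one a b1
  have b3 : Sub Ω (fun x => p x + -q x) fun x => -(U x * r x) := by
    refine b2.mono Subset.rfl (fun K hK h => Fc_int hc hr hU hU' hK (h.trans hΩ)) ?_
    filter_upwards [hS] with x hx hxΩ
    have := hx hxΩ
    rw [he x hxΩ]
    linarith
  refine ⟨hr, b3.li, fun χ hχ h0 => le_trans (le_of_eq ?_) (b3.le χ hχ h0)⟩
  obtain ⟨K, hK, hKΩ, -, hz⟩ := S12_supp hχ
  refine integral_congr_ae ?_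
  filter_upwards [hz, D_eq_of_eq hr b3.hl] with x hz hd
  by_cases hx : x ∈ K
  · rw [hd (by rw [he x (hKΩ hx), sub_eq_add_neg])]
  · rw [hz hx, inner_zero_right, inner_zero_right]
theorem far_le {p S U q : E → ℝ} {ρ c0 c1 : ℝ} (hc : 0 < c0) (hρ : 0 ≤ ρ)
    (a : Sub (Ex ρ) p fun x => -(U x * p x) + S x) (hp : LB p) (hq : ContDiff ℝ 2 q)
    (hU : AEStronglyMeasurable U volume) (hU' : ∀ᵐ x, x ∈ Ex ρ → c0 ≤ U x ∧ U x ≤ c1)
    (hS : ∀ᵐ x, x ∈ Ex ρ → S x ≤ -(1 / 2) * lap q x + U x * q x)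
    (h2 : MemLp (fun x => max (p x - q x) 0) 2 volume)
    (h1 : ∀ᵐ x, ρ < ‖x‖ → ‖x‖ < ρ + 1 → p x ≤ q x) : ∀ᵐ x, x ∈ Ex ρ → p x ≤ q x := by
  have hb : Bl fun x => p x - q x := Bl.sub ⟨a.hl, hp⟩ (bl_c1 (hq.of_le (by norm_num)))
  have b := Fc_core hc Subset.rfl a hq hU hU' hS hb.hl fun _ _ => rfl
  have key := Sub.ext_le (p := fun x => p x - q x) (U := U) (C := univ) (r := ρ) isClosed_univ hc hρ
    (by rw [univ_inter]; exact b) (hU'.mono fun x hx h => (hx h).1) hb.lb h2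
    (ae_of_all _ fun x hx => absurd (mem_univ x) hx)
    (h1.mono fun x hx h h' => sub_nonpos.2 (hx h h'))
  exact key.mono fun x hx h => sub_nonpos.1 (hx h)
theorem far_le_half {p S U q : E → ℝ} {ρ c0 c1 : ℝ} (hc : 0 < c0) (hρ : 0 ≤ ρ)
    (a : Sub (Hp ∩ Ex ρ) p fun x => -(U x * p x) + S x) (hp : LB p) (hq : ContDiff ℝ 2 q)
    (hh : Hl (Hp.indicator fun x => p x - q x))
    (hU : AEStronglyMeasurable U volume) (hU' : ∀ᵐ x, x ∈ Ex ρ → c0 ≤ U x ∧ U x ≤ c1)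
    (hS : ∀ᵐ x, x ∈ Hp ∩ Ex ρ → S x ≤ -(1 / 2) * lap q x + U x * q x)
    (h2 : MemLp (Hp.indicator fun x => max (p x - q x) 0) 2 volume)
    (h1 : ∀ᵐ x, x ∈ Hp → ρ < ‖x‖ → ‖x‖ < ρ + 1 → p x ≤ q x) :
    ∀ᵐ x, x ∈ Hp ∩ Ex ρ → p x ≤ q x := by
  have hb : Bl fun x => p x - q x := Bl.sub ⟨a.hl, hp⟩ (bl_c1 (hq.of_le (by norm_num)))
  have b := Fc_core hc inter_subset_right a hq hU hU' hS hh fun x hx => indicator_of_mem hx.1 _
  have hl : LB (Hp.indicator fun x => p x - q x) := fun K hK => by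
    obtain ⟨M, hM⟩ := hb.lb K hK
    refine ⟨M, hM.mono fun x hx h => le_trans ?_ (hx h)⟩
    by_cases hx' : x ∈ Hp
    · rw [indicator_of_mem hx']
    · rw [indicator_of_notMem hx', abs_zero]
      exact abs_nonneg _
  have e : (fun x => max (Hp.indicator (fun x => p x - q x) x) 0) =
      Hp.indicator fun x => max (p x - q x) 0 := by
    funext x
    by_cases hx' : x ∈ Hp
    · rw [indicator_of_mem hx', indicator_of_mem hx']
    · rw [indicator_of_notMem hx', indicator_of_notMem hx', max_self]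
  have key := Sub.ext_le (p := Hp.indicator fun x => p x - q x) (U := U) (C := Hp) (r := ρ)
    (isClosed_le continuous_const S07.cont_two) hc hρ b (hU'.mono fun x hx h => (hx h).1) hl
    (by rw [e]; exact h2) (ae_of_all _ fun x hx => (indicator_of_notMem hx _).le)
    (h1.mono fun x hx h h' => by
      by_cases hx' : x ∈ Hp
      · rw [indicator_of_mem hx']
        exact sub_nonpos.2 (hx hx' h h')
      · exact (indicator_of_notMem hx' _).le)
  refine key.mono fun x hx h => ?_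
  have := hx h.2
  rw [indicator_of_mem h.1] at this
  exact sub_nonpos.1 this
theorem Fc_err {C1 C2 d t : ℝ} (h1 : 0 < C1) (h2 : 0 < C2) (hd : 1 ≤ d) (hC : C1 + C2 ≤ d)
    (ht : 100 * d ^ 2 ≤ t) : 10 ≤ √t ∧ 100 ≤ t ∧
      C1 / t ^ 2 + C2 * d ^ 2 / t ^ 3 ≤ 1 / 10 * (1 / (t * √t)) := by
  have hs : 10 * d ≤ √t := Real.le_sqrt_of_sq_le (by linarith)
  have ht1 : 100 ≤ t := by nlinarith
  have ht0 : 0 < t := by linarith
  have hs0 : 0 < √t := by linarith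
  have hss : √t * √t = t := Real.mul_self_sqrt ht0.le
  refine ⟨by linarith, ht1, ?_⟩
  have a1 : C2 * d ^ 2 / t ^ 3 ≤ C2 / t ^ 2 := by
    rw [div_le_div_iff₀ (by positivity) (by positivity)]
    have : d ^ 2 ≤ t := by nlinarith
    calc C2 * d ^ 2 * t ^ 2 ≤ C2 * t * t ^ 2 := by gcongr
      _ = C2 * t ^ 3 := by ring
  have a2 : C1 / t ^ 2 + C2 / t ^ 2 ≤ √t / 10 / t ^ 2 := by
    rw [← add_div]
    gcongr
    linarith
  have a3 : √t / 10 / t ^ 2 = 1 / 10 * (1 / (t * √t)) := by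
    field_simp
    nlinarith
  linarith
/-- homogeneous barriers: `b = -1` is a supersolution, `b = 1` a subsolution, with margin -/
theorem hom_bar : Lg fun o => ∀ k : ℝ, 99 / 100 ≤ k → k ≤ 11 / 10 → ∀ x, o.R0 ≤ ‖x‖ →
    radb (2 / k - 1) k (-1) x / (4 * (jb x * √(jb x))) ≤
      -(1 / 2) * lap (radb (2 / k - 1) k (-1)) x + (o.v x + k ^ 2 / 2) * radb (2 / k - 1) k (-1) x ∧
    -(1 / 2) * lap (radb (2 / k - 1) k 1) x + (o.v x + k ^ 2 / 2) * radb (2 / k - 1) k 1 x ≤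
      -(radb (2 / k - 1) k 1 x / (4 * (jb x * √(jb x)))) ∧
    rad (2 / k - 1) k x / 2 ≤ -(1 / 2) * lap (rad (2 / k) k) x + (o.v x + k ^ 2 / 2) * rad (2 / k) k x ∧
    -(1 / 10) ≤ o.v x := by
  obtain ⟨C1, hC1, H1⟩ := lap_radb 3
  obtain ⟨C2, hC2, H2⟩ := vx_far
  refine ⟨C1 + C2, fun o ho hd k hk1 hk2 x hx => ?_⟩
  obtain ⟨c1, -, c3⟩ := ho.C0
  have hd1 : 1 ≤ o.d := by linarith
  have hx1 : 100 * o.d ^ 2 ≤ ‖x‖ := le_trans (by gcongr) (show o.C0 * o.d ^ 2 ≤ ‖x‖ from hx)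
  obtain ⟨s1, t1, er⟩ := Fc_err hC1 hC2 hd1 hd (hx1.trans (jb_facts x).2.1)
  have hv := abs_le.1 (H2 o.d x hd1 (by nlinarith))
  have hk0 : 0 < k := by linarith
  have k1 : 2 / k ≤ 3 := by
    rw [div_le_iff₀ hk0]
    linarith
  have k2 : 0 < 2 / k := by positivity
  have ka : |2 / k - 1| ≤ 3 := abs_le.2 ⟨by linarith, by linarith⟩
  have kb : |2 / k| ≤ 3 := abs_le.2 ⟨by linarith, by linarith⟩
  have kc : |k| ≤ 3 := abs_le.2 ⟨by linarith, by linarith⟩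
  have q1 := abs_le.1 (H1 _ k (-1) ka kc (by norm_num) x)
  have q2 := abs_le.1 (H1 _ k 1 ka kc (by norm_num) x)
  have q3 := abs_le.1 (H1 _ k 0 kb kc (by norm_num) x)
  have r1 := (radb_facts (2 / k - 1) k (-1) x).1
  have r2 := (radb_facts (2 / k - 1) k 1 x).1
  have r3 := (radb_facts (2 / k - 1) k 0 x).1
  have r4 := (radb_facts (2 / k - 1) k 0 x).2.2.2.2.2 1
  rw [sub_add_cancel, Real.rpow_one] at r4
  have ev : o.v x = vx o.d x := rfl
  rw [ev]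
  simp only [rad]
  set t := jb x with ht
  set v := vx o.d x with hvv
  have ht0 : 0 < t := by linarith
  have hs0 : 0 < √t := by linarith
  set w := 1 / (t * √t) with hw
  have w0 : 0 < w := by positivity
  have e1 : k * (2 / k - 1 + 1) / t = 2 / t := by field_simp; ring
  have e2 : k * (2 / k + 1) / t = 2 / t + k / t := by field_simp
  have e3 : ∀ b : ℝ, k * b / (2 * (t * √t)) = k * b / 2 * w := fun b => by rw [hw]; field_simp
  have e4 : ∀ r : ℝ, r / (4 * (t * √t)) = r * (w / 4) := fun r => by rw [hw]; field_simp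
  have kw : 99 / 100 * w ≤ k * w := by gcongr
  rw [e1, e3] at q1 q2
  rw [e2, e3] at q3
  rw [e4, e4]
  have p1 : 0 < C1 / t ^ 2 := by positivity
  have tw : t * w ≤ 1 / 10 := by
    have : t * w = 1 / √t := by rw [hw]; field_simp
    rw [this]
    exact one_div_le_one_div_of_le (by norm_num) s1
  refine ⟨?_, ?_, ?_, ?_⟩
  · have := mul_le_mul_of_nonneg_left
      (show w / 4 ≤ v + 2 / t + k / 2 * w - C1 / t ^ 2 by linarith [hv.1]) r1.le
    linarith [q1.1]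
  · have := mul_le_mul_of_nonneg_left
      (show v + 2 / t - k / 2 * w + C1 / t ^ 2 ≤ -(w / 4) by linarith [hv.2]) r2.le
    linarith [q2.2]
  · have a1 : -(1 / 10 * w) ≤ v + 2 / t - C1 / t ^ 2 := by linarith [hv.1]
    have a2 := mul_le_mul_of_nonneg_left a1 ht0.le
    have a3 : t * (k / t) = k := by field_simp
    have a4 := mul_le_mul_of_nonneg_left
      (show 1 / 2 ≤ t * (v + 2 / t - C1 / t ^ 2) + t * (k / t) by linarith) r3.le
    have a5 := q3.1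
    rw [r4] at a5 ⊢
    linarith
  · have a1 : 2 / t ≤ 2 / 100 := by gcongr
    have a2 : 100 * w ≤ t * w := by gcongr
    linarith [hv.1]
/-- the smoothing kernel has bounded logarithmic derivatives -/
theorem Kb_reg : ∃ C : ℝ, 0 < C ∧ ∀ h : E → ℝ, AEStronglyMeasurable h volume → (∀ x, 0 ≤ h x) →
    (∃ M : ℝ, ∀ᵐ x, h x ≤ M * jb x) → (¬ ∀ᵐ x, h x = 0) →
    ContDiff ℝ 2 (Kb h) ∧ ∀ x, 0 < Kb h x ∧ Kb h (hor x) = Kb h x ∧ ‖∇ (Kb h) x‖ ≤ C * Kb h x ∧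
      |lap (Kb h) x| ≤ C * Kb h x ∧ ∀ x', Kb h x' ≤ Real.exp (4 * ‖x' - x‖) * Kb h x :=
  ⟨72, by norm_num, Kk_reg⟩
theorem quot_reg {p q : E → ℝ} {C : ℝ} (hp : ContDiff ℝ 2 p) (hq : ContDiff ℝ 2 q) (hC : 1 ≤ C)
    (h : ∀ x, 0 < p x ∧ 0 < q x ∧ ‖∇ p x‖ ≤ C * p x ∧ ‖∇ q x‖ ≤ C * q x ∧ |lap p x| ≤ C * p x ∧
      |lap q x| ≤ C * q x) : ContDiff ℝ 2 (fun x => p x / q x) ∧ ∀ x,
      ‖∇ (fun x => p x / q x) x‖ ≤ 2 * C * (p x / q x) ∧
      |lap (fun x => p x / q x) x| ≤ 6 * C ^ 2 * (p x / q x) :=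
  Kk_quot hp hq hC h

end

end Crest.Agent.R335
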