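import Crest.Agent.R335.F3Aux1
import Crest.Agent.R335.Fc

set_option autoImplicit false

open MeasureTheory Set Filter Topology Metric
open scoped Gradient ContDiff RealInnerProductSpace ENNReal

namespace Crest.Agent.R335

noncomputable section

/-- profile of the corrector -/
def F3P (z : ℝ) : ℝ := 1 - Real.exp (-(2 * z))

theorem F3P_cd : ContDiff ℝ 2 F3P := by
  unfold F3P
  fun_prop

theorem F3P_d1 : deriv F3P = fun z => 2 * Real.exp (-(2 * z)) := by
  funext z
  have h : HasDerivAt F3P (2 * Real.exp (-(2 * z))) z := by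
    have := (((hasDerivAt_id' z).const_mul 2).fun_neg.exp).const_sub 1
    exact this.congr_deriv (by ring)
  exact h.deriv

theorem F3P_d2 (z : ℝ) : deriv (deriv F3P) z = -4 * Real.exp (-(2 * z)) := by
  rw [F3P_d1]
  have h : HasDerivAt (fun z : ℝ => 2 * Real.exp (-(2 * z))) (-4 * Real.exp (-(2 * z))) z := by
    have := (((hasDerivAt_id' z).const_mul 2).fun_neg.exp).const_mul 2
    exact this.congr_deriv (by ring)
  exact h.deriv

theorem F3P_pos {z : ℝ} (hz : 0 ≤ z) : 0 ≤ F3P z ∧ F3P z ≤ 1 ∧ F3P z ≤ 2 * z := by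
  have h1 : Real.exp (-(2 * z)) ≤ 1 := Real.exp_le_one_iff.2 (by linarith)
  have h2 := Real.exp_pos (-(2 * z))
  have h3 := Real.add_one_le_exp (-(2 * z))
  unfold F3P
  exact ⟨by linarith, by linarith, by linarith⟩

theorem F3P_neg {z : ℝ} (hz : z ≤ 0) : F3P z ≤ 0 := by
  have h1 : 1 ≤ Real.exp (-(2 * z)) := Real.one_le_exp (by linarith)
  unfold F3P
  linarith

theorem F3_e : Real.exp 1 ≤ 3 := by linarith [Real.exp_one_lt_d9]

theorem F3_radb (a k : ℝ) (x : E) : rad a k x ≤ 3 * radb a k (-1) x ∧ radb a k (-1) x ≤ rad a k x ∧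
    rad a k x ≤ radb a k 1 x ∧ radb a k 1 x ≤ 3 * rad a k x := by
  have j1 := (jb_facts x).1
  have s1 : 1 ≤ √(jb x) := Real.one_le_sqrt.2 j1
  have h0 : 0 ≤ 1 / √(jb x) := by positivity
  have hp : 0 < jb x ^ a := Real.rpow_pos_of_pos (by linarith) _
  have r0 := (radb_facts a k 0 x).1
  have he := F3_e
  have h1 := (radb_facts a k (-1) x).2.2.2.1
  have h2 := (radb_facts a k 1 x).2.2.2.2.1
  simp only [abs_neg, abs_one] at h1 h2
  refine ⟨?_, ?_, ?_, ?_⟩
  · have e : Real.exp 1 * Real.exp (-1) = 1 := by rw [← Real.exp_add]; simp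
    have h3 := Real.exp_pos (-1)
    have h4 := (radb_facts a k (-1) x).1
    calc rad a k x = Real.exp 1 * (Real.exp (-1) * rad a k x) := by rw [← mul_assoc, e, one_mul]
      _ ≤ 3 * radb a k (-1) x := by gcongr
  · unfold rad radb
    rw [neg_div]
    gcongr
    simp only [zero_div]
    linarith
  · unfold rad radb
    gcongr
    norm_num
  · exact h2.trans (mul_le_mul_of_nonneg_right he r0.le)

theorem F3_shift (a k : ℝ) (x : E) : rad a k x = jb x ^ 2 * rad (a + -2) k x := by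
  have h := (radb_facts (a + -2) k 0 x).2.2.2.2.2 2
  rw [show a + -2 + 2 = a by ring] at h
  rw [← Real.rpow_two]
  exact h

theorem F3_bar : ∃ d1 : ℝ, ∀ (d κ l U σ : ℝ) (x : E), d1 ≤ d → 99 / 100 ≤ κ → κ ≤ 11 / 10 →
    0 ≤ l → l ≤ 1 → (σ = 1 ∨ σ = -1) → 100 * d ^ 2 ≤ ‖x‖ → 0 ≤ x 2 →
    |U - (vx d x + κ ^ 2 / 2 + 2 * l / jb x)| ≤ 1 / jb x ^ 2 →
    x 2 * rad ((2 - 2 * l) / κ - 2 + -2) κ x / 12 ≤
      σ * (-(1 / 2) * lap (fun x => x 2 * radb ((2 - 2 * l) / κ - 2) κ (-σ) x) x +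
        U * (x 2 * radb ((2 - 2 * l) / κ - 2) κ (-σ) x)) ∧
    rad ((2 - 2 * l) / κ - 2 + -2) κ x * (2 * Real.exp (-(2 * x 2)) - 1 / 10) ≤
      -(1 / 2) * lap (fun x => F3P (x 2) * rad ((2 - 2 * l) / κ - 2 + -2) κ x) x +
        U * (F3P (x 2) * rad ((2 - 2 * l) / κ - 2 + -2) κ x) := by
  obtain ⟨C1, hC1, h1⟩ := lap_zradb 5
  obtain ⟨C2, hC2, h2⟩ := lap_radb 5
  obtain ⟨C3, hC3, h3⟩ := vx_far
  refine ⟨C1 + C2 + C3 + 1, fun d κ l U σ x hd k1 k2 l0 l1 hσ hx hz hU => ?_⟩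
  set a := (2 - 2 * l) / κ - 2 with ha
  have hκ : 0 < κ := by linarith
  have hka : κ * (a + 2) = 2 - 2 * l := by rw [ha]; field_simp; ring
  have ha1 : -2 ≤ a := by
    have : 0 ≤ (2 - 2 * l) / κ := div_nonneg (by linarith) hκ.le
    linarith
  have ha2 : a ≤ 1 := by
    have : (2 - 2 * l) / κ ≤ 3 := by rw [div_le_iff₀ hκ]; linarith
    linarith
  have hd1 : 1 ≤ d := by linarith
  set t := jb x with ht
  have t1 : 1 ≤ t := (jb_facts x).1
  have t0 : 0 < t := by linarith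
  have t2 : 100 * d ^ 2 ≤ t := hx.trans (jb_facts x).2.1
  set s := √t with hs
  have s2 : s * s = t := Real.mul_self_sqrt t0.le
  have s1 : 10 * d ≤ s := Real.le_sqrt_of_sq_le (by linarith)
  have s0 : 0 < s := by linarith
  have hv := h3 d x hd1 (by nlinarith)
  rw [← ht] at hv
  have hpot : |U - (κ ^ 2 / 2 - (2 - 2 * l) / t)| ≤ (C3 + 1) / t ^ 2 := by
    have e : U - (κ ^ 2 / 2 - (2 - 2 * l) / t) =
        (U - (vx d x + κ ^ 2 / 2 + 2 * l / t)) + (vx d x + 2 / t) := by ring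
    have b : C3 * d ^ 2 / t ^ 3 ≤ C3 / t ^ 2 := by
      rw [div_le_div_iff₀ (by positivity) (by positivity)]
      have : d ^ 2 ≤ t := by nlinarith
      calc C3 * d ^ 2 * t ^ 2 ≤ C3 * t * t ^ 2 := by gcongr
        _ = C3 * t ^ 3 := by ring
    rw [e, add_div]
    refine (abs_add_le _ _).trans ?_
    linarith
  have hσ1 : |σ| = 1 := by rcases hσ with rfl | rfl <;> simp
  have hσ2 : σ * σ = 1 := by rcases hσ with rfl | rfl <;> simp
  set φ := rad (a + -2) κ x with hφ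
  have φ0 : 0 < φ := (radb_facts _ _ _ x).1
  constructor
  · have L := h1 a κ (-σ) (abs_le.2 ⟨by linarith, by linarith⟩)
      (abs_le.2 ⟨by linarith, by linarith⟩) (by rw [abs_neg, hσ1]; norm_num) x
    rw [← ht, ← hs, hka, abs_of_nonneg hz] at L
    set B := radb a κ (-σ) x with hB
    have B0 : 0 < B := (radb_facts _ _ _ x).1
    set Λ := lap (fun x => x 2 * radb a κ (-σ) x) x with hΛ
    have Z0 : 0 ≤ x 2 * B := by positivity
    have hBφ : t ^ 2 * φ ≤ 3 * B := by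
      rw [hφ, ht, ← F3_shift]
      have := F3_radb a κ x
      have r0 : 0 < rad a κ x := (radb_facts _ _ _ x).1
      rcases hσ with rfl | rfl
      · exact this.1
      · rw [hB, neg_neg]; linarith [this.2.2.1]
    set e1 := -(1 / 2) * Λ - x 2 * B * (-(κ ^ 2 / 2) + (2 - 2 * l) / t - κ * -σ / (2 * (t * s)))
      with he1
    set e2 := U - (κ ^ 2 / 2 - (2 - 2 * l) / t) with he2
    have e : σ * (-(1 / 2) * Λ + U * (x 2 * B)) =
        x 2 * B * (κ / (2 * (t * s))) + σ * e1 + σ * (e2 * (x 2 * B)) := by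
      rw [he1, he2]
      linear_combination (x 2 * B * (κ / (2 * (t * s)))) * hσ2
    have b1 : |σ * e1| ≤ C1 / t ^ 2 * (x 2 * B) := by rw [abs_mul, hσ1, one_mul]; exact L
    have b2 : |σ * (e2 * (x 2 * B))| ≤ (C3 + 1) / t ^ 2 * (x 2 * B) := by
      rw [abs_mul, hσ1, one_mul, abs_mul, abs_of_nonneg Z0]
      gcongr
    have b3 : C1 / t ^ 2 + (C3 + 1) / t ^ 2 + 1 / (4 * (t * s)) ≤ κ / (2 * (t * s)) := by
      have e3 : κ / (2 * (t * s)) - 1 / (4 * (t * s)) = (κ / 2 - 1 / 4) * s / t ^ 2 := by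
        rw [← s2]; field_simp
      have : (C1 + (C3 + 1)) / t ^ 2 ≤ (κ / 2 - 1 / 4) * s / t ^ 2 := by
        gcongr
        nlinarith
      rw [add_div] at this
      linarith
    have b4 : x 2 * φ / 12 ≤ 1 / (4 * (t * s)) * (x 2 * B) := by
      have : φ / 12 ≤ 1 / (4 * (t * s)) * B := by
        rw [one_div, ← div_eq_inv_mul, div_le_div_iff₀ (by norm_num) (by positivity)]
        have : t * s ≤ t ^ 2 := by
          rw [sq]
          gcongr
          nlinarith
        nlinarith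
      calc x 2 * φ / 12 = x 2 * (φ / 12) := by ring
        _ ≤ x 2 * (1 / (4 * (t * s)) * B) := by gcongr
        _ = _ := by ring
    have b5 := mul_le_mul_of_nonneg_right b3 Z0
    rw [e]
    linarith [(abs_le.1 b1).1, (abs_le.1 b2).1]
  · have L := h2 (a + -2) κ 0 (abs_le.2 ⟨by linarith, by linarith⟩)
      (abs_le.2 ⟨by linarith, by linarith⟩) (by norm_num) x
    have hka' : κ * (a + -2 + 1) = 2 - 2 * l - 3 * κ := by linear_combination hka
    rw [← ht, ← hs, hka'] at L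
    have hcd : ContDiff ℝ 2 (rad (a + -2) κ) := (radb_smooth _ _ _).of_le (by norm_cast)
    rw [lap_mul_z hcd F3P_cd, F3P_d2, F3P_d1, (radb_facts (a + -2) κ 0 x).2.2.1]
    change |-(1 / 2) * lap (rad (a + -2) κ) x - φ * _| ≤ C2 / t ^ 2 * φ at L
    change _ ≤ -(1 / 2) * (_ + 2 * _ * ((φ * ell (a + -2) κ 0 x / t) • x) 2 + _ * φ) + _
    rw [PiLp.smul_apply, smul_eq_mul]
    set Λ := lap (rad (a + -2) κ) x with hΛ
    set w := Real.exp (-(2 * x 2)) with hw
    have w0 : 0 < w := Real.exp_pos _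
    obtain ⟨p0, p1, -⟩ := F3P_pos hz
    have hell : ell (a + -2) κ 0 x ≤ 0 := by
      have : (a + -2) / jb x ≤ 0 := div_nonpos_of_nonpos_of_nonneg (by linarith) t0.le
      simp only [ell, zero_div]
      linarith
    have c1 : 0 ≤ -(w * (φ * ell (a + -2) κ 0 x / t * x 2)) := by
      have : φ * ell (a + -2) κ 0 x / t ≤ 0 :=
        div_nonpos_of_nonpos_of_nonneg (mul_nonpos_of_nonneg_of_nonpos φ0.le hell) t0.le
      have := mul_nonpos_of_nonpos_of_nonneg this hz
      nlinarith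
    have c2 : -(φ / 10) ≤ -(1 / 2) * Λ + U * φ := by
      have b1 := (abs_le.1 L).1
      have b2 := mul_le_mul_of_nonneg_right (abs_le.1 hpot).1 φ0.le
      have b3 : C2 / t ^ 2 + (C3 + 1) / t ^ 2 + 3 * κ / t ≤ 1 / 10 := by
        have a1 : (C2 + (C3 + 1)) / t ^ 2 ≤ 1 / t := by
          rw [div_le_div_iff₀ (by positivity) t0, one_mul, sq]
          gcongr
          nlinarith
        have a2 : (1 + 3 * κ) / t ≤ 1 / 10 := by
          rw [div_le_div_iff₀ t0 (by norm_num)]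
          nlinarith
        rw [add_div] at a1 a2
        linarith
      have b4 := mul_le_mul_of_nonneg_right b3 φ0.le
      have e : (2 - 2 * l - 3 * κ) / t = (2 - 2 * l) / t - 3 * κ / t := by ring
      rw [e] at b1
      simp only [mul_zero, zero_div, sub_zero] at b1
      linarith
    have c3 : -(φ / 10) ≤ F3P (x 2) * (-(1 / 2) * Λ + U * φ) := by
      have := mul_le_mul_of_nonneg_left c2 p0
      nlinarith
    linarith

theorem F3_ae_le {p q : E → ℝ} {U : Set E} (hp : Continuous p) (hq : Continuous q) (hU : IsOpen U)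
    (h : ∀ᵐ x, x ∈ U → p x ≤ q x) : ∀ x ∈ U, p x ≤ q x := by
  have ho : IsOpen (U ∩ {x | q x < p x}) := hU.inter (isOpen_lt hq hp)
  have h0 : volume (U ∩ {x | q x < p x}) = 0 := by
    rw [ae_iff] at h
    convert h using 2
    ext x
    simp
  intro x hx
  by_contra hlt
  have : x ∈ U ∩ {x | q x < p x} := ⟨hx, not_le.1 hlt⟩
  rw [ho.eq_empty_of_measure_zero h0] at this
  exact this

theorem F3_ratio {a a' k k' η T : ℝ} {x : E} (ha : |a - a'| ≤ η) (hk : |k - k'| ≤ η)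
    (hT : jb x ≤ T) (h : 4 * η * T ≤ 1) : rad a k x ≤ 2 * rad a' k' x := by
  have j1 := (jb_facts x).1
  have j0 : 0 < jb x := by linarith
  have η0 : 0 ≤ η := (abs_nonneg _).trans ha
  have l0 : 0 ≤ Real.log (jb x) := Real.log_nonneg j1
  have l1 : Real.log (jb x) ≤ T := by linarith [Real.log_le_sub_one_of_pos j0]
  have e2 : Real.exp (1 / 2) ≤ 2 := by
    have : Real.exp (1 / 2) * Real.exp (1 / 2) = Real.exp 1 := by rw [← Real.exp_add]; norm_num
    nlinarith [F3_e, Real.exp_pos (1 / 2)]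
  unfold rad radb
  simp only [zero_div, add_zero]
  rw [Real.rpow_def_of_pos j0, Real.rpow_def_of_pos j0, ← Real.exp_add, ← Real.exp_add]
  refine le_trans ?_ (mul_le_mul_of_nonneg_right e2 (Real.exp_pos _).le)
  rw [← Real.exp_add]
  refine Real.exp_le_exp.2 ?_
  have b1 : Real.log (jb x) * (a - a') ≤ T * η := by nlinarith [(abs_le.1 ha).2]
  have b2 : (k' - k) * jb x ≤ η * T := by nlinarith [(abs_le.1 hk).1]
  nlinarith

end

end Crest.Agent.R335
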