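import Crest.Agent.R335.F1
import Crest.Agent.R335.S07
import Crest.Agent.R335.F3Aux2

set_option autoImplicit false

open MeasureTheory Set Filter Topology Metric
open scoped Gradient ContDiff RealInnerProductSpace ENNReal

namespace Crest.Agent.R335

noncomputable section

theorem F3a : Lg fun o => ∀ c ρ ε : ℝ, 0 < ε → Sm o c fun m =>
    ∀ x, ‖x‖ ≤ ρ → |m.f x - o.u0 x| ≤ ε * |x 2| := by
  refine ⟨0, fun o ho _ c ρ ε hε => ?_⟩
  obtain ⟨K, hK⟩ := F3_lin ho c
  refine (F3_small o c K hε).mono fun m hm h x _ => (hK m hm x).trans ?_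
  exact mul_le_mul_of_nonneg_right h.1 (abs_nonneg _)

theorem F3_cmp : Lg fun o => ∀ (c c2 A σ : ℝ) (m : MD), m.OK o c → 0 < A → 0 ≤ c2 →
    (σ = 1 ∨ σ = -1) → 99 / 100 ≤ m.κ → m.κ ≤ 11 / 10 → m.κ ^ 2 / 2 = m.I → c * m.l ≤ 1 →
    24 * c2 * m.l ≤ A → (∀ᵐ x, |m.ef x| ≤ c2 * m.l / jb x ^ 2 * m.Dm x) →
    (∀ x ∈ Hp, o.R0 ≤ ‖x‖ → ‖x‖ ≤ o.R0 + 1 →
      σ * m.f x ≤ σ * A * (x 2 * radb ((2 - 2 * m.l) / m.κ - 2) m.κ (-σ) x)) →
    ∀ x ∈ Hp, o.R0 ≤ ‖x‖ → σ * m.f x ≤
      σ * A * (x 2 * radb ((2 - 2 * m.l) / m.κ - 2) m.κ (-σ) x) +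
        20 * c2 * m.l * (x 2 * m.Dm x) := by
  obtain ⟨d1, hbar⟩ := F3_bar
  refine (hom_bar.and (Lg.ge d1)).mono ?_
  rintro o ho ⟨hb, hd⟩ c c2 A σ m hm hA hc2 hσ k1 k2 hI hcl hA2 hef hsh
  set a := (2 - 2 * m.l) / m.κ - 2 with ha
  have hl := hm.l0.1
  have hc : 0 ≤ c := (hm.w_bd 0).1.trans (hm.w_bd 0).2.1
  have hκ : 0 < m.κ := by linarith
  have hσ1 : |σ| = 1 := by rcases hσ with rfl | rfl <;> simp
  have hR0 : 100 * o.d ^ 2 ≤ o.R0 := mul_le_mul_of_nonneg_right ho.C0.1 (sq_nonneg _)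
  have hR : 0 ≤ o.R0 := le_trans (by positivity) hR0
  set q1 : E → ℝ := fun x => x 2 * radb a m.κ (-σ) x with hq1
  set q2 : E → ℝ := fun x => F3P (x 2) * rad (a + -2) m.κ x with hq2
  have cz : ContDiff ℝ 2 fun x : E => x 2 := by fun_prop
  have c1 : ContDiff ℝ 2 q1 := cz.mul ((radb_smooth _ _ _).of_le (by norm_cast))
  have c2' : ContDiff ℝ 2 q2 := (F3P_cd.comp cz).mul ((radb_smooth _ _ _).of_le (by norm_cast))
  set B := 10 * c2 * m.l with hB
  have hB0 : 0 ≤ B := by positivity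
  have φ0 : ∀ x, 0 < rad (a + -2) m.κ x := fun x => (radb_facts _ _ _ x).1
  have q20 : ∀ x ∈ Hp, 0 ≤ q2 x := fun x hx => mul_nonneg (F3P_pos hx).1 (φ0 x).le
  set q : E → ℝ := fun x => (σ * A) * q1 x + B * q2 x with hq
  have cq : ContDiff ℝ 2 q := (contDiff_const.mul c1).add (contDiff_const.mul c2')
  set U : E → ℝ := fun x => o.v x + m.I + m.l * m.w x with hU
  have hsol : Sol (fun x => σ * m.f x) fun x => -(U x * (σ * m.f x)) + σ * m.ef x :=
    (hm.sf.lin hm.sf σ 0).congr (Eventually.of_forall fun y => by ring)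
      (Eventually.of_forall fun y => by simp only [hU]; ring)
  have cp : Continuous fun x => σ * m.f x := continuous_const.mul hm.cf.1
  have mH : MeasurableSet Hp := S07.mHp
  have key : ∀ᵐ x, x ∈ Hp ∩ Ex o.R0 → σ * m.f x ≤ q x := by
    refine far_le_half (c0 := 1 / 4) (c1 := 1 + c) (U := U) (S := fun x => σ * m.ef x)
      (by norm_num) hR ?_ (Continuous.lb' cp) cq ?_ ?_ ?_ ?_ ?_ ?_
    · exact hsol.sub.mono (subset_univ _)
        (fun K hK _ => (hsol.l2.locallyIntegrable (by norm_num)).integrableOn_isCompact hK)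
        (Eventually.of_forall fun _ _ => le_rfl)
    · have h1 : Hl fun x => σ * m.f x - (σ * A) * q1 x :=
        hsol.h1.hl.sub ((bl_c1 (c1.of_le (by norm_num))).hl.smul _)
      have h2 : Od fun x => σ * m.f x - (σ * A) * q1 x := Eventually.of_forall fun x => by
        simp only [hq1, hm.cf.2.2 x, R_two, (radb_facts a m.κ (-σ) x).2.1]
        ring
      have h3 := ((h1.half h2).1).sub (((bl_c1 (c2'.of_le (by norm_num))).hl.pos.1).smul B)
      refine h3.congr (Eventually.of_forall fun x => ?_)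
      by_cases hx : x ∈ Hp
      · rw [indicator_of_mem hx, indicator_of_mem hx, max_eq_left (q20 x hx)]
        simp only [hq]
        ring
      · have : q2 x ≤ 0 := mul_nonpos_of_nonpos_of_nonneg (F3P_neg (not_le.1 hx).le) (φ0 x).le
        rw [indicator_of_notMem hx, indicator_of_notMem hx, max_eq_right this]
        simp
    · exact ((vx_facts o.d).1.aestronglyMeasurable.add aestronglyMeasurable_const).add
        (hm.mw.1.const_mul _)
    · refine Eventually.of_forall fun x hx => ?_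
      have h1 := (hb m.κ k1 k2 x (le_of_lt hx)).2.2.2
      have h2 : o.v x ≤ 0 := ((vx_facts o.d).2.1 x).1
      obtain ⟨w0, w1, -⟩ := hm.w_bd x
      have h3 : 0 ≤ m.l * m.w x := by positivity
      have h4 : m.l * m.w x ≤ c := by nlinarith [hm.l0.2]
      simp only [hU]
      constructor <;> nlinarith
    · filter_upwards [hef] with x hx hxm
      have hz : 0 ≤ x 2 := hxm.1
      have j1 := (jb_facts x).1
      have hUx : |U x - (vx o.d x + m.κ ^ 2 / 2 + 2 * m.l / jb x)| ≤ 1 / jb x ^ 2 := by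
        have e : U x - (vx o.d x + m.κ ^ 2 / 2 + 2 * m.l / jb x) = m.l * (m.w x - 2 / jb x) := by
          simp only [hU, OD.v, hI]
          ring
        rw [e, abs_mul, abs_of_pos hl]
        calc m.l * |m.w x - 2 / jb x| ≤ m.l * (c / jb x ^ 2) := by
              gcongr
              exact (hm.w_bd x).2.2
          _ = c * m.l / jb x ^ 2 := by ring
          _ ≤ _ := by gcongr
      obtain ⟨b1, b2⟩ := hbar o.d m.κ m.l (U x) σ x hd k1 k2 hl.le hm.l0.2 hσ
        (hR0.trans (le_of_lt hxm.2)) hz hUx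
      rw [← ha] at b1 b2
      change _ ≤ σ * (-(1 / 2) * lap q1 x + U x * q1 x) at b1
      change _ ≤ -(1 / 2) * lap q2 x + U x * q2 x at b2
      have e1 : lap q x = (σ * A) * lap q1 x + B * lap q2 x := lap_lin c1 c2' _ _ x
      have e2 : c2 * m.l / jb x ^ 2 * m.Dm x = c2 * m.l * rad (a + -2) m.κ x := by
        have : m.Dm x = jb x ^ 2 * rad (a + -2) m.κ x := F3_shift a m.κ x
        rw [this]
        field_simp
      have e3 : -(1 / 2) * lap q x + U x * q x = A * (σ * (-(1 / 2) * lap q1 x + U x * q1 x)) +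
          B * (-(1 / 2) * lap q2 x + U x * q2 x) := by
        rw [e1]
        simp only [hq]
        ring
      have b3 : σ * m.ef x ≤ c2 * m.l * rad (a + -2) m.κ x := by
        refine (le_abs_self _).trans ?_
        rw [abs_mul, hσ1, one_mul, ← e2]
        exact hx
      have b4 := mul_le_mul_of_nonneg_left b1 hA.le
      have b5 := mul_le_mul_of_nonneg_left b2 hB0
      have b6 : c2 * m.l ≤ A * x 2 / 12 + B * (2 * Real.exp (-(2 * x 2)) - 1 / 10) := by
        have cl : 0 ≤ c2 * m.l := by positivity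
        have w0 := Real.exp_pos (-(2 * x 2))
        rcases le_total (x 2) 1 with h | h
        · have w1 : 1 / 9 ≤ Real.exp (-(2 * x 2)) := by
            have a1 : Real.exp (-2) ≤ Real.exp (-(2 * x 2)) := Real.exp_le_exp.2 (by linarith)
            have a2 : Real.exp 1 * Real.exp 1 * Real.exp (-2) = 1 := by
              rw [← Real.exp_add, ← Real.exp_add]; norm_num
            have a3 : Real.exp 1 * Real.exp 1 ≤ 9 := by nlinarith [F3_e, Real.exp_pos 1]
            nlinarith [Real.exp_pos (-2)]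
          have : 0 ≤ A * x 2 := by positivity
          rw [hB]
          nlinarith
        · have : A ≤ A * x 2 := le_mul_of_one_le_right hA.le h
          have h2 : 0 ≤ c2 * m.l * Real.exp (-(2 * x 2)) := by positivity
          rw [hB]
          nlinarith
      have b7 := mul_le_mul_of_nonneg_right b6 (φ0 x).le
      rw [e3]
      linarith
    · have g1 : MemLp (fun x => |m.f x| + A * radb (a + 1) m.κ (-σ) x) 2 volume :=
        hm.sf.h1.l2.norm.add ((radb_memLp _ _ hκ).1.const_mul A)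
      refine g1.mono' (((cp.sub cq.continuous).max continuous_const).aestronglyMeasurable.indicator
        mH) (Eventually.of_forall fun x => ?_)
      have r0 := (radb_facts (a + 1) m.κ (-σ) x).1
      by_cases hx : x ∈ Hp
      · rw [indicator_of_mem hx, Real.norm_eq_abs, abs_of_nonneg (le_max_right _ _)]
        refine max_le ?_ (by positivity)
        have h1 : σ * m.f x ≤ |m.f x| :=
          (le_abs_self _).trans_eq (by rw [abs_mul, hσ1, one_mul])
        have h2 : |σ * A * q1 x| ≤ A * radb (a + 1) m.κ (-σ) x := by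
          have r1 := (radb_facts a m.κ (-σ) x).1
          rw [abs_mul, abs_mul, hσ1, one_mul, abs_of_pos hA, (radb_facts a m.κ (-σ) x).2.2.2.2.2 1,
            Real.rpow_one]
          simp only [hq1]
          rw [abs_mul, abs_of_pos r1]
          gcongr
          exact (F3_two_le x).trans (jb_facts x).2.1
        have h3 := mul_nonneg hB0 (q20 x hx)
        simp only [hq]
        linarith [(abs_le.1 h2).1]
      · rw [indicator_of_notMem hx, norm_zero]
        positivity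
    · refine Eventually.of_forall fun x hx h1 h2 => ?_
      have h3 := mul_nonneg hB0 (q20 x hx)
      have h4 := hsh x hx h1.le h2.le
      simp only [hq]
      linarith
  have hop : IsOpen ({x : E | 0 < x 2} ∩ Ex o.R0) :=
    (isOpen_lt continuous_const cz.continuous).inter (isOpen_lt continuous_const continuous_norm)
  have key2 := F3_ae_le cp cq.continuous hop (by
    filter_upwards [key] with x hx h
    have h1 : 0 < x 2 := h.1
    exact hx ⟨show 0 ≤ x 2 from h1.le, h.2⟩)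
  intro x hx hxR
  have hz : 0 ≤ x 2 := hx
  have D0 : 0 < m.Dm x := (radb_facts _ _ _ x).1
  have n0 : 0 ≤ 20 * c2 * m.l * (x 2 * m.Dm x) := by positivity
  rcases hxR.eq_or_lt with h | h
  · linarith [hsh x hx hxR (by linarith)]
  rcases hz.eq_or_lt with h' | h'
  · have hRx : R x = x := by rw [R, ← h']; simp
    have e := hm.cf.2.2 x
    rw [hRx] at e
    have : m.f x = 0 := by linarith
    rw [this, ← h']
    simp
  · refine (key2 x ⟨h', h⟩).trans ?_
    have h1 : q2 x ≤ 2 * x 2 * m.Dm x := by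
      have : m.Dm x = jb x ^ 2 * rad (a + -2) m.κ x := F3_shift a m.κ x
      have h2 : rad (a + -2) m.κ x ≤ m.Dm x := by
        rw [this]
        exact le_mul_of_one_le_left (φ0 x).le (one_le_pow₀ (jb_facts x).1)
      exact mul_le_mul (F3P_pos hz).2.2 h2 (φ0 x).le (by positivity)
    have h2 := mul_le_mul_of_nonneg_left h1 hB0
    simp only [hq]
    rw [hB] at h2 ⊢
    linarith

/-- the boundary shell -/
theorem F3_shell {o : OD} (ho : o.OK) (c : ℝ) : Sm o c fun m => ∀ x ∈ Hp, o.R0 ≤ ‖x‖ →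
    ‖x‖ ≤ o.R0 + 1 →
    x 2 * m.Dm x / (4 * o.Γ0) ≤ m.f x ∧ m.f x ≤ 4 * o.Γ0 * (x 2 * m.Dm x) := by
  set k0 := √(-2 * o.eu) with hk0
  have hR : 0 ≤ o.R0 := mul_nonneg (by linarith [ho.C0.1]) (sq_nonneg _)
  have hΓ : 1 ≤ o.Γ0 := Real.one_le_exp hR
  have k01 : 99 / 100 ≤ k0 := Real.le_sqrt_of_sq_le (by linarith [ho.en.2.2, ho.γ0.2])
  obtain ⟨μ, μ0, hμ⟩ := (isCompact_closedBall (0 : E) (o.R0 + 1)).exists_forall_le'
    (radb_smooth (2 / k0 - 2) k0 0).continuous.continuousOn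
    (fun x _ => (radb_facts (2 / k0 - 2) k0 0 x).1)
  obtain ⟨K, hK⟩ := F3_lin ho c
  set T := o.R0 + 2 with hT
  have T0 : 0 < T := by linarith
  refine (((F3_small o c K (show 0 < μ / (2 * o.Γ0) by positivity)).and
    (num_kappa o ho c (1 / (24 * T)) (by positivity))).and
    (Sm.le o c (show 0 < 1 / (24 * T) by positivity))).mono ?_
  rintro m hm ⟨⟨⟨h1, -⟩, h2, -, k1, -⟩, h3⟩ x hx hx1 hx2
  have hz : 0 ≤ x 2 := hx
  have hj : jb x ≤ T := by linarith [(jb_facts x).2.2.1]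
  have hκ : 0 < m.κ := by linarith
  have hη : 0 < 1 / (24 * T) := by positivity
  have e4 : 4 * (6 * (1 / (24 * T))) * T ≤ 1 := by
    apply le_of_eq
    field_simp
    norm_num
  have hk : |m.κ - k0| ≤ 6 * (1 / (24 * T)) := by linarith
  have ha : |(2 - 2 * m.l) / m.κ - 2 - (2 / k0 - 2)| ≤ 6 * (1 / (24 * T)) := by
    have e : (2 - 2 * m.l) / m.κ - 2 - (2 / k0 - 2) =
        2 / (m.κ * k0) * (k0 - m.κ) - 2 / m.κ * m.l := by
      field_simp
      ring
    have a1 : 2 / (m.κ * k0) ≤ 3 := by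
      rw [div_le_iff₀ (by positivity)]
      nlinarith
    have a2 : 2 / m.κ ≤ 3 := by
      rw [div_le_iff₀ hκ]
      linarith
    rw [e]
    refine (abs_sub _ _).trans ?_
    rw [abs_mul, abs_mul, abs_of_pos hm.l0.1, abs_of_pos (show 0 < 2 / m.κ by positivity),
      abs_of_pos (show 0 < 2 / (m.κ * k0) by positivity), abs_sub_comm]
    have a3 := mul_le_mul a1 h2 (abs_nonneg _) (by norm_num)
    have a4 := mul_le_mul a2 h3 hm.l0.1.le (by norm_num)
    linarith
  have r1 : m.Dm x ≤ 2 * rad (2 / k0 - 2) k0 x := F3_ratio ha hk hj e4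
  have r2 : rad (2 / k0 - 2) k0 x ≤ 2 * m.Dm x :=
    F3_ratio (by rwa [abs_sub_comm]) (by rwa [abs_sub_comm]) hj e4
  obtain ⟨u1, u2⟩ := ho.u_far x hx hx1
  rw [← hk0] at u1 u2
  have r3 : μ ≤ rad (2 / k0 - 2) k0 x := hμ x (mem_closedBall_zero_iff.2 hx2)
  set ρ := rad (2 / k0 - 2) k0 x with hρ
  have h4 : |m.f x - o.u0 x| ≤ x 2 * ρ / (2 * o.Γ0) := by
    refine (hK m hm x).trans ?_
    rw [abs_of_nonneg hz]
    calc K * √m.l * x 2 ≤ μ / (2 * o.Γ0) * x 2 := by gcongr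
      _ ≤ ρ / (2 * o.Γ0) * x 2 := by gcongr
      _ = _ := by ring
  have h5 := abs_le.1 h4
  have zρ : 0 ≤ x 2 * ρ := mul_nonneg hz (μ0.le.trans r3)
  constructor
  · have a1 : x 2 * m.Dm x / (4 * o.Γ0) ≤ x 2 * (2 * ρ) / (4 * o.Γ0) := by gcongr
    have a2 : x 2 * (2 * ρ) / (4 * o.Γ0) = x 2 * ρ / o.Γ0 - x 2 * ρ / (2 * o.Γ0) := by
      field_simp
      ring
    linarith [h5.1]
  · have a1 : x 2 * ρ / (2 * o.Γ0) ≤ o.Γ0 * (x 2 * ρ) := by
      refine (div_le_self zρ (by linarith)).trans (le_mul_of_one_le_left zρ hΓ)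
    have a2 : x 2 * ρ ≤ x 2 * (2 * m.Dm x) := by gcongr
    have a3 := mul_le_mul_of_nonneg_left a2 (show 0 ≤ o.Γ0 by linarith)
    linarith [h5.2]

theorem F3 : Lg fun o => ∀ c, Sm o c fun m => ∀ x ∈ Hp, o.R0 ≤ ‖x‖ →
    x 2 * m.Dm x / (30 * o.Γ0) ≤ m.f x ∧ m.f x ≤ 30 * o.Γ0 * (x 2 * m.Dm x) := by
  refine (F3_cmp.and F2).mono ?_
  rintro o ho ⟨hcmp, hF2⟩ c
  obtain ⟨c2, hc2, hF2⟩ := hF2 c
  have hR : 0 ≤ o.R0 := mul_nonneg (by linarith [ho.C0.1]) (sq_nonneg _)
  have hΓ : 1 ≤ o.Γ0 := Real.one_le_exp hR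
  have hΓ0 : 0 < o.Γ0 := by linarith
  refine ((((hF2.and (F3_shell ho c)).and (num_kappa o ho c 1 one_pos)).and
    (F3_small o c c one_pos)).and
    (F3_small o c c2 (show 0 < 1 / (400 * o.Γ0) by positivity))).mono ?_
  rintro m hm ⟨⟨⟨⟨⟨-, h1⟩, h2⟩, -, -, k1, k2, hI, -, -, -, k3, -⟩, -, h3⟩, -, h4⟩ x hx hxR
  have k4 : m.κ ≤ 11 / 10 := by linarith [ho.δ.1]
  have hef : ∀ᵐ x, |m.ef x| ≤ c2 * m.l / jb x ^ 2 * m.Dm x := h1.mono fun _ h => h.2
  have hz : 0 ≤ x 2 := hx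
  have D0 : ∀ x, 0 < m.Dm x := fun x => (radb_facts _ _ _ x).1
  have zD : 0 ≤ x 2 * m.Dm x := mul_nonneg hz (D0 x).le
  have hrad : ∀ x, m.Dm x ≤ 3 * radb ((2 - 2 * m.l) / m.κ - 2) m.κ (-1) x ∧
      radb ((2 - 2 * m.l) / m.κ - 2) m.κ (-1) x ≤ m.Dm x ∧
      m.Dm x ≤ radb ((2 - 2 * m.l) / m.κ - 2) m.κ 1 x ∧
      radb ((2 - 2 * m.l) / m.κ - 2) m.κ 1 x ≤ 3 * m.Dm x := fun x => F3_radb _ _ x
  set γ := 1 / o.Γ0 with hγ
  have γ0 : 0 < γ := by positivity
  have γ1 : γ ≤ 1 := by rw [hγ, div_le_one hΓ0]; exact hΓ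
  have e1 : 1 / (400 * o.Γ0) = γ / 400 := by rw [hγ]; field_simp
  rw [e1] at h4
  constructor
  · have h := hcmp c c2 (γ / 12) (-1) m hm (by positivity) (by linarith) (Or.inr rfl) k1 k4 hI h3
      (by linarith) hef (fun y hy y1 y2 => by
        have a1 := (h2 y hy y1 y2).1
        have a2 : y 2 * m.Dm y / (4 * o.Γ0) = γ / 12 * (y 2 * (3 * m.Dm y)) := by
          rw [hγ]; field_simp; ring
        have hy' : 0 ≤ y 2 := hy
        have a3 : γ / 12 * (y 2 * radb ((2 - 2 * m.l) / m.κ - 2) m.κ 1 y) ≤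
            γ / 12 * (y 2 * (3 * m.Dm y)) := by
          gcongr
          exact (hrad y).2.2.2
        rw [neg_neg]
        linarith) x hx hxR
    rw [neg_neg] at h
    have a3 : γ / 12 * (x 2 * m.Dm x) ≤
        γ / 12 * (x 2 * radb ((2 - 2 * m.l) / m.κ - 2) m.κ 1 x) := by
      gcongr
      exact (hrad x).2.2.1
    have a4 := mul_le_mul_of_nonneg_right h4 zD
    have a5 : x 2 * m.Dm x / (30 * o.Γ0) = γ / 30 * (x 2 * m.Dm x) := by
      rw [hγ]; field_simp
    rw [a5]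
    linarith
  · have h := hcmp c c2 (12 * o.Γ0) 1 m hm (by positivity) (by linarith) (Or.inl rfl) k1 k4 hI h3
      (by linarith) hef (fun y hy y1 y2 => by
        have a1 := (h2 y hy y1 y2).2
        have hy' : 0 ≤ y 2 := hy
        have a3 : 4 * o.Γ0 * (y 2 * m.Dm y) ≤
            4 * o.Γ0 * (y 2 * (3 * radb ((2 - 2 * m.l) / m.κ - 2) m.κ (-1) y)) := by
          gcongr
          exact (hrad y).1
        linarith) x hx hxR
    have a3 : 12 * o.Γ0 * (x 2 * radb ((2 - 2 * m.l) / m.κ - 2) m.κ (-1) x) ≤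
        12 * o.Γ0 * (x 2 * m.Dm x) := by
      gcongr
      exact (hrad x).2.1
    have a4 := mul_le_mul_of_nonneg_right (show c2 * m.l ≤ o.Γ0 / 400 by linarith) zD
    have a5 := mul_nonneg hΓ0.le zD
    linarith

end

end Crest.Agent.R335
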