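import Crest.Agent.R335.F0b
import Crest.Agent.R335.S07

set_option autoImplicit false

open MeasureTheory Set Filter Topology Metric
open scoped Gradient ContDiff RealInnerProductSpace ENNReal

namespace Crest.Agent.R335

noncomputable section

theorem F3_small (o : OD) (c K : ℝ) {ε : ℝ} (hε : 0 < ε) :
    Sm o c fun m => K * √m.l ≤ ε ∧ K * m.l ≤ ε := by
  have hK : 0 < |K| + 1 := by positivity
  refine ⟨(ε / (|K| + 1)) ^ 2, by positivity, fun m hm h => ?_⟩
  have h1 : √m.l ≤ ε / (|K| + 1) := Real.sqrt_le_iff.2 ⟨by positivity, h⟩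
  have h2 : m.l ≤ √m.l := by
    rw [Real.le_sqrt hm.l0.1.le hm.l0.1.le]
    nlinarith [hm.l0.1, hm.l0.2]
  rw [le_div_iff₀ hK] at h1
  have h3 := le_abs_self K
  have h4 := Real.sqrt_nonneg m.l
  have h5 := abs_nonneg K
  constructor
  · nlinarith
  · nlinarith [hm.l0.1]

theorem F3_two_le (x : E) : |x 2| ≤ ‖x‖ := by
  have := norm_sq_hor x
  exact abs_le_of_sq_le_sq' (by nlinarith [sq_nonneg ‖hor x‖]) (norm_nonneg _) |> abs_le.2

theorem F3_ez : ez 2 = 1 ∧ ‖ez‖ = 1 := by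
  constructor
  · simp [ez]
  · simp [ez]

theorem F3_v_near {d : ℝ} (hd : 3 ≤ d) {y : E} (hy : |y 2| ≤ 2) : |vx d y| ≤ 2 := by
  have h1 : 1 ≤ ‖y - d • ez‖ := by
    refine le_trans ?_ (F3_two_le _)
    have : (y - d • ez) 2 = y 2 - d := by simp [F3_ez.1]
    rw [this, abs_sub_comm]
    refine le_trans ?_ (le_abs_self _)
    linarith [(abs_le.1 hy).2]
  have h2 : 1 ≤ ‖y + d • ez‖ := by
    refine le_trans ?_ (F3_two_le _)
    have : (y + d • ez) 2 = y 2 + d := by simp [F3_ez.1]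
    rw [this]
    refine le_trans ?_ (le_abs_self _)
    linarith [(abs_le.1 hy).1]
  have a1 : 1 / ‖y - d • ez‖ ≤ 1 := by rw [div_le_one (by linarith)]; exact h1
  have a2 : 1 / ‖y + d • ez‖ ≤ 1 := by rw [div_le_one (by linarith)]; exact h2
  have b1 : 0 ≤ 1 / ‖y - d • ez‖ := by positivity
  have b2 : 0 ≤ 1 / ‖y + d • ez‖ := by positivity
  rw [vx, abs_le]
  constructor <;> linarith

theorem F3_sq4 {s a b c d : ℝ} (h : |s| ≤ a + b + c + d) :
    s ^ 2 ≤ 4 * a ^ 2 + 4 * b ^ 2 + 4 * c ^ 2 + 4 * d ^ 2 := by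
  have h1 : s ^ 2 ≤ (a + b + c + d) ^ 2 := by
    rw [← sq_abs s]
    exact pow_le_pow_left₀ (abs_nonneg _) h 2
  nlinarith [sq_nonneg (a - b), sq_nonneg (a - c), sq_nonneg (a - d), sq_nonneg (b - c),
    sq_nonneg (b - d), sq_nonneg (c - d)]

/-- the difference to the unperturbed orbital is `O(√λ |z|)` -/
theorem F3_lin {o : OD} (ho : o.OK) (c : ℝ) : ∃ K : ℝ, ∀ m : MD, m.OK o c →
    ∀ x, |m.f x - o.u0 x| ≤ K * √m.l * |x 2| := by
  obtain ⟨C, hC, hreg⟩ := YP_reg_loc 1 one_pos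
  set a := 33 + 2 * c with ha
  set M0 := 2 * c + a * c + 2 * c * o.C0 + c ^ 2 with hM0
  set N0 := 1 + (64 * c + 4 * a ^ 2 * c + 28 * c ^ 2) with hN0
  refine ⟨C * (M0 + N0) + c, fun m hm x => ?_⟩
  have hc : 0 ≤ c := (hm.w_bd 0).1.trans (hm.w_bd 0).2.1
  have hC0 : 100 ≤ o.C0 := ho.C0.1
  have hd : 100 ≤ o.d := hC0.trans ho.C0.2.2
  have hl := hm.l0.1
  have hl1 := hm.l0.2
  have hsl : 0 ≤ √m.l := Real.sqrt_nonneg _
  have hsq : √m.l ^ 2 = m.l := Real.sq_sqrt hl.le
  have hls : m.l ≤ √m.l := by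
    rw [Real.le_sqrt hl.le hl.le]
    nlinarith
  have ha0 : 0 ≤ a := by positivity
  have hM : 0 ≤ M0 := by positivity
  have hN : 0 ≤ N0 := by positivity
  set h : E → ℝ := fun y => m.f y - o.u0 y with hh
  have hcont : Continuous h := hm.cf.1.sub ho.cu
  have hb : ∀ y, |h y| ≤ c * √m.l := fun y => (hm.close.1 y).1
  by_cases hz : 1 ≤ |x 2|
  · refine (hb x).trans ?_
    have : 0 ≤ C * (M0 + N0) := by positivity
    calc c * √m.l ≤ (C * (M0 + N0) + c) * √m.l * 1 := by nlinarith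
      _ ≤ _ := by gcongr
  rw [not_le] at hz
  have hsol : Sol h fun y => 1 * (-((o.v y + m.I + m.l * m.w y) * m.f y) + m.ef y) +
      -1 * ((o.eu - o.v y) * o.u0 y) :=
    (hm.sf.lin ho.su 1 (-1)).congr (Eventually.of_forall fun y => by simp only [hh]; ring)
      (Eventually.of_forall fun y => rfl)
  obtain ⟨hS, hYP⟩ := hsol.eq_YP (k := 8) (by norm_num) hcont
  set S : E → ℝ := fun y => (1 * (-((o.v y + m.I + m.l * m.w y) * m.f y) + m.ef y) +
      -1 * ((o.eu - o.v y) * o.u0 y)) + 8 ^ 2 / 2 * h y with hSdef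
  have hI : |m.I| ≤ 1 + c := by
    have h1 := abs_le.1 hm.num.1
    have h2 := ho.en
    have h3 := ho.γ0
    have : c * m.l ≤ c := by nlinarith
    rw [abs_le]
    constructor <;> linarith [h2.1, h2.2.1, h2.2.2]
  have hpt : ∀ᵐ y, |S y| ≤ |o.v y * h y| + a * |h y| + 2 * c * m.l * |o.u0 y| + c * m.l * m.g y := by
    filter_upwards [hm.ef_bd] with y hy
    have e : S y = -(o.v y * h y) + (32 - m.I - m.l * m.w y) * h y +
        (-(m.I + o.eu) - m.l * m.w y) * o.u0 y + m.ef y := by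
      simp only [hSdef, hh]
      ring
    obtain ⟨w0, w1, -⟩ := hm.w_bd y
    have lw0 : 0 ≤ m.l * m.w y := by positivity
    have lw1 : m.l * m.w y ≤ c * m.l := by nlinarith
    have lc : c * m.l ≤ c := by nlinarith
    have b1 : |32 - m.I - m.l * m.w y| ≤ a := by
      rw [abs_le] at hI ⊢
      constructor <;> linarith [hI.1, hI.2]
    have b2 : |-(m.I + o.eu) - m.l * m.w y| ≤ 2 * c * m.l := by
      have := abs_le.1 hm.num.1
      rw [abs_le]
      constructor <;> linarith [this.1, this.2]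
    have b3 : |m.ef y| ≤ c * m.l * m.g y := by
      refine hy.trans ?_
      have g0 := (hm.nn y).2.2.2.1
      have j1 := (jb_facts y).1
      have : c * m.l / jb y ^ 2 ≤ c * m.l := div_le_self (by positivity) (one_le_pow₀ j1)
      gcongr
    rw [e]
    refine (abs_add_le _ _).trans (add_le_add ((abs_add_le _ _).trans (add_le_add
      ((abs_add_le _ _).trans (add_le_add (abs_neg _).le ?_)) ?_)) b3)
    · rw [abs_mul]; gcongr
    · rw [abs_mul]; gcongr
  have hg : ∀ᵐ y, m.g y ≤ m.r y := by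
    filter_upwards [hm.pyth] with y hy
    exact abs_le_of_sq_le_sq' (by nlinarith [hy.2.1, sq_nonneg (m.f y)]) (hm.nn y).1 |>.2
  have hH : H1 h := hsol.h1
  obtain ⟨hv1, hv2⟩ := (vx_facts o.d).2.2 h hH
  have hnd := hm.close.2.2.1
  have hn0 : 0 ≤ nsq h := integral_nonneg fun _ => sq_nonneg _
  have hd0 : 0 ≤ dir h := integral_nonneg fun _ => sq_nonneg _
  have hnsq : nsq S ≤ (N0 * √m.l) ^ 2 := by
    have i1 := hv1.integrable_sq
    have i2 := hH.l2.integrable_sq
    have i3 := ho.su.h1.l2.integrable_sq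
    have i4 := hm.h1.1.l2.integrable_sq
    have j1 : Integrable (fun y => 4 * (vx o.d y * h y) ^ 2 + 4 * a ^ 2 * h y ^ 2) :=
      (i1.const_mul 4).add (i2.const_mul (4 * a ^ 2))
    have j2 : Integrable (fun y => 4 * (vx o.d y * h y) ^ 2 + 4 * a ^ 2 * h y ^ 2 +
        16 * c ^ 2 * m.l ^ 2 * o.u0 y ^ 2) := j1.add (i3.const_mul (16 * c ^ 2 * m.l ^ 2))
    have b1 : nsq S ≤ ∫ y, (4 * (vx o.d y * h y) ^ 2 + 4 * a ^ 2 * h y ^ 2 +
        16 * c ^ 2 * m.l ^ 2 * o.u0 y ^ 2 + 4 * c ^ 2 * m.l ^ 2 * m.r y ^ 2) := by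
      refine integral_mono_of_nonneg (Eventually.of_forall fun y => sq_nonneg _)
        (j2.add (i4.const_mul _)) ?_
      filter_upwards [hpt, hg] with y hy hgy
      have h1 : |S y| ≤ |o.v y * h y| + a * |h y| + 2 * c * m.l * |o.u0 y| + c * m.l * m.r y := by
        refine hy.trans ?_
        gcongr
      refine (F3_sq4 h1).trans_eq ?_
      simp only [mul_pow, sq_abs, OD.v]
      ring
    rw [integral_add j2 (i4.const_mul _), integral_add j1 (i3.const_mul _),
      integral_add (i1.const_mul _) (i2.const_mul _), integral_const_mul, integral_const_mul,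
      integral_const_mul, integral_const_mul] at b1
    have e1 : ∫ y, o.u0 y ^ 2 = 1 := ho.nu
    have e2 : ∫ y, m.r y ^ 2 = 3 := hm.nr
    have e3 : ∫ y, (vx o.d y * h y) ^ 2 ≤ 16 * (c * m.l) := hv2.trans (by linarith)
    have e4 : ∫ y, h y ^ 2 ≤ c * m.l := by
      have : nsq h ≤ c * m.l := by linarith
      exact this
    rw [e1, e2] at b1
    rw [mul_pow, hsq]
    have e5 : 4 * a ^ 2 * ∫ y, h y ^ 2 ≤ 4 * a ^ 2 * (c * m.l) := by gcongr
    have e6 : c ^ 2 * m.l ^ 2 ≤ c ^ 2 * m.l := by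
      have : m.l ^ 2 ≤ m.l := by nlinarith
      gcongr
    have e7 : 64 * c + 4 * a ^ 2 * c + 28 * c ^ 2 ≤ N0 ^ 2 := by
      have : 0 ≤ 64 * c + 4 * a ^ 2 * c + 28 * c ^ 2 := by positivity
      nlinarith
    have e8 := mul_le_mul_of_nonneg_right e7 hl.le
    linarith
  have hx0 : hor x 2 = 0 := by simp [hor, F3_ez.1]
  have hsup : ∀ᵐ y, ‖y - hor x‖ < 2 * 1 → |S y| ≤ M0 * √m.l := by
    filter_upwards [hpt, hg, hm.bd] with y hy hgy hby hyx
    have h1 : |y 2| ≤ 2 := by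
      have := F3_two_le (y - hor x)
      rw [PiLp.sub_apply, hx0, sub_zero] at this
      linarith
    have h2 : |o.v y| ≤ 2 := F3_v_near (by linarith) h1
    have h3 := hb y
    have h4 := (ho.bd y).2
    have h5 : m.g y ≤ c := hgy.trans hby.1
    refine hy.trans ?_
    rw [abs_mul]
    calc |o.v y| * |h y| + a * |h y| + 2 * c * m.l * |o.u0 y| + c * m.l * m.g y
        ≤ 2 * (c * √m.l) + a * (c * √m.l) + 2 * c * √m.l * o.C0 + c * √m.l * c := by
          have := (hm.nn y).2.2.2.1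
          gcongr
      _ = M0 * √m.l := by simp only [hM0]; ring
  obtain ⟨r1, r2⟩ := hreg S (hor x) _ _ hS (by positivity) (by positivity) hnsq hsup
  rw [← hYP] at r1 r2
  have hxm : x ∈ ball (hor x) 1 := by
    rw [mem_ball, dist_eq_norm, hor, sub_sub_cancel, norm_smul, F3_ez.2, mul_one]
    exact hz
  have mv := (convex_ball (hor x) 1).norm_image_sub_le_of_norm_fderiv_le (𝕜 := ℝ) (f := h)
    (C := C * (M0 * √m.l + N0 * √m.l))
    (fun y hy => (r1.differentiableOn (by simp)).differentiableAt (isOpen_ball.mem_nhds hy))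
    (fun y hy => by rw [← s05_norm_grad]; exact r2 y hy) (mem_ball_self one_pos) hxm
  have hR : R (hor x) = hor x := by rw [R, hx0]; simp
  have h00 : h (hor x) = 0 := by
    have e1 := hm.cf.2.2 (hor x)
    have e2 := ho.odu (hor x)
    rw [hR] at e1 e2
    simp only [hh]
    linarith
  rw [h00, sub_zero, hor, sub_sub_cancel, norm_smul, F3_ez.2, mul_one, Real.norm_eq_abs,
    Real.norm_eq_abs] at mv
  refine mv.trans (mul_le_mul_of_nonneg_right ?_ (abs_nonneg _))
  nlinarith [mul_nonneg hc hsl]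

end

end Crest.Agent.R335
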