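import Crest.Agent.R335.F4Aux3

/-! Row 335: global bounds for `f` and its gradient. -/

set_option autoImplicit false

open MeasureTheory Set Filter Topology Metric
open scoped Gradient ContDiff RealInnerProductSpace ENNReal

namespace Crest.Agent.R335.F4a

noncomputable section

theorem mvt {f : E → ℝ} {s : Set E} {M : ℝ} (hs : Convex ℝ s)
    (h : ∀ y ∈ s, DifferentiableAt ℝ f y ∧ ‖∇ f y‖ ≤ M) {y y' : E} (hy : y ∈ s) (hy' : y' ∈ s) :
    |f y - f y'| ≤ M * ‖y - y'‖ :=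
  hs.norm_image_sub_le_of_norm_fderiv_le (𝕜 := ℝ) (fun x hx => (h x hx).1)
    (fun x hx => le_trans (le_of_eq ((InnerProductSpace.toDual ℝ E).symm.norm_map _).symm) (h x hx).2)
    hy' hy

theorem low : Lg fun o => ∀ c, ∃ Γ : ℝ, 1 ≤ Γ ∧ Sm o c fun m =>
    ∀ x ∈ Hp, x 2 * m.Dm x / Γ ≤ m.f x := by
  refine (F3.and F3a).mono fun o ho ⟨h3, h3a⟩ c => ?_
  obtain ⟨cu, hcu, hu⟩ := ho.u_low o.R0
  have hΓ : 0 < o.Γ0 := Real.exp_pos _
  have h4 : 0 < 4 / cu := by positivity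
  refine ⟨1 + 30 * o.Γ0 + 4 / cu, by linarith,
    ((h3 c).and ((h3a c o.R0 (cu / 2) (by positivity)).and (sm_par o ho c))).mono
      fun m _ ⟨a1, a2, hp, _⟩ x hx => ?_⟩
  have hz : 0 ≤ x 2 := hx
  have hD := Dm_pos m x
  rcases le_total o.R0 ‖x‖ with h | h
  · exact (div_le_div_of_nonneg_left (by positivity) (by positivity) (by linarith)).trans (a1 x hx h).1
  · have b1 := (abs_le.1 (a2 x h)).1
    rw [abs_of_nonneg hz] at b1
    have b2 : x 2 * m.Dm x / (1 + 30 * o.Γ0 + 4 / cu) ≤ x 2 * 2 / (4 / cu) :=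
      div_le_div₀ (by positivity) (mul_le_mul_of_nonneg_left (hp.Dm_up x) hz) h4 (by linarith)
    have b3 : x 2 * 2 / (4 / cu) = cu / 2 * x 2 := by field_simp; ring
    linarith [hu x hx h]

theorem hor_add (x : E) : hor x + x 2 • ez = x := sub_add_cancel _ _

theorem plane {d : ℝ} (hd : 100 ≤ d) {x₀ y : E} (h0 : x₀ 2 = 0) (hy : y ∈ ball x₀ 2) :
    |y 2| ≤ 2 ∧ 5 / 2 ≤ ‖y - d • ez‖ ∧ 5 / 2 ≤ ‖y + d • ez‖ := by
  have h1 := abs_two_sub x₀ y
  rw [h0, abs_zero] at h1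
  have h2 : ‖y - x₀‖ < 2 := mem_ball_iff_norm.1 hy
  obtain ⟨-, -, h3, h4⟩ := dist_nuc (show 0 ≤ d by linarith) y
  exact ⟨by linarith, by linarith, by linarith⟩

theorem F5a' : Lg fun o => ∀ c, ∃ Γ : ℝ, 1 ≤ Γ ∧ Sm o c fun m =>
    (∀ x ∈ Hp, x 2 * m.Dm x / Γ ≤ m.f x ∧ m.f x ≤ Γ * (x 2 * m.Dm x)) ∧
    (∀ᵐ x, |x 2| ≤ 1 / Γ → m.Dm x / Γ ≤ D m.f x 2) ∧
    (∀ᵐ x, x ∈ o.away → ‖D m.f x‖ ≤ Γ * ((1 + |x 2|) * m.Dm x)) ∧
    ∀ x₀ ∈ o.away, ∀ y ∈ ball x₀ (1 / 10), ∀ y' ∈ ball x₀ (1 / 10),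
      |m.f y - m.f y'| ≤ Γ * ((1 + |x₀ 2|) * m.Dm x₀) * ‖y - y'‖ := by
  obtain ⟨C, hC, hcmp⟩ := Dm_cmp
  refine (low.and dat).mono fun o ho ⟨hl, hdat⟩ c => ?_
  obtain ⟨Γ1, hΓ1, hl⟩ := hl c
  obtain ⟨A, N, hA, hN, hdat⟩ := hdat c
  have hd : 100 ≤ o.d := ho.C0.1.trans ho.C0.2.2
  have hd0 : 0 ≤ o.d := by linarith
  obtain ⟨K1, k1, H1⟩ := reg1 hd0 hA hN
  obtain ⟨K2, -, H2⟩ := reg2 (d := o.d) hA hN
  obtain ⟨K3, k3, H3⟩ := reg3 hd0 hA hN
  set Cq := C * Real.exp 4 with hCq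
  have hCq1 : 1 ≤ Cq := one_le_mul_of_one_le_of_one_le hC (Real.one_le_exp (by norm_num))
  have cmp : ∀ m : MD, Par m → ∀ x y : E, ‖y - x‖ ≤ 2 → m.Dm y ≤ Cq * m.Dm x := fun m hp x y h =>
    (hcmp m hp x y).trans (mul_le_mul_of_nonneg_right (mul_le_mul_of_nonneg_left
      (Real.exp_le_exp.2 (by linarith)) (by linarith)) (Dm_pos m x).le)
  set H0 := 3 * K1 * Cq + 1 with hH0
  have hH1 : 1 ≤ H0 := by
    have : 0 ≤ 3 * K1 * Cq := by positivity
    linarith
  set σ := 1 / (4 * H0 * Γ1 * Cq) with hσ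
  have hσ0 : 0 < σ := by positivity
  have hσ1 : σ ≤ 1 / 2 := one_div_le_one_div_of_le (by norm_num) (by
    have := one_le_mul_of_one_le_of_one_le (one_le_mul_of_one_le_of_one_le hH1 hΓ1) hCq1
    linarith)
  have hs1 : σ ^ 2 ≤ 1 / 2 := by nlinarith
  set Γ := Γ1 + 2 * A + K1 * Cq + K3 + 2 * Γ1 * Cq ^ 2 + 1 / σ ^ 2 with hΓ
  have g1 : 0 ≤ K1 * Cq := by positivity
  have g2 : 0 < 2 * Γ1 * Cq ^ 2 := by positivity
  have g3 : 0 < 1 / σ ^ 2 := by positivity
  refine ⟨Γ, by linarith, (hl.and hdat).mono fun m hm ⟨lo, fb, S, hS⟩ => ?_⟩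
  have hp := hS.par
  have hodd := hm.cf.2.2
  have hU : IsOpen {x : E | 1 / 25 < ‖x - o.d • ez‖ ∧ 1 / 25 < ‖x + o.d • ez‖} :=
    (isOpen_lt continuous_const (show Continuous fun x : E => ‖x - o.d • ez‖ by fun_prop)).inter
      (isOpen_lt continuous_const (show Continuous fun x : E => ‖x + o.d • ez‖ by fun_prop))
  have hD := D_eq_grad_on hm.sf.h1.hl hU fun x hx =>
    (H2 m S hS x hx.1.le hx.2.le).1.contDiffWithinAt
  have hpl : ∀ x₀ : E, x₀ 2 = 0 → ∀ y ∈ ball x₀ 2, ContDiffAt ℝ 1 m.f y := fun x₀ h0 y hy =>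
    (H2 m S hS y (by linarith [(plane hd h0 hy).2.1]) (by linarith [(plane hd h0 hy).2.2])).1
  have hx0 : ∀ x : E, ‖x - hor x‖ = |x 2| := fun x => by
    rw [show x - hor x = x 2 • ez from sub_sub_cancel _ _, F0d.norm_smul_ez]
  refine ⟨fun x hx => ⟨?_, ?_⟩, ?_, ?_, fun x₀ hx y hy y' hy' => ?_⟩
  · have hz : 0 ≤ x 2 := hx
    have := Dm_pos m x
    exact (div_le_div_of_nonneg_left (by positivity) (by linarith) (by linarith)).trans (lo x hx)
  · have hz : 0 ≤ x 2 := hx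
    have hDx := Dm_pos m x
    have hP : 0 ≤ x 2 * m.Dm x := by positivity
    rcases le_or_gt 1 (x 2) with h | h
    · have b1 := (le_abs_self _).trans (fb x)
      rw [abs_of_nonneg hz] at b1
      have b2 : A * ((1 + x 2) * m.Dm x) ≤ A * (2 * (x 2 * m.Dm x)) :=
        mul_le_mul_of_nonneg_left (by nlinarith) hA
      have b3 := mul_le_mul_of_nonneg_right (show 2 * A ≤ Γ by linarith) hP
      linarith
    · have h0 := F0d.hor_two x
      obtain ⟨-, p1, p2⟩ := plane hd h0 (mem_ball_self two_pos)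
      have b1 := mvt (convex_ball (hor x) 1) (fun y hy =>
        ⟨(hpl _ h0 y (ball_subset_ball (by norm_num) hy)).differentiableAt one_ne_zero,
          (H1 m S hS _ p1 p2 y hy).1⟩) (y := x) (y' := hor x)
        (mem_ball_iff_norm.2 (by rwa [hx0, abs_of_nonneg hz])) (mem_ball_self one_pos)
      have b2 : m.f (hor x) = 0 := by
        have := hodd (hor x)
        rw [F0d.R_of_two h0] at this
        linarith
      rw [b2, sub_zero, h0, abs_zero, add_zero, one_mul, hx0, abs_of_nonneg hz] at b1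
      have b3 := cmp m hp x (hor x) (by rw [norm_sub_rev, hx0, abs_of_nonneg hz]; linarith)
      have b4 := mul_le_mul_of_nonneg_right (mul_le_mul_of_nonneg_left b3 k1) hz
      have b5 := mul_le_mul_of_nonneg_right (show K1 * Cq ≤ Γ by linarith) hP
      linarith [le_abs_self (m.f x)]
  · filter_upwards [hD] with x hx hz
    have hz1 : |x 2| ≤ σ ^ 2 := hz.trans ((one_div_le (by linarith) (by positivity)).2 (by linarith))
    have h0 := F0d.hor_two x
    have hxb : x ∈ ball (hor x) 2 := mem_ball_iff_norm.2 (by rw [hx0]; linarith)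
    obtain ⟨-, p1, p2⟩ := plane hd h0 hxb
    rw [hx ⟨by linarith, by linarith⟩]
    have hD0 := Dm_pos m (hor x)
    have key := (odd_holder (H := H0 * m.Dm (hor x)) h0
      (fun y hy => (hpl _ h0 y hy).contDiffWithinAt) hodd (fun y hy y' hy' hyy => by
        have hmid : midpoint ℝ y y' ∈ ball (hor x) 2 := (convex_ball _ _).midpoint_mem hy hy'
        obtain ⟨q0, q1, q2⟩ := plane hd h0 hmid
        have r1 : y ∈ ball (midpoint ℝ y y') 1 := by
          rw [mem_ball, dist_left_midpoint, dist_eq_norm]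
          simp only [Real.norm_ofNat]
          linarith [norm_nonneg (y - y')]
        have r2 : y' ∈ ball (midpoint ℝ y y') 1 := by
          rw [mem_ball, dist_right_midpoint, dist_eq_norm]
          simp only [Real.norm_ofNat]
          linarith [norm_nonneg (y - y')]
        refine ((H1 m S hS _ q1 q2 y r1).2 y' r2).trans
          (mul_le_mul_of_nonneg_right ?_ (Real.sqrt_nonneg _))
        have r3 := cmp m hp (hor x) _ (mem_ball_iff_norm.1 hmid).le
        have r4 := mul_le_mul (show 1 + |midpoint ℝ y y' 2| ≤ 3 by linarith) r3 (Dm_pos m _).le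
          (by norm_num)
        have r5 := mul_le_mul_of_nonneg_left r4 k1
        rw [hH0]
        linarith) (s := σ ^ 2) (by positivity) hs1 (z := x 2) (by linarith)).2 hz1
    rw [hor_add, Real.sqrt_sq hσ0.le] at key
    have e2 : (hor x + σ ^ 2 • ez) 2 = σ ^ 2 := by
      simp only [PiLp.add_apply, PiLp.smul_apply, h0, S07.ez_two, smul_eq_mul, mul_one, zero_add]
    have b1 := lo (hor x + σ ^ 2 • ez) (show 0 ≤ (hor x + σ ^ 2 • ez) 2 by rw [e2]; positivity)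
    rw [e2] at b1
    have b2 := cmp m hp (hor x + σ ^ 2 • ez) (hor x) (by
      rw [norm_sub_rev, add_sub_cancel_left, F0d.norm_smul_ez, abs_of_nonneg (sq_nonneg σ)]
      linarith)
    have b3 : m.Dm (hor x) / (Γ1 * Cq) ≤ m.f (hor x + σ ^ 2 • ez) / σ ^ 2 := by
      rw [le_div_iff₀ (by positivity)]
      refine le_trans ?_ b1
      calc m.Dm (hor x) / (Γ1 * Cq) * σ ^ 2
          ≤ Cq * m.Dm (hor x + σ ^ 2 • ez) / (Γ1 * Cq) * σ ^ 2 := by gcongr
        _ = _ := by field_simp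
    have b4 : 2 * (H0 * m.Dm (hor x)) * σ = m.Dm (hor x) / (Γ1 * Cq) / 2 := by
      rw [hσ]
      field_simp
      ring
    have b5 := cmp m hp (hor x) x (by rw [hx0]; linarith)
    have b6 : m.Dm x / Γ ≤ m.Dm (hor x) / (Γ1 * Cq) / 2 := by
      calc m.Dm x / Γ ≤ Cq * m.Dm (hor x) / (2 * Γ1 * Cq ^ 2) :=
            div_le_div₀ (by positivity) b5 g2 (by linarith)
        _ = _ := by field_simp
    linarith [(abs_le.1 key).1]
  · filter_upwards [hD] with x hx hx'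
    rw [hx ⟨by linarith [hx'.1], by linarith [hx'.2]⟩]
    have := Dm_pos m x
    exact (H3 m S hS x hx' x (mem_ball_self (by norm_num))).2.trans
      (mul_le_mul_of_nonneg_right (by linarith) (by positivity))
  · have := Dm_pos m x₀
    exact (mvt (convex_ball _ _) (H3 m S hS x₀ hx) hy hy').trans (mul_le_mul_of_nonneg_right
      (mul_le_mul_of_nonneg_right (by linarith) (by positivity)) (norm_nonneg _))

end

end Crest.Agent.R335.F4a
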