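import Crest.Agent.R335.F3
import Crest.Agent.R335.F4Aux4

set_option autoImplicit false

open MeasureTheory Set Filter Topology Metric
open scoped Gradient ContDiff RealInnerProductSpace ENNReal

namespace Crest.Agent.R335

noncomputable section

theorem F4 : Lg fun o => ∀ c, ∃ c4 : ℝ, 1 ≤ c4 ∧ Sm o c fun m => ∀ᵐ x, m.g x ≤ c4 * m.mg x := by
  exact F4a.F4'
theorem F5a : Lg fun o => ∀ c, ∃ Γ : ℝ, 1 ≤ Γ ∧ Sm o c fun m =>
    (∀ x ∈ Hp, x 2 * m.Dm x / Γ ≤ m.f x ∧ m.f x ≤ Γ * (x 2 * m.Dm x)) ∧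
    (∀ᵐ x, |x 2| ≤ 1 / Γ → m.Dm x / Γ ≤ D m.f x 2) ∧
    (∀ᵐ x, x ∈ o.away → ‖D m.f x‖ ≤ Γ * ((1 + |x 2|) * m.Dm x)) ∧
    ∀ x₀ ∈ o.away, ∀ y ∈ ball x₀ (1 / 10), ∀ y' ∈ ball x₀ (1 / 10),
      |m.f y - m.f y'| ≤ Γ * ((1 + |x₀ 2|) * m.Dm x₀) * ‖y - y'‖ := by
  exact F4a.F5a'
theorem F5b : Lg fun o => ∀ c, ∃ c5 : ℝ, 1 ≤ c5 ∧ Sm o c fun m =>
    (∀ᵐ x, x ∈ o.away → ‖D m.G x‖ ≤ c5 * m.mg x ∧ ‖D m.n x‖ ≤ c5 * m.mg x ∧
      ‖D m.g x‖ ≤ c5 * m.mg x) ∧ ∀ᵐ x, |x 2| ≤ 1 → m.n x ≤ c5 * (|x 2| * m.mg x) := by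
  have cover : ∀ (S : Set E) (P : E → Prop) (r : ℝ), 0 < r →
      (∀ x₀ ∈ S, ∀ᵐ y, y ∈ ball x₀ r → P y) → ∀ᵐ y, y ∈ S → P y := by
    intro S P r hr h
    refine measure_null_of_locally_null _ fun x hx => ?_
    have hx' : x ∈ S := by
      by_contra h'
      exact hx fun h'' => absurd h'' h'
    refine ⟨{y | ¬ (y ∈ ball x r → P y)}, ?_, h x hx'⟩
    filter_upwards [self_mem_nhdsWithin, nhdsWithin_le_nhds (ball_mem_nhds x hr)] with y hy hb hh
    exact hy fun _ => hh hb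
  have two : ∀ x : E, |x 2| ≤ ‖x‖ := fun x => by
    have := PiLp.norm_apply_le x 2
    rwa [Real.norm_eq_abs] at this
  obtain ⟨B, hB, cmp⟩ : ∃ B : ℝ, 1 ≤ B ∧ ∀ m : MD, 0 < m.l → m.l ≤ 1 → 99 / 100 ≤ m.κ →
      m.κ ≤ m.κh → m.κh ≤ 11 / 10 → ∀ x y, ‖y - x‖ ≤ 4 → m.mg y ≤ B * m.mg x ∧
        (1 + |y 2|) * m.Dm y ≤ B * ((1 + |x 2|) * m.Dm x) := by
    obtain ⟨C, hC, hcmp⟩ := rad_cmp 3
    have hT : 0 < C * Real.exp 8 := by positivity
    have hr : ∀ a k : ℝ, |a| ≤ 3 → 0 ≤ k → k ≤ 11 / 10 → ∀ x y : E, ‖y - x‖ ≤ 4 →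
        rad a k y ≤ C * Real.exp 8 * rad a k x := fun a k ha hk hk' x y hxy => by
      refine (hcmp a k ha hk x y).trans (mul_le_mul_of_nonneg_right (mul_le_mul_of_nonneg_left
        (Real.exp_le_exp.2 ?_) hC.le) (radb_facts a k 0 x).1.le)
      exact (mul_le_mul (show k + 1 / 4 ≤ 2 by linarith) hxy (norm_nonneg _) zero_le_two).trans
        (by norm_num)
    generalize C * Real.exp 8 = T at hT hr
    refine ⟨125 * T + 1, by linarith, fun m l0 l1 k1 k2 k3 x y hxy => ?_⟩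
    have k0 : 0 < m.κ := by linarith
    have k0' : 0 < m.κh := by linarith
    have a1 : m.mh y ≤ T * m.mh x := by
      refine hr _ _ (abs_le.2 ⟨?_, ?_⟩) k0'.le k3 x y hxy
      · have : 0 ≤ 2 / m.κh := by positivity
        linarith
      · have : 2 / m.κh ≤ 4 := by rw [div_le_iff₀ k0']; linarith
        linarith
    have a2 : m.Dm y ≤ T * m.Dm x := by
      refine hr _ _ (abs_le.2 ⟨?_, ?_⟩) k0.le (k2.trans k3) x y hxy
      · have : 0 ≤ (2 - 2 * m.l) / m.κ := div_nonneg (by linarith) k0.le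
        linarith
      · have : (2 - 2 * m.l) / m.κ ≤ 4 := by rw [div_le_iff₀ k0]; linarith
        linarith
    have p1 : 0 < m.mh x := (radb_facts _ _ 0 x).1
    have p2 : 0 < m.Dm x := (radb_facts _ _ 0 x).1
    have p3 : 0 < m.Dm y := (radb_facts _ _ 0 y).1
    have z1 : 1 + |y 2| ≤ 5 * (1 + |x 2|) := by
      have h1 := two (y - x)
      rw [PiLp.sub_apply] at h1
      have h2 := abs_sub_abs_le_abs_sub (y 2) (x 2)
      have h3 := abs_nonneg (x 2)
      linarith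
    have jx := (jb_facts x).1
    have jy := (jb_facts y).1
    have z2 : jb x ≤ 5 * jb y := by
      have h1 := (abs_le.1 ((jb_facts y).2.2.2.2.2.2 x)).1
      linarith
    have z0 : 0 < 1 + |x 2| := by positivity
    have a3 : (1 + |y 2|) * m.Dm y ≤ 5 * T * ((1 + |x 2|) * m.Dm x) :=
      (mul_le_mul z1 a2 p3.le (by positivity)).trans (le_of_eq (by ring))
    have q0 : 0 < (1 + |x 2|) * m.Dm x := by positivity
    have q1 := mul_pos hT q0
    refine ⟨?_, by linarith⟩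
    have z3 : 1 / jb y ^ 2 ≤ 25 * (1 / jb x ^ 2) := by
      rw [mul_one_div, div_le_div_iff₀ (by positivity) (by positivity)]
      nlinarith
    have a4 : m.l * (1 / jb y ^ 2 * ((1 + |y 2|) * m.Dm y)) ≤
        m.l * (25 * (1 / jb x ^ 2) * (5 * T * ((1 + |x 2|) * m.Dm x))) :=
      mul_le_mul_of_nonneg_left (mul_le_mul z3 a3 (by positivity) (by positivity)) l0.le
    have e1 : ∀ w : E, m.mg w = m.mh w + m.l * (1 / jb w ^ 2 * ((1 + |w 2|) * m.Dm w)) :=
      fun w => by rw [MD.mg]; ring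
    have q2 : 0 ≤ m.l * (1 / jb x ^ 2 * ((1 + |x 2|) * m.Dm x)) := by positivity
    have q3 := mul_pos hT p1
    rw [e1, e1]
    linarith
  refine (F4.and F5a).mono fun o ho h c => ?_
  obtain ⟨c4, h4, s4⟩ := h.1 c
  obtain ⟨Γ, hΓ, s5⟩ := h.2 c
  have hK : 1 ≤ (c4 + Γ) * B := one_le_mul_of_one_le_of_one_le (by linarith) hB
  have hc5 : 1 ≤ (|c| + 1) * ((c4 + Γ) * B) * B := one_le_mul_of_one_le_of_one_le
    (one_le_mul_of_one_le_of_one_le (by linarith [abs_nonneg c]) hK) hB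
  have hBB : 1 ≤ B * B := one_le_mul_of_one_le_of_one_le hB hB
  refine ⟨(|c| + 1) * ((c4 + Γ) * B) * B * (B * B), one_le_mul_of_one_le_of_one_le hc5 hBB,
    ((s4.and s5).and (num_kappa o ho c 1 one_pos)).mono fun m hm h => ?_⟩
  obtain ⟨⟨g4, f1, -, -, f4⟩, -, -, k1, k3, -, -, -, -, k2, -⟩ := h
  obtain ⟨l0, l1⟩ := hm.l0
  have cm := cmp m l0 l1 k1 (by linarith [ho.δ.1]) k3
  have pD : ∀ x, 0 < m.Dm x := fun x => (radb_facts _ _ 0 x).1
  have pj : ∀ x, 0 < jb x := fun x => by linarith [(jb_facts x).1]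
  have pl : ∀ x, m.l * ((1 + |x 2|) * m.Dm x) ≤ m.mg x * jb x ^ 2 := fun x => by
    have h1 : 0 < m.mh x := (radb_facts _ _ 0 x).1
    have h2 := pj x
    have e : m.mg x * jb x ^ 2 = m.mh x * jb x ^ 2 + m.l * ((1 + |x 2|) * m.Dm x) := by
      rw [MD.mg]; field_simp
    have h3 : 0 < m.mh x * jb x ^ 2 := by positivity
    linarith
  have pg : ∀ x, 0 < m.mg x := fun x => by
    have h1 : 0 < m.mh x := (radb_facts _ _ 0 x).1
    have h2 := pj x
    have h3 := pD x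
    rw [MD.mg]
    positivity
  have fa : ∀ y, |m.f y| ≤ Γ * ((1 + |y 2|) * m.Dm y) := by
    have h0 : ∀ y ∈ Hp, |m.f y| ≤ Γ * ((1 + |y 2|) * m.Dm y) := fun y hy => by
      obtain ⟨h1, h2⟩ := f1 y hy
      have h3 : 0 ≤ y 2 := hy
      have h5 := pD y
      have h6 : 0 ≤ y 2 * m.Dm y / Γ := by positivity
      rw [abs_of_nonneg (h6.trans h1), abs_of_nonneg h3]
      refine h2.trans (mul_le_mul_of_nonneg_left ?_ (by linarith))
      linarith
    intro y
    rcases le_total 0 (y 2) with h | h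
    · exact h0 y h
    · have h1 := h0 (R y) (show 0 ≤ R y 2 by rw [R_two]; linarith)
      have h2 : m.Dm (R y) = m.Dm y := (radb_facts _ _ 0 y).2.1
      rwa [hm.cf.2.2, abs_neg, R_two, abs_neg, h2] at h1
  have P1 : ∀ᵐ x, x ∈ o.away → ‖D m.G x‖ ≤ (|c| + 1) * ((c4 + Γ) * B) * B * m.mg x ∧
      ‖D m.n x‖ ≤ (|c| + 1) * ((c4 + Γ) * B) * B * m.mg x ∧
      ‖D m.g x‖ ≤ (|c| + 1) * ((c4 + Γ) * B) * B * m.mg x := by
    refine cover _ _ (1 / 100) (by norm_num) fun x₀ hx₀ => ?_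
    have p0 := pg x₀
    have q1 : 0 ≤ Γ * B * m.mg x₀ := by positivity
    have q2 : 0 ≤ c4 * B * (m.mg x₀ * jb x₀ ^ 2) := by positivity
    have q3 := mul_le_mul_of_nonneg_left (pl x₀) (show 0 ≤ Γ * B by positivity)
    have nb : ∀ y, ∀ r : ℝ, r ≤ 4 → y ∈ ball x₀ r → ‖y - x₀‖ ≤ 4 := fun y r hr hy => by
      rw [mem_ball, dist_eq_norm] at hy
      linarith
    have h1 := hm.lip x₀ ((c4 + Γ) * B * m.mg x₀) (by linarith [hx₀.1]) (by linarith [hx₀.2])
      (by positivity) ?_ fun y hy => ⟨?_, fun y' hy' => ?_⟩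
    · filter_upwards [h1] with y hy hb
      have h2 := (cm y x₀ (by rw [norm_sub_rev]; exact nb y _ (by norm_num) hb)).1
      have h3 : c * ((c4 + Γ) * B * m.mg x₀) ≤ (|c| + 1) * ((c4 + Γ) * B) * B * m.mg y := by
        calc c * ((c4 + Γ) * B * m.mg x₀) ≤ (|c| + 1) * ((c4 + Γ) * B * (B * m.mg y)) :=
              mul_le_mul (by linarith [le_abs_self c]) (mul_le_mul_of_nonneg_left h2 (by linarith))
                (by positivity) (by positivity)
          _ = _ := by ring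
      exact ⟨(hy hb).1.trans h3, (hy hb).2.1.trans h3, (hy hb).2.2.trans h3⟩
    · filter_upwards [g4] with y hy hb
      have h2 := mul_le_mul_of_nonneg_left (cm x₀ y (nb y _ (by norm_num) hb)).1
        (show 0 ≤ c4 by linarith)
      linarith
    · have h2 := mul_le_mul_of_nonneg_left (cm x₀ y (nb y _ (by norm_num) hy)).2
        (show 0 ≤ Γ by linarith)
      have h3 := mul_le_mul_of_nonneg_left ((fa y).trans h2) l0.le
      linarith
    · have h2 := mul_le_mul_of_nonneg_left (f4 x₀ hx₀ y hy y' hy') l0.le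
      have h5 := pD x₀
      have h3 : m.l * (Γ * ((1 + |x₀ 2|) * m.Dm x₀)) ≤ (c4 + Γ) * B * m.mg x₀ * jb x₀ ^ 2 := by
        have h6 := mul_le_mul_of_nonneg_left hB
          (show 0 ≤ Γ * (m.l * ((1 + |x₀ 2|) * m.Dm x₀)) by positivity)
        linarith
      have h4 := mul_le_mul_of_nonneg_right h3 (norm_nonneg (y - y'))
      linarith
  generalize (|c| + 1) * ((c4 + Γ) * B) * B = c5 at hc5 P1 ⊢
  refine ⟨?_, ?_⟩
  · filter_upwards [P1] with x hx ha
    have h1 : c5 * m.mg x ≤ c5 * (B * B) * m.mg x :=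
      mul_le_mul_of_nonneg_right (le_mul_of_one_le_right (by linarith) hBB) (pg x).le
    exact ⟨(hx ha).1.trans h1, (hx ha).2.1.trans h1, (hx ha).2.2.trans h1⟩
  have D1 : ∀ᵐ x : E, x ∈ {x : E | 0 < x 2} → D (Hp.indicator m.n) x = D m.n x :=
    D_eqOn hm.nh.hl hm.h1.2.2.1.hl (isOpen_lt continuous_const S07.cont_two)
      (ae_of_all _ fun x hx => indicator_of_mem (show x ∈ Hp from
        (show 0 ≤ x 2 from le_of_lt (show 0 < x 2 from hx))) _)
  have Z0 : ∀ x : E, x 2 < 0 → Hp.indicator m.n x = 0 := fun x hx =>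
    indicator_of_notMem (show x ∉ Hp from not_le.2 hx) _
  have D2 : ∀ᵐ x : E, x ∈ {x : E | x 2 < 0} → D (Hp.indicator m.n) x = D (fun _ : E => (0 : ℝ)) x :=
    D_eqOn hm.nh.hl (bl_c1 contDiff_const).hl (isOpen_lt S07.cont_two continuous_const)
      (ae_of_all _ Z0)
  have d100 : 100 ≤ o.d := ho.C0.1.trans ho.C0.2.2
  have P2 : ∀ᵐ x, x ∈ {x : E | |x 2| ≤ 1} →
      |Hp.indicator m.n x| ≤ c5 * (B * B) * (|x 2| * m.mg x) := by
    refine cover _ _ 1 one_pos fun y₀ hy₀ => ?_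
    have h0 : hor y₀ 2 = 0 := by simp [hor, ez]
    have h1 := half_lip (p := Hp.indicator m.n) (M := c5 * (B * m.mg (hor y₀))) (a := 2) h0
      hm.nh.hl (ae_of_all _ Z0) ?_
    · filter_upwards [h1] with x hx hb
      have h2 : ‖x - hor y₀‖ < 2 := by
        have e : x - hor y₀ = (x - y₀) + (y₀ 2) • ez := by rw [hor]; abel
        have h3 := norm_add_le (x - y₀) ((y₀ 2) • ez)
        rw [norm_smul, S07.norm_ez, mul_one, Real.norm_eq_abs, ← e] at h3
        rw [mem_ball, dist_eq_norm] at hb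
        have h4 : |y₀ 2| ≤ 1 := hy₀
        linarith
      have h3 := (cm x (hor y₀) (by rw [norm_sub_rev]; linarith)).1
      refine (hx (by rwa [mem_ball, dist_eq_norm])).trans ?_
      have h4 := mul_le_mul_of_nonneg_left h3 (show 0 ≤ c5 * B * |x 2| by positivity)
      linarith
    · filter_upwards [P1, D1, D2, D_const (V := E) 0, ae_two_ne] with x hx h1 h2 h3 h4 hb
      rw [mem_ball, dist_eq_norm] at hb
      rcases h4.lt_or_gt with h5 | h5
      · rw [h2 h5, h3, norm_zero]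
        have := pg (hor y₀)
        positivity
      · have h6 := two (x - hor y₀)
        rw [PiLp.sub_apply, h0, sub_zero] at h6
        have h7 := two (x - o.d • ez)
        have h8 := two (x + o.d • ez)
        have e : (o.d • ez) 2 = o.d := by simp [ez]
        rw [PiLp.sub_apply, e] at h7
        rw [PiLp.add_apply, e] at h8
        have ha : x ∈ o.away := ⟨by linarith [(abs_le.1 h7).1, (abs_le.1 h6).2],
          by linarith [(abs_le.1 h8).2]⟩
        rw [h1 h5]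
        exact (hx ha).2.1.trans (mul_le_mul_of_nonneg_left (cm (hor y₀) x (by linarith)).1
          (by linarith))
  filter_upwards [P2, mp_R.quasiMeasurePreserving.ae P2, hm.ev.2.2.1] with x h1 h2 h3 hx
  rcases le_total 0 (x 2) with h | h
  · have h4 := h1 hx
    rw [indicator_of_mem (show x ∈ Hp from h)] at h4
    exact (le_abs_self _).trans h4
  · have h4 := h2 (show |R x 2| ≤ 1 by rwa [R_two, abs_neg])
    have e : m.mg (R x) = m.mg x := by
      have e1 : m.Dm (R x) = m.Dm x := (radb_facts _ _ 0 x).2.1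
      have e2 : m.mh (R x) = m.mh x := (radb_facts _ _ 0 x).2.1
      rw [MD.mg, MD.mg, e1, e2, R_two, abs_neg, (jb_facts x).2.2.2.1]
    rw [indicator_of_mem (show R x ∈ Hp from by
      show 0 ≤ R x 2
      rw [R_two]; linarith), h3, e, R_two, abs_neg] at h4
    exact (le_abs_self _).trans h4

end

end Crest.Agent.R335
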