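import Crest.Agent.R335.F3

/-! Row 335: elementary bounds for the model functions, and the barrier for `g`. -/

set_option autoImplicit false

open MeasureTheory Set Filter Topology Metric
open scoped Gradient ContDiff RealInnerProductSpace ENNReal

namespace Crest.Agent.R335.F4a

noncomputable section

theorem rad_eq (a k : ℝ) (x : E) : rad a k x = jb x ^ a * Real.exp (-(k * jb x)) := by
  simp only [rad, radb, zero_div, add_zero]

theorem rad_low {a k : ℝ} (ha : -2 ≤ a) (hk : k ≤ 2) (x : E) :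
    Real.exp (-(4 * (‖x‖ + 1))) ≤ rad a k x := by
  obtain ⟨h1, -, h2, -⟩ := jb_facts x
  rw [rad_eq]
  have h3 : Real.exp (-(2 * jb x)) ≤ jb x ^ a := by
    refine le_trans ?_ (Real.rpow_le_rpow_of_exponent_le h1 ha)
    rw [Real.rpow_def_of_pos (by linarith)]
    refine Real.exp_le_exp.2 ?_
    linarith [Real.log_le_sub_one_of_pos (show 0 < jb x by linarith)]
  have h4 : Real.exp (-(2 * jb x)) ≤ Real.exp (-(k * jb x)) :=
    Real.exp_le_exp.2 (by nlinarith)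
  calc Real.exp (-(4 * (‖x‖ + 1))) ≤ Real.exp (-(2 * jb x) + -(2 * jb x)) :=
        Real.exp_le_exp.2 (by linarith)
    _ = _ := Real.exp_add _ _
    _ ≤ _ := mul_le_mul h3 h4 (Real.exp_pos _).le (by positivity)

theorem rad_up {a k : ℝ} (ha : a ≤ 1) (hk : 1 / 2 ≤ k) (x : E) : rad a k x ≤ 2 := by
  obtain ⟨h1, -⟩ := jb_facts x
  rw [rad_eq]
  have h3 : jb x ^ a ≤ jb x := by
    simpa using Real.rpow_le_rpow_of_exponent_le h1 ha
  have h4 : jb x ≤ 2 * Real.exp (k * jb x) := by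
    nlinarith [Real.add_one_le_exp (k * jb x)]
  rw [Real.exp_neg, ← div_eq_mul_inv, div_le_iff₀ (Real.exp_pos _)]
  linarith

/-- parameter ranges -/
structure Par (m : MD) : Prop where
  l0 : 0 < m.l
  l1 : m.l ≤ 1
  k0 : 99 / 100 ≤ m.κ
  k1 : m.κ ≤ m.κh
  k2 : m.κh ≤ 11 / 10
  I : m.κ ^ 2 / 2 = m.I
  Ih : m.κh ^ 2 / 2 = m.I + m.dt

theorem sm_par (o : OD) (ho : o.OK) (c : ℝ) : Sm o c fun m => Par m ∧ o.δ0 / 2 ≤ m.dt :=
  (num_kappa o ho c 1 one_pos).mono fun m hm ⟨_, _, h1, h2, h3, h4, h5, _, h6, _⟩ =>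
    ⟨⟨hm.l0.1, hm.l0.2, h1, by linarith [ho.δ.1], h2, h3, h4⟩, h5⟩

theorem Par.a {m : MD} (h : Par m) :
    -2 ≤ (2 - 2 * m.l) / m.κ - 2 ∧ (2 - 2 * m.l) / m.κ - 2 ≤ 1 := by
  have h0 : 0 < m.κ := by linarith [h.k0]
  have h1 : 0 ≤ (2 - 2 * m.l) / m.κ := div_nonneg (by linarith [h.l1]) h0.le
  have h2 : (2 - 2 * m.l) / m.κ ≤ 3 := by
    rw [div_le_iff₀ h0]; linarith [h.l0, h.k0]
  constructor <;> linarith

theorem Dm_pos (m : MD) (x : E) : 0 < m.Dm x := (radb_facts _ _ _ x).1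

theorem mh_pos (m : MD) (x : E) : 0 < m.mh x := (radb_facts _ _ _ x).1

theorem Par.Dm_low {m : MD} (h : Par m) (x : E) : Real.exp (-(4 * (‖x‖ + 1))) ≤ m.Dm x :=
  rad_low h.a.1 (by linarith [h.k1, h.k2]) x

theorem Par.Dm_up {m : MD} (h : Par m) (x : E) : m.Dm x ≤ 2 :=
  rad_up h.a.2 (by linarith [h.k0]) x

theorem Par.mh_low {m : MD} (h : Par m) (x : E) : Real.exp (-(4 * (‖x‖ + 1))) ≤ m.mh x := by
  have h0 : 0 < m.κh := by linarith [h.k0, h.k1]
  have : 0 ≤ 2 / m.κh := by positivity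
  exact rad_low (by linarith) (by linarith [h.k2]) x

theorem Dm_cmp : ∃ C : ℝ, 1 ≤ C ∧ ∀ m : MD, Par m → ∀ x y,
    m.Dm y ≤ C * Real.exp (2 * ‖y - x‖) * m.Dm x := by
  obtain ⟨C, hC, H⟩ := rad_cmp 2
  refine ⟨max C 1, le_max_right _ _, fun m h x y => ?_⟩
  refine (H _ m.κ (abs_le.2 ⟨h.a.1, by linarith [h.a.2]⟩) (by linarith [h.k0]) x y).trans ?_
  refine mul_le_mul_of_nonneg_right (mul_le_mul (le_max_left _ _) (Real.exp_le_exp.2 ?_)
    (Real.exp_pos _).le (by positivity)) (Dm_pos m x).le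
  exact mul_le_mul_of_nonneg_right (by linarith [h.k1, h.k2]) (norm_nonneg _)

/-- `|f| ≤ A |z| Dm` from the bound on the half space -/
theorem abs_f_le {m : MD} (ho : ∀ x, m.f (R x) = -m.f x) {A ρ : ℝ}
    (h : ∀ x ∈ Hp, ρ ≤ ‖x‖ → 0 ≤ m.f x ∧ m.f x ≤ A * (x 2 * m.Dm x)) (x : E) (hx : ρ ≤ ‖x‖) :
    |m.f x| ≤ A * (|x 2| * m.Dm x) := by
  rcases le_total 0 (x 2) with hz | hz
  · obtain ⟨h1, h2⟩ := h x hz hx
    rwa [abs_of_nonneg h1, abs_of_nonneg hz]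
  · obtain ⟨h1, h2⟩ := h (R x) (show 0 ≤ R x 2 by rw [R_two]; linarith) (by rwa [norm_R])
    have e : m.Dm (R x) = m.Dm x := (radb_facts _ _ _ x).2.1
    rw [ho] at h1 h2
    rw [R_two, e] at h2
    rwa [abs_of_nonpos (by linarith), abs_of_nonpos hz]

theorem F3' : Lg fun o => ∀ c, Sm o c fun m => ∀ x, o.R0 ≤ ‖x‖ →
    |m.f x| ≤ 30 * o.Γ0 * (|x 2| * m.Dm x) :=
  F3.mono fun o _ h c => (h c).mono fun m hm H => abs_f_le hm.cf.2.2 fun x hx hx' => by
    obtain ⟨h1, h2⟩ := H x hx hx'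
    have hz : 0 ≤ x 2 := hx
    have := Dm_pos m x
    have hΓ : 0 < o.Γ0 := Real.exp_pos _
    exact ⟨le_trans (by positivity) h1, h2⟩

/-- the profile `√(B + z²)` -/
theorem prof {B : ℝ} (hB : 0 < B) : ContDiff ℝ 2 (fun z : ℝ => √(B + z ^ 2)) ∧ ∀ z : ℝ,
    deriv (fun z : ℝ => √(B + z ^ 2)) z = z / √(B + z ^ 2) ∧
    deriv (deriv fun z : ℝ => √(B + z ^ 2)) z ≤ √(B + z ^ 2) / B := by
  have hd : ∀ z : ℝ, HasDerivAt (fun z : ℝ => √(B + z ^ 2)) (z / √(B + z ^ 2)) z := by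
    intro z
    have h1 : HasDerivAt (fun z : ℝ => B + z ^ 2) (2 * z) z := by
      simpa using (hasDerivAt_pow 2 z).const_add B
    have h2 := h1.sqrt (by positivity)
    have hp : 0 < √(B + z ^ 2) := by positivity
    convert h2 using 1
    field_simp
  have e : deriv (fun z : ℝ => √(B + z ^ 2)) = fun z => z / √(B + z ^ 2) :=
    funext fun z => (hd z).deriv
  refine ⟨(contDiff_const.add (contDiff_id.pow 2)).sqrt fun z => by positivity,
    fun z => ⟨(hd z).deriv, ?_⟩⟩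
  have hp : 0 < √(B + z ^ 2) := by positivity
  have hs : √(B + z ^ 2) ^ 2 = B + z ^ 2 := Real.sq_sqrt (by positivity)
  have h3 : HasDerivAt (fun z : ℝ => z / √(B + z ^ 2)) _ z := (hasDerivAt_id z).div (hd z) hp.ne'
  rw [e, h3.deriv]
  set P := √(B + z ^ 2)
  have h4 : (1 * P - id z * (z / P)) / P ^ 2 ≤ 1 / P := by
    rw [div_le_div_iff₀ (by positivity) hp]
    have : 0 ≤ id z * (z / P) := by
      rw [id, ← mul_div_assoc]
      exact div_nonneg (mul_self_nonneg z) hp.le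
    nlinarith
  refine h4.trans ?_
  rw [div_le_div_iff₀ hp hB]
  nlinarith [sq_nonneg z]

/-- the particular barrier -/
theorem bar2 : ∃ C : ℝ, 0 < C ∧ ∀ (a k B U : ℝ) (x : E), -4 ≤ a → a ≤ 0 → 0 ≤ k → k ≤ 2 → 0 < B →
    √(B + x 2 ^ 2) * rad a k x * (U - k ^ 2 / 2 - C / jb x - 1 / (2 * B)) ≤
      -(1 / 2) * lap (fun x : E => √(B + x 2 ^ 2) * rad a k x) x + U * (√(B + x 2 ^ 2) * rad a k x) := by
  obtain ⟨C, hC, H⟩ := lap_radb 4
  refine ⟨C + 6, by linarith, fun a k B U x h1 h2 h3 h4 hB => ?_⟩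
  obtain ⟨p1, p2⟩ := prof hB
  obtain ⟨p2, p3⟩ := p2 (x 2)
  have hW : ContDiff ℝ 2 (rad a k) := contDiff_infty.1 (radb_smooth a k 0) 2
  obtain ⟨w1, -, w2, -⟩ := radb_facts a k 0 x
  have h5 := (abs_le.1 (H a k 0 (abs_le.2 ⟨h1, by linarith⟩) (abs_le.2 ⟨by linarith, by linarith⟩)
    (by norm_num) x)).1
  obtain ⟨t1, -⟩ := jb_facts x
  have t0 : 0 < jb x := by linarith
  rw [lap_mul_z (P := fun z => √(B + z ^ 2)) hW p1, p2]
  have w3 : ∇ (rad a k) x 2 = rad a k x * ell a k 0 x / jb x * x 2 := by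
    show ∇ (radb a k 0) x 2 = _
    rw [w2]
    rfl
  have hell : ell a k 0 x ≤ 0 := by
    unfold ell
    have : a / jb x ≤ 0 := div_nonpos_of_nonpos_of_nonneg h2 t0.le
    rw [zero_div]
    linarith
  rw [w3]
  change 0 < rad a k x at w1
  change -(C / jb x ^ 2 * rad a k x) ≤ -(1 / 2) * lap (rad a k) x - rad a k x * _ at h5
  have hp : 0 < √(B + x 2 ^ 2) := by positivity
  set P := √(B + x 2 ^ 2)
  set W := rad a k x
  set t := jb x
  have c1 : x 2 / P * (W * ell a k 0 x / t * x 2) ≤ 0 := by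
    have : x 2 / P * (W * ell a k 0 x / t * x 2) = ell a k 0 x * (W * x 2 ^ 2 / (P * t)) := by
      field_simp
    rw [this]
    exact mul_nonpos_of_nonpos_of_nonneg hell (by positivity)
  have c2 := mul_le_mul_of_nonneg_right p3 w1.le
  have c3 : C / t ^ 2 ≤ C / t := div_le_div_of_nonneg_left hC.le t0 (by nlinarith)
  have c4 : -(6 / t) ≤ k * (a + 1) / t := by
    rw [← neg_div]
    exact div_le_div_of_nonneg_right (by nlinarith) t0.le
  have c5 : W * (-(k ^ 2 / 2) - (C + 6) / t) ≤ -(1 / 2) * lap (rad a k) x := by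
    rw [mul_zero, zero_div, sub_zero] at h5
    have := mul_le_mul_of_nonneg_left (add_le_add c4 (neg_le_neg c3)) w1.le
    have e : (C + 6) / t = C / t + 6 / t := add_div _ _ _
    rw [e]
    nlinarith
  have c6 := mul_le_mul_of_nonneg_left c5 hp.le
  have e : P * W * (1 / (2 * B)) = 1 / 2 * (P / B * W) := by field_simp
  nlinarith

end

end Crest.Agent.R335.F4a
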