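import Crest.Agent.R335.F4Aux1

/-! Row 335: the bound for `g`. -/

set_option autoImplicit false

open MeasureTheory Set Filter Topology Metric
open scoped Gradient ContDiff RealInnerProductSpace ENNReal

namespace Crest.Agent.R335.F4a

noncomputable section

theorem g_le {o : OD} {c : ℝ} {m : MD} (hm : m.OK o c) : ∀ᵐ x, m.g x ≤ m.r x ∧ |m.f x| ≤ m.r x := by
  filter_upwards [hm.pyth] with x hx
  obtain ⟨h1, -⟩ := hm.nn x
  exact ⟨(le_abs_self _).trans (abs_le_of_sq_le_sq (by nlinarith [hx.2.1, sq_nonneg (m.f x)]) h1),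
    abs_le_of_sq_le_sq (by nlinarith [hx.2.1, sq_nonneg (m.g x)]) h1⟩

theorem F4' : Lg fun o => ∀ c, ∃ c4 : ℝ, 1 ≤ c4 ∧ Sm o c fun m => ∀ᵐ x, m.g x ≤ c4 * m.mg x := by
  obtain ⟨C, hC, hbar⟩ := bar2
  obtain ⟨Cv, hCv, hv⟩ := vx_far
  refine (F3'.and hom_bar).mono fun o ho ⟨h3, hh⟩ c => ?_
  have hδ := ho.δ.1
  have hd : 100 ≤ o.d := ho.C0.1.trans ho.C0.2.2
  have hΓ : 0 < o.Γ0 := Real.exp_pos _
  have hR : 2 * o.d ≤ o.R0 := by
    unfold OD.R0
    nlinarith [ho.C0.1]
  set K := C + 2 + Cv * o.d ^ 2 with hK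
  have hK0 : 0 < K := by positivity
  set ρ := max o.R0 (8 * K / o.δ0) with hρ
  have hρ1 : o.R0 ≤ ρ := le_max_left _ _
  have hρ0 : 0 ≤ ρ := by linarith
  set B := 8 / o.δ0 with hB
  have hB0 : 0 < B := by positivity
  set A1 := |c| * Real.exp (4 * (ρ + 2)) * Real.exp 1 with hA1
  set A2 := 120 * o.Γ0 * |c| / o.δ0 with hA2
  have hA1' : 0 ≤ A1 := by positivity
  have hA2' : 0 ≤ A2 := by positivity
  refine ⟨1 + A1 * Real.exp 1 + A2 * (√B + 1), by
    have : 0 ≤ A1 * Real.exp 1 + A2 * (√B + 1) := by positivity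
    linarith, ((h3 c).and (sm_par o ho c)).mono fun m hm ⟨hf, hp, hdt⟩ => ?_⟩
  set a := (2 - 2 * m.l) / m.κ - 2 with ha
  have hl := hp.l0
  set q1 := radb (2 / m.κh - 1) m.κh (-1) with hq1
  set q2 : E → ℝ := fun x => √(B + x 2 ^ 2) * rad (a + -2) m.κ x with hq2
  have s1 : ContDiff ℝ 2 q1 := contDiff_infty.1 (radb_smooth _ _ _) 2
  have s2 : ContDiff ℝ 2 q2 :=
    ((prof hB0).1.comp F0a_z_smooth).mul (contDiff_infty.1 (radb_smooth _ _ _) 2)
  have q1p : ∀ x, 0 < q1 x := fun x => (radb_facts _ _ _ x).1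
  have Wp : ∀ x, 0 < rad (a + -2) m.κ x := fun x => (radb_facts _ _ _ x).1
  have q2p : ∀ x, 0 ≤ q2 x := fun x => mul_nonneg (Real.sqrt_nonneg _) (Wp x).le
  have We : ∀ x, rad (a + -2) m.κ x = m.Dm x / jb x ^ 2 := by
    intro x
    have t0 : 0 < jb x := by linarith [(jb_facts x).1]
    have := (radb_facts a m.κ 0 x).2.2.2.2.2 (-2)
    refine this.trans ?_
    rw [Real.rpow_neg t0.le, Real.rpow_two, div_eq_inv_mul]
    rfl
  have gc : ∀ᵐ x, m.g x ≤ |c| := by
    filter_upwards [g_le hm, hm.bd] with x h1 h2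
    linarith [h1.1, h2.1, le_abs_self c]
  have core : ∀ x, ‖x‖ ≤ ρ + 1 → |c| ≤ A1 * q1 x := by
    intro x hx
    have h1 := (radb_facts (2 / m.κh - 1) m.κh (-1) x).2.2.2.1
    rw [abs_neg, abs_one] at h1
    have h2 : Real.exp (-(4 * (ρ + 2))) ≤ m.mh x :=
      (Real.exp_le_exp.2 (by linarith)).trans (hp.mh_low x)
    have h4 : Real.exp (-1) * Real.exp (-(4 * (ρ + 2))) ≤ q1 x :=
      (mul_le_mul_of_nonneg_left h2 (Real.exp_pos _).le).trans h1
    refine le_trans (le_of_eq ?_) (mul_le_mul_of_nonneg_left h4 hA1')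
    rw [hA1, Real.exp_neg, Real.exp_neg]
    field_simp
  have hk0 := hp.k0
  have hk1 := hp.k1
  have hk2 := hp.k2
  have far := far_le (p := m.g) (S := fun x => c * m.l / jb x ^ 2 * |m.f x|)
    (U := fun x => o.v x + m.I + m.dt) (q := fun x => A1 * q1 x + A2 * m.l * q2 x) (ρ := ρ)
    (c0 := 1 / 4) (c1 := 1) (by norm_num) hρ0
    (hm.sg.mono (subset_univ _) (fun K hK _ => hm.sg.li K hK (subset_univ _))
      (ae_of_all _ fun _ _ => le_rfl))
    (fun K _ => ⟨|c|, gc.mono fun x hx _ => by rwa [abs_of_nonneg (hm.nn x).2.2.2.1]⟩)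
    ((contDiff_const.mul s1).add (contDiff_const.mul s2))
    (((vx_facts o.d).1.add_const _).add_const _).aestronglyMeasurable
    (ae_of_all _ fun x hx => by
      have hx' : ρ < ‖x‖ := hx
      have h1 := (hh m.κh (by linarith) hk2 x (by linarith)).2.2.2
      have h2 : o.v x ≤ 0 := ((vx_facts o.d).2.1 x).1
      have h4 := hp.Ih
      constructor <;> nlinarith)
    (ae_of_all _ fun x hx => by
      have hx' : ρ < ‖x‖ := hx
      obtain ⟨t1, t2, -⟩ := jb_facts x
      have t0 : 0 < jb x := by linarith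
      have h1 := (hh m.κh (by linarith) hk2 x (by linarith)).1
      have h1' : 0 ≤ -(1 / 2) * lap q1 x + (o.v x + m.I + m.dt) * q1 x := by
        rw [add_assoc, ← hp.Ih]
        exact le_trans (by have := q1p x; positivity) h1
      have h2 := hbar (a + -2) m.κ B (o.v x + m.I + m.dt) x (by linarith [hp.a.1])
        (by linarith [hp.a.2]) (by linarith) (by linarith) hB0
      have h4 := (abs_le.1 (hv o.d x (by linarith) (by linarith))).1
      have h5 : Cv * o.d ^ 2 / jb x ^ 3 ≤ Cv * o.d ^ 2 / jb x :=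
        div_le_div_of_nonneg_left (by positivity) t0 (le_self_pow₀ t1 (by norm_num))
      have h6 : K / jb x ≤ o.δ0 / 8 := by
        have h7 : 8 * K / o.δ0 ≤ jb x := by linarith [le_max_right o.R0 (8 * K / o.δ0)]
        rw [div_le_iff₀ hδ] at h7
        rw [div_le_iff₀ t0]
        linarith
      have h7 : K / jb x = C / jb x + 2 / jb x + Cv * o.d ^ 2 / jb x := by
        rw [hK, add_div, add_div]
      have h8 : 1 / (2 * B) = o.δ0 / 16 := by rw [hB]; field_simp; norm_num
      have h9 : o.δ0 / 4 ≤ o.v x + m.I + m.dt - m.κ ^ 2 / 2 - C / jb x - 1 / (2 * B) := by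
        have : o.v x = vx o.d x := rfl
        linarith [hp.I]
      have h10 : q2 x * (o.δ0 / 4) ≤ -(1 / 2) * lap q2 x + (o.v x + m.I + m.dt) * q2 x :=
        (mul_le_mul_of_nonneg_left h9 (q2p x)).trans h2
      have h11 : c * m.l / jb x ^ 2 * |m.f x| ≤ A2 * m.l * (q2 x * (o.δ0 / 4)) := by
        have b1 : |x 2| ≤ √(B + x 2 ^ 2) := Real.abs_le_sqrt (by linarith)
        have b2 := Dm_pos m x
        calc c * m.l / jb x ^ 2 * |m.f x|
            ≤ |c| * m.l / jb x ^ 2 * (30 * o.Γ0 * (√(B + x 2 ^ 2) * m.Dm x)) := by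
              refine mul_le_mul ?_ ((hf x (by linarith)).trans ?_) (abs_nonneg _) (by positivity)
              · gcongr
                exact le_abs_self c
              · gcongr
          _ = _ := by
              simp only [hq2, We, hA2]
              field_simp
              ring
      rw [lap_lin s1 s2]
      have h12 := mul_nonneg hA1' h1'
      have h13 := mul_le_mul_of_nonneg_left h10 (mul_nonneg hA2' hl.le)
      nlinarith)
    (by
      refine hm.h1.2.2.2.1.l2.of_le ?_ (ae_of_all _ fun x => ?_)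
      · exact (hm.h1.2.2.2.1.l2.1.sub
          ((contDiff_const.mul s1).add (contDiff_const.mul s2)).continuous.aestronglyMeasurable).sup
          aestronglyMeasurable_const
      · have h1 := (hm.nn x).2.2.2.1
        have h2 : 0 ≤ A1 * q1 x + A2 * m.l * q2 x := by
          have := q1p x
          have := q2p x
          positivity
        rw [Real.norm_of_nonneg (le_max_right _ _), Real.norm_of_nonneg h1]
        exact max_le (by linarith) h1)
    (by
      filter_upwards [gc] with x h1 _ h2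
      have h4 : 0 ≤ A2 * m.l * q2 x := by
        have := q2p x
        positivity
      linarith [core x h2.le])
  filter_upwards [far, gc] with x h1 h2
  have h4 : m.g x ≤ A1 * q1 x + A2 * m.l * q2 x := by
    rcases le_or_gt ‖x‖ ρ with h | h
    · have h4 : 0 ≤ A2 * m.l * q2 x := by
        have := q2p x
        positivity
      linarith [core x (by linarith)]
    · exact h1 h
  have h5 := (radb_facts (2 / m.κh - 1) m.κh (-1) x).2.2.2.2.1
  rw [abs_neg, abs_one] at h5
  have h5' : A1 * q1 x ≤ A1 * Real.exp 1 * m.mh x := by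
    rw [mul_assoc A1]
    exact mul_le_mul_of_nonneg_left h5 hA1'
  have t0 : 0 < jb x := by linarith [(jb_facts x).1]
  have b2 := Dm_pos m x
  have b3 := mh_pos m x
  have b4 : 0 ≤ m.l * (1 + |x 2|) / jb x ^ 2 * m.Dm x := by positivity
  have h6 : A2 * m.l * q2 x ≤ A2 * (√B + 1) * (m.l * (1 + |x 2|) / jb x ^ 2 * m.Dm x) := by
    have b1 : √(B + x 2 ^ 2) ≤ (√B + 1) * (1 + |x 2|) := by
      have b5 : √(B + x 2 ^ 2) ≤ √B + |x 2| := by
        refine Real.sqrt_le_iff.2 ⟨by positivity, ?_⟩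
        nlinarith [Real.sq_sqrt hB0.le, sq_abs (x 2), mul_nonneg (Real.sqrt_nonneg B) (abs_nonneg (x 2))]
      nlinarith [mul_nonneg (Real.sqrt_nonneg B) (abs_nonneg (x 2))]
    calc A2 * m.l * q2 x = A2 * m.l * (√(B + x 2 ^ 2) * (m.Dm x / jb x ^ 2)) := by
          simp only [hq2, We]
      _ ≤ A2 * m.l * ((√B + 1) * (1 + |x 2|) * (m.Dm x / jb x ^ 2)) := by gcongr
      _ = _ := by ring
  have h7 : 0 ≤ A1 * Real.exp 1 := by positivity
  have h8 : 0 ≤ A2 * (√B + 1) := by positivity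
  unfold MD.mg
  nlinarith [mul_nonneg h7 b4, mul_nonneg h8 b3.le]

end

end Crest.Agent.R335.F4a
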