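import Crest.Agent.R335.F4Aux2

/-! Row 335: gradient bounds for `f` from the Yukawa representation. -/

set_option autoImplicit false

open MeasureTheory Set Filter Topology Metric
open scoped Gradient ContDiff RealInnerProductSpace ENNReal

namespace Crest.Agent.R335.F4a

noncomputable section

theorem abs_two (x : E) : |x 2| ≤ ‖x‖ := by
  simpa using PiLp.norm_apply_le x 2

theorem abs_two_sub (x y : E) : |y 2| ≤ |x 2| + ‖y - x‖ := by
  have h := abs_two (y - x)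
  rw [PiLp.sub_apply] at h
  linarith [abs_sub_abs_le_abs_sub (y 2) (x 2)]

theorem vx_bd {d t : ℝ} {x : E} (ht : 0 < t) (h1 : t ≤ ‖x - d • ez‖) (h2 : t ≤ ‖x + d • ez‖) :
    |vx d x| ≤ 2 * (1 / t) := by
  have a1 := one_div_le_one_div_of_le ht h1
  have a2 := one_div_le_one_div_of_le ht h2
  have a3 : 0 ≤ 1 / ‖x - d • ez‖ := by positivity
  have a4 : 0 ≤ 1 / ‖x + d • ez‖ := by positivity
  unfold vx
  rw [abs_le]
  constructor <;> linarith

theorem dist_mv (c x y : E) : ‖x - c‖ - ‖y - x‖ ≤ ‖y - c‖ ∧ ‖x + c‖ - ‖y - x‖ ≤ ‖y + c‖ := by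
  have h1 := norm_sub_le (y - c) (y - x)
  have h2 := norm_sub_le (y + c) (y - x)
  rw [show y - c - (y - x) = x - c by abel] at h1
  rw [show y + c - (y - x) = x + c by abel] at h2
  constructor <;> linarith

theorem dist_nuc {d : ℝ} (hd : 0 ≤ d) (x : E) : ‖x‖ - d ≤ ‖x - d • ez‖ ∧ ‖x‖ - d ≤ ‖x + d • ez‖ ∧
    d - |x 2| ≤ ‖x - d • ez‖ ∧ d - |x 2| ≤ ‖x + d • ez‖ := by
  have e : ‖d • ez‖ = d := by rw [F0d.norm_smul_ez, abs_of_nonneg hd]
  have h1 := norm_add_le (x - d • ez) (d • ez)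
  have h2 := norm_sub_le (x + d • ez) (d • ez)
  rw [sub_add_cancel, e] at h1
  rw [add_sub_cancel_right, e] at h2
  have h3 := abs_two (x - d • ez)
  have h4 := abs_two (x + d • ez)
  simp only [PiLp.sub_apply, PiLp.add_apply, PiLp.smul_apply, S07.ez_two, smul_eq_mul, mul_one]
    at h3 h4
  refine ⟨by linarith, by linarith, ?_, ?_⟩
  · linarith [neg_abs_le (x 2 - d), le_abs_self (x 2)]
  · linarith [le_abs_self (x 2 + d), neg_abs_le (x 2)]

/-- the data of the Yukawa representation of `f` -/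
structure Dat (d A N : ℝ) (m : MD) (S : E → ℝ) : Prop where
  par : Par m
  l2 : MemLp S 2 volume
  rep : m.f = YP 8 S
  nsq : nsq S ≤ N ^ 2
  bd : ∀ᵐ y, ∀ t, 0 < t → t ≤ ‖y - d • ez‖ → t ≤ ‖y + d • ez‖ →
    |S y| ≤ A * (1 + 1 / t) * ((1 + |y 2|) * m.Dm y)

theorem reg1 {d A N : ℝ} (hd : 0 ≤ d) (hA : 0 ≤ A) (hN : 0 ≤ N) : ∃ K : ℝ, 0 ≤ K ∧
    ∀ m S, Dat d A N m S → ∀ x₀ : E, 5 / 2 ≤ ‖x₀ - d • ez‖ → 5 / 2 ≤ ‖x₀ + d • ez‖ →
      ∀ x ∈ ball x₀ 1, ‖∇ m.f x‖ ≤ K * ((1 + |x₀ 2|) * m.Dm x₀) ∧ ∀ x' ∈ ball x₀ 1,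
        ‖∇ m.f x - ∇ m.f x'‖ ≤ K * ((1 + |x₀ 2|) * m.Dm x₀) * √‖x - x'‖ := by
  obtain ⟨C, hC, H⟩ := YP_reg
  obtain ⟨C', hC', H'⟩ := Dm_cmp
  refine ⟨C * (3 * A * C' + Real.exp (6 + 4 * d) * N), by positivity,
    fun m S h x₀ h1 h2 x hx => ?_⟩
  have hD := Dm_pos m x₀
  set d' := min ‖x₀ - d • ez‖ ‖x₀ + d • ez‖ - 1 / 2 with hd'
  have m1 := min_le_left ‖x₀ - d • ez‖ ‖x₀ + d • ez‖
  have m2 := min_le_right ‖x₀ - d • ez‖ ‖x₀ + d • ez‖
  have key := (H S x₀ (3 * A * C' * ((1 + |x₀ 2|) * m.Dm x₀)) N d' h.l2 (by positivity) hN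
    (by linarith [le_min h1 h2]) h.nsq (by
      filter_upwards [h.bd] with y hy hyx
      obtain ⟨a1, a2⟩ := dist_mv (d • ez) x₀ y
      refine (hy (1 / 2) (by norm_num) (by linarith) (by linarith)).trans ?_
      have b1 : 1 + |y 2| ≤ (1 + |x₀ 2|) * Real.exp (2 * ‖y - x₀‖) := by
        have := Real.add_one_le_exp (2 * ‖y - x₀‖)
        have b2 := abs_two_sub x₀ y
        nlinarith [abs_nonneg (x₀ 2), norm_nonneg (y - x₀)]
      have b3 := mul_le_mul b1 (H' m h.par x₀ y) (Dm_pos m y).le (by positivity)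
      have e : Real.exp (4 * ‖y - x₀‖) = Real.exp (2 * ‖y - x₀‖) * Real.exp (2 * ‖y - x₀‖) := by
        rw [← Real.exp_add]; ring_nf
      rw [e]
      calc _ = 3 * A * ((1 + |y 2|) * m.Dm y) := by ring
        _ ≤ 3 * A * _ := mul_le_mul_of_nonneg_left b3 (by positivity)
        _ = _ := by ring)).2 x hx
  rw [← h.rep] at key
  have b : C * (3 * A * C' * ((1 + |x₀ 2|) * m.Dm x₀) + Real.exp (-(4 * d')) * N) ≤
      C * (3 * A * C' + Real.exp (6 + 4 * d) * N) * ((1 + |x₀ 2|) * m.Dm x₀) := by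
    obtain ⟨n1, n2, -⟩ := dist_nuc hd x₀
    have b1 : Real.exp (-(4 * d')) ≤ Real.exp (6 + 4 * d) * ((1 + |x₀ 2|) * m.Dm x₀) := by
      calc Real.exp (-(4 * d')) ≤ Real.exp (6 + 4 * d + -(4 * (‖x₀‖ + 1))) :=
            Real.exp_le_exp.2 (by linarith [le_min n1 n2])
        _ = _ := Real.exp_add _ _
        _ ≤ _ := mul_le_mul_of_nonneg_left ((h.par.Dm_low x₀).trans
            (le_mul_of_one_le_left hD.le (by linarith [abs_nonneg (x₀ 2)]))) (Real.exp_pos _).le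
    have b2 := mul_le_mul_of_nonneg_right b1 hN
    rw [mul_assoc C]
    exact mul_le_mul_of_nonneg_left (by linarith) hC.le
  exact ⟨key.2.1.trans b, fun x' hx' => (key.2.2 x' hx').trans
    (mul_le_mul_of_nonneg_right b (Real.sqrt_nonneg _))⟩

theorem reg2 {d A N : ℝ} (hA : 0 ≤ A) (hN : 0 ≤ N) : ∃ K : ℝ, 0 ≤ K ∧
    ∀ m S, Dat d A N m S → ∀ x₀ : E, 1 / 25 ≤ ‖x₀ - d • ez‖ → 1 / 25 ≤ ‖x₀ + d • ez‖ →
      ContDiffAt ℝ 1 m.f x₀ ∧ ‖∇ m.f x₀‖ ≤ K * (2 + ‖x₀‖) := by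
  obtain ⟨C, hC, H⟩ := YP_reg_loc (1 / 100) (by norm_num)
  refine ⟨C * (102 * A + N), by positivity, fun m S h x₀ h1 h2 => ?_⟩
  have key := H S x₀ (102 * A * (2 + ‖x₀‖)) N h.l2 (by positivity) hN h.nsq (by
    filter_upwards [h.bd] with y hy hyx
    obtain ⟨a1, a2⟩ := dist_mv (d • ez) x₀ y
    refine (hy (1 / 50) (by norm_num) (by linarith) (by linarith)).trans ?_
    have b1 : 1 + |y 2| ≤ 2 + ‖x₀‖ := by linarith [abs_two_sub x₀ y, abs_two x₀]
    have b2 := mul_le_mul b1 (h.par.Dm_up y) (Dm_pos m y).le (by positivity)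
    calc _ = 51 * A * ((1 + |y 2|) * m.Dm y) := by ring
      _ ≤ 51 * A * _ := mul_le_mul_of_nonneg_left b2 (by positivity)
      _ = _ := by ring)
  rw [← h.rep] at key
  refine ⟨key.1.contDiffAt (ball_mem_nhds _ (by norm_num)),
    (key.2 x₀ (mem_ball_self (by norm_num))).trans ?_⟩
  rw [mul_assoc C]
  exact mul_le_mul_of_nonneg_left (by nlinarith [norm_nonneg x₀]) hC.le

theorem reg3 {o : OD} {A N : ℝ} (hd : 0 ≤ o.d) (hA : 0 ≤ A) (hN : 0 ≤ N) : ∃ K : ℝ, 0 ≤ K ∧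
    ∀ m S, Dat o.d A N m S → ∀ x₀ ∈ o.away, ∀ y ∈ ball x₀ (1 / 10),
      DifferentiableAt ℝ m.f y ∧ ‖∇ m.f y‖ ≤ K * ((1 + |x₀ 2|) * m.Dm x₀) := by
  obtain ⟨K1, k1, H1⟩ := reg1 hd hA hN
  obtain ⟨K2, k2, H2⟩ := reg2 (d := o.d) hA hN
  refine ⟨K1 + K2 * (5 + o.d) * Real.exp (4 * (o.d + 4)), by positivity,
    fun m S h x₀ hx y hy => ?_⟩
  have hy' : ‖y - x₀‖ < 1 / 10 := mem_ball_iff_norm.1 hy
  obtain ⟨a1, a2⟩ := dist_mv (o.d • ez) x₀ y
  obtain ⟨b1, b2⟩ := H2 m S h y (by linarith [hx.1]) (by linarith [hx.2])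
  have hD := Dm_pos m x₀
  have hP : 0 ≤ (1 + |x₀ 2|) * m.Dm x₀ := by positivity
  refine ⟨b1.differentiableAt one_ne_zero, ?_⟩
  by_cases hc : 5 / 2 ≤ ‖x₀ - o.d • ez‖ ∧ 5 / 2 ≤ ‖x₀ + o.d • ez‖
  · refine (H1 m S h x₀ hc.1 hc.2 y (ball_subset_ball (by norm_num) hy)).1.trans ?_
    exact mul_le_mul_of_nonneg_right (le_add_of_nonneg_right (by positivity)) hP
  · obtain ⟨n1, n2, -⟩ := dist_nuc hd x₀
    have c1 : ‖x₀‖ ≤ o.d + 5 / 2 := by
      rcases not_and_or.1 hc with c | c <;> linarith [not_le.1 c]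
    have c2 : ‖y‖ ≤ o.d + 3 := by linarith [norm_le_insert' y x₀]
    have c3 : 1 ≤ Real.exp (4 * (o.d + 4)) * ((1 + |x₀ 2|) * m.Dm x₀) := by
      calc (1 : ℝ) ≤ Real.exp (4 * (o.d + 4) + -(4 * (‖x₀‖ + 1))) := Real.one_le_exp (by linarith)
        _ = _ := Real.exp_add _ _
        _ ≤ _ := mul_le_mul_of_nonneg_left ((h.par.Dm_low x₀).trans
            (le_mul_of_one_le_left hD.le (by linarith [abs_nonneg (x₀ 2)]))) (Real.exp_pos _).le
    have c4 : K2 * (2 + ‖y‖) ≤ K2 * (5 + o.d) := mul_le_mul_of_nonneg_left (by linarith) k2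
    have c5 := mul_le_mul_of_nonneg_left c3 (show 0 ≤ K2 * (5 + o.d) by positivity)
    nlinarith [mul_nonneg k1 hP]

theorem dir_le {u w : E → ℝ} (hu : H1 u) (hw : H1 w) :
    dir u ≤ 2 * dir (fun x => u x - w x) + 2 * dir w := by
  have i1 := (hu.sub hw).dl2.norm.integrable_sq
  have i2 := hw.dl2.norm.integrable_sq
  unfold dir
  rw [← integral_const_mul, ← integral_const_mul, ← integral_add (i1.const_mul 2) (i2.const_mul 2)]
  refine integral_mono_ae hu.dl2.norm.integrable_sq ((i1.const_mul 2).add (i2.const_mul 2)) ?_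
  filter_upwards [D_sub hu.hl hw.hl] with x hx
  rw [hx]
  have h1 := norm_add_le (D u x - D w x) (D w x)
  rw [sub_add_cancel] at h1
  nlinarith [norm_nonneg (D u x), sq_nonneg (‖D u x - D w x‖ - ‖D w x‖)]

theorem dat : Lg fun o => ∀ c, ∃ A N : ℝ, 0 ≤ A ∧ 0 ≤ N ∧ Sm o c fun m =>
    (∀ y, |m.f y| ≤ A * ((1 + |y 2|) * m.Dm y)) ∧ ∃ S, Dat o.d A N m S := by
  refine (F3'.and F2).mono fun o ho ⟨h3, h2⟩ c => ?_
  obtain ⟨c2, hc2, h2⟩ := h2 c
  have hΓ : 0 < o.Γ0 := Real.exp_pos _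
  have hC0 : 0 ≤ o.C0 := by linarith [ho.C0.1]
  set Γ := 30 * o.Γ0 + (o.C0 + |c|) * Real.exp (4 * (o.R0 + 1)) with hΓ'
  have hΓ0 : 0 ≤ Γ := by positivity
  set K := 33 + |c| with hK
  have hK0 : 33 ≤ K := by linarith [abs_nonneg c]
  have hu0 : 0 ≤ dir o.u0 := integral_nonneg fun _ => sq_nonneg _
  refine ⟨K * Γ + c2, √(9 * (K ^ 2 + c ^ 2) + 48 * (2 * |c| + 2 * dir o.u0)), by positivity,
    Real.sqrt_nonneg _, ((h3 c).and (h2.and (sm_par o ho c))).mono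
      fun m hm ⟨hf, ⟨_, he⟩, hp, _⟩ => ?_⟩
  have hl := hp.l0
  have hl1 := hp.l1
  have fb : ∀ y, |m.f y| ≤ Γ * ((1 + |y 2|) * m.Dm y) := by
    intro y
    have hD := Dm_pos m y
    have h0 := abs_nonneg (y 2)
    have h1 : 0 ≤ (o.C0 + |c|) * Real.exp (4 * (o.R0 + 1)) := by positivity
    rcases le_total o.R0 ‖y‖ with h | h
    · refine (hf y h).trans (mul_le_mul (by linarith) (by nlinarith) (by positivity) hΓ0)
    · have a1 : |m.f y| ≤ o.C0 + |c| := by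
        have a2 := (hm.close.1 y).1
        have a3 : c * √m.l ≤ |c| :=
          (mul_le_mul_of_nonneg_right (le_abs_self c) (Real.sqrt_nonneg _)).trans
            (mul_le_of_le_one_right (abs_nonneg c) (Real.sqrt_le_one.2 hl1))
        linarith [(ho.bd y).2, abs_sub_abs_le_abs_sub (m.f y) (o.u0 y)]
      have a2 : 1 ≤ Real.exp (4 * (o.R0 + 1)) * ((1 + |y 2|) * m.Dm y) := by
        calc (1 : ℝ) ≤ Real.exp (4 * (o.R0 + 1) + -(4 * (‖y‖ + 1))) := Real.one_le_exp (by linarith)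
          _ = _ := Real.exp_add _ _
          _ ≤ _ := mul_le_mul_of_nonneg_left ((hp.Dm_low y).trans
              (le_mul_of_one_le_left hD.le (by linarith))) (Real.exp_pos _).le
      have a3 := mul_le_mul_of_nonneg_left a2 (show 0 ≤ o.C0 + |c| by positivity)
      have a4 : 0 ≤ 30 * o.Γ0 * ((1 + |y 2|) * m.Dm y) := by positivity
      rw [hΓ']
      linarith
  obtain ⟨s1, s2⟩ := hm.sf.eq_YP (k := 8) (by norm_num) hm.cf.1
  have hI : 0 ≤ m.I ∧ m.I ≤ 1 := by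
    have := hp.I
    constructor <;> nlinarith [hp.k0, hp.k1, hp.k2]
  have pt : ∀ y, |-((o.v y + m.I + m.l * m.w y) * m.f y) + m.ef y + 8 ^ 2 / 2 * m.f y| ≤
      K * |m.f y| + |o.v y * m.f y| + |m.ef y| := by
    intro y
    obtain ⟨w0, w1, -⟩ := hm.w_bd y
    have w2 : m.l * m.w y ≤ |c| := (mul_le_of_le_one_left w0 hl1).trans (w1.trans (le_abs_self c))
    have w3 : 0 ≤ m.l * m.w y := by positivity
    have e : -((o.v y + m.I + m.l * m.w y) * m.f y) + m.ef y + 8 ^ 2 / 2 * m.f y =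
        (32 - m.I - m.l * m.w y) * m.f y - o.v y * m.f y + m.ef y := by ring
    have w4 : |(32 - m.I - m.l * m.w y) * m.f y| ≤ K * |m.f y| := by
      rw [abs_mul]
      exact mul_le_mul_of_nonneg_right (abs_le.2 ⟨by linarith [hI.2], by linarith [hI.1]⟩)
        (abs_nonneg _)
    rw [e]
    linarith [abs_add_le ((32 - m.I - m.l * m.w y) * m.f y - o.v y * m.f y) (m.ef y),
      abs_sub ((32 - m.I - m.l * m.w y) * m.f y) (o.v y * m.f y)]
  refine ⟨fun y => (fb y).trans (mul_le_mul_of_nonneg_right (by nlinarith) (by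
    have := Dm_pos m y; positivity)), _, hp, s1, s2, ?_, ?_⟩
  · rw [Real.sq_sqrt (by positivity)]
    obtain ⟨v1, v2⟩ := (vx_facts o.d).2.2 m.f hm.sf.h1
    have i1 := hm.h1.1.l2.integrable_sq
    have i2 := v1.integrable_sq
    have d1 := dir_le hm.sf.h1 ho.su.h1
    have d2 : dir (fun x => m.f x - o.u0 x) ≤ |c| := by
      have d3 : 0 ≤ nsq fun x => m.f x - o.u0 x := integral_nonneg fun _ => sq_nonneg _
      have d4 : c * m.l ≤ |c| := (mul_le_mul_of_nonneg_right (le_abs_self c) hl.le).trans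
        (mul_le_of_le_one_right (abs_nonneg c) hl1)
      linarith [hm.close.2.2.1]
    have b : nsq (fun y => -((o.v y + m.I + m.l * m.w y) * m.f y) + m.ef y + 8 ^ 2 / 2 * m.f y) ≤
        3 * (K ^ 2 + c ^ 2) * nsq m.r + 3 * nsq fun x => vx o.d x * m.f x := by
      unfold nsq
      rw [← integral_const_mul, ← integral_const_mul,
        ← integral_add (i1.const_mul _) (i2.const_mul _)]
      refine integral_mono_ae s1.integrable_sq ((i1.const_mul _).add (i2.const_mul _)) ?_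
      filter_upwards [g_le hm, hm.ef_bd] with y ⟨g1, g2⟩ g3
      have r0 := (hm.nn y).1
      have g0 := (hm.nn y).2.2.2.1
      have t1 := (jb_facts y).1
      have g4 : |m.ef y| ≤ |c| * m.r y := by
        refine g3.trans (mul_le_mul ?_ g1 g0 (abs_nonneg c))
        refine le_trans ?_ (mul_le_of_le_one_right (abs_nonneg c) hl1)
        exact (div_le_div_of_nonneg_right (mul_le_mul_of_nonneg_right (le_abs_self c) hl.le)
          (by positivity)).trans (div_le_self (by positivity) (one_le_pow₀ t1))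
      have g5 : |-((o.v y + m.I + m.l * m.w y) * m.f y) + m.ef y + 8 ^ 2 / 2 * m.f y| ≤
          K * m.r y + |vx o.d y * m.f y| + |c| * m.r y := by
        have := mul_le_mul_of_nonneg_left g2 (show 0 ≤ K by linarith)
        have e : |o.v y * m.f y| = |vx o.d y * m.f y| := rfl
        linarith [pt y]
      have g6 := pow_le_pow_left₀ (abs_nonneg _) g5 2
      rw [sq_abs] at g6
      refine g6.trans ?_
      rw [← sq_abs c, ← sq_abs (vx o.d y * m.f y)]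
      nlinarith [sq_nonneg (K * m.r y - |vx o.d y * m.f y|), sq_nonneg (K * m.r y - |c| * m.r y),
        sq_nonneg (|vx o.d y * m.f y| - |c| * m.r y)]
    rw [hm.nr] at b
    linarith
  · filter_upwards [he] with y hy t ht a1 a2
    have hD := Dm_pos m y
    have t1 := (jb_facts y).1
    have h0 := abs_nonneg (y 2)
    have hP : 0 ≤ (1 + |y 2|) * m.Dm y := by positivity
    have b1 : |m.ef y| ≤ c2 * ((1 + |y 2|) * m.Dm y) := by
      refine hy.2.trans (mul_le_mul ?_ (by nlinarith) hD.le (by linarith))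
      exact (div_le_self (by positivity) (one_le_pow₀ t1)).trans
        (mul_le_of_le_one_right (by linarith) hl1)
    have b2 : |o.v y * m.f y| ≤ 2 * (1 / t) * (Γ * ((1 + |y 2|) * m.Dm y)) := by
      rw [abs_mul]
      exact mul_le_mul (vx_bd ht a1 a2) (fb y) (abs_nonneg _) (by positivity)
    have b3 := mul_le_mul_of_nonneg_left (fb y) (show 0 ≤ K by linarith)
    have b4 : 0 ≤ 1 / t * ((1 + |y 2|) * m.Dm y) := by positivity
    have b5 : 2 * Γ ≤ K * Γ + c2 := by nlinarith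
    have b6 := mul_le_mul_of_nonneg_right b5 b4
    refine (pt y).trans ?_
    nlinarith

end

end Crest.Agent.R335.F4a
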