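import Crest.Agent.R335.F4

set_option autoImplicit false

open MeasureTheory Set Filter Topology Metric
open scoped Gradient ContDiff RealInnerProductSpace ENNReal

namespace Crest.Agent.R335

noncomputable section

theorem f7b_sqrt (o : OD) (c A ε : ℝ) (hε : 0 < ε) : Sm o c fun m => A * √m.l ≤ ε := by
  have h0 : 0 < ε / (|A| + 1) := by positivity
  refine (Sm.le o c (a := (ε / (|A| + 1)) ^ 2) (by positivity)).mono fun m _ h => ?_
  have h1 : √m.l ≤ ε / (|A| + 1) := Real.sqrt_le_iff.2 ⟨h0.le, h⟩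
  have h2 : A * √m.l ≤ (|A| + 1) * √m.l :=
    mul_le_mul_of_nonneg_right (by linarith [le_abs_self A]) (Real.sqrt_nonneg _)
  have h3 : (|A| + 1) * √m.l ≤ (|A| + 1) * (ε / (|A| + 1)) := by gcongr
  have h4 : (|A| + 1) * (ε / (|A| + 1)) = ε := by field_simp
  linarith

theorem f7b_l {o : OD} {c : ℝ} {m : MD} (hm : m.OK o c) :
    0 ≤ c ∧ 0 < √m.l ∧ m.l = √m.l * √m.l ∧ √m.l ≤ 1 ∧ m.l ≤ √m.l := by
  have h0 : 0 < √m.l := Real.sqrt_pos.2 hm.l0.1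
  have h1 : √m.l ≤ 1 := Real.sqrt_le_iff.2 ⟨zero_le_one, by simpa using hm.l0.2⟩
  have h2 : m.l = √m.l * √m.l := (Real.mul_self_sqrt hm.l0.1.le).symm
  refine ⟨(hm.w_bd 0).1.trans (hm.w_bd 0).2.1, h0, h2, h1, ?_⟩
  nlinarith

theorem f7b_z (x : E) : 1 + x 2 ^ 2 ≤ jb x ^ 2 := by
  have h : jb x ^ 2 = 1 + ‖x‖ ^ 2 := Real.sq_sqrt (by positivity)
  rw [h, norm_sq_hor x]
  nlinarith [sq_nonneg ‖hor x‖]

theorem f7b_pos {o : OD} {c : ℝ} {m : MD} (hm : m.OK o c) (x : E) :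
    0 < m.Dm x ∧ 0 < m.mh x ∧ m.mh x ≤ m.mm x ∧
      m.l * ((1 + x 2 ^ 2) * (m.Dm x / jb x ^ 3)) ≤ m.mm x ∧
      ∀ B, m.mp B x = (B + x 2 ^ 2) * (m.Dm x / jb x ^ 3) := by
  have h1 : 0 < m.Dm x := (radb_facts _ _ 0 x).1
  have h2 : 0 < m.mh x := (radb_facts _ _ 0 x).1
  have h3 : 0 < jb x := lt_of_lt_of_le one_pos (jb_facts x).1
  have h4 := hm.l0.1
  have e : m.mm x = m.mh x + m.l * ((1 + x 2 ^ 2) * (m.Dm x / jb x ^ 3)) := by
    unfold MD.mm; ring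
  have h5 : 0 ≤ m.l * ((1 + x 2 ^ 2) * (m.Dm x / jb x ^ 3)) := by positivity
  refine ⟨h1, h2, by linarith, by linarith, fun B => ?_⟩
  have := (radb_facts ((2 - 2 * m.l) / m.κ - 2) m.κ 0 x).2.2.2.2.2 (-3)
  unfold MD.mp
  simp only [rad]
  rw [this, Real.rpow_neg h3.le, show (3 : ℝ) = ((3 : ℕ) : ℝ) by norm_num, Real.rpow_natCast]
  unfold MD.Dm
  simp only [rad]
  ring

theorem f7b_R0 {o : OD} (ho : o.OK) : 100 ≤ o.d ∧ 4 * o.d ≤ o.R0 ∧ 1 ≤ o.Γ0 ∧ o.δ0 ≤ 1 := by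
  obtain ⟨c1, -, c3⟩ := ho.C0
  have hd : 100 ≤ o.d := c1.trans c3
  refine ⟨hd, ?_, ?_, ?_⟩
  · unfold OD.R0
    nlinarith [mul_nonneg (sub_nonneg.2 c1) (sq_nonneg o.d)]
  · exact Real.one_le_exp (by positivity)
  · exact ho.δ.2.trans (Real.exp_le_one_iff.2 (by linarith))

theorem f7b_f : Lg fun o => ∀ c, Sm o c fun m => ∀ x, o.R0 ≤ ‖x‖ →
    |m.f x| ≤ 30 * o.Γ0 * (|x 2| * m.Dm x) ∧
      |x 2| * |m.f x| / (o.C0 * jb x ^ 3) ≤ o.U x * m.f x := by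
  refine F3.mono fun o ho h c => (h c).mono fun m hm h => ?_
  obtain ⟨hd, hR, hΓ, -⟩ := f7b_R0 ho
  have key : ∀ x ∈ Hp, o.R0 ≤ ‖x‖ → |m.f x| ≤ 30 * o.Γ0 * (|x 2| * m.Dm x) ∧
      |x 2| * |m.f x| / (o.C0 * jb x ^ 3) ≤ o.U x * m.f x := by
    intro x hx hx'
    have hz : 0 ≤ x 2 := hx
    obtain ⟨a1, a2⟩ := h x hx hx'
    have hD := (f7b_pos hm x).1
    have a0 : 0 ≤ m.f x := le_trans (by positivity) a1
    rw [abs_of_nonneg a0, abs_of_nonneg hz]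
    refine ⟨a2, ?_⟩
    have := mul_le_mul_of_nonneg_right (ho.U_low x hx (hR.trans hx')) a0
    calc x 2 * m.f x / (o.C0 * jb x ^ 3) = x 2 / (o.C0 * jb x ^ 3) * m.f x := by ring
      _ ≤ _ := this
  intro x hx
  rcases le_total 0 (x 2) with hz | hz
  · exact key x hz hx
  · have hx2 : R x ∈ Hp := by
      show 0 ≤ R x 2
      rw [R_two]; linarith
    have := key (R x) hx2 (by rwa [norm_R])
    have eD : m.Dm (R x) = m.Dm x := (radb_facts _ _ 0 x).2.1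
    rw [hm.cf.2.2, R_two, eD, (jb_facts x).2.2.2.1, ho.U_odd, abs_neg, abs_neg, neg_mul_neg] at this
    exact this

theorem f7b_shell (o : OD) (ho : o.OK) (c a ρ : ℝ) (ha : 0 < a) : Sm o c fun m =>
    ∀ᵐ x, ‖x‖ ≤ ρ → m.Gt a x ≤ 2 * o.g0 x ∧ o.g0 x / 2 ≤ m.s x := by
  obtain ⟨μ, hμ, hμ'⟩ := (isCompact_closedBall (0 : E) ρ).exists_forall_le' ho.cg.continuousOn
    (a := 0) (fun x _ => ho.g_pos x)
  refine ((f7b_sqrt o c (c + a) (μ / 2) (by positivity)).and (num_kappa o ho c 1 one_pos)).mono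
    fun m hm ⟨h1, h2⟩ => ?_
  obtain ⟨c0, s0, -, -, -⟩ := f7b_l hm
  filter_upwards [hm.close.2.1] with x hx hρ
  have g1 := hμ' x (by simpa using hρ)
  have b1 := abs_le.1 hx.1
  have b2 := abs_le.1 (hm.close.1 x).2
  have hk : 0 ≤ m.κ := Real.sqrt_nonneg _
  have t1 := (jb_facts x).1
  have r1 : rad 0 (m.κ + 1 / 10) x ≤ 1 := by
    simp only [rad, radb, Real.rpow_zero, one_mul, zero_div, add_zero]
    exact Real.exp_le_one_iff.2 (by nlinarith)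
  have r0 : 0 < rad 0 (m.κ + 1 / 10) x := (radb_facts _ _ 0 x).1
  have τ0 : 0 ≤ m.τ a x := by unfold MD.τ; positivity
  have τ1 : m.τ a x ≤ a * √m.l := by
    unfold MD.τ
    exact mul_le_of_le_one_right (by positivity) r1
  have G0 := (hm.nn x).2.1
  have e1 : m.Gt a x ≤ m.G x + m.τ a x := by
    unfold MD.Gt
    exact Real.sqrt_le_iff.2 ⟨by positivity, by nlinarith [mul_nonneg G0 τ0]⟩
  have s2 : √2 ≤ 3 / 2 := Real.sqrt_le_iff.2 ⟨by norm_num, by norm_num⟩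
  have g0 := (ho.g_pos x).le
  have s3 : √2 * o.g0 x ≤ 3 / 2 * o.g0 x := by gcongr
  have as : 0 ≤ a * √m.l := by positivity
  constructor <;> nlinarith

theorem f7b_rad_near {a a' k k' T : ℝ} (x : E) (ht : jb x ≤ T) (ha : a - a' ≤ 3 / (8 * T))
    (hk : k' - k ≤ 1 / (8 * T)) : rad a k x ≤ 2 * rad a' k' x := by
  have t1 := (jb_facts x).1
  have t0 : 0 < jb x := by linarith
  have T0 : 0 < T := by linarith
  simp only [rad, radb, zero_div, add_zero]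
  rw [Real.rpow_def_of_pos t0, Real.rpow_def_of_pos t0, ← Real.exp_add, ← Real.exp_add]
  have l0 : 0 ≤ Real.log (jb x) := Real.log_nonneg t1
  have l1 : Real.log (jb x) ≤ T := (Real.log_le_self t0.le).trans ht
  have e1 : Real.log (jb x) * (a - a') ≤ T * (3 / (8 * T)) := by
    calc Real.log (jb x) * (a - a') ≤ Real.log (jb x) * (3 / (8 * T)) := by gcongr
      _ ≤ T * (3 / (8 * T)) := by gcongr
  have e2 : jb x * (k' - k) ≤ T * (1 / (8 * T)) := by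
    calc jb x * (k' - k) ≤ jb x * (1 / (8 * T)) := by gcongr
      _ ≤ T * (1 / (8 * T)) := by gcongr
  have e3 : T * (3 / (8 * T)) = 3 / 8 := by field_simp
  have e4 : T * (1 / (8 * T)) = 1 / 8 := by field_simp
  have e5 : Real.exp (1 / 2) ≤ 2 := by
    have h := Real.exp_one_lt_d9
    have h' : Real.exp (1 / 2) * Real.exp (1 / 2) = Real.exp 1 := by rw [← Real.exp_add]; norm_num
    nlinarith [Real.exp_pos (1 / 2)]
  calc Real.exp (Real.log (jb x) * a + -(k * jb x))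
      ≤ Real.exp (1 / 2 + (Real.log (jb x) * a' + -(k' * jb x))) :=
        Real.exp_le_exp.2 (by nlinarith)
    _ = Real.exp (1 / 2) * Real.exp (Real.log (jb x) * a' + -(k' * jb x)) := Real.exp_add _ _
    _ ≤ _ := by gcongr

theorem f7b_g0 (o : OD) (ho : o.OK) (c : ℝ) : Sm o c fun m =>
    ∀ x, o.R0 ≤ ‖x‖ → ‖x‖ ≤ o.R0 + 1 → o.g0 x ≤ 2 * o.Γ0 * m.mh x := by
  obtain ⟨hd, hR, hΓ, hδ⟩ := f7b_R0 ho
  have T0 : 0 < o.R0 + 2 := by linarith
  refine (num_kappa o ho c (1 / (8 * (o.R0 + 2))) (by positivity)).mono fun m hm h x h1 h2 => ?_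
  obtain ⟨-, a2, a3, a4, -, -, -, -, a9, -⟩ := h
  have hδ0 := ho.δ.1
  have k1 : 99 / 100 ≤ m.κh := by linarith
  have e1 := ho.en
  have γ := ho.γ0
  have k2 : 99 / 100 ≤ √(-2 * o.eg) := Real.le_sqrt_of_sq_le (by linarith [e1.2.1, e1.2.2])
  set k0 := √(-2 * o.eg) with hk0
  set ε := 1 / (8 * (o.R0 + 2)) with hε
  have ε0 : 0 < ε := by positivity
  have b := abs_le.1 a2
  have hr := f7b_rad_near (a := 2 / k0 - 1) (a' := 2 / m.κh - 1) (k := k0) (k' := m.κh)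
    (T := o.R0 + 2) x (by linarith [(jb_facts x).2.2.1]) ?_ b.2
  · calc o.g0 x ≤ o.Γ0 * rad (2 / k0 - 1) k0 x := (ho.g_far x h1).2
      _ ≤ o.Γ0 * (2 * rad (2 / m.κh - 1) m.κh x) := by gcongr
      _ = _ := by unfold MD.mh; ring
  · have e : 3 / (8 * (o.R0 + 2)) = 3 * ε := by rw [hε]; ring
    have p1 : 0 < k0 := by linarith
    have p2 : 0 < m.κh := by linarith
    have e' : 2 / k0 - 1 - (2 / m.κh - 1) = 2 * (m.κh - k0) / (k0 * m.κh) := by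
      field_simp; ring
    rw [e, e', div_le_iff₀ (by positivity)]
    have : 98 / 100 ≤ k0 * m.κh := by nlinarith
    nlinarith

theorem f7b_pot : Lg fun o => ∀ c, Sm o c fun m => 99 / 100 ≤ m.κh ∧ m.κh ≤ 11 / 10 ∧
    m.κh ^ 2 / 2 = m.I + m.dt ∧ c * m.l ≤ 1 / 10 ∧ ∀ x, o.R0 ≤ ‖x‖ →
      7 / 20 ≤ o.v x + m.I + m.dt ∧ o.v x + m.I + m.dt ≤ 1 ∧
      0 ≤ m.op o (radb (2 / m.κh - 1) m.κh (-1)) x := by
  refine hom_bar.mono fun o ho h c => ?_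
  refine ((num_kappa o ho c 1 one_pos).and (f7b_sqrt o c c (1 / 10) (by norm_num))).mono
    fun m hm ⟨h1, h2⟩ => ?_
  obtain ⟨-, -, a3, a4, -, a6, -, -, a9, -⟩ := h1
  obtain ⟨c0, s0, -, -, s2⟩ := f7b_l hm
  have hδ0 := ho.δ.1
  have k1 : 99 / 100 ≤ m.κh := by linarith
  refine ⟨k1, a4, a6, le_trans (by gcongr) h2, fun x hx => ?_⟩
  obtain ⟨b1, -, -, b4⟩ := h m.κh k1 a4 x hx
  have v0 : o.v x ≤ 0 := ((vx_facts o.d).2.1 x).1
  refine ⟨by nlinarith, by nlinarith, ?_⟩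
  have r0 := (radb_facts (2 / m.κh - 1) m.κh (-1) x).1
  have t0 : 0 < jb x := lt_of_lt_of_le one_pos (jb_facts x).1
  have : 0 ≤ radb (2 / m.κh - 1) m.κh (-1) x / (4 * (jb x * √(jb x))) := by positivity
  unfold MD.op
  rw [add_assoc (o.v x), ← a6]
  linarith

theorem f7b_near : Lg fun o => ∀ c A ρ : ℝ, 0 ≤ A → Sm o c fun m => ∀ x, ‖x‖ ≤ ρ →
    A * (m.l * ((1 + x 2 ^ 2) * (m.Dm x / jb x ^ 3))) ≤ √m.l * m.mm x := by
  refine F2.mono fun o ho h c A ρ hA => ?_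
  obtain ⟨c2, hc2, h⟩ := h c
  refine (h.and (f7b_sqrt o c (A * (c2 * Real.exp (ρ / 10))) 1 one_pos)).mono
    fun m hm ⟨h1, h2⟩ x hx => ?_
  obtain ⟨c0, s0, s1, -, -⟩ := f7b_l hm
  obtain ⟨p1, p2, p3, -, -⟩ := f7b_pos hm x
  have t1 := (jb_facts x).1
  have b1 := (h1.1 x).2
  have b2 : (1 + x 2 ^ 2) * (m.Dm x / jb x ^ 3) ≤ jb x ^ 2 * m.Dm x := by
    have : m.Dm x / jb x ^ 3 ≤ m.Dm x := div_le_self p1.le (one_le_pow₀ t1)
    have h0 : 0 ≤ m.Dm x / jb x ^ 3 := by positivity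
    exact mul_le_mul (f7b_z x) this h0 (by positivity)
  have b3 : jb x ^ 2 * m.Dm x ≤ c2 * Real.exp (ρ / 10) * m.mh x := by
    have e : 1 ≤ Real.exp (ρ / 10) * Real.exp (-(‖x‖ / 10)) := by
      rw [← Real.exp_add]
      exact Real.one_le_exp (by linarith)
    calc jb x ^ 2 * m.Dm x
        ≤ Real.exp (ρ / 10) * Real.exp (-(‖x‖ / 10)) * (jb x ^ 2 * m.Dm x) :=
          le_mul_of_one_le_left (by positivity) e
      _ = Real.exp (ρ / 10) * (jb x ^ 2 * Real.exp (-(‖x‖ / 10)) * m.Dm x) := by ring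
      _ ≤ Real.exp (ρ / 10) * (c2 * m.mh x) := by gcongr
      _ = _ := by ring
  have l0 := hm.l0.1
  calc A * (m.l * ((1 + x 2 ^ 2) * (m.Dm x / jb x ^ 3)))
      ≤ A * (m.l * (c2 * Real.exp (ρ / 10) * m.mh x)) :=
        mul_le_mul_of_nonneg_left (mul_le_mul_of_nonneg_left (b2.trans b3) l0.le) hA
    _ = √m.l * m.mh x * (A * (c2 * Real.exp (ρ / 10)) * √m.l) := by
        nth_rewrite 1 [s1]; ring
    _ ≤ √m.l * m.mh x * 1 := by gcongr
    _ ≤ _ := by rw [mul_one]; gcongr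

theorem f7b_lap3 {p q r : E → ℝ} (hp : ContDiff ℝ 2 p) (hq : ContDiff ℝ 2 q) (hr : ContDiff ℝ 2 r)
    (s t u : ℝ) (x : E) : lap (fun x => s * p x + t * q x + u * r x) x =
      s * lap p x + t * lap q x + u * lap r x := by
  have h1 : ContDiff ℝ 2 fun x => s * p x + t * q x :=
    (contDiff_const.mul hp).add (contDiff_const.mul hq)
  have := lap_lin h1 hr 1 u x
  simp only [one_mul] at this
  rw [this, lap_lin hp hq]

end

end Crest.Agent.R335
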