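import Crest.Agent.R335.F7Aux1
import Crest.Agent.R335.F4
import Crest.Agent.R335.F7bAux1

set_option autoImplicit false

open MeasureTheory Set Filter Topology Metric
open scoped Gradient ContDiff RealInnerProductSpace ENNReal

namespace Crest.Agent.R335

noncomputable section

theorem F7p : Lg fun o => ∀ c, Sm o c fun m => (∀ B, ContDiff ℝ 2 (m.mp B) ∧ MemLp (m.mp B) 2 volume) ∧
    (∀ x, o.R0 ≤ ‖x‖ → m.op o (m.mp (1 / (8 * o.δ0))) x ≤ (-(1 / 2) + x 2 ^ 2) * (m.Dm x / jb x ^ 3)) ∧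
    (∀ x, o.R0 ≤ ‖x‖ → 24 / o.δ0 ≤ ‖x‖ →
      (1 + o.δ0 * x 2 ^ 2 / 4) * (m.Dm x / jb x ^ 3) ≤ m.op o (m.mp (8 / o.δ0)) x) ∧
    ∀ x, o.R0 ≤ ‖x‖ → -((8 / o.δ0 + x 2 ^ 2) * (m.Dm x / jb x ^ 3)) ≤ m.op o (m.mp (8 / o.δ0)) x := by
  exact F7x_p
theorem F7a : Lg fun o => ∀ c ε : ℝ, 0 < ε → Sm o c fun m => ∃ q : E → ℝ, ContDiff ℝ 2 q ∧
    MemLp q 2 volume ∧ (∀ x, 0 ≤ q x) ∧
      ∀ x, o.R0 ≤ ‖x‖ → m.mm x ≤ m.op o q x ∧ √m.l * q x ≤ ε * m.mm x := by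
  exact F7x_a
theorem F7e : Lg fun o => ∀ c, ∃ c7 : ℝ, 1 ≤ c7 ∧ Sm o c fun m => ∀ᵐ x,
    m.l * (c * Real.exp (-(‖x‖ / 8))) * |m.f x| + c * m.l * |x 2| / jb x ^ 2 * m.n x +
      c * m.l * ((1 + |x 2|) / jb x ^ 3 * (m.n x + √m.l * |m.f x|)) ≤ c7 * √m.l * m.mm x := by
  exact F7x_e
theorem F7b : Lg fun o => ∀ c a : ℝ, 0 < a → Sm o c fun m => G6 o c a m →
    ∀ᵐ x, x ∈ Ex o.R0 → m.Gt a x ≤ o.Γ1 * m.mm x := by
  refine ((((((F7p.and F7a).and F7e).and f7b_f).and f7b_pot).and f7b_near).and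
    (num_good 0 1000)).mono ?_
  rintro o ho ⟨⟨⟨⟨⟨⟨hp, ha⟩, he⟩, hf⟩, hpot⟩, hnear⟩, -, -, -, hΓ1⟩ c a a0
  obtain ⟨hd, hR, hΓ, hδ⟩ := f7b_R0 ho
  have hδ0 := ho.δ.1
  obtain ⟨C1, -, C3⟩ := ho.C0
  obtain ⟨c7, c71, he⟩ := he c
  set A0 : ℝ := 30 * o.C0 * o.d * o.Γ0 with hA0
  have A00 : 0 < A0 := by positivity
  set A2 : ℝ := 4 * A0 / o.δ0 with hA2
  have A20 : 0 < A2 := by positivity
  have B1 : 1 ≤ 8 / o.δ0 := by rw [le_div_iff₀ hδ0]; linarith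
  have K0 : 0 < c7 + 2 := by linarith
  have fin : 36 * o.Γ0 + A2 * (8 / o.δ0) + 1 ≤ o.Γ1 := by
    refine le_trans ?_ hΓ1
    set y := o.d * o.Γ0 / o.δ0 with hy
    have y1 : o.Γ0 ≤ y := by
      rw [hy, le_div_iff₀ hδ0]
      nlinarith
    have y2 : A2 * (8 / o.δ0) ≤ 960 * y ^ 2 := by
      have e1 : A2 * (8 / o.δ0) = 960 * (o.C0 * o.d * o.Γ0 / o.δ0 ^ 2) := by
        rw [hA2, hA0]; field_simp; ring
      have e2 : y ^ 2 = o.d * o.d * (o.Γ0 * o.Γ0) / o.δ0 ^ 2 := by rw [hy]; field_simp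
      rw [e1, e2]
      gcongr
      nlinarith
    have y3 : 1 ≤ y := hΓ.trans y1
    have y4 : y ≤ y ^ 2 := by nlinarith
    have y5 : y ^ 2 ≤ y ^ 3 := by nlinarith
    linarith
  refine ((((((((((hp c).and (ha c (1 / (c7 + 2)) (by positivity))).and he).and (hf c)).and
    (hpot c)).and (hnear c (A0 + A2 * (8 / o.δ0)) (24 / o.δ0) (by positivity))).and
    (f7b_shell o ho c a (o.R0 + 1) a0)).and (f7b_g0 o ho c)).and
    (f7b_sqrt o c (c * o.Γ1) 1 one_pos))).mono ?_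
  rintro m hm ⟨⟨⟨⟨⟨⟨⟨⟨⟨p1, -, p3, p4⟩, q, q1, q2, q3, q4⟩, he⟩, hf⟩, k1, k2, k3, k4, k5⟩, hnear⟩,
    hsh⟩, hg0⟩, hs⟩ hG
  obtain ⟨c0, s0, s1, s2, s3⟩ := f7b_l hm
  have l0 := hm.l0.1
  set H := radb (2 / m.κh - 1) m.κh (-1) with hH
  have H2 : ContDiff ℝ 2 H := (radb_smooth _ _ _).of_le (by norm_cast)
  have HL : MemLp H 2 volume := (radb_memLp _ _ (by linarith)).1
  have e3 : Real.exp |(-1 : ℝ)| ≤ 3 := by
    rw [abs_neg, abs_one]; linarith [Real.exp_one_lt_d9]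
  have Hb : ∀ x, 0 < H x ∧ H x ≤ 3 * m.mh x ∧ m.mh x ≤ 3 * H x := fun x => by
    obtain ⟨r1, -, -, r4, r5, -⟩ := radb_facts (2 / m.κh - 1) m.κh (-1) x
    have h0 := (f7b_pos hm x).2.1
    refine ⟨r1, r5.trans (mul_le_mul_of_nonneg_right e3 h0.le), ?_⟩
    have e : Real.exp |(-1 : ℝ)| * Real.exp (-|(-1 : ℝ)|) = 1 := by rw [← Real.exp_add]; simp
    calc m.mh x = Real.exp |(-1 : ℝ)| * (Real.exp (-|(-1 : ℝ)|) * m.mh x) := by
          rw [← mul_assoc, e, one_mul]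
      _ ≤ 3 * H x := mul_le_mul e3 r4 (by positivity) (by norm_num)
  set W : E → ℝ := fun x => 12 * o.Γ0 * H x + A2 * m.l * m.mp (8 / o.δ0) x + (c7 + 2) * √m.l * q x
    with hW
  have W2 : ContDiff ℝ 2 W := ((contDiff_const.mul H2).add (contDiff_const.mul (p1 _).1)).add
    (contDiff_const.mul q1)
  have WL : MemLp W 2 volume := ((HL.const_mul _).add ((p1 _).2.const_mul _)).add (q2.const_mul _)
  have Wup : ∀ x, o.R0 ≤ ‖x‖ → W x ≤ o.Γ1 * m.mm x := fun x hx => by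
    obtain ⟨d1, d2, d3, d4, d5⟩ := f7b_pos hm x
    have t0 : 0 < jb x := lt_of_lt_of_le one_pos (jb_facts x).1
    have w1 : 12 * o.Γ0 * H x ≤ 36 * o.Γ0 * m.mm x := by
      have := mul_le_mul_of_nonneg_left ((Hb x).2.1.trans (mul_le_mul_of_nonneg_left d3 (by norm_num)))
        (show 0 ≤ 12 * o.Γ0 by positivity)
      linarith
    have w2 : A2 * m.l * m.mp (8 / o.δ0) x ≤ A2 * (8 / o.δ0) * m.mm x := by
      rw [d5]
      have P0 : 0 ≤ m.Dm x / jb x ^ 3 := by positivity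
      have : 8 / o.δ0 + x 2 ^ 2 ≤ 8 / o.δ0 * (1 + x 2 ^ 2) := by nlinarith [sq_nonneg (x 2)]
      calc A2 * m.l * ((8 / o.δ0 + x 2 ^ 2) * (m.Dm x / jb x ^ 3))
          ≤ A2 * m.l * ((8 / o.δ0 * (1 + x 2 ^ 2)) * (m.Dm x / jb x ^ 3)) := by gcongr
        _ = A2 * (8 / o.δ0) * (m.l * ((1 + x 2 ^ 2) * (m.Dm x / jb x ^ 3))) := by ring
        _ ≤ _ := by gcongr
    have w3 : (c7 + 2) * √m.l * q x ≤ m.mm x := by
      have := mul_le_mul_of_nonneg_left (q4 x hx).2 K0.le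
      rw [← mul_assoc, ← mul_assoc, mul_one_div_cancel K0.ne', one_mul] at this
      exact this
    have := mul_le_mul_of_nonneg_right fin (d2.le.trans d3)
    simp only [hW]
    linarith
  have main := far_le (p := m.Gt a) (U := fun x => o.v x + m.I + m.dt - c * m.l) (q := W)
    (c0 := 1 / 4) (c1 := 1) (by norm_num) (by linarith) hG.sub hG.reg.1.lb W2
    (((((vx_facts o.d).1.add_const _).add_const _).sub_const _).aestronglyMeasurable)
    (ae_of_all _ fun x hx => by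
      have := k5 x (le_of_lt hx)
      have : 0 ≤ c * m.l := by positivity
      constructor <;> linarith [this]) ?_ ((hG.reg.2.2.2.2.sub WL).pos_part) ?_
  · filter_upwards [main] with x hx hx'
    exact (hx hx').trans (Wup x (le_of_lt hx'))
  · filter_upwards [he] with x he hx
    have hx : o.R0 ≤ ‖x‖ := le_of_lt hx
    obtain ⟨d1, d2, d3, d4, d5⟩ := f7b_pos hm x
    have t0 : 0 < jb x := lt_of_lt_of_le one_pos (jb_facts x).1
    have P0 : 0 ≤ m.Dm x / jb x ^ 3 := by positivity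
    have eW : -(1 / 2) * lap W x + (o.v x + m.I + m.dt - c * m.l) * W x =
        12 * o.Γ0 * m.op o H x + A2 * m.l * m.op o (m.mp (8 / o.δ0)) x +
          (c7 + 2) * √m.l * m.op o q x - c * m.l * W x := by
      simp only [hW]
      rw [f7b_lap3 H2 (p1 _).1 q1]
      unfold MD.op
      ring
    rw [eW]
    have n0 := (hm.nn x).2.2.1
    have u1 : 0 ≤ 12 * o.Γ0 * m.op o H x := mul_nonneg (by positivity) (k5 x hx).2.2
    have u2 : (c7 + 2) * √m.l * m.mm x ≤ (c7 + 2) * √m.l * m.op o q x :=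
      mul_le_mul_of_nonneg_left (q4 x hx).1 (by positivity)
    have mm0 : 0 ≤ m.mm x := d2.le.trans d3
    have u3 : c * m.l * W x ≤ √m.l * m.mm x := by
      calc c * m.l * W x ≤ c * m.l * (o.Γ1 * m.mm x) :=
            mul_le_mul_of_nonneg_left (Wup x hx) (by positivity)
        _ = √m.l * m.mm x * (c * o.Γ1 * √m.l) := by nth_rewrite 1 [s1]; ring
        _ ≤ √m.l * m.mm x * 1 := by gcongr
        _ = _ := mul_one _
    have u4 : m.l * (o.C0 * o.d * |x 2| / jb x ^ 3) * |m.f x| ≤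
        m.l * (A0 * x 2 ^ 2 * (m.Dm x / jb x ^ 3)) := by
      calc m.l * (o.C0 * o.d * |x 2| / jb x ^ 3) * |m.f x|
          ≤ m.l * (o.C0 * o.d * |x 2| / jb x ^ 3) * (30 * o.Γ0 * (|x 2| * m.Dm x)) :=
            mul_le_mul_of_nonneg_left (hf x hx).1 (by positivity)
        _ = m.l * (A0 * |x 2| ^ 2 * (m.Dm x / jb x ^ 3)) := by rw [hA0]; ring
        _ = _ := by rw [sq_abs]
    have u5 : 0 ≤ c * m.l * ((1 + |x 2|) / jb x ^ 3 * (m.n x + √m.l * |m.f x|)) := by positivity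
    have u6 : m.l * (A0 * x 2 ^ 2 * (m.Dm x / jb x ^ 3)) ≤
        A2 * m.l * m.op o (m.mp (8 / o.δ0)) x + √m.l * m.mm x := by
      rcases le_total (24 / o.δ0) ‖x‖ with hx' | hx'
      · have v1 := mul_le_mul_of_nonneg_left (p3 x hx hx') (show 0 ≤ A2 * m.l by positivity)
        have v2 : A2 * m.l * ((1 + o.δ0 * x 2 ^ 2 / 4) * (m.Dm x / jb x ^ 3)) =
            A2 * m.l * (m.Dm x / jb x ^ 3) + m.l * (A0 * x 2 ^ 2 * (m.Dm x / jb x ^ 3)) := by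
          rw [hA2]; field_simp
        have v3 : 0 ≤ A2 * m.l * (m.Dm x / jb x ^ 3) := by positivity
        have v4 : 0 ≤ √m.l * m.mm x := by positivity
        linarith
      · have v1 := mul_le_mul_of_nonneg_left (p4 x hx) (show 0 ≤ A2 * m.l by positivity)
        have v2 := hnear x hx'
        have v3 : A0 * x 2 ^ 2 + A2 * (8 / o.δ0 + x 2 ^ 2) ≤
            (A0 + A2 * (8 / o.δ0)) * (1 + x 2 ^ 2) := by
          have : A2 * x 2 ^ 2 ≤ A2 * (8 / o.δ0 * x 2 ^ 2) := by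
            gcongr
            exact le_mul_of_one_le_left (sq_nonneg _) B1
          linarith only [this, A00]
        have v4 := mul_le_mul_of_nonneg_right v3 (show 0 ≤ m.l * (m.Dm x / jb x ^ 3) by positivity)
        linarith only [v1, v2, v4]
    linarith only [he, u1, u2, u3, u4, u5, u6]
  · filter_upwards [hsh] with x hx h1 h2
    obtain ⟨d1, d2, d3, d4, d5⟩ := f7b_pos hm x
    have t0 : 0 < jb x := lt_of_lt_of_le one_pos (jb_facts x).1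
    have w1 := (hx h2.le).1
    have w2 := hg0 x h1.le h2.le
    have w3 := mul_le_mul_of_nonneg_left (Hb x).2.2 (show 0 ≤ 4 * o.Γ0 by positivity)
    have w4 : 0 ≤ A2 * m.l * m.mp (8 / o.δ0) x := by rw [d5]; positivity
    have w5 : 0 ≤ (c7 + 2) * √m.l * q x := mul_nonneg (by positivity) (q3 x)
    simp only [hW]
    linarith

end

end Crest.Agent.R335
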