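import Crest.Agent.R335.F4

set_option autoImplicit false

open MeasureTheory Set Filter Topology Metric
open scoped Gradient ContDiff RealInnerProductSpace ENNReal

namespace Crest.Agent.R335

noncomputable section

theorem F7x_jb (x : E) : jb x ^ 2 = 1 + ‖x‖ ^ 2 := Real.sq_sqrt (by positivity)

theorem F7x_z (x : E) : 1 + x 2 ^ 2 ≤ jb x ^ 2 ∧ |x 2| ≤ ‖x‖ ∧ |x 2| ≤ jb x := by
  have h := norm_sq_hor x
  have h1 : |x 2| ≤ ‖x‖ := abs_le_of_sq_le_sq' (by nlinarith [sq_nonneg ‖hor x‖]) (norm_nonneg _)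
    |> fun h => abs_le.2 h
  exact ⟨by rw [F7x_jb]; nlinarith [sq_nonneg ‖hor x‖], h1, h1.trans (jb_facts x).2.1⟩

theorem F7x_E (m : MD) (x : E) :
    rad ((2 - 2 * m.l) / m.κ - 2 + -3) m.κ x = m.Dm x / jb x ^ 3 := by
  have h1 : 0 < jb x := by linarith [(jb_facts x).1]
  have := (radb_facts ((2 - 2 * m.l) / m.κ - 2) m.κ 0 x).2.2.2.2.2 (-3)
  have h2 : jb x ^ (3 : ℝ) = jb x ^ 3 := by norm_cast
  rw [rad, this, MD.Dm, Real.rpow_neg h1.le, h2, inv_mul_eq_div]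

theorem F7x_δ (o : OD) (ho : o.OK) : 0 < o.δ0 ∧ o.δ0 ≤ 1 / 10 ∧ 100 ≤ o.d ∧ 100 * o.d ^ 2 ≤ o.R0 := by
  obtain ⟨e1, -, e3⟩ := ho.en
  obtain ⟨c1, -, c3⟩ := ho.C0
  refine ⟨ho.δ.1, ?_, by linarith, ?_⟩
  · have := ho.γ0.2
    unfold OD.δ0; linarith
  · exact mul_le_mul_of_nonneg_right c1 (by positivity)

theorem F7x_radb2 (a k b : ℝ) : ContDiff ℝ 2 (radb a k b) :=
  contDiff_infty.1 (radb_smooth a k b) 2

theorem F7x_mp_smooth (m : MD) (B : ℝ) : ContDiff ℝ 2 (m.mp B) :=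
  (contDiff_const.add (F0a_z_smooth.pow 2)).mul (F7x_radb2 _ _ _)

theorem F7x_mp_memLp (m : MD) (hk : 0 < m.κ) (B : ℝ) : MemLp (m.mp B) 2 volume := by
  have h := (radb_memLp ((2 - 2 * m.l) / m.κ - 2 + -3 + 2) 0 hk).1
  refine (h.const_mul (|B| + 1)).of_le (F7x_mp_smooth m B).continuous.aestronglyMeasurable
    (Eventually.of_forall fun x => ?_)
  obtain ⟨h0, -, -, -, -, h2⟩ := radb_facts ((2 - 2 * m.l) / m.κ - 2 + -3) m.κ 0 x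
  have h3 := (F7x_z x).1
  have h4 : jb x ^ (2 : ℝ) = jb x ^ 2 := by norm_cast
  rw [h2 2, h4, Real.norm_eq_abs, Real.norm_eq_abs, MD.mp, abs_mul, abs_of_pos h0,
    abs_of_nonneg (a := (|B| + 1) * _) (by positivity), ← mul_assoc]
  refine mul_le_mul_of_nonneg_right ?_ h0.le
  have h5 := abs_add_le B (x 2 ^ 2)
  rw [abs_of_nonneg (sq_nonneg (x 2))] at h5
  nlinarith [abs_nonneg B, sq_nonneg (x 2)]

theorem F7x_r1 {C C' d t : ℝ} (hC' : 0 < C') (t1 : 1 ≤ t) (h1 : d ^ 2 ≤ t) (h2 : C + C' ≤ t) :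
    C / t ^ 2 + C' * d ^ 2 / t ^ 3 ≤ 1 / t := by
  have tp : 0 < t := by linarith
  have h5 : C' * d ^ 2 / t ^ 3 ≤ C' / t ^ 2 := by
    rw [div_le_div_iff₀ (by positivity) (by positivity)]
    have : 0 ≤ C' * t ^ 2 * (t - d ^ 2) := by
      have : 0 ≤ t - d ^ 2 := by linarith
      positivity
    nlinarith
  have h6 : C / t ^ 2 + C' / t ^ 2 ≤ 1 / t := by
    rw [← add_div, div_le_div_iff₀ (by positivity) tp]; nlinarith
  linarith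

theorem F7x_r2 {d r t C : ℝ} (h1 : 100 ≤ d) (h2 : 100 * d ^ 2 ≤ r) (h3 : r ≤ t) (h4 : C ≤ d) :
    2 * d ≤ r ∧ d ^ 2 ≤ t ∧ C ≤ t ∧ 1000 ≤ t := by
  refine ⟨?_, ?_, ?_, ?_⟩ <;> nlinarith

theorem F7x_r3 {a t : ℝ} (h1 : -5 ≤ a) (h2 : 10 ≤ t) : -2 * a / t ^ 2 ≤ 1 / t := by
  rw [div_le_div_iff₀ (by positivity) (by linarith)]; nlinarith

theorem F7x_r4 {B z e L t κ a v dt l : ℝ} (e0 : 0 < e) (tp : 0 < t)
    (hka : κ * (a + 1) = 2 - 2 * l - 4 * κ) :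
    -(1 / 2) * ((B + z ^ 2) * L + 2 * (2 * z) * (e * (a / t - κ - 0 / (2 * (t * √t))) / t * z) + 2 * e) +
      (v + κ ^ 2 / 2 + dt) * ((B + z ^ 2) * e) =
    (-1 + z ^ 2 * (2 * κ / t + -2 * a / t ^ 2) + (B + z ^ 2) * (dt - (2 * l + 4 * κ) / t +
      ((-(1 / 2) * L - e * (-(κ ^ 2 / 2) + κ * (a + 1) / t)) / e + (v + 2 / t)))) * e := by
  rw [hka, zero_div]
  field_simp
  ring

/-- exact form of the operator on the particular barrier -/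
theorem F7x_key : Lg fun o => ∀ c, Sm o c fun m => ∀ B x, o.R0 ≤ ‖x‖ → ∃ θ s : ℝ,
    |θ| ≤ 1 / jb x ∧ 0 ≤ s ∧ s ≤ 1 / jb x ∧
    m.op o (m.mp B) x = (-1 + x 2 ^ 2 * (2 * m.κ / jb x + s) +
      (B + x 2 ^ 2) * (m.dt - (2 * m.l + 4 * m.κ) / jb x + θ)) * (m.Dm x / jb x ^ 3) := by
  obtain ⟨C, hC, hl⟩ := lap_radb 10
  obtain ⟨C', hC', hv⟩ := vx_far
  refine (Lg.ge (C + C')).mono fun o ho hd c => ?_
  refine (num_kappa o ho c 1 one_pos).mono fun m hm hk B x hx => ?_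
  obtain ⟨-, -, k1, k2, k3, -, -, -, k4, -⟩ := hk
  obtain ⟨d0, -, d1, d2⟩ := F7x_δ o ho
  obtain ⟨l0, l1⟩ := hm.l0
  obtain ⟨t1, t2, -⟩ := jb_facts x
  have kp : 0 < m.κ := by linarith
  have a1 : 0 ≤ (2 - 2 * m.l) / m.κ := div_nonneg (by linarith) kp.le
  have a2 : (2 - 2 * m.l) / m.κ ≤ 3 := by rw [div_le_iff₀ kp]; linarith
  have hE := F7x_E m x
  have h4 : m.mp B = fun x => (fun s : ℝ => B + s ^ 2) (x 2) *
    radb ((2 - 2 * m.l) / m.κ - 2 + -3) m.κ 0 x := rfl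
  have hka : m.κ * ((2 - 2 * m.l) / m.κ - 2 + -3 + 1) = 2 - 2 * m.l - 4 * m.κ := by
    field_simp; ring
  have a3 : -5 ≤ (2 - 2 * m.l) / m.κ - 2 + -3 := by linarith
  have a4 : (2 - 2 * m.l) / m.κ - 2 + -3 ≤ 0 := by linarith
  generalize (2 - 2 * m.l) / m.κ - 2 + -3 = a at hE h4 hka a3 a4
  have h1 := hl a m.κ 0 (by rw [abs_le]; constructor <;> linarith)
    (by rw [abs_le]; constructor <;> linarith) (by simp) x
  obtain ⟨r1, r2, r3, r4⟩ := F7x_r2 d1 (d2.trans hx) t2 hd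
  have h2 := hv o.d x (by linarith) r1
  obtain ⟨e0, -, eg, -⟩ := radb_facts a m.κ 0 x
  have hP : ContDiff ℝ 2 fun s : ℝ => B + s ^ 2 := by fun_prop
  have hP1 : deriv (fun s : ℝ => B + s ^ 2) = fun s => 2 * s := by ext s; simp
  have hP2 : deriv (fun s : ℝ => 2 * s) = fun _ => 2 := by ext s; simp
  have h3 := lap_mul_z (F7x_radb2 a m.κ 0) hP x
  rw [hP1, hP2, eg] at h3
  have tp : 0 < jb x := by linarith
  refine ⟨(-(1 / 2) * lap (radb a m.κ 0) x - radb a m.κ 0 x *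
    (-(m.κ ^ 2 / 2) + m.κ * (a + 1) / jb x)) / radb a m.κ 0 x +
    (vx o.d x + 2 / jb x), -2 * a / jb x ^ 2, ?_, ?_, F7x_r3 a3 (by linarith), ?_⟩
  · simp only [mul_zero, zero_div, sub_zero] at h1
    refine (abs_add_le _ _).trans (le_trans (add_le_add ?_ h2) (F7x_r1 hC' t1 r2 r3))
    rw [abs_div, abs_of_pos e0, div_le_iff₀ e0]; exact h1
  · exact div_nonneg (by linarith) (by positivity)
  · rw [MD.op, h4, h3, ← hE, ← k3]
    exact F7x_r4 e0 tp hka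

theorem F7x_r5 {δ dt l κ t θ s z : ℝ} (d0 : 0 < δ) (d1 : δ ≤ 1 / 10) (h1 : δ / 2 ≤ dt) (h2 : dt ≤ 2 * δ)
    (l0 : 0 < l) (l1 : l ≤ 1 / 4) (k0 : 99 / 100 ≤ κ) (k1 : κ ≤ 11 / 10) (t0 : 1000 ≤ t)
    (hθ : |θ| ≤ 1 / t) (s0 : 0 ≤ s) (s1 : s ≤ 1 / t) :
    -1 + z ^ 2 * (2 * κ / t + s) + (1 / (8 * δ) + z ^ 2) * (dt - (2 * l + 4 * κ) / t + θ) ≤
      -(1 / 2) + z ^ 2 ∧
    (24 / δ ≤ t → 1 + δ * z ^ 2 / 4 ≤
      -1 + z ^ 2 * (2 * κ / t + s) + (8 / δ + z ^ 2) * (dt - (2 * l + 4 * κ) / t + θ)) ∧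
    -(8 / δ + z ^ 2) ≤
      -1 + z ^ 2 * (2 * κ / t + s) + (8 / δ + z ^ 2) * (dt - (2 * l + 4 * κ) / t + θ) := by
  have tp : 0 < t := by linarith
  obtain ⟨θ0, θ1⟩ := abs_le.1 hθ
  have u0 : 0 < 1 / t := by positivity
  have u1 : 1 / t ≤ 1 / 1000 := one_div_le_one_div_of_le (by norm_num) t0
  have e1 : 2 * κ / t = 2 * κ * (1 / t) := by ring
  have e2 : (2 * l + 4 * κ) / t = (2 * l + 4 * κ) * (1 / t) := by ring
  rw [e1, e2]
  have hu : 24 / δ ≤ t → 1 / t ≤ δ / 24 := fun h => by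
    rw [div_le_iff₀ d0] at h
    rw [div_le_div_iff₀ tp (by norm_num)]; linarith
  generalize 1 / t = u at *
  have z0 := sq_nonneg z
  generalize z ^ 2 = w at *
  have m1 : 3 * u ≤ (2 * l + 4 * κ) * u := mul_le_mul_of_nonneg_right (by linarith) u0.le
  have m2 : (2 * l + 4 * κ) * u ≤ 5 * u := mul_le_mul_of_nonneg_right (by linarith) u0.le
  have m3 : 0 ≤ 2 * κ * u := by positivity
  have m4 : 2 * κ * u ≤ 3 * u := mul_le_mul_of_nonneg_right (by linarith) u0.le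
  generalize (2 * l + 4 * κ) * u = p at *
  generalize 2 * κ * u = q at *
  refine ⟨?_, fun h => ?_, ?_⟩
  · have a1 : 1 / (8 * δ) * (dt - p + θ) ≤ 1 / (8 * δ) * (2 * δ) :=
      mul_le_mul_of_nonneg_left (by linarith) (by positivity)
    have a2 : 1 / (8 * δ) * (2 * δ) = 1 / 4 := by field_simp; ring
    have a3 : w * (q + s + (dt - p + θ)) ≤ w * 1 := mul_le_mul_of_nonneg_left (by linarith) z0
    nlinarith
  · have h' := hu h
    have a1 : 8 / δ * (δ / 4) ≤ 8 / δ * (dt - p + θ) :=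
      mul_le_mul_of_nonneg_left (by linarith) (by positivity)
    have a2 : 8 / δ * (δ / 4) = 2 := by field_simp; ring
    have a3 : w * (δ / 4) ≤ w * (q + s + (dt - p + θ)) := mul_le_mul_of_nonneg_left (by linarith) z0
    nlinarith
  · have a0 : 80 ≤ 8 / δ := by rw [le_div_iff₀ d0]; linarith
    have a1 : (8 / δ + w) * (-(1 / 2)) ≤ (8 / δ + w) * (dt - p + θ) :=
      mul_le_mul_of_nonneg_left (by linarith) (by positivity)
    have a3 : 0 ≤ w * (q + s) := by positivity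
    linarith

theorem F7x_p : Lg fun o => ∀ c, Sm o c fun m => (∀ B, ContDiff ℝ 2 (m.mp B) ∧ MemLp (m.mp B) 2 volume) ∧
    (∀ x, o.R0 ≤ ‖x‖ → m.op o (m.mp (1 / (8 * o.δ0))) x ≤ (-(1 / 2) + x 2 ^ 2) * (m.Dm x / jb x ^ 3)) ∧
    (∀ x, o.R0 ≤ ‖x‖ → 24 / o.δ0 ≤ ‖x‖ →
      (1 + o.δ0 * x 2 ^ 2 / 4) * (m.Dm x / jb x ^ 3) ≤ m.op o (m.mp (8 / o.δ0)) x) ∧
    ∀ x, o.R0 ≤ ‖x‖ → -((8 / o.δ0 + x 2 ^ 2) * (m.Dm x / jb x ^ 3)) ≤ m.op o (m.mp (8 / o.δ0)) x := by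
  refine F7x_key.mono fun o ho h c => ?_
  refine (((h c).and (num_kappa o ho c 1 one_pos)).and (Sm.le o c (a := 1 / 4) (by norm_num))).mono
    fun m hm ⟨⟨hK, hk⟩, l1⟩ => ?_
  obtain ⟨-, -, k1, k2, -, -, k5, k6, k4, -⟩ := hk
  obtain ⟨d0, d3, d1, d2⟩ := F7x_δ o ho
  have key : ∀ x, o.R0 ≤ ‖x‖ → 0 ≤ m.Dm x / jb x ^ 3 ∧ 1000 ≤ jb x := fun x hx =>
    ⟨by rw [← F7x_E]; exact (radb_facts _ _ _ x).1.le,
      (F7x_r2 d1 (d2.trans hx) (jb_facts x).2.1 le_rfl).2.2.2⟩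
  refine ⟨fun B => ⟨F7x_mp_smooth m B, F7x_mp_memLp m (by linarith) B⟩, fun x hx => ?_,
    fun x hx hx' => ?_, fun x hx => ?_⟩
  · obtain ⟨θ, s, h1, h2, h3, h4⟩ := hK (1 / (8 * o.δ0)) x hx
    rw [h4]
    exact mul_le_mul_of_nonneg_right (F7x_r5 d0 d3 k5 k6 hm.l0.1 l1 k1 (by linarith) (key x hx).2
      h1 h2 h3).1 (key x hx).1
  · obtain ⟨θ, s, h1, h2, h3, h4⟩ := hK (8 / o.δ0) x hx
    rw [h4]
    exact mul_le_mul_of_nonneg_right ((F7x_r5 d0 d3 k5 k6 hm.l0.1 l1 k1 (by linarith) (key x hx).2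
      h1 h2 h3).2.1 (hx'.trans (jb_facts x).2.1)) (key x hx).1
  · obtain ⟨θ, s, h1, h2, h3, h4⟩ := hK (8 / o.δ0) x hx
    rw [h4, ← neg_mul]
    exact mul_le_mul_of_nonneg_right (F7x_r5 d0 d3 k5 k6 hm.l0.1 l1 k1 (by linarith) (key x hx).2
      h1 h2 h3).2.2 (key x hx).1

theorem F7x_mh (m : MD) {δ : ℝ} (d0 : 0 < δ) (k1 : 99 / 100 ≤ m.κ) (k2 : δ / 4 ≤ m.κh - m.κ)
    (l1 : m.l ≤ 1 / 4) (x : E) :
    m.mh x ≤ jb x ^ 2 * Real.exp (-(δ / 4 * jb x)) * m.Dm x := by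
  have t1 := (jb_facts x).1
  have tp : 0 < jb x := by linarith
  have kp : 0 < m.κ := by linarith
  have a1 : 2 / m.κh ≤ 2 / m.κ := div_le_div_of_nonneg_left (by norm_num) kp (by linarith)
  have a2 : 2 / m.κ - 1 ≤ (2 - 2 * m.l) / m.κ := by
    rw [sub_div, sub_le_sub_iff_left, div_le_one kp]; linarith
  have h1 : jb x ^ (2 / m.κh - 1) ≤ jb x ^ 2 * jb x ^ ((2 - 2 * m.l) / m.κ - 2) := by
    rw [← Real.rpow_natCast, ← Real.rpow_add tp]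
    exact Real.rpow_le_rpow_of_exponent_le t1 (by push_cast; linarith)
  have h2 : Real.exp (-(m.κh * jb x) + 0 / √(jb x)) ≤
      Real.exp (-(δ / 4 * jb x)) * Real.exp (-(m.κ * jb x) + 0 / √(jb x)) := by
    rw [← Real.exp_add]
    exact Real.exp_le_exp.2 (by nlinarith)
  calc m.mh x ≤ (jb x ^ 2 * jb x ^ ((2 - 2 * m.l) / m.κ - 2)) * (Real.exp (-(δ / 4 * jb x)) *
      Real.exp (-(m.κ * jb x) + 0 / √(jb x))) :=
        mul_le_mul h1 h2 (Real.exp_pos _).le (by positivity)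
    _ = _ := by simp only [MD.Dm, rad, radb]; ring

theorem F7x_T {δ ε : ℝ} (d0 : 0 < δ) (e0 : 0 < ε) :
    ∃ T : ℝ, 0 < T ∧ ∀ t, T ≤ t → 64 * t ^ 7 * Real.exp (-(δ / 4 * t)) ≤ ε ^ 2 := by
  refine ⟨64 * 40320 * (4 / δ) ^ 8 / ε ^ 2, by positivity, fun t ht => ?_⟩
  have tp : 0 < t := lt_of_lt_of_le (by positivity) ht
  have h1 := Real.pow_div_factorial_le_exp (δ / 4 * t) (by positivity) 8
  have h2 : ((Nat.factorial 8 : ℕ) : ℝ) = 40320 := by norm_num [Nat.factorial]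
  rw [h2] at h1
  rw [Real.exp_neg, ← div_eq_mul_inv, div_le_iff₀ (Real.exp_pos _)]
  refine le_trans ?_ (mul_le_mul_of_nonneg_left h1 (by positivity))
  rw [div_le_iff₀ (by positivity)] at ht
  have h3 : ε ^ 2 * ((δ / 4 * t) ^ 8 / 40320) = (t * ε ^ 2) * ((δ / 4) ^ 8 * t ^ 7 / 40320) := by ring
  have h4 : 64 * t ^ 7 = (64 * 40320 * (4 / δ) ^ 8) * ((δ / 4) ^ 8 * t ^ 7 / 40320) := by
    field_simp
  rw [h3, h4]
  exact mul_le_mul_of_nonneg_right ht (by positivity)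

theorem F7x_r6 {s l t ε T mh D ex : ℝ} (s0 : 0 < s) (sl : s ^ 2 = l) (t1 : 1 ≤ t) (e0 : 0 < ε)
    (T0 : 0 < T) (hs : s ≤ ε / (8 * T)) (m0 : 0 ≤ mh) (D0 : 0 ≤ D)
    (h1 : mh ≤ t ^ 2 * ex * D) (h2 : T ≤ t → 64 * t ^ 7 * ex ≤ ε ^ 2) :
    s * (4 * (t * mh)) ≤ ε / 2 * (mh + l / t ^ 3 * D) := by
  have tp : 0 < t := by linarith
  have l0 : 0 ≤ l / t ^ 3 * D := by rw [← sl]; positivity
  rcases le_total (8 * s * t) ε with h | h
  · have : 8 * s * t * mh ≤ ε * mh := mul_le_mul_of_nonneg_right h m0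
    have : 0 ≤ ε * (l / t ^ 3 * D) := by positivity
    linarith
  · have h3 : T ≤ t := by
      rw [le_div_iff₀ (by positivity)] at hs
      have : 8 * s * T ≤ 8 * s * t := by linarith
      exact le_of_mul_le_mul_left this (by positivity)
    have h4 := h2 h3
    have h5 : 8 * t ^ 6 * ex ≤ ε * s := by
      have : ε ^ 2 ≤ ε * (8 * s * t) := by nlinarith
      have h6 : 8 * t * (8 * t ^ 6 * ex) ≤ 8 * t * (ε * s) := by nlinarith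
      exact le_of_mul_le_mul_left h6 (by positivity)
    have h7 : s * (4 * (t * mh)) ≤ s * (4 * (t * (t ^ 2 * ex * D))) := by gcongr
    have h8 : s * (4 * (t * (t ^ 2 * ex * D))) = (8 * t ^ 6 * ex) * (s * D / (2 * t ^ 3)) := by
      field_simp; ring
    have h9 : (8 * t ^ 6 * ex) * (s * D / (2 * t ^ 3)) ≤ (ε * s) * (s * D / (2 * t ^ 3)) :=
      mul_le_mul_of_nonneg_right h5 (by positivity)
    have h10 : (ε * s) * (s * D / (2 * t ^ 3)) = ε / 2 * (l / t ^ 3 * D) := by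
      rw [← sl]; field_simp
    have : 0 ≤ ε / 2 * mh := by positivity
    linarith

theorem F7x_r7 {δ w : ℝ} (d0 : 0 < δ) (d1 : δ ≤ 1 / 10) (w0 : 0 ≤ w) :
    4 / δ * (8 / δ + w) ≤ 32 / δ ^ 2 * (1 + w) ∧ 1 + w ≤ 4 / δ * (1 + δ * w / 4) := by
  have a0 : 80 ≤ 8 / δ := by rw [le_div_iff₀ d0]; linarith
  constructor
  · have : 32 / δ ^ 2 * (1 + w) = 4 / δ * (8 / δ + 8 / δ * w) := by field_simp; ring
    rw [this]
    exact mul_le_mul_of_nonneg_left (by nlinarith) (by positivity)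
  · have : 4 / δ * (1 + δ * w / 4) = 8 / δ / 2 + w := by field_simp; ring
    linarith

theorem F7x_a : Lg fun o => ∀ c ε : ℝ, 0 < ε → Sm o c fun m => ∃ q : E → ℝ, ContDiff ℝ 2 q ∧
    MemLp q 2 volume ∧ (∀ x, 0 ≤ q x) ∧
      ∀ x, o.R0 ≤ ‖x‖ → m.mm x ≤ m.op o q x ∧ √m.l * q x ≤ ε * m.mm x := by
  refine ((F7x_p.and hom_bar).and F2).mono fun o ho ⟨⟨hp, hb⟩, h2⟩ c ε e0 => ?_
  obtain ⟨c2, c21, h2⟩ := h2 c
  obtain ⟨d0, d3, d1, d2⟩ := F7x_δ o ho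
  obtain ⟨T, T0, hT⟩ := F7x_T d0 e0
  refine ((((((hp c).and h2).and (num_kappa o ho c 1 one_pos)).and
    (Sm.le o c (a := 1 / 4) (by norm_num))).and (Sm.le o c
      (a := min (ε / (8 * T)) (ε * o.δ0 ^ 2 / 64) ^ 2) (by positivity))).and (Sm.le o c
        (a := 1 / ((32 / o.δ0 ^ 2 + 1) * (c2 * Real.exp (24 / o.δ0 / 10)))) (by positivity))).mono
    fun m hm ⟨⟨⟨⟨⟨⟨p1, _, p3, p4⟩, ⟨f1, _⟩⟩, hk⟩, l1⟩, l2⟩, l3⟩ => ?_
  obtain ⟨-, -, k1, k2, -, k3, -, -, k4, -⟩ := hk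
  have l0 := hm.l0.1
  have s0 : 0 < √m.l := Real.sqrt_pos.2 l0
  have s1 : √m.l ≤ min (ε / (8 * T)) (ε * o.δ0 ^ 2 / 64) := Real.sqrt_le_iff.2 ⟨by positivity, l2⟩
  have kh : 99 / 100 ≤ m.κh := by linarith
  have hr : ∀ x, rad (2 / m.κh) m.κh x = jb x * m.mh x := fun x => by
    have := (radb_facts (2 / m.κh - 1) m.κh 0 x).2.2.2.2.2 1
    rw [sub_add_cancel, Real.rpow_one] at this
    exact this
  have m0 : ∀ x, 0 < m.mh x := fun x => (radb_facts _ _ _ x).1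
  have D0 : ∀ x, 0 < m.Dm x := fun x => (radb_facts _ _ _ x).1
  have hmp : ∀ B x, m.mp B x = (B + x 2 ^ 2) * (m.Dm x / jb x ^ 3) := fun B x => by
    rw [MD.mp, F7x_E]
  have hmm : ∀ x, m.mm x = m.mh x + m.l * ((1 + x 2 ^ 2) * (m.Dm x / jb x ^ 3)) := fun x => by
    rw [MD.mm]; ring
  refine ⟨fun x => 4 * rad (2 / m.κh) m.κh x + 4 / o.δ0 * m.l * m.mp (8 / o.δ0) x,
    (contDiff_const.mul (F7x_radb2 _ _ _)).add (contDiff_const.mul (p1 _).1),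
    ((radb_memLp _ 0 (by linarith)).1.const_mul _).add ((p1 _).2.const_mul _), fun x => ?_,
    fun x hx => ?_⟩
  · have t1 := (jb_facts x).1
    have := m0 x
    have := D0 x
    simp only [hr, hmp]; positivity
  have t1 := (jb_facts x).1
  have mx := m0 x
  have Dx := D0 x
  have Ex : 0 < m.Dm x / jb x ^ 3 := by positivity
  obtain ⟨r1, r2⟩ := F7x_r7 d0 d3 (sq_nonneg (x 2))
  constructor
  · have h1 : m.op o (fun x => 4 * rad (2 / m.κh) m.κh x + 4 / o.δ0 * m.l * m.mp (8 / o.δ0) x) x =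
        4 * (-(1 / 2) * lap (rad (2 / m.κh) m.κh) x + (o.v x + m.κh ^ 2 / 2) * rad (2 / m.κh) m.κh x) +
          4 / o.δ0 * m.l * m.op o (m.mp (8 / o.δ0)) x := by
      rw [MD.op, MD.op, lap_lin (F7x_radb2 _ _ _) (p1 _).1, k3]; ring
    have h3 : m.mh x / 2 ≤ _ := (hb m.κh kh k2 x hx).2.2.1
    rw [h1, hmm]
    rcases le_total (24 / o.δ0) ‖x‖ with h | h
    · have h4 := mul_le_mul_of_nonneg_left (p3 x hx h) (show 0 ≤ 4 / o.δ0 * m.l by positivity)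
      have h5 := mul_le_mul_of_nonneg_left r2 (show 0 ≤ m.l * (m.Dm x / jb x ^ 3) by positivity)
      linarith
    · have h4 := mul_le_mul_of_nonneg_left (p4 x hx) (show 0 ≤ 4 / o.δ0 * m.l by positivity)
      have h5 := mul_le_mul_of_nonneg_left r1 (show 0 ≤ m.l * (m.Dm x / jb x ^ 3) by positivity)
      have h6 : (1 + x 2 ^ 2) * (m.Dm x / jb x ^ 3) ≤ jb x ^ 2 * m.Dm x :=
        mul_le_mul (F7x_z x).1 (div_le_self Dx.le (one_le_pow₀ t1)) Ex.le (by positivity)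
      have h7 : jb x ^ 2 * m.Dm x ≤ c2 * Real.exp (24 / o.δ0 / 10) * m.mh x := by
        have h8 := mul_le_mul_of_nonneg_left (f1 x).2 (Real.exp_pos (24 / o.δ0 / 10)).le
        have h9 : 1 ≤ Real.exp (24 / o.δ0 / 10) * Real.exp (-(‖x‖ / 10)) := by
          rw [← Real.exp_add]; exact Real.one_le_exp (by linarith)
        have := mul_le_mul_of_nonneg_right h9 (show 0 ≤ jb x ^ 2 * m.Dm x by positivity)
        linarith
      rw [le_div_iff₀ (by positivity)] at l3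
      have h10 := mul_le_mul_of_nonneg_left (h6.trans h7)
        (show 0 ≤ m.l * (32 / o.δ0 ^ 2 + 1) by positivity)
      have h11 := mul_le_mul_of_nonneg_right l3 mx.le
      linarith
  · have h1 := F7x_r6 s0 (Real.sq_sqrt l0.le) t1 e0 T0 (s1.trans (min_le_left _ _)) mx.le Dx.le
      (F7x_mh m d0 k1 k4 l1 x) (hT _)
    have h3 : √m.l * (32 / o.δ0 ^ 2) ≤ ε / 2 := by
      have := mul_le_mul_of_nonneg_right (s1.trans (min_le_right _ _))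
        (show 0 ≤ 32 / o.δ0 ^ 2 by positivity)
      refine this.trans (le_of_eq ?_)
      field_simp; ring
    have h4 := mul_le_mul_of_nonneg_left r1
      (show 0 ≤ √m.l * m.l * (m.Dm x / jb x ^ 3) by positivity)
    have h5 := mul_le_mul_of_nonneg_right h3
      (show 0 ≤ m.l * ((1 + x 2 ^ 2) * (m.Dm x / jb x ^ 3)) by positivity)
    have h6 : 0 ≤ ε / 2 * (m.l * (x 2 ^ 2 * (m.Dm x / jb x ^ 3))) := by positivity
    have h7 : 0 ≤ ε / 2 * m.mh x := by positivity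
    have h8 : m.l / jb x ^ 3 * m.Dm x = m.l * (m.Dm x / jb x ^ 3) := by ring
    rw [h8] at h1
    simp only [hr, hmp, hmm]
    linarith

theorem F7x_f {o : OD} {c Γ : ℝ} {m : MD} (hm : m.OK o c)
    (h : ∀ x ∈ Hp, x 2 * m.Dm x / Γ ≤ m.f x ∧ m.f x ≤ Γ * (x 2 * m.Dm x)) (hΓ : 1 ≤ Γ) (x : E) :
    |m.f x| ≤ Γ * (|x 2| * m.Dm x) := by
  have key : ∀ x ∈ Hp, |m.f x| ≤ Γ * (|x 2| * m.Dm x) := fun x hx => by
    have h0 : 0 ≤ x 2 := hx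
    have D0 : 0 < m.Dm x := (radb_facts _ _ _ x).1
    have : 0 ≤ x 2 * m.Dm x / Γ := by positivity
    rw [abs_of_nonneg h0, abs_of_nonneg (this.trans (h x hx).1)]
    exact (h x hx).2
  rcases le_total 0 (x 2) with h0 | h0
  · exact key x h0
  · have h1 := key (R x) (by change 0 ≤ R x 2; rw [R_two]; linarith)
    have h2 : m.Dm (R x) = m.Dm x := (radb_facts _ _ _ x).2.1
    rwa [hm.cf.2.2, R_two, abs_neg, abs_neg, h2] at h1

theorem F7x_r9 {l t a mh D : ℝ} (l0 : 0 ≤ l) (t1 : 1 ≤ t) (a0 : 0 ≤ a) (a1 : a ≤ t)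
    (m0 : 0 ≤ mh) (D0 : 0 ≤ D) :
    a / t ^ 2 * (mh + l * (1 + a) / t ^ 2 * D) ≤ 2 * (mh + l * (1 + a ^ 2) / t ^ 3 * D) ∧
    (1 + a) / t ^ 3 * (mh + l * (1 + a) / t ^ 2 * D) ≤ 2 * (mh + l * (1 + a ^ 2) / t ^ 3 * D) := by
  have tp : 0 < t := by linarith
  have u0 : 0 < 1 / t := by positivity
  have u1 : 1 / t ≤ 1 := by rw [div_le_one tp]; exact t1
  have ua : a * (1 / t) ≤ 1 := by rw [mul_one_div, div_le_one tp]; exact a1
  have i0 : (1 / t) * (1 / t) ≤ 1 := mul_le_one₀ u1 u0.le u1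
  have q0 : 0 ≤ l / t ^ 3 * D := by positivity
  have hP' : l * (1 + a ^ 2) / t ^ 3 * D = (1 + a ^ 2) * (l / t ^ 3 * D) := by ring
  have sq := sq_nonneg (a - 1)
  constructor
  · have e : a / t ^ 2 * (mh + l * (1 + a) / t ^ 2 * D) =
        (a * (1 / t) * (1 / t)) * mh + (a * (1 + a) * (1 / t)) * (l / t ^ 3 * D) := by
      field_simp
    have i1 : a * (1 / t) * (1 / t) ≤ 2 := (mul_le_one₀ ua u0.le u1).trans one_le_two
    have i2 : a * (1 + a) * (1 / t) ≤ 2 * (1 + a ^ 2) :=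
      (mul_le_of_le_one_right (by positivity) u1).trans (by linarith [sq_nonneg a])
    have := mul_le_mul_of_nonneg_right i1 m0
    have := mul_le_mul_of_nonneg_right i2 q0
    rw [e, hP']; linarith
  · have e : (1 + a) / t ^ 3 * (mh + l * (1 + a) / t ^ 2 * D) =
        ((1 / t + a * (1 / t)) * ((1 / t) * (1 / t))) * mh +
          ((1 + a) ^ 2 * ((1 / t) * (1 / t))) * (l / t ^ 3 * D) := by
      field_simp
    have i1 : (1 / t + a * (1 / t)) * ((1 / t) * (1 / t)) ≤ 2 :=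
      (mul_le_of_le_one_right (by positivity) i0).trans (by linarith)
    have i2 : (1 + a) ^ 2 * ((1 / t) * (1 / t)) ≤ 2 * (1 + a ^ 2) :=
      (mul_le_of_le_one_right (by positivity) i0).trans (by linarith)
    have := mul_le_mul_of_nonneg_right i1 m0
    have := mul_le_mul_of_nonneg_right i2 q0
    rw [e, hP']; linarith

theorem F7x_r10 {l Γ c2 t a mh D f e8 e10 : ℝ} (l0 : 0 ≤ l)
    (Γ0 : 0 ≤ Γ) (c20 : 0 ≤ c2) (t1 : 1 ≤ t) (a0 : 0 ≤ a) (a1 : a ≤ t)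
    (m0 : 0 ≤ mh) (D0 : 0 ≤ D) (e0 : 0 ≤ e8) (e1 : e8 ≤ e10)
    (hf : f ≤ Γ * (a * D)) (h2 : t ^ 2 * e10 * D ≤ c2 * mh) :
    e8 * f ≤ Γ * c2 * (mh + l * (1 + a ^ 2) / t ^ 3 * D) ∧
      l * ((1 + a) / t ^ 3 * f) ≤ 2 * Γ * (mh + l * (1 + a ^ 2) / t ^ 3 * D) := by
  have hP : 0 ≤ l * (1 + a ^ 2) / t ^ 3 * D := by positivity
  constructor
  · have : a ≤ t ^ 2 := by nlinarith
    have := e0.trans e1
    calc e8 * f ≤ e8 * (Γ * (a * D)) := mul_le_mul_of_nonneg_left hf e0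
      _ ≤ e10 * (Γ * (t ^ 2 * D)) := by gcongr
      _ = Γ * (t ^ 2 * e10 * D) := by ring
      _ ≤ Γ * (c2 * mh) := by gcongr
      _ ≤ Γ * (c2 * (mh + l * (1 + a ^ 2) / t ^ 3 * D)) := by gcongr; linarith
      _ = _ := by ring
  · have i2 : (1 + a) * a ≤ 2 * (1 + a ^ 2) := by linarith [sq_nonneg (a - 1), sq_nonneg a]
    calc l * ((1 + a) / t ^ 3 * f) ≤ l * ((1 + a) / t ^ 3 * (Γ * (a * D))) := by gcongr
      _ = Γ * (((1 + a) * a) * (l / t ^ 3 * D)) := by ring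
      _ ≤ Γ * ((2 * (1 + a ^ 2)) * (l / t ^ 3 * D)) := by gcongr
      _ = 2 * Γ * (l * (1 + a ^ 2) / t ^ 3 * D) := by ring
      _ ≤ _ := by gcongr; linarith

theorem F7x_r8 {l s c Γ c2 c4 t a mh D f n e8 e10 : ℝ} (s0 : 0 < s) (sl : s ^ 2 = l) (l1 : l ≤ 1)
    (c0 : 0 ≤ c) (Γ1 : 1 ≤ Γ) (c21 : 1 ≤ c2) (c41 : 1 ≤ c4) (t1 : 1 ≤ t) (a0 : 0 ≤ a) (a1 : a ≤ t)
    (m0 : 0 ≤ mh) (D0 : 0 ≤ D) (e0 : 0 ≤ e8) (e1 : e8 ≤ e10)
    (hf : f ≤ Γ * (a * D)) (hn : n ≤ c4 * (mh + l * (1 + a) / t ^ 2 * D))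
    (h2 : t ^ 2 * e10 * D ≤ c2 * mh) :
    l * (c * e8) * f + c * l * a / t ^ 2 * n + c * l * ((1 + a) / t ^ 3 * (n + s * f)) ≤
      (1 + c * (Γ * c2 + 4 * c4 + 2 * Γ)) * s * (mh + l * (1 + a ^ 2) / t ^ 3 * D) := by
  have s1 : s ≤ 1 := by nlinarith
  have l0 : 0 < l := by rw [← sl]; positivity
  have ls : l ≤ s := by nlinarith
  obtain ⟨b2, b3⟩ := F7x_r9 l0.le t1 a0 a1 m0 D0
  obtain ⟨b1, b4⟩ := F7x_r10 l0.le (by linarith) (by linarith) t1 a0 a1 m0 D0 e0 e1 hf h2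
  have M0 : 0 ≤ mh + l * (1 + a ^ 2) / t ^ 3 * D := by positivity
  generalize mh + l * (1 + a ^ 2) / t ^ 3 * D = M at *
  generalize mh + l * (1 + a) / t ^ 2 * D = N at *
  have b2' : a / t ^ 2 * n ≤ c4 * (2 * M) :=
    calc a / t ^ 2 * n ≤ a / t ^ 2 * (c4 * N) := by gcongr
      _ = c4 * (a / t ^ 2 * N) := by ring
      _ ≤ _ := by gcongr
  have b3' : (1 + a) / t ^ 3 * n ≤ c4 * (2 * M) :=
    calc (1 + a) / t ^ 3 * n ≤ (1 + a) / t ^ 3 * (c4 * N) := by gcongr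
      _ = c4 * ((1 + a) / t ^ 3 * N) := by ring
      _ ≤ _ := by gcongr
  have w1 : c * l * (e8 * f + a / t ^ 2 * n + (1 + a) / t ^ 3 * n) ≤
      c * s * (Γ * c2 * M + c4 * (2 * M) + c4 * (2 * M)) :=
    calc _ ≤ c * l * (Γ * c2 * M + c4 * (2 * M) + c4 * (2 * M)) := by gcongr
      _ ≤ _ := by gcongr
  have w2 := mul_le_mul_of_nonneg_left b4 (show 0 ≤ c * s by positivity)
  have w3 : 0 ≤ s * M := by positivity
  calc _ = c * l * (e8 * f + a / t ^ 2 * n + (1 + a) / t ^ 3 * n) +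
        c * s * (l * ((1 + a) / t ^ 3 * f)) := by ring
    _ ≤ c * s * (Γ * c2 * M + c4 * (2 * M) + c4 * (2 * M)) + c * s * (2 * Γ * M) := add_le_add w1 w2
    _ ≤ _ := by linarith

theorem F7x_e : Lg fun o => ∀ c, ∃ c7 : ℝ, 1 ≤ c7 ∧ Sm o c fun m => ∀ᵐ x,
    m.l * (c * Real.exp (-(‖x‖ / 8))) * |m.f x| + c * m.l * |x 2| / jb x ^ 2 * m.n x +
      c * m.l * ((1 + |x 2|) / jb x ^ 3 * (m.n x + √m.l * |m.f x|)) ≤ c7 * √m.l * m.mm x := by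
  refine ((F2.and F4).and F5a).mono fun o ho ⟨⟨h2, h4⟩, h5⟩ c => ?_
  obtain ⟨c2, c21, h2⟩ := h2 c
  obtain ⟨c4, c41, h4⟩ := h4 c
  obtain ⟨Γ, Γ1, h5⟩ := h5 c
  refine ⟨1 + |c| * (Γ * c2 + 4 * c4 + 2 * Γ), le_add_of_nonneg_right (by positivity),
    ((h2.and h4).and h5).mono fun m hm ⟨⟨⟨f1, _⟩, f4⟩, f5, _⟩ => ?_⟩
  have c0 : 0 ≤ c := (hm.w_bd 0).1.trans (hm.w_bd 0).2.1
  rw [abs_of_nonneg c0]
  filter_upwards [f4, hm.pyth] with x h4 hp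
  obtain ⟨-, n1, n2, n3, -⟩ := hm.nn x
  have hn : m.n x ≤ m.g x := by
    refine (abs_le_of_sq_le_sq' ?_ n3).2
    linarith [hp.1, sq_nonneg (m.G x)]
  have := F7x_r8 (Real.sqrt_pos.2 hm.l0.1) (Real.sq_sqrt hm.l0.1.le) hm.l0.2 c0 Γ1 c21 c41
    (jb_facts x).1 (abs_nonneg (x 2)) (F7x_z x).2.2 (mh := m.mh x) (radb_facts _ _ _ x).1.le
    (D := m.Dm x) (radb_facts _ _ _ x).1.le (Real.exp_pos (-(‖x‖ / 8))).le
    (Real.exp_le_exp.2 (show -(‖x‖ / 8) ≤ -(‖x‖ / 10) by linarith [norm_nonneg x]))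
    (F7x_f hm f5 Γ1 x) (hn.trans h4) (f1 x).2
  rwa [sq_abs] at this

end

end Crest.Agent.R335
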