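import Crest.Agent.R335.F0b

set_option autoImplicit false

open MeasureTheory Set Filter Topology Metric
open scoped Gradient ContDiff RealInnerProductSpace ENNReal

namespace Crest.Agent.R335

noncomputable section

theorem F9a_abs_two (x : E) : |x 2| ≤ ‖x‖ := by
  simpa using PiLp.norm_apply_le x 2

theorem F9a_cmp : ∃ C : ℝ, 1 ≤ C ∧ ∀ a k : ℝ, |a| ≤ 5 → 0 ≤ k → k ≤ 11 / 10 → ∀ x y,
    rad a k y ≤ C * Real.exp (2 * ‖y - x‖) * rad a k x := by
  obtain ⟨C, C0, h⟩ := rad_cmp 5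
  refine ⟨C + 1, by linarith, fun a k ha k0 k1 x y => (h a k ha k0 x y).trans ?_⟩
  have h1 := (radb_facts a k 0 x).1
  have h2 : (k + 1 / 4) * ‖y - x‖ ≤ 2 * ‖y - x‖ :=
    mul_le_mul_of_nonneg_right (by linarith) (norm_nonneg _)
  have h3 := Real.exp_le_exp.2 h2
  have h4 := Real.exp_pos ((k + 1 / 4) * ‖y - x‖)
  refine mul_le_mul_of_nonneg_right ?_ h1.le
  exact mul_le_mul (by linarith) h3 h4.le (by linarith)

theorem F9a_rad01 (x : E) : rad 0 1 x = Real.exp (-jb x) := by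
  simp [rad, radb]

theorem F9a_up : ∃ I : ℝ, 0 < I ∧ ∀ (h : E → ℝ) (x : E) (M : ℝ), 0 ≤ M →
    AEStronglyMeasurable h volume → (∀ᵐ y, |h y| ≤ M * Real.exp (3 * ‖y - x‖)) →
    Integrable (fun y => Real.exp (-(4 * jb (x - y))) * h y) ∧
      ∫ y, Real.exp (-(4 * jb (x - y))) * h y ≤ I * M := by
  have hi : Integrable (rad 0 1) := (radb_memLp 0 0 one_pos).2.1
  have h0 : 0 ≤ ∫ y, rad 0 1 y := integral_nonneg fun y => (radb_facts 0 1 0 y).1.le
  refine ⟨(∫ y, rad 0 1 y) + 1, by linarith, fun h x M hM hm hb => ?_⟩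
  have h1 : Integrable (fun y => M * rad 0 1 (x - y)) := (hi.comp_sub_left x).const_mul M
  have hc : Continuous fun y => Real.exp (-(4 * jb (x - y))) := by
    have := jb_smooth.continuous
    fun_prop
  have h2 : ∀ᵐ y, ‖Real.exp (-(4 * jb (x - y))) * h y‖ ≤ M * rad 0 1 (x - y) := by
    filter_upwards [hb] with y hy
    rw [norm_mul, Real.norm_of_nonneg (Real.exp_pos _).le, Real.norm_eq_abs, F9a_rad01]
    refine (mul_le_mul_of_nonneg_left hy (Real.exp_pos _).le).trans ?_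
    rw [mul_left_comm, ← Real.exp_add]
    refine mul_le_mul_of_nonneg_left (Real.exp_le_exp.2 ?_) hM
    have := (jb_facts (x - y)).2.1
    rw [norm_sub_rev] at this
    linarith
  refine ⟨h1.mono' (hc.aestronglyMeasurable.mul hm) h2, ?_⟩
  refine (Real.le_norm_self _).trans ((norm_integral_le_of_norm_le h1 h2).trans ?_)
  rw [integral_const_mul, integral_sub_left_eq_self (rad 0 1) volume x]
  nlinarith

theorem F9a_low : ∃ v : ℝ, 0 < v ∧ ∀ (h : E → ℝ) (x x' : E) (b : ℝ), ‖x' - x‖ ≤ 1 → 0 ≤ b →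
    Integrable (fun y => Real.exp (-(4 * jb (x - y))) * h y) → (∀ y, 0 ≤ h y) →
    (∀ y, ‖y - x'‖ < 1 / 2 → b ≤ h y) → v * b ≤ ∫ y, Real.exp (-(4 * jb (x - y))) * h y := by
  have hv : 0 < volume.real (ball (0 : E) (1 / 2)) :=
    ENNReal.toReal_pos (measure_ball_pos _ _ (by norm_num)).ne' measure_ball_lt_top.ne
  refine ⟨volume.real (ball (0 : E) (1 / 2)) * Real.exp (-10), by positivity,
    fun h x x' b hx hb hi h0 hl => ?_⟩
  have h1 : Integrable ((ball x' (1 / 2)).indicator fun _ : E => Real.exp (-10) * b) :=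
    (integrable_indicator_iff measurableSet_ball).2 (integrableOn_const measure_ball_lt_top.ne)
  have h2 := integral_mono h1 hi fun y => by
    by_cases hy : y ∈ ball x' (1 / 2)
    · rw [indicator_of_mem hy]
      have hy' : ‖y - x'‖ < 1 / 2 := by rwa [mem_ball, dist_eq_norm] at hy
      have a1 := (jb_facts (x - y)).2.2.1
      have a2 : ‖x - y‖ ≤ ‖x' - x‖ + ‖y - x'‖ := by
        rw [norm_sub_rev x y, add_comm]
        exact norm_sub_le_norm_sub_add_norm_sub _ _ _
      exact mul_le_mul (Real.exp_le_exp.2 (by linarith)) (hl y hy') hb (Real.exp_pos _).le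
    · rw [indicator_of_notMem hy]
      exact mul_nonneg (Real.exp_pos _).le (h0 y)
  rw [integral_indicator_const _ measurableSet_ball, Measure.addHaar_real_ball_center,
    smul_eq_mul] at h2
  rw [mul_assoc]
  exact h2

theorem F9a_core (K r : ℝ) : ∃ ρ : ℝ, ∀ a k : ℝ, |a| ≤ 5 → 0 ≤ k → k ≤ 11 / 10 →
    ∀ x y : E, ρ ≤ ‖x‖ → ‖y‖ ≤ r → K ≤ Real.exp (3 * ‖y - x‖) * rad a k x := by
  obtain ⟨C, C1, h⟩ := F9a_cmp
  refine ⟨3 * r + 2 + |K| * C, fun a k ha k0 k1 x y hx hy => ?_⟩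
  have h1 := h a k ha k0 k1 x 0
  have h2 : rad a k 0 = Real.exp (-k) := by simp [rad, radb, jb]
  rw [h2, zero_sub, norm_neg] at h1
  have hp := (radb_facts a k 0 x).1
  have h3 : ‖x‖ ≤ ‖y - x‖ + ‖y‖ := by
    have := norm_sub_norm_le x y
    rw [norm_sub_rev] at this
    linarith
  have h4 : |K| * C ≤ Real.exp (|K| * C) := by linarith [Real.add_one_le_exp (|K| * C)]
  have h5 : Real.exp (|K| * C) * Real.exp k * Real.exp (2 * ‖x‖) ≤ Real.exp (3 * ‖y - x‖) := by
    rw [← Real.exp_add, ← Real.exp_add]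
    exact Real.exp_le_exp.2 (by linarith)
  have h6 : 1 ≤ Real.exp k * (C * Real.exp (2 * ‖x‖) * rad a k x) := by
    have := mul_le_mul_of_nonneg_left h1 (Real.exp_pos k).le
    rwa [← Real.exp_add, add_neg_cancel, Real.exp_zero] at this
  calc K ≤ |K| := le_abs_self K
    _ ≤ |K| * (Real.exp k * (C * Real.exp (2 * ‖x‖) * rad a k x)) :=
      le_mul_of_one_le_right (abs_nonneg K) h6
    _ = |K| * C * Real.exp k * Real.exp (2 * ‖x‖) * rad a k x := by ring
    _ ≤ Real.exp (|K| * C) * Real.exp k * Real.exp (2 * ‖x‖) * rad a k x := by gcongr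
    _ ≤ _ := mul_le_mul_of_nonneg_right h5 hp.le

theorem F9a_int {f : E → ℝ} {K : ℝ} (hf : Continuous f) (hK : ∀ y, |f y| ≤ K) (x : E) :
    Integrable (fun y => Real.exp (-(4 * jb (x - y))) * (|y 2| * |f y|)) ∧
    Integrable (fun y => Real.exp (-(4 * ‖x - y‖)) * (|y 2| * |f y|)) ∧
    ∫ y, Real.exp (-(4 * jb (x - y))) * (|y 2| * |f y|) ≤
      ∫ y, Real.exp (-(4 * ‖x - y‖)) * (|y 2| * |f y|) := by
  obtain ⟨I, -, hI⟩ := F9a_up
  have K0 : 0 ≤ K := (abs_nonneg _).trans (hK 0)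
  have hc : Continuous fun y : E => |y 2| * |f y| := by fun_prop
  have h1 := (hI (fun y => |y 2| * |f y|) x ((‖x‖ + 1) * K) (by positivity)
    hc.aestronglyMeasurable (Eventually.of_forall fun y => by
      rw [abs_mul, abs_abs, abs_abs]
      have a1 := F9a_abs_two y
      have a2 : ‖y‖ ≤ ‖y - x‖ + ‖x‖ := by linarith [norm_sub_norm_le y x]
      have a3 := Real.add_one_le_exp (3 * ‖y - x‖)
      have a4 := norm_nonneg (y - x)
      have a5 := norm_nonneg x
      have a6 : |y 2| ≤ (‖x‖ + 1) * Real.exp (3 * ‖y - x‖) := by nlinarith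
      calc |y 2| * |f y| ≤ (‖x‖ + 1) * Real.exp (3 * ‖y - x‖) * K :=
            mul_le_mul a6 (hK y) (abs_nonneg _) (by positivity)
        _ = _ := by ring)).1
  have h2 : Integrable (fun y => Real.exp (-(4 * ‖x - y‖)) * (|y 2| * |f y|)) := by
    refine (h1.const_mul (Real.exp 4)).mono' (by fun_prop) (Eventually.of_forall fun y => ?_)
    rw [Real.norm_of_nonneg (by positivity), ← mul_assoc (Real.exp 4), ← Real.exp_add]
    refine mul_le_mul_of_nonneg_right (Real.exp_le_exp.2 ?_) (by positivity)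
    linarith [(jb_facts (x - y)).2.2.1]
  refine ⟨h1, h2, integral_mono h1 h2 fun y => ?_⟩
  refine mul_le_mul_of_nonneg_right (Real.exp_le_exp.2 ?_) (by positivity)
  linarith [(jb_facts (x - y)).2.1]

theorem F9a_exp_int : Integrable fun y : E => Real.exp (-(4 * ‖y‖)) := by
  have hi : Integrable (rad 0 1) := (radb_memLp 0 0 one_pos).2.1
  refine (hi.const_mul (Real.exp 1)).mono' (by fun_prop) (Eventually.of_forall fun y => ?_)
  rw [Real.norm_of_nonneg (Real.exp_pos _).le, F9a_rad01, ← Real.exp_add]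
  refine Real.exp_le_exp.2 ?_
  linarith [(jb_facts y).2.2.1, norm_nonneg y]

theorem F9a_slab : ∃ C : ℝ, 0 < C ∧ ∀ (y : E) (s : ℝ), 0 < s →
    Integrable ({y' : E | |y' 2| < s}.indicator fun y' => Real.exp (-(4 * ‖y - y'‖))) ∧
    ∫ y', {y' : E | |y' 2| < s}.indicator (fun y' => Real.exp (-(4 * ‖y - y'‖))) y' ≤ C * s := by
  have hi := F9a_exp_int
  have h0 : 0 ≤ ∫ y : E, Real.exp (-(4 * ‖y‖)) := integral_nonneg fun y => (Real.exp_pos _).le
  refine ⟨Real.exp 4 * (∫ y : E, Real.exp (-(4 * ‖y‖))) + 1, by positivity, fun y s hs => ?_⟩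
  have hm : ∀ s : ℝ, MeasurableSet {y' : E | |y' 2| < s} := fun s =>
    (isOpen_lt (by fun_prop) continuous_const).measurableSet
  have h1 : Integrable ({y' : E | |y' 2| < s}.indicator fun y' => Real.exp (-(4 * ‖y - y'‖))) :=
    (hi.comp_sub_left y).indicator (hm s)
  refine ⟨h1, ?_⟩
  rw [slab_fubini h1]
  set B : ℝ := Real.exp 4 * ∫ y : E, Real.exp (-(4 * ‖y‖)) with hB
  have B0 : 0 ≤ B := by positivity
  have h2 : Integrable ((Ioo (-s) s).indicator fun _ : ℝ => 1 / 2 * B) :=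
    (integrable_indicator_iff measurableSet_Ioo).2 (integrableOn_const measure_Ioo_lt_top.ne)
  have h3 := integral_mono_of_nonneg (f := fun σ : ℝ => (1 / 2) * ∫ x in {x : E | |x 2| < 1},
      {y' : E | |y' 2| < s}.indicator (fun y' => Real.exp (-(4 * ‖y - y'‖))) (hor x + σ • ez))
    (Eventually.of_forall fun σ => mul_nonneg (by norm_num) (integral_nonneg fun x =>
      indicator_nonneg (fun _ _ => (Real.exp_pos _).le) _)) h2 (Eventually.of_forall fun σ => by
      have e : ∀ x : E, (hor x + σ • ez) 2 = σ := fun x => by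
        simp [F0d.hor_two, S07.ez_two]
      by_cases hσ : σ ∈ Ioo (-s) s
      · rw [indicator_of_mem hσ]
        refine mul_le_mul_of_nonneg_left ?_ (by norm_num)
        have hj : Integrable fun x : E => Real.exp 4 * Real.exp (-(4 * ‖hor y - x‖)) :=
          (hi.comp_sub_left (hor y)).const_mul _
        calc _ ≤ ∫ x in {x : E | |x 2| < 1}, Real.exp 4 * Real.exp (-(4 * ‖hor y - x‖)) := by
              refine integral_mono_of_nonneg (Eventually.of_forall fun x =>
                indicator_nonneg (fun _ _ => (Real.exp_pos _).le) _) hj.integrableOn ?_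
              refine (ae_restrict_iff' (hm 1)).2 (Eventually.of_forall fun x hx => ?_)
              refine (indicator_le_self' (fun _ _ => (Real.exp_pos _).le) _).trans ?_
              beta_reduce
              rw [← Real.exp_add]
              refine Real.exp_le_exp.2 ?_
              have a1 := F0d.norm_hor_le (y - (hor x + σ • ez))
              have a2 : hor (y - (hor x + σ • ez)) = hor y - hor x := by
                rw [F0d.hor_sub]
                congr 1
                rw [hor, e, add_sub_cancel_right]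
              have a3 : hor y - x = hor y - hor x - x 2 • ez := by
                rw [hor.eq_def x]
                abel
              have a4 := norm_sub_le (hor y - hor x) (x 2 • ez)
              rw [← a3, F0d.norm_smul_ez] at a4
              have a5 : |x 2| < 1 := hx
              rw [a2] at a1
              linarith
          _ ≤ ∫ x, Real.exp 4 * Real.exp (-(4 * ‖hor y - x‖)) :=
              setIntegral_le_integral hj (Eventually.of_forall fun x => by positivity)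
          _ = B := by
              rw [integral_const_mul, integral_sub_left_eq_self
                (fun x : E => Real.exp (-(4 * ‖x‖))) volume (hor y)]
      · rw [indicator_of_notMem hσ]
        have : ∀ x : E, {y' : E | |y' 2| < s}.indicator
            (fun y' => Real.exp (-(4 * ‖y - y'‖))) (hor x + σ • ez) = 0 := fun x =>
          indicator_of_notMem (by
            intro h
            have h' : |(hor x + σ • ez) 2| < s := h
            rw [e, abs_lt] at h'
            exact hσ h') _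
        simp [this])
  refine h3.trans ?_
  rw [integral_indicator_const _ measurableSet_Ioo, Real.volume_real_Ioo_of_le (by linarith),
    smul_eq_mul]
  nlinarith

theorem F9a_Yk (a b : ℝ) (u : E) :
    0 ≤ Yk a u ∧ Yk (a + b) u = Yk a u * Real.exp (-(b * ‖u‖)) := by
  have := Real.pi_pos
  unfold Yk
  refine ⟨by positivity, ?_⟩
  rw [div_mul_eq_mul_div, ← Real.exp_add]
  congr 2
  ring

theorem F9a_pt {Y e Q G M J F T z s σ σ' S : ℝ} (hY : 0 ≤ Y) (he : 0 < e) (he1 : e ≤ 1)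
    (hG : 0 < G) (hJ : 0 ≤ J) (hF : 0 ≤ F) (hT : 0 ≤ T) (hz : 0 ≤ z) (hs : 0 < s) (hM : 0 ≤ M)
    (h1 : e ^ 2 * G ≤ Q) (h2 : F ≤ M * G) (hσ : e ^ 2 ≤ Q * σ') (hσ0 : 0 ≤ σ) (hσ' : 0 ≤ σ')
    (h3 : z < s → σ = e ^ 2) (hS : S ≤ 36 * F + G * (J * (1 + T))) :
    Y * e * e ^ 2 * S ≤ Q * (M / 4 * Y ^ 2 + 1296 * M * σ + 1296 / s * (σ' * (z * F)) +
      J * (Y * e) + J * (Y * e * T)) := by
  have Q0 : 0 ≤ Q := le_trans (by positivity) h1
  have a1 : Y * e * e ^ 2 * S ≤ Y * e * e ^ 2 * (36 * F + G * (J * (1 + T))) :=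
    mul_le_mul_of_nonneg_left hS (by positivity)
  have a2 : Y * e * (J * (1 + T)) * (e ^ 2 * G) ≤ Y * e * (J * (1 + T)) * Q :=
    mul_le_mul_of_nonneg_left h1 (by positivity)
  have a3 : 36 * (Y * e) ≤ Y ^ 2 / 4 + 1296 * e ^ 2 := by nlinarith [sq_nonneg (Y - 72 * e)]
  have a4 : 36 * (Y * e) * (e ^ 2 * F) ≤ (Y ^ 2 / 4 + 1296 * e ^ 2) * (e ^ 2 * F) :=
    mul_le_mul_of_nonneg_right a3 (by positivity)
  have a5 : e ^ 2 * F ≤ M * Q :=
    calc e ^ 2 * F ≤ e ^ 2 * (M * G) := mul_le_mul_of_nonneg_left h2 (by positivity)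
      _ = M * (e ^ 2 * G) := by ring
      _ ≤ M * Q := mul_le_mul_of_nonneg_left h1 hM
  have a6 : Y ^ 2 / 4 * (e ^ 2 * F) ≤ Y ^ 2 / 4 * (M * Q) :=
    mul_le_mul_of_nonneg_left a5 (by positivity)
  have a7 : e ^ 2 * (e ^ 2 * F) ≤ Q * (M * σ) + Q * (1 / s * (σ' * (z * F))) := by
    rcases lt_or_ge z s with h | h
    · have b1 : e ^ 2 * (e ^ 2 * F) ≤ e ^ 2 * (M * Q) :=
        mul_le_mul_of_nonneg_left a5 (by positivity)
      have b2 : 0 ≤ Q * (1 / s * (σ' * (z * F))) := by positivity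
      rw [h3 h]
      linarith
    · have b1 : e ^ 2 * (e ^ 2 * F) ≤ e ^ 2 * F :=
        mul_le_of_le_one_left (by positivity) (pow_le_one₀ he.le he1)
      have b2 : e ^ 2 * F ≤ Q * σ' * F := mul_le_mul_of_nonneg_right hσ hF
      have b3 : 1 ≤ z / s := (one_le_div hs).2 h
      have b4 : Q * σ' * F ≤ Q * σ' * F * (z / s) := le_mul_of_one_le_right (by positivity) b3
      have b5 : Q * σ' * F * (z / s) = Q * (1 / s * (σ' * (z * F))) := by ring
      have b6 : 0 ≤ Q * (M * σ) := by positivity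
      linarith
  have a8 : Q * (1296 / s * (σ' * (z * F))) = 1296 * (Q * (1 / s * (σ' * (z * F)))) := by ring
  nlinarith

theorem F9a_sup : ∃ C : ℝ, 0 < C ∧ ∀ (f S T : E → ℝ) (x : E) (K J : ℝ), Continuous f →
    (∀ y, |f y| ≤ K) → (∀ y, f y = YP 8 S y) → MemLp T 2 volume → nsq T ≤ 1 → (∀ y, 0 ≤ T y) →
    ∫ y, Real.exp (-(4 * ‖x - y‖)) * (|y 2| * |f y|) ≤ J →
    (∀ᵐ y, |S y| ≤ 36 * |f y| + Real.exp (4 * ‖y - x‖) * (J * (1 + T y))) →
    ∀ y, |f y| ≤ C * Real.exp (4 * ‖y - x‖) * J := by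
  obtain ⟨C, C0, hC⟩ := F9a_slab
  set s : ℝ := 1 / (5184 * C) with hs
  have s0 : 0 < s := by positivity
  have hpi := Real.pi_gt_three
  refine ⟨2 * (1296 / s + 2), by positivity, fun f S T x K J hf hK hS hT hT1 hT0 hJ hb => ?_⟩
  have J0 : 0 ≤ J := le_trans (integral_nonneg fun y => by positivity) hJ
  have hbd : BddAbove (range fun y => Real.exp (-(4 * ‖y - x‖)) * |f y|) := by
    refine ⟨K, ?_⟩
    rintro _ ⟨y, rfl⟩
    refine (mul_le_of_le_one_left (abs_nonneg _) (Real.exp_le_one_iff.2 ?_)).trans (hK y)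
    linarith [norm_nonneg (y - x)]
  set M : ℝ := ⨆ y, Real.exp (-(4 * ‖y - x‖)) * |f y| with hM
  have hle : ∀ y, Real.exp (-(4 * ‖y - x‖)) * |f y| ≤ M := fun y => le_ciSup hbd y
  have M0 : 0 ≤ M := le_trans (by positivity) (hle 0)
  have hle' : ∀ y, |f y| ≤ M * Real.exp (4 * ‖y - x‖) := fun y => by
    have := mul_le_mul_of_nonneg_right (hle y) (Real.exp_pos (4 * ‖y - x‖)).le
    rwa [mul_right_comm, ← Real.exp_add, neg_add_cancel, Real.exp_zero, one_mul] at this
  obtain ⟨y2, -, y3, -⟩ := Yk_memLp (k := 2) two_pos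
  obtain ⟨-, y4, -, y5⟩ := Yk_memLp (k := 4) (by norm_num)
  have key : ∀ y, |f y| ≤ Real.exp (4 * ‖y - x‖) * (M / 2 + (1296 / s + 2) * J) := by
    intro y
    have i1 : Integrable fun y' => Yk 2 (y - y') ^ 2 := y2.integrable_sq.comp_sub_left y
    obtain ⟨i2, j2⟩ := hC y s s0
    have i3 := (F9a_int hf hK x).2.1
    have i4 : Integrable fun y' => Yk 4 (y - y') := y4.comp_sub_left y
    obtain ⟨i5, j5⟩ := YP_integrable (k := 4) (by norm_num) hT y
    have j1 : ∫ y', Yk 2 (y - y') ^ 2 ≤ 1 := by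
      rw [integral_sub_left_eq_self (fun u => Yk 2 u ^ 2) volume y, y3, div_le_one (by positivity)]
      linarith
    have j4 : ∫ y', Yk 4 (y - y') ≤ 1 := by
      rw [integral_sub_left_eq_self (Yk 4) volume y, y5]
      norm_num
    have j5' : ∫ y', Yk 4 (y - y') * T y' ≤ 1 := by
      refine (abs_le_of_sq_le_sq' (j5.trans ?_) zero_le_one).2
      rw [div_le_iff₀ (by positivity)]
      linarith
    have k1 := i1.const_mul (M / 4)
    have k2 := i2.const_mul (1296 * M)
    have k3 := i3.const_mul (1296 / s)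
    have k4 := i4.const_mul J
    have k5 := i5.const_mul J
    have hH := ((((k1.add k2).add k3).add k4).add k5).const_mul (Real.exp (4 * ‖y - x‖))
    have hn := norm_integral_le_of_norm_le (f := fun y' => Yk 8 (y - y') * S y') hH (by
      filter_upwards [hb] with y' hy'
      have e1 := F9a_Yk 2 2 (y - y')
      have e2 := F9a_Yk 4 4 (y - y')
      have e3 : Real.exp (-(4 * ‖y - y'‖)) = Real.exp (-(2 * ‖y - y'‖)) ^ 2 := by
        rw [← Real.exp_nat_mul]
        congr 1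
        push_cast
        ring
      rw [show (2 : ℝ) + 2 = 4 by norm_num] at e1
      rw [show (4 : ℝ) + 4 = 8 by norm_num] at e2
      have t1 : ‖y' - x‖ ≤ ‖y - y'‖ + ‖y - x‖ := by
        rw [norm_sub_rev y y']
        exact norm_sub_le_norm_sub_add_norm_sub _ _ _
      rw [norm_mul, Real.norm_of_nonneg (F9a_Yk 8 0 _).1, Real.norm_eq_abs, e2.2, e3]
      simp only [Pi.add_apply]
      rw [e1.2]
      refine F9a_pt e1.1 (Real.exp_pos _) (Real.exp_le_one_iff.2 (by
        linarith [norm_nonneg (y - y')])) (Real.exp_pos _) J0 (abs_nonneg _) (hT0 y') (abs_nonneg _)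
        s0 M0 ?_ (hle' y') ?_ (indicator_nonneg (fun _ _ => (Real.exp_pos _).le) _)
        (Real.exp_pos _).le (fun h => ?_) hy'
      · rw [← e3, ← Real.exp_add]
        exact Real.exp_le_exp.2 (by linarith)
      · rw [← e3, ← Real.exp_add, norm_sub_rev x y']
        exact Real.exp_le_exp.2 (by linarith)
      · rw [← e3]
        exact indicator_of_mem (s := {y' : E | |y' 2| < s}) h _)
    rw [hS y]
    refine hn.trans ?_
    rw [integral_const_mul]
    refine mul_le_mul_of_nonneg_left ?_ (Real.exp_pos _).le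
    rw [integral_add' (((k1.add k2).add k3).add k4) k5, integral_add' ((k1.add k2).add k3) k4,
      integral_add' (k1.add k2) k3, integral_add' k1 k2]
    simp only [integral_const_mul]
    have l1 := mul_le_mul_of_nonneg_left j1 (show 0 ≤ M / 4 by positivity)
    have l2 := mul_le_mul_of_nonneg_left j2 (show 0 ≤ 1296 * M by positivity)
    have l3 := mul_le_mul_of_nonneg_left hJ (show 0 ≤ 1296 / s by positivity)
    have l4 := mul_le_mul_of_nonneg_left j4 J0
    have l5 := mul_le_mul_of_nonneg_left j5' J0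
    have l6 : 1296 * M * (C * s) = M / 4 := by
      rw [hs]
      field_simp
      ring
    linarith
  have hM' : M ≤ M / 2 + (1296 / s + 2) * J := ciSup_le fun y => by
    have := mul_le_mul_of_nonneg_left (key y) (Real.exp_pos (-(4 * ‖y - x‖))).le
    rwa [← mul_assoc, ← Real.exp_add, neg_add_cancel, Real.exp_zero, one_mul] at this
  intro y
  refine (hle' y).trans ?_
  rw [mul_right_comm]
  exact mul_le_mul_of_nonneg_right (by linarith) (Real.exp_pos _).le

theorem F9a_mm (m : MD) (x : E) :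
    m.mm x = m.mh x + m.l * (1 + x 2 ^ 2) * rad ((2 - 2 * m.l) / m.κ - 2 + -3) m.κ x := by
  have hp : 0 < jb x := by linarith [(jb_facts x).1]
  have h := (radb_facts ((2 - 2 * m.l) / m.κ - 2) m.κ 0 x).2.2.2.2.2 (-3)
  have e : jb x ^ (-3 : ℝ) = (jb x ^ 3)⁻¹ := by
    rw [Real.rpow_neg hp.le]
    norm_cast
  rw [e] at h
  rw [rad, h]
  change m.mh x + m.l * (1 + x 2 ^ 2) / jb x ^ 3 * radb ((2 - 2 * m.l) / m.κ - 2) m.κ 0 x = _
  ring

theorem F9a_exps {m : MD} (l0 : 0 < m.l) (l1 : m.l ≤ 1) (k0 : 99 / 100 ≤ m.κ) (k1 : m.κ ≤ m.κh) :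
    |(2 - 2 * m.l) / m.κ - 2| ≤ 5 ∧ |(2 - 2 * m.l) / m.κ - 2 + -3| ≤ 5 ∧
      |2 / m.κh - 1| ≤ 5 := by
  have a1 : 0 ≤ (2 - 2 * m.l) / m.κ := div_nonneg (by linarith) (by linarith)
  have a2 : (2 - 2 * m.l) / m.κ ≤ 3 := by
    rw [div_le_iff₀ (by linarith)]
    linarith
  have a3 : 0 ≤ 2 / m.κh := div_nonneg (by linarith) (by linarith)
  have a4 : 2 / m.κh ≤ 3 := by
    rw [div_le_iff₀ (by linarith)]
    linarith
  exact ⟨abs_le.2 ⟨by linarith, by linarith⟩, abs_le.2 ⟨by linarith, by linarith⟩,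
    abs_le.2 ⟨by linarith, by linarith⟩⟩

theorem F9a_sq (u : ℝ) (hu : 0 ≤ u) : 1 + u ^ 2 ≤ 2 * Real.exp u := by
  have := Real.quadratic_le_exp_of_nonneg hu
  linarith

theorem F9a_K {o : OD} {c : ℝ} {m : MD} (ho : o.OK) (hm : m.OK o c) (y : E) :
    |m.f y| ≤ o.C0 + |c| ∧ |m.s y| ≤ o.C0 + |c| := by
  obtain ⟨h1, h2⟩ := hm.close.1 y
  obtain ⟨h3, h4⟩ := ho.bd y
  have h5 : √m.l ≤ 1 := Real.sqrt_le_one.2 hm.l0.2
  have h6 : c * √m.l ≤ |c| :=
    (mul_le_mul_of_nonneg_right (le_abs_self c) (Real.sqrt_nonneg _)).trans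
      (mul_le_of_le_one_right (abs_nonneg c) h5)
  have h7 := ho.g_nn y
  rw [abs_le] at h1 h2 h4
  exact ⟨abs_le.2 ⟨by linarith, by linarith⟩, abs_le.2 ⟨by linarith, by linarith⟩⟩

theorem F9a_odd {f q : E → ℝ} {ρ a b : ℝ} (ha : 0 ≤ a) (hf : ∀ x, f (R x) = -f x)
    (hq : ∀ x, 0 ≤ q x ∧ q (R x) = q x)
    (h : ∀ x ∈ Hp, ρ ≤ ‖x‖ → x 2 * q x / a ≤ f x ∧ f x ≤ b * (x 2 * q x)) (x : E) (hx : ρ ≤ ‖x‖) :
    |x 2| * q x / a ≤ |f x| ∧ |f x| ≤ b * (|x 2| * q x) := by
  have key : ∀ x ∈ Hp, ρ ≤ ‖x‖ → |x 2| * q x / a ≤ |f x| ∧ |f x| ≤ b * (|x 2| * q x) := by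
    intro x h0 hx
    have h0' : 0 ≤ x 2 := h0
    obtain ⟨h1, h2⟩ := h x h0 hx
    have h3 : 0 ≤ f x := le_trans (div_nonneg (mul_nonneg h0' (hq x).1) ha) h1
    rw [abs_of_nonneg h0', abs_of_nonneg h3]
    exact ⟨h1, h2⟩
  rcases le_total 0 (x 2) with h0 | h0
  · exact key x h0 hx
  · have := key (R x) (show 0 ≤ R x 2 by rw [R_two]; linarith) (by rwa [norm_R])
    rwa [R_two, abs_neg, hf, abs_neg, (hq x).2] at this

end

end Crest.Agent.R335
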