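import Crest.Agent.R335.F7c
import Crest.Agent.R335.F8Aux39

set_option autoImplicit false

open MeasureTheory Set Filter Topology Metric
open scoped Gradient ContDiff RealInnerProductSpace ENNReal

namespace Crest.Agent.R335

noncomputable section

theorem F9a_c : Lg fun o => ∀ c, ∃ ρ : ℝ, Sm o c fun m => (∀ x, ρ ≤ ‖x‖ → m.Dm x / o.Γ1 ≤ m.J x) ∧
    ∀ x, ρ ≤ ‖hor x‖ → m.Dm (hor x) / o.Γ1 ≤ m.Dt x ∧ m.Dt x ≤ o.Γ1 * m.Dm (hor x) ∧
      m.mm (hor x) / o.Γ1 ^ 2 ≤ m.bt x ∧ m.bt x ≤ o.Γ1 ^ 2 * m.mm (hor x) := by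
  obtain ⟨C, C1, hC⟩ := F9a_cmp
  obtain ⟨I, I0, hI⟩ := F9a_up
  obtain ⟨v, v0, hv⟩ := F9a_low
  have C0 : 0 < C := by linarith
  set A1 : ℝ := 120 * (C * Real.exp 3) / v with hA1
  set A2 : ℝ := (60 * C + 1) * I with hA2
  have A10 : 0 < A1 := by positivity
  have A20 : 0 < A2 := by positivity
  refine ((((F3.and F6).and F7b).and F7c).and (num_good 0 (A1 + A2 + 1))).mono ?_
  rintro o ho ⟨⟨⟨⟨h3, h6⟩, h7b⟩, h7c⟩, -, -, -, hA⟩ c
  obtain ⟨a, a0, h6⟩ := h6 c
  obtain ⟨c7, -, h7c⟩ := h7c c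
  obtain ⟨c1, -, c3⟩ := ho.C0
  obtain ⟨δ0, δ1⟩ := ho.δ
  have R0 : 0 ≤ o.R0 := mul_nonneg (by linarith) (sq_nonneg _)
  have G0 : 1 ≤ o.Γ0 := Real.one_le_exp R0
  have hΓ : (A1 + A2 + 1) * o.Γ0 ≤ o.Γ1 := by
    refine le_trans (mul_le_mul_of_nonneg_left ?_ (by positivity)) hA
    have δ2 : o.δ0 ≤ 1 := δ1.trans (Real.exp_le_one_iff.2 (by linarith))
    have h1 : o.Γ0 ≤ o.d * o.Γ0 / o.δ0 := by
      rw [le_div_iff₀ δ0]
      nlinarith
    exact h1.trans (le_self_pow₀ (G0.trans h1) (by norm_num))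
  have G1 : A1 * o.Γ0 ≤ o.Γ1 := by nlinarith
  have G2 : A2 * o.Γ0 ≤ o.Γ1 := by nlinarith
  have G3 : 1 ≤ o.Γ1 := by nlinarith
  have G4 : 0 < o.Γ1 := by linarith
  set K : ℝ := o.C0 + |c| with hK
  have K0 : 0 ≤ K := by have := abs_nonneg c; linarith
  obtain ⟨ρ, hρ⟩ := F9a_core (o.R0 * K + K) o.R0
  refine ⟨max ρ (o.R0 + 2), (((((h3 c).and h6).and (h7b c a a0)).and h7c).and
    (num_kappa o ho c 1 one_pos)).mono ?_⟩
  rintro m hm ⟨⟨⟨⟨h3, h6⟩, h7b⟩, h7c, spos, -⟩, -, -, k0, k2, -, -, -, -, k1, -⟩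
  have k1' : m.κ ≤ m.κh := by linarith
  obtain ⟨e1, e2, e3⟩ := F9a_exps hm.l0.1 hm.l0.2 k0 k1'
  have hD : ∀ x, 0 < m.Dm x := fun x => (radb_facts _ _ _ x).1
  have hh : ∀ x, 0 < m.mh x := fun x => (radb_facts _ _ _ x).1
  have hE : ∀ x, 0 < rad ((2 - 2 * m.l) / m.κ - 2 + -3) m.κ x := fun x => (radb_facts _ _ _ x).1
  have l0 := hm.l0.1
  have hmm : ∀ x, m.mh x ≤ m.mm x := fun x => by
    have := hE x
    rw [F9a_mm]
    exact le_add_of_nonneg_right (by positivity)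
  have cD : ∀ x y, m.Dm y ≤ C * Real.exp (2 * ‖y - x‖) * m.Dm x :=
    hC _ _ e1 (by linarith) (by linarith)
  have cE := hC _ _ e2 (show 0 ≤ m.κ by linarith) (by linarith)
  have ch : ∀ x y, m.mh y ≤ C * Real.exp (2 * ‖y - x‖) * m.mh x := hC _ _ e3 (by linarith) k2
  have hf := F9a_odd (q := m.Dm) (by positivity) hm.cf.2.2
    (fun x => ⟨(hD x).le, (radb_facts _ _ _ x).2.1⟩) h3
  have hK' := F9a_K ho hm
  -- lower bound for the smoothed density
  have low : ∀ x, o.R0 + 2 ≤ ‖x‖ →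
      m.Dm x / o.Γ1 ≤ ∫ y, Real.exp (-(4 * jb (x - y))) * (|y 2| * |m.f y|) := by
    intro x hx
    obtain ⟨σ, σ1, σ2⟩ : ∃ σ : ℝ, |σ| = 1 ∧ 1 ≤ |x 2 + σ| := by
      rcases le_total 0 (x 2) with h | h
      · exact ⟨1, abs_one, le_abs.2 (Or.inl (by linarith))⟩
      · exact ⟨-1, by simp, le_abs.2 (Or.inr (by linarith))⟩
    have n1 : ‖x + σ • ez - x‖ = 1 := by rw [add_sub_cancel_left, F0d.norm_smul_ez, σ1]
    have hx0 := hD x
    refine le_trans ?_ (hv _ x (x + σ • ez) (m.Dm x / (120 * (C * Real.exp 3) * o.Γ0)) n1.le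
      (by positivity) (F9a_int hm.cf.1 (fun y => (hK' y).1) x).1 (fun y => by positivity)
      fun y hy => ?_)
    · have : v * (m.Dm x / (120 * (C * Real.exp 3) * o.Γ0)) = m.Dm x / (A1 * o.Γ0) := by
        rw [hA1]
        field_simp
      rw [this]
      exact div_le_div_of_nonneg_left hx0.le (by positivity) G1
    · have t1 := norm_sub_le_norm_sub_add_norm_sub y (x + σ • ez) x
      have t2 := norm_sub_norm_le x y
      rw [norm_sub_rev] at t2
      have t3 := F9a_abs_two (y - (x + σ • ez))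
      have t4 : (y - (x + σ • ez)) 2 = y 2 - (x 2 + σ) := by simp [S07.ez_two]
      rw [t4] at t3
      have t5 := abs_sub_abs_le_abs_sub (x 2 + σ) (y 2)
      rw [abs_sub_comm] at t5
      have t6 : 1 / 2 ≤ |y 2| := by linarith
      have t7 := (hf y (by linarith)).1
      have t8 := cD y x
      have t9 : Real.exp (2 * ‖x - y‖) ≤ Real.exp 3 :=
        Real.exp_le_exp.2 (by rw [norm_sub_rev]; linarith)
      have hy0 := hD y
      have u1 : m.Dm x ≤ C * Real.exp 3 * m.Dm y := t8.trans (by gcongr)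
      calc m.Dm x / (120 * (C * Real.exp 3) * o.Γ0)
          ≤ C * Real.exp 3 * m.Dm y / (120 * (C * Real.exp 3) * o.Γ0) := by gcongr
        _ = 1 / 2 * (1 / 2 * m.Dm y / (30 * o.Γ0)) := by
          field_simp
          norm_num
        _ ≤ |y 2| * (|y 2| * m.Dm y / (30 * o.Γ0)) := by gcongr
        _ ≤ _ := mul_le_mul_of_nonneg_left t7 (abs_nonneg _)
  refine ⟨fun x hx => (low x (le_of_max_le_right hx)).trans
    (F9a_int hm.cf.1 (fun y => (hK' y).1) x).2.2, fun x hx => ?_⟩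
  have z0 := F0d.hor_two x
  have hx1 : ρ ≤ ‖hor x‖ := le_of_max_le_left hx
  have hx2 : o.R0 + 2 ≤ ‖hor x‖ := le_of_max_le_right hx
  change _ ≤ ∫ y, Real.exp (-(4 * jb (hor x - y))) * (|y 2| * |m.f y|) ∧
    ∫ y, Real.exp (-(4 * jb (hor x - y))) * (|y 2| * |m.f y|) ≤ _ ∧
    _ ≤ ∫ y, Real.exp (-(4 * jb (hor x - y))) * m.s y ∧
    ∫ y, Real.exp (-(4 * jb (hor x - y))) * m.s y ≤ _
  generalize hor x = x0 at z0 hx1 hx2
  have hz : ∀ y : E, 1 + y 2 ^ 2 ≤ 2 * Real.exp ‖y - x0‖ := fun y => by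
    have t1 := F9a_abs_two (y - x0)
    have t2 : (y - x0) 2 = y 2 := by simp [z0]
    rw [t2] at t1
    have t3 := pow_le_pow_left₀ (abs_nonneg _) t1 2
    rw [sq_abs] at t3
    linarith [F9a_sq _ (norm_nonneg (y - x0))]
  have he : ∀ y : E, Real.exp (3 * ‖y - x0‖) = Real.exp ‖y - x0‖ * Real.exp (2 * ‖y - x0‖) :=
    fun y => by
      rw [← Real.exp_add]
      congr 1
      ring
  have D0 := hD x0
  have h0 := hh x0
  have m0 : 0 < m.mm x0 := h0.trans_le (hmm x0)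
  have hRK : 0 ≤ o.R0 * K := mul_nonneg R0 K0
  have hs := hI m.s x0 ((2 * C * o.Γ1 + 1) * m.mm x0) (by positivity)
    hm.cf.2.1.aestronglyMeasurable (by
      filter_upwards [h7b h6, hm.pyth] with y y1 y2
      have p0 := Real.exp_pos (3 * ‖y - x0‖)
      rcases le_or_gt ‖y‖ o.R0 with h | h
      · have t1 : o.R0 * K + K ≤ Real.exp (3 * ‖y - x0‖) * m.mh x0 :=
          hρ _ _ e3 (by linarith) k2 x0 y hx1 h
        have t2 := mul_le_mul_of_nonneg_left (hmm x0) p0.le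
        have t3 : 0 ≤ 2 * C * o.Γ1 * m.mm x0 * Real.exp (3 * ‖y - x0‖) := by positivity
        linarith [(hK' y).2]
      · have t1 : m.G y ≤ m.Gt a y := Real.le_sqrt_of_sq_le (le_add_of_nonneg_right (sq_nonneg _))
        have t2 : m.mm y ≤ 2 * C * Real.exp (3 * ‖y - x0‖) * m.mm x0 := by
          have q1 := Real.one_le_exp (norm_nonneg (y - x0))
          have q2 := Real.exp_pos (2 * ‖y - x0‖)
          have q3 := hE x0
          have q4 := mul_le_mul (hz y) (cE x0 y) (hE y).le (by positivity)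
          have q5 := mul_le_mul_of_nonneg_left q4 l0.le
          have q6 : C * Real.exp (2 * ‖y - x0‖) * m.mh x0 ≤
              2 * Real.exp ‖y - x0‖ * (C * Real.exp (2 * ‖y - x0‖) * m.mh x0) :=
            le_mul_of_one_le_left (by positivity) (by linarith)
          rw [F9a_mm, F9a_mm, z0, he]
          linarith [ch x0 y]
        have t3 := mul_le_mul_of_nonneg_left t2 G4.le
        have t4 : 0 ≤ m.mm x0 * Real.exp (3 * ‖y - x0‖) := by positivity
        linarith [y2.2.2, y1 h])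
  refine ⟨low x0 hx2, ?_, ?_, hs.2.trans ?_⟩
  · refine (hI (fun y => |y 2| * |m.f y|) x0 ((60 * C + 1) * o.Γ0 * m.Dm x0) (by positivity)
      (by have := hm.cf.1; fun_prop) (Eventually.of_forall fun y => ?_)).2.trans ?_
    · rw [abs_mul, abs_abs, abs_abs]
      have p0 := Real.exp_pos (3 * ‖y - x0‖)
      have p1 : 0 ≤ C * o.Γ0 * m.Dm x0 * Real.exp (3 * ‖y - x0‖) := by positivity
      rcases le_total ‖y‖ o.R0 with h | h
      · have t1 : o.R0 * K + K ≤ Real.exp (3 * ‖y - x0‖) * m.Dm x0 :=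
          hρ _ _ e1 (by linarith) (by linarith) x0 y hx1 h
        have t2 := mul_le_mul ((F9a_abs_two y).trans h) (hK' y).1 (abs_nonneg _) R0
        have t3 : Real.exp (3 * ‖y - x0‖) * m.Dm x0 ≤ o.Γ0 * (Real.exp (3 * ‖y - x0‖) * m.Dm x0) :=
          le_mul_of_one_le_left (by positivity) G0
        linarith
      · have t1 := mul_le_mul_of_nonneg_left (hf y h).2 (abs_nonneg (y 2))
        have t2 : |y 2| * |y 2| ≤ 2 * Real.exp ‖y - x0‖ := by
          rw [abs_mul_abs_self]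
          linarith [hz y]
        have t3 := mul_le_mul t2 (cD x0 y) (hD y).le (by positivity)
        have t4 := mul_le_mul_of_nonneg_left t3 (show 0 ≤ 30 * o.Γ0 by positivity)
        have t5 : 0 ≤ o.Γ0 * m.Dm x0 * Real.exp (3 * ‖y - x0‖) := by positivity
        rw [he] at t5 ⊢
        linarith
    · have := mul_le_mul_of_nonneg_right G2 D0.le
      rw [hA2] at this
      linarith
  · refine le_trans ?_ (hv m.s x0 x0 (m.mm x0 / (C * Real.exp 3 * o.Γ1)) (by simp) (by positivity)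
      hs.1 (fun y => (spos y).le) fun y hy => ?_)
    · have : v * (m.mm x0 / (C * Real.exp 3 * o.Γ1)) = m.mm x0 / (A1 / 120 * o.Γ1) := by
        rw [hA1]
        field_simp
      rw [this, sq]
      refine div_le_div_of_nonneg_left m0.le (by positivity)
        (mul_le_mul_of_nonneg_right ?_ G4.le)
      nlinarith
    · have t2 := norm_sub_norm_le x0 y
      rw [norm_sub_rev] at t2
      refine le_trans ?_ (h7c y (by linarith))
      rw [← div_div]
      refine div_le_div_of_nonneg_right ?_ G4.le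
      rw [div_le_iff₀ (by positivity), F9a_mm, F9a_mm, z0]
      have t9 : Real.exp (2 * ‖x0 - y‖) ≤ Real.exp 3 :=
        Real.exp_le_exp.2 (by rw [norm_sub_rev]; linarith)
      have y0 := hh y
      have y1 := hE y
      have u1 : m.mh x0 ≤ C * Real.exp 3 * m.mh y := (ch y x0).trans (by gcongr)
      have u2 := (cE y x0).trans (show _ ≤ C * Real.exp 3 * _ by gcongr)
      have u3 := mul_le_mul_of_nonneg_left u2 l0.le
      have u4 : 0 ≤ m.l * y 2 ^ 2 * rad ((2 - 2 * m.l) / m.κ - 2 + -3) m.κ y * (C * Real.exp 3) := by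
        positivity
      linarith
  · rw [← mul_assoc, sq]
    refine mul_le_mul_of_nonneg_right ?_ m0.le
    have t1 : A2 ≤ o.Γ1 := le_trans (le_mul_of_one_le_right A20.le G0) G2
    have t2 := mul_le_mul_of_nonneg_right t1 G4.le
    have t3 : I ≤ I * o.Γ1 := le_mul_of_one_le_right I0.le G3
    have t4 : 0 ≤ C * I * o.Γ1 := by positivity
    rw [hA2] at t2
    linarith

end

end Crest.Agent.R335
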