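import Crest.Agent.R335.F7c
import Crest.Agent.R335.F8Aux39c

set_option autoImplicit false

open MeasureTheory Set Filter Topology Metric
open scoped Gradient ContDiff RealInnerProductSpace ENNReal

namespace Crest.Agent.R335

noncomputable section

theorem F8 : Lg fun o => ∀ c, Sm o c fun m => ∀ k, m.κ + 1 / o.ℓ ≤ k → k ≤ 2 → ∀ x,
    YP k (fun y => m.s y / (8 * o.ℓ) +
      m.l * (if 4 * o.d ≤ ‖y‖ then |y 2| * |m.f y| / (o.C0 * jb y ^ 3) else 0)) x ≤ m.s x := by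
  exact F7cA_F8
theorem F9c : Lg fun o => ∀ c, ∃ ρ : ℝ, Sm o c fun m => (∀ x, ρ ≤ ‖x‖ → m.Dm x / o.Γ1 ≤ m.J x) ∧
    ∀ x, ρ ≤ ‖hor x‖ → m.Dm (hor x) / o.Γ1 ≤ m.Dt x ∧ m.Dt x ≤ o.Γ1 * m.Dm (hor x) ∧
      m.mm (hor x) / o.Γ1 ^ 2 ≤ m.bt x ∧ m.bt x ≤ o.Γ1 ^ 2 * m.mm (hor x) :=
  F9a_c

end

end Crest.Agent.R335
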