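import Crest.Agent.R335.F8

set_option autoImplicit false

open MeasureTheory Set Filter Topology Metric
open scoped Gradient ContDiff RealInnerProductSpace ENNReal

namespace Crest.Agent.R335

noncomputable section

theorem F9a_v {d : ℝ} {y : E} (hd : 0 ≤ d) (hy : d + 1 ≤ ‖y‖) : |vx d y| ≤ 2 := by
  have h1 : 1 ≤ ‖y - d • ez‖ := by
    have := norm_sub_norm_le y (d • ez)
    rw [F0d.norm_smul_ez, abs_of_nonneg hd] at this
    linarith
  have h2 : 1 ≤ ‖y + d • ez‖ := by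
    have := norm_sub_norm_le y (-(d • ez))
    rw [norm_neg, F0d.norm_smul_ez, abs_of_nonneg hd, sub_neg_eq_add] at this
    linarith
  have h3 : 1 / ‖y - d • ez‖ ≤ 1 := div_le_one_of_le₀ h1 (norm_nonneg _)
  have h4 : 1 / ‖y + d • ez‖ ≤ 1 := div_le_one_of_le₀ h2 (norm_nonneg _)
  have h5 : 0 ≤ 1 / ‖y - d • ez‖ := by positivity
  have h6 : 0 ≤ 1 / ‖y + d • ez‖ := by positivity
  unfold vx
  exact abs_le.2 ⟨by linarith, by linarith⟩

theorem F9a_f : ∃ C : ℝ, 0 < C ∧ Lg fun o => ∀ c, ∃ ρ : ℝ, Sm o c fun m =>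
    ∀ x, ρ ≤ ‖x‖ → ∀ y, |m.f y| ≤ C * Real.exp (4 * ‖y - x‖) * m.J x := by
  obtain ⟨C', C0, hs⟩ := F9a_sup
  obtain ⟨C, C1, hC⟩ := F9a_cmp
  refine ⟨C', C0, (F2.and F9c).mono ?_⟩
  rintro o ho ⟨h2, h9⟩ c
  obtain ⟨c2, c21, h2⟩ := h2 c
  obtain ⟨ρ9, h9⟩ := h9 c
  obtain ⟨c1, -, c3⟩ := ho.C0
  obtain ⟨δ0, -⟩ := ho.δ
  have d0 : 0 ≤ o.d := by linarith
  have G4 : 0 < o.Γ1 := Real.exp_pos _
  set K : ℝ := o.C0 + |c| with hK
  have K0 : 0 ≤ K := by have := abs_nonneg c; linarith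
  have hT : MemLp (fun y => |o.v y * rad 0 1 y|) 2 volume :=
    ((vx_facts o.d).2.2 _ (radb_memLp 0 0 one_pos).2.2.2).1.abs
  set n : ℝ := nsq fun y => |o.v y * rad 0 1 y| with hn
  have n0 : 0 ≤ n := integral_nonneg fun y => sq_nonneg _
  obtain ⟨ρ, hρ⟩ := F9a_core (K * Real.exp (o.d + 2) * (n + 1) * o.Γ1) (o.d + 1)
  have hc : 0 < |c| + 1 := by positivity
  have hc2 : 0 < c2 * C * o.Γ1 := by positivity
  refine ⟨max ρ ρ9, ((((h2.and h9).and (num_kappa o ho c 1 one_pos)).and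
    (Sm.le o c (one_div_pos.2 hc))).and (Sm.le o c (one_div_pos.2 hc2))).mono ?_⟩
  rintro m hm ⟨⟨⟨⟨⟨-, h2⟩, h9, -⟩, -, -, k0, k2, k3, -, -, -, k1, -⟩, l1⟩, l2⟩ x hx
  have k1' : m.κ ≤ m.κh := by linarith
  obtain ⟨e1, -, -⟩ := F9a_exps hm.l0.1 hm.l0.2 k0 k1'
  have hD : ∀ x, 0 < m.Dm x := fun x => (radb_facts _ _ _ x).1
  have l0 := hm.l0.1
  have hJ := h9 x (le_of_max_le_right hx)
  have D0 := hD x
  rw [div_le_iff₀ G4] at hJ
  have J0 : 0 < m.J x := (mul_pos_iff_of_pos_right G4).1 (D0.trans_le hJ)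
  obtain ⟨-, hY⟩ := Sol.eq_YP (k := 8) (by norm_num) hm.sf hm.cf.1
  refine hs m.f _ (fun y => (n + 1)⁻¹ * |o.v y * rad 0 1 y|) x K (m.J x) hm.cf.1
    (fun y => (F9a_K ho hm y).1) (fun y => congrFun hY y) (hT.const_mul _) ?_
    (fun y => by positivity) le_rfl ?_
  · have : nsq (fun y => (n + 1)⁻¹ * |o.v y * rad 0 1 y|) = ((n + 1)⁻¹) ^ 2 * n := by
      rw [hn, nsq, nsq, ← integral_const_mul]
      simp only [mul_pow]
    rw [this, inv_pow, inv_mul_le_one₀ (by positivity)]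
    nlinarith
  · filter_upwards [h2] with y y1
    have p0 := Real.exp_pos (4 * ‖y - x‖)
    have I0 : 0 ≤ m.I := by nlinarith
    have I1 : m.I ≤ 1 := by nlinarith
    obtain ⟨w0, w1, -⟩ := hm.w_bd y
    have w2 : 0 ≤ m.l * m.w y := mul_nonneg l0.le w0
    have w3 : m.l * m.w y ≤ 1 := by
      rw [le_div_iff₀ hc] at l1
      have := mul_le_mul_of_nonneg_left (w1.trans (le_abs_self c)) l0.le
      linarith
    have f0 := abs_nonneg (m.f y)
    have s1 : |-((o.v y + m.I + m.l * m.w y) * m.f y) + m.ef y + 8 ^ 2 / 2 * m.f y| ≤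
        34 * |m.f y| + |o.v y| * |m.f y| + |m.ef y| := by
      have e : -((o.v y + m.I + m.l * m.w y) * m.f y) + m.ef y + 8 ^ 2 / 2 * m.f y =
          (32 - m.I - m.l * m.w y) * m.f y + -(o.v y * m.f y) + m.ef y := by ring
      rw [e]
      refine (abs_add_three _ _ _).trans ?_
      rw [abs_neg, abs_mul, abs_mul]
      have : |32 - m.I - m.l * m.w y| ≤ 34 := abs_le.2 ⟨by linarith, by linarith⟩
      gcongr
    have s2 : |m.ef y| ≤ Real.exp (4 * ‖y - x‖) * m.J x := by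
      have t1 : c2 * m.l / jb y ^ 2 ≤ c2 * m.l :=
        div_le_self (by positivity) (one_le_pow₀ (jb_facts y).1)
      have t2 : m.Dm y ≤ C * Real.exp (2 * ‖y - x‖) * m.Dm x :=
        hC _ _ e1 (by linarith) (by linarith) x y
      have t3 : Real.exp (2 * ‖y - x‖) ≤ Real.exp (4 * ‖y - x‖) :=
        Real.exp_le_exp.2 (by linarith [norm_nonneg (y - x)])
      rw [le_div_iff₀ hc2] at l2
      calc |m.ef y| ≤ c2 * m.l / jb y ^ 2 * m.Dm y := y1.2
        _ ≤ c2 * m.l * (C * Real.exp (4 * ‖y - x‖) * (m.J x * o.Γ1)) :=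
          mul_le_mul t1 (t2.trans (by gcongr)) (hD y).le (by positivity)
        _ = m.l * (c2 * C * o.Γ1) * (Real.exp (4 * ‖y - x‖) * m.J x) := by ring
        _ ≤ _ := mul_le_of_le_one_left (by positivity) l2
    have s3 : |o.v y| * |m.f y| ≤ 2 * |m.f y| +
        Real.exp (4 * ‖y - x‖) * (m.J x * ((n + 1)⁻¹ * |o.v y * rad 0 1 y|)) := by
      rcases le_total (o.d + 1) ‖y‖ with h | h
      · exact le_add_of_le_of_nonneg (mul_le_mul_of_nonneg_right (F9a_v d0 h) f0) (by positivity)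
      · refine le_add_of_nonneg_of_le (by positivity) ?_
        have t1 : K * Real.exp (o.d + 2) * (n + 1) * o.Γ1 ≤ Real.exp (3 * ‖y - x‖) * m.Dm x :=
          hρ _ _ e1 (by linarith) (by linarith) x y (le_of_max_le_left hx) h
        have t3 : Real.exp (3 * ‖y - x‖) ≤ Real.exp (4 * ‖y - x‖) :=
          Real.exp_le_exp.2 (by linarith [norm_nonneg (y - x)])
        have t4 : K * Real.exp (o.d + 2) * (n + 1) ≤ Real.exp (4 * ‖y - x‖) * m.J x := by
          refine le_of_mul_le_mul_right (t1.trans ?_) G4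
          rw [mul_assoc]
          gcongr
        have t5 : 1 ≤ Real.exp (o.d + 2) * rad 0 1 y := by
          rw [F9a_rad01, ← Real.exp_add]
          exact Real.one_le_exp (by linarith [(jb_facts y).2.2.1])
        have t6 : 0 < rad 0 1 y := (radb_facts 0 1 0 y).1
        rw [abs_mul, abs_of_pos t6]
        have v0 := abs_nonneg (o.v y)
        calc |o.v y| * |m.f y| ≤ |o.v y| * (K * (Real.exp (o.d + 2) * rad 0 1 y)) :=
              mul_le_mul_of_nonneg_left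
                ((F9a_K ho hm y).1.trans (le_mul_of_one_le_right K0 t5)) v0
          _ = K * Real.exp (o.d + 2) * (n + 1) * ((n + 1)⁻¹ * (|o.v y| * rad 0 1 y)) := by
              field_simp
          _ ≤ Real.exp (4 * ‖y - x‖) * m.J x * ((n + 1)⁻¹ * (|o.v y| * rad 0 1 y)) :=
              mul_le_mul_of_nonneg_right t4 (by positivity)
          _ = _ := by ring
    linarith

end

end Crest.Agent.R335
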