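import Crest.Agent.R335.S06

set_option autoImplicit false

open MeasureTheory Set Filter Topology Metric
open scoped Gradient ContDiff RealInnerProductSpace ENNReal

namespace Crest.Agent.R335

noncomputable section

variable {V : Type*} [NormedAddCommGroup V] [InnerProductSpace ℝ V] [FiniteDimensional ℝ V]
  [MeasurableSpace V] [BorelSpace V]

/-! expansions of the quadratic functionals -/

theorem S11_int3 {f g h : V → ℝ} (hf : Integrable f volume) (hg : Integrable g volume)
    (hh : Integrable h volume) (a b c : ℝ) :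
    ∫ x, (a * f x + b * g x + c * h x) = a * (∫ x, f x) + b * (∫ x, g x) + c * ∫ x, h x := by
  rw [integral_add (f := fun x => a * f x + b * g x) ((hf.const_mul a).add (hg.const_mul b))
    (hh.const_mul c), integral_add (hf.const_mul a) (hg.const_mul b), integral_const_mul, integral_const_mul,
    integral_const_mul]

theorem S11_int_mul {u w : V → ℝ} (hu : MemLp u 2 volume) (hw : MemLp w 2 volume) :
    Integrable (fun x => u x * w x) volume := hu.integrable_mul hw

theorem S11_int_inner {u w : V → V} (hu : MemLp u 2 volume) (hw : MemLp w 2 volume) :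
    Integrable (fun x => ⟪u x, w x⟫) volume :=
  (S11_int_mul hu.norm hw.norm).mono' (hu.1.inner hw.1)
    (Eventually.of_forall fun _ => norm_inner_le_norm _ _)

theorem S11_int_normsq {u : V → V} (hu : MemLp u 2 volume) :
    Integrable (fun x => ‖u x‖ ^ 2) volume := hu.norm.integrable_sq

theorem S11_nsq_nonneg (u : V → ℝ) : 0 ≤ nsq u := integral_nonneg fun _ => sq_nonneg _

theorem S11_dir_nonneg (u : V → ℝ) : 0 ≤ dir u := integral_nonneg fun _ => sq_nonneg _

theorem S11_nsq_lc {u w : V → ℝ} (hu : MemLp u 2 volume) (hw : MemLp w 2 volume) (s t : ℝ) :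
    nsq (fun x => s * u x + t * w x) = s ^ 2 * nsq u + 2 * s * t * ip u w + t ^ 2 * nsq w := by
  unfold nsq ip
  rw [← S11_int3 hu.integrable_sq (S11_int_mul hu hw) hw.integrable_sq]
  exact integral_congr_ae (Eventually.of_forall fun x => by ring)

theorem S11_ip_lc {b u w : V → ℝ} (hb : MemLp b 2 volume) (hu : MemLp u 2 volume)
    (hw : MemLp w 2 volume) (s t : ℝ) :
    ip b (fun x => s * u x + t * w x) = s * ip b u + t * ip b w := by
  unfold ip
  rw [← integral_const_mul, ← integral_const_mul, ← integral_add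
    ((S11_int_mul hb hu).const_mul s) ((S11_int_mul hb hw).const_mul t)]
  exact integral_congr_ae (Eventually.of_forall fun x => by ring)

theorem S11_cs {u w : V → ℝ} (hu : MemLp u 2 volume) (hw : MemLp w 2 volume) :
    ip u w ^ 2 ≤ nsq u * nsq w := by
  have h := discrim_le_zero (a := nsq u) (b := 2 * ip u w) (c := nsq w) fun s => by
    have h1 := S11_nsq_nonneg fun x => s * u x + 1 * w x
    rw [S11_nsq_lc hu hw] at h1
    linarith
  rw [discrim] at h
  linarith

theorem S11_h1_lc {u w : V → ℝ} (hu : H1 u) (hw : H1 w) (s t : ℝ) :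
    H1 fun x => s * u x + t * w x := (hu.smul s).add (hw.smul t)

theorem S11_dir_lc {u w : V → ℝ} (hu : H1 u) (hw : H1 w) (s t : ℝ) :
    dir (fun x => s * u x + t * w x) =
      s ^ 2 * dir u + 2 * s * t * (∫ x, ⟪D u x, D w x⟫) + t ^ 2 * dir w := by
  unfold dir
  rw [← S11_int3 (S11_int_normsq hu.dl2) (S11_int_inner hu.dl2 hw.dl2) (S11_int_normsq hw.dl2)]
  refine integral_congr_ae ?_
  filter_upwards [D_add (hu.hl.smul s) (hw.hl.smul t), D_smul s hu.hl, D_smul t hw.hl]
    with x h1 h2 h3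
  rw [h1, h2, h3, norm_add_sq_real, norm_smul, norm_smul, real_inner_smul_left,
    real_inner_smul_right, mul_pow, mul_pow, Real.norm_eq_abs, Real.norm_eq_abs, sq_abs, sq_abs]
  ring

/-- the bilinear form of `Q U` -/
def S11_B (U u w : V → ℝ) : ℝ := (1 / 2) * (∫ x, ⟪D u x, D w x⟫) + ∫ x, U x * u x * w x

theorem S11_int_U {U u : V → ℝ} (hu : H1 u) (h : MemLp (fun x => U x * u x) 2 volume) :
    Integrable (fun x => U x * u x ^ 2) volume :=
  (S11_int_mul h hu.l2).congr (Eventually.of_forall fun x => by ring)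

theorem S11_Q_lc {U u w : V → ℝ} (hu : H1 u) (hw : H1 w)
    (hu' : MemLp (fun x => U x * u x) 2 volume) (hw' : MemLp (fun x => U x * w x) 2 volume)
    (s t : ℝ) : Q U (fun x => s * u x + t * w x) =
      s ^ 2 * Q U u + 2 * s * t * S11_B U u w + t ^ 2 * Q U w := by
  have h : ∫ x, U x * (s * u x + t * w x) ^ 2 = s ^ 2 * (∫ x, U x * u x ^ 2) +
      2 * s * t * (∫ x, U x * u x * w x) + t ^ 2 * ∫ x, U x * w x ^ 2 := by
    rw [← S11_int3 (S11_int_U hu hu') (S11_int_mul hu' hw.l2) (S11_int_U hw hw')]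
    exact integral_congr_ae (Eventually.of_forall fun x => by ring)
  unfold Q S11_B
  rw [S11_dir_lc hu hw, h]
  ring

theorem S11_Q_lower {U : V → ℝ} {C : ℝ} (hC : 0 ≤ C)
    (hU : ∀ u, H1 u → MemLp (fun x => U x * u x) 2 volume ∧
      nsq (fun x => U x * u x) ≤ C * (dir u + nsq u)) {ε : ℝ} (hε : 0 < ε) {u : V → ℝ} (h : H1 u) :
    |∫ x, U x * u x ^ 2| ≤ ε * dir u + (ε + C / (4 * ε)) * nsq u := by
  obtain ⟨h1, h2⟩ := hU u h
  have h3 := S11_cs h1 h.l2
  have h4 : ip (fun x => U x * u x) u = ∫ x, U x * u x ^ 2 :=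
    integral_congr_ae (Eventually.of_forall fun x => by ring)
  have h5 := S11_nsq_nonneg u
  have h6 := S11_dir_nonneg u
  rw [h4] at h3
  refine abs_le_of_sq_le_sq' ?_ (by positivity) |> fun h => abs_le.2 h
  have h7 := h3.trans (mul_le_mul_of_nonneg_right h2 h5)
  have h8 : C * (dir u + nsq u) * nsq u =
      4 * (ε * (dir u + nsq u)) * (C / (4 * ε) * nsq u) := by field_simp
  nlinarith [sq_nonneg (ε * (dir u + nsq u) - C / (4 * ε) * nsq u)]

theorem S11_int_bd {a p : V → ℝ} (ha : Hl a) (hg : Bd fun x => ‖D a x‖) (hp : MemLp p 2 volume) :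
    Integrable (fun x => ‖D a x‖ ^ 2 * p x ^ 2) volume := by
  obtain ⟨M, hM⟩ := hg
  refine hp.integrable_sq.bdd_mul (c := M ^ 2) (ha.aesm_D.norm.pow 2) (hM.mono fun x hx => ?_)
  rw [norm_pow]
  exact pow_le_pow_left₀ (norm_nonneg _) hx 2

theorem S11_nsq_congr {u w : V → ℝ} (h : ∀ᵐ x, u x = w x) : nsq u = nsq w :=
  integral_congr_ae (h.mono fun x hx => by simp only [hx])

theorem S11_dir_congr {u w : V → ℝ} (h : ∀ᵐ x, u x = w x) : dir u = dir w :=
  integral_congr_ae ((D_congr h).mono fun x hx => by simp only [hx])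

end

end Crest.Agent.R335
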