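import Crest.Agent.R335.F0b
import Crest.Agent.R335.S11Aux1

set_option autoImplicit false

open MeasureTheory Set Filter Topology Metric
open scoped Gradient ContDiff RealInnerProductSpace ENNReal

namespace Crest.Agent.R335

noncomputable section

namespace F9gA

theorem ker_real {a b t z h : ℝ} (ha : 0 < a) (hab : a ≤ b) (hb : b ≤ t + 1) (_hz : 0 ≤ z)
    (_hh : 0 ≤ h) (e : b ^ 2 - a ^ 2 = 4 * z * h) :
    Real.exp (-2) / 2 * z * (Real.exp (-(4 * t)) * h) ≤
      Real.exp (-(2 * a)) / (2 * Real.pi * a) - Real.exp (-(2 * b)) / (2 * Real.pi * b) := by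
  have hb0 : 0 < b := ha.trans_le hab
  have hpi := Real.pi_pos
  have hpi4 := Real.pi_le_four
  have h1 : Real.exp (-(2 * a)) / (2 * Real.pi * b) ≤ Real.exp (-(2 * a)) / (2 * Real.pi * a) := by
    gcongr
  have h2 : Real.exp (-(2 * b)) * (1 + 2 * (b - a)) ≤ Real.exp (-(2 * a)) := by
    have := Real.add_one_le_exp (2 * (b - a))
    calc _ ≤ Real.exp (-(2 * b)) * Real.exp (2 * (b - a)) := by gcongr; linarith
      _ = _ := by rw [← Real.exp_add]; ring_nf
  have h3 : b ≤ Real.exp t := hb.trans (Real.add_one_le_exp t)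
  have h4 : Real.exp (-2) * Real.exp (-(4 * t)) * b ^ 2 ≤ Real.exp (-(2 * b)) := by
    calc _ ≤ Real.exp (-2) * Real.exp (-(4 * t)) * Real.exp t ^ 2 := by gcongr
      _ = Real.exp (-2 + -(4 * t) + 2 * t) := by
          rw [Real.exp_add, Real.exp_add, ← Real.exp_nat_mul]; norm_num
      _ ≤ _ := Real.exp_le_exp.2 (by linarith)
  have h5 : 2 * z * h ≤ (b - a) * b := by nlinarith [sq_nonneg (b - a)]
  have h6 : Real.exp (-2) / 2 * z * (Real.exp (-(4 * t)) * h) ≤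
      Real.exp (-(2 * b)) * (2 * (b - a)) / (2 * Real.pi * b) := by
    rw [le_div_iff₀ (by positivity)]
    have k0 : 0 ≤ Real.exp (-2) * Real.exp (-(4 * t)) := by positivity
    have k1 : 0 ≤ b - a := by linarith
    calc _ = Real.exp (-2) * Real.exp (-(4 * t)) * b * (2 * z * h) * (Real.pi / 2) := by ring
      _ ≤ Real.exp (-2) * Real.exp (-(4 * t)) * b * ((b - a) * b) * 2 := by
          gcongr
          linarith
      _ = Real.exp (-2) * Real.exp (-(4 * t)) * b ^ 2 * (2 * (b - a)) := by ring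
      _ ≤ _ := by gcongr
  refine h6.trans (le_trans ?_ (sub_le_sub_right h1 _))
  rw [← sub_div]
  gcongr
  linarith

theorem sq_diff (x y : E) : ‖R x - y‖ ^ 2 - ‖x - y‖ ^ 2 = 4 * x 2 * y 2 := by
  rw [EuclideanSpace.real_norm_sq_eq, EuclideanSpace.real_norm_sq_eq]
  simp only [Fin.sum_univ_three, PiLp.sub_apply, S07.R_zero', S07.R_one', S07.R_two']
  ring

theorem norm_sub_hor (x : E) : ‖x - hor x‖ = |x 2| := by
  rw [hor, sub_sub_cancel, F0d.norm_smul_ez]

theorem near (x y : E) (h : |x 2| ≤ 1) : ‖x - y‖ ≤ ‖hor x - y‖ + 1 ∧ ‖y - hor x‖ ≤ ‖x - y‖ + 1 := by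
  have h1 := norm_sub_hor x
  constructor
  · have := norm_add_le (hor x - y) (x - hor x)
    rw [show hor x - y + (x - hor x) = x - y by abel] at this
    linarith
  · have := norm_sub_le (x - hor x) (x - y)
    rw [show x - hor x - (x - y) = y - hor x by abel] at this
    linarith

theorem ker {x y : E} {a : ℝ} (h0 : 0 ≤ x 2) (h1 : x 2 ≤ 1) (n1 : y ≠ x) (n2 : y ≠ R x)
    (s1 : 0 ≤ y 2 → 0 ≤ a) (s2 : y 2 ≤ 0 → a ≤ 0) :
    Real.exp (-2) / 2 * x 2 * (Real.exp (-(4 * jb (hor x - y))) * (|y 2| * |a|)) ≤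
      (Yk 2 (x - y) - Yk 2 (R x - y)) * a := by
  have e := sq_diff x y
  have p1 : 0 < ‖x - y‖ := norm_pos_iff.2 (sub_ne_zero.2 n1.symm)
  have p2 : 0 < ‖R x - y‖ := norm_pos_iff.2 (sub_ne_zero.2 n2.symm)
  have j := (jb_facts (hor x - y)).2.1
  have b1 := (near x y (by rwa [abs_of_nonneg h0])).1
  have b2 := (near (R x) y (by rwa [R_two, abs_neg, abs_of_nonneg h0])).1
  rw [hor_R] at b2
  rcases le_total 0 (y 2) with h | h
  · have k := ker_real (t := jb (hor x - y)) p1 ((pow_le_pow_iff_left₀ p1.le p2.le two_ne_zero).1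
      (by nlinarith [mul_nonneg h0 h])) (by linarith) h0 h e
    rw [abs_of_nonneg h, abs_of_nonneg (s1 h), ← mul_assoc (Real.exp _), ← mul_assoc]
    exact mul_le_mul_of_nonneg_right k (s1 h)
  · have k := ker_real (t := jb (hor x - y)) (h := -y 2) p2
      ((pow_le_pow_iff_left₀ p2.le p1.le two_ne_zero).1
      (by nlinarith [mul_nonneg h0 (neg_nonneg.2 h)])) (by linarith) h0 (neg_nonneg.2 h)
      (by linarith)
    rw [abs_of_nonpos h, abs_of_nonpos (s2 h), ← mul_assoc (Real.exp _), ← mul_assoc]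
    refine (mul_le_mul_of_nonneg_right k (neg_nonneg.2 (s2 h))).trans (le_of_eq ?_)
    unfold Yk
    ring

theorem int_G {f : E → ℝ} (hf : MemLp f 2 volume) {x₀ : E} (h0 : x₀ 2 = 0) :
    Integrable fun y => Real.exp (-(4 * jb (x₀ - y))) * (|y 2| * |f y|) := by
  have h1 := Y1A.memLp_sub_left (radb_memLp 1 0 (k := 4) (by norm_num)).1 x₀
  have c1 : Continuous fun y : E => Real.exp (-(4 * jb (x₀ - y))) :=
    (continuous_const.mul (jb_smooth.continuous.comp (continuous_const.sub continuous_id))).neg.rexp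
  refine (h1.integrable_mul hf.abs).mono'
    (c1.aestronglyMeasurable.mul (S07.cont_two.abs.aestronglyMeasurable.mul hf.abs.1))
    (ae_of_all _ fun y => ?_)
  have h2 : |y 2| ≤ jb (x₀ - y) := by
    have h3 : |(x₀ - y) 2| ≤ ‖x₀ - y‖ := PiLp.norm_apply_le (x₀ - y) 2
    rw [PiLp.sub_apply, h0, zero_sub, abs_neg] at h3
    exact h3.trans (jb_facts _).2.1
  rw [Real.norm_of_nonneg (by positivity)]
  simp only [Pi.mul_apply, radb, Real.rpow_one, zero_div, add_zero, Pi.abs_apply]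
  rw [mul_comm (jb _), mul_assoc]
  gcongr

theorem Yk_nonneg (k : ℝ) (x : E) : 0 ≤ Yk k x := by
  have := Real.pi_pos
  unfold Yk
  positivity

theorem Yk_half (x : E) : Yk 2 x * Real.exp (3 / 2 * ‖x‖) = Yk (1 / 2) x := by
  unfold Yk
  rw [div_mul_eq_mul_div, ← Real.exp_add]
  congr 2
  ring

theorem low {f S ef P : E → ℝ} {ε : ℝ} {x : E} (hf : MemLp f 2 volume) (hS : MemLp S 2 volume)
    (e : f = YP 2 S) (eS : ∀ y, S y = P y * f y + ef y) (hP : ∀ y, 1 ≤ P y)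
    (ho : ∀ y, f (R y) = -f y) (hs : ∀ y, 0 ≤ y 2 → 0 ≤ f y) (hε : 0 ≤ ε)
    (he : ∀ᵐ y, |ef y| ≤ ε * Real.exp (3 / 2 * ‖y - hor x‖)) (h0 : 0 ≤ x 2) (h1 : x 2 ≤ 1) :
    Real.exp (-2) / 4 * x 2 * (∫ y, Real.exp (-(4 * jb (hor x - y))) * (|y 2| * |f y|)) -
      8 * Real.exp (3 / 2) * ε ≤ f x := by
  have i1 := (YP_integrable two_pos hS x).1
  have i2 := (YP_integrable two_pos hS (R x)).1
  have i3 := (int_G hf (F0d.hor_two x)).const_mul (Real.exp (-2) / 2 * x 2)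
  obtain ⟨-, j1, -, j2⟩ := Yk_memLp (k := 1 / 2) (by norm_num)
  have i4 := (j1.comp_sub_left x).add (j1.comp_sub_left (R x))
  have i4' : Integrable fun y => Yk (1 / 2) (x - y) + Yk (1 / 2) (R x - y) := i4
  have i5 := i4'.const_mul (Real.exp (3 / 2) * ε)
  have e1 : 2 * f x = ∫ y, (Yk 2 (x - y) * S y - Yk 2 (R x - y) * S y) := by
    rw [integral_sub i1 i2]
    have a1 : f x = ∫ y, Yk 2 (x - y) * S y := congrFun e x
    have a2 : f (R x) = ∫ y, Yk 2 (R x - y) * S y := congrFun e (R x)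
    rw [← a1, ← a2, ho]
    ring
  have e2 : ∫ y, (Yk (1 / 2) (x - y) + Yk (1 / 2) (R x - y)) = 16 := by
    rw [integral_add (j1.comp_sub_left x) (j1.comp_sub_left (R x)),
      integral_sub_left_eq_self (Yk (1 / 2)) volume x,
      integral_sub_left_eq_self (Yk (1 / 2)) volume (R x), j2]
    norm_num
  have hne : ∀ c : E, ∀ᵐ y : E, y ≠ c := fun c => by
    rw [ae_iff]
    simp
  have k := integral_mono_ae (i3.sub i5) (i1.sub i2) (by
    filter_upwards [he, hne x, hne (R x)] with y hy n1 n2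
    have s2 : y 2 ≤ 0 → f y ≤ 0 := fun h => by
      have := hs (R y) (by rw [R_two]; linarith)
      rw [ho] at this
      linarith
    have k1 := ker h0 h1 n1 n2 (hs y) s2
    have k0 : 0 ≤ Real.exp (-2) / 2 * x 2 *
      (Real.exp (-(4 * jb (hor x - y))) * (|y 2| * |f y|)) := by positivity
    have k2 := mul_le_mul_of_nonneg_left (hP y) (k0.trans k1)
    have b : ∀ u : E, |u 2| ≤ 1 → hor u = hor x →
        |Yk 2 (u - y) * ef y| ≤ Real.exp (3 / 2) * ε * Yk (1 / 2) (u - y) := by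
      intro u hu eu
      have b1 := (near u y hu).2
      rw [eu] at b1
      rw [abs_mul, abs_of_nonneg (Yk_nonneg _ _), ← Yk_half, mul_comm (Real.exp _ * ε), mul_assoc]
      refine mul_le_mul_of_nonneg_left (hy.trans ?_) (Yk_nonneg _ _)
      rw [← mul_assoc, ← Real.exp_add, mul_comm]
      exact mul_le_mul_of_nonneg_right (Real.exp_le_exp.2 (by linarith)) hε
    have b1 := abs_le.1 (b x (by rwa [abs_of_nonneg h0]) rfl)
    have b2 := abs_le.1 (b (R x) (by rwa [R_two, abs_neg, abs_of_nonneg h0]) (hor_R x))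
    simp only [Pi.sub_apply, eS]
    linarith [b1.1, b2.2])
  have k' : ∫ y, (Real.exp (-2) / 2 * x 2 * (Real.exp (-(4 * jb (hor x - y))) * (|y 2| * |f y|)) -
      Real.exp (3 / 2) * ε * (Yk (1 / 2) (x - y) + Yk (1 / 2) (R x - y))) ≤
      ∫ y, (Yk 2 (x - y) * S y - Yk 2 (R x - y) * S y) := k
  rw [← e1, integral_sub i3 i5, integral_const_mul, integral_const_mul, e2] at k'
  linarith

theorem reg : ∃ C : ℝ, 0 < C ∧ ∀ (S : E → ℝ) (x₀ : E) (B T N d : ℝ), MemLp S 2 volume → 0 ≤ B →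
    0 ≤ T → 0 ≤ N → 2 ≤ d → nsq S ≤ N ^ 2 → Real.exp (-(4 * d)) * N ≤ T →
    (∀ᵐ y, ‖y - x₀‖ < d + 2 → |S y| ≤ B * T * Real.exp (4 * ‖y - x₀‖)) →
    ContDiffOn ℝ 1 (YP 8 S) (ball x₀ 2) ∧
      (∀ x ∈ ball x₀ 2, ‖∇ (YP 8 S) x‖ ≤ C * (B + 1) * T) ∧
      ∀ x ∈ ball x₀ 2, ∀ x' ∈ ball x₀ 2, ‖x - x'‖ ≤ 1 →
        ‖∇ (YP 8 S) x - ∇ (YP 8 S) x'‖ ≤ C * (B + 1) * T * √‖x - x'‖ := by
  obtain ⟨C, C0, hC⟩ := YP_reg
  refine ⟨C * Real.exp 8, by positivity, fun S x₀ B T N d hS hB hT hN hd hSN hNT hb => ?_⟩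
  have e8 : 1 ≤ Real.exp 8 := Real.one_le_exp (by norm_num)
  have key : ∀ y₀ ∈ ball x₀ 2, _ := fun y₀ hy₀ =>
    hC S y₀ (B * T * Real.exp 8) N d hS (by positivity) hN hd hSN (by
      filter_upwards [hb] with y hy h
      rw [mem_ball, dist_eq_norm] at hy₀
      have h1 := norm_add_le (y - y₀) (y₀ - x₀)
      rw [sub_add_sub_cancel] at h1
      refine (hy (by linarith)).trans ?_
      rw [mul_assoc (B * T), ← Real.exp_add]
      exact mul_le_mul_of_nonneg_left (Real.exp_le_exp.2 (by linarith)) (by positivity))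
  have hle : C * (B * T * Real.exp 8 + Real.exp (-(4 * d)) * N) ≤ C * Real.exp 8 * (B + 1) * T := by
    have := mul_le_mul_of_nonneg_right e8 hT
    calc _ ≤ C * (B * T * Real.exp 8 + Real.exp 8 * T) :=
          mul_le_mul_of_nonneg_left (by linarith) C0.le
      _ = _ := by ring
  refine ⟨fun y hy => ((key y hy).1.contDiffAt (ball_mem_nhds y one_pos)).contDiffWithinAt,
    fun y hy => ((key y hy).2 y (mem_ball_self one_pos)).2.1.trans hle, fun x hx x' hx' h => ?_⟩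
  have hm : midpoint ℝ x x' ∈ ball x₀ 2 := (convex_ball x₀ 2).midpoint_mem hx hx'
  have m1 : x ∈ ball (midpoint ℝ x x') 1 := by
    rw [mem_ball, dist_left_midpoint, dist_eq_norm]
    norm_num
    linarith
  have m2 : x' ∈ ball (midpoint ℝ x x') 1 := by
    rw [mem_ball, dist_right_midpoint, dist_eq_norm]
    norm_num
    linarith
  exact (((key _ hm).2 x m1).2.2 x' m2).trans
    (mul_le_mul_of_nonneg_right hle (Real.sqrt_nonneg _))

theorem fin {f : E → ℝ} {x₀ : E} {H T c s : ℝ} (h0 : x₀ 2 = 0) (hp : ContDiffOn ℝ 1 f (ball x₀ 2))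
    (ho : ∀ x, f (R x) = -f x) (hT : 0 ≤ T) (hc : 0 ≤ c)
    (hg : ∀ x ∈ ball x₀ 2, ‖∇ f x‖ ≤ H * T)
    (hH : ∀ x ∈ ball x₀ 2, ∀ x' ∈ ball x₀ 2, ‖x - x'‖ ≤ 1 → ‖∇ f x - ∇ f x'‖ ≤ H * T * √‖x - x'‖)
    (hs : 0 < s) (hs1 : s ≤ 1 / 2) (hsH : 2 * H * √s ≤ c / 4)
    (hl : ∀ z : ℝ, 0 ≤ z → z ≤ 1 → c * z * T - c * s * T / 2 ≤ f (x₀ + z • ez))
    {z : ℝ} (hz : |z| ≤ 1) :
    c / 4 * (|z| * T) ≤ |f (x₀ + z • ez)| ∧ |f (x₀ + z • ez)| ≤ H * (|z| * T) ∧
      ‖hor (∇ f (x₀ + z • ez))‖ ≤ H * (√|z| * T) ∧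
      (|z| ≤ s → c / 4 * T ≤ ∇ f (x₀ + z • ez) 2) := by
  have mem : ∀ t : ℝ, |t| ≤ 1 → x₀ + t • ez ∈ ball x₀ 2 := fun t ht => by
    rw [mem_ball, dist_eq_norm, add_sub_cancel_left, F0d.norm_smul_ez]
    linarith
  have dif : ∀ x ∈ ball x₀ 2, DifferentiableAt ℝ f x := fun x hx =>
    (hp.differentiableOn one_ne_zero).differentiableAt (isOpen_ball.mem_nhds hx)
  have p0 : f x₀ = 0 := by
    have := ho x₀
    rw [F0d.R_of_two h0] at this
    linarith
  have dz : ∀ t : ℝ, |t| ≤ s → c / 4 * T ≤ ∇ f (x₀ + t • ez) 2 := by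
    intro t ht
    have a1 := abs_le.1 ((odd_holder h0 hp ho hH hs hs1 (z := t) (by linarith)).2 ht)
    have a2 : c / 2 * T ≤ f (x₀ + s • ez) / s := by
      rw [le_div_iff₀ hs]
      linarith [hl s hs.le (by linarith)]
    have a3 := mul_le_mul_of_nonneg_right hsH hT
    linarith [a1.1]
  have lo : ∀ t : ℝ, 0 ≤ t → t ≤ 1 → c / 4 * (t * T) ≤ f (x₀ + t • ez) := by
    intro t t0 t1
    rcases le_total s t with h | h
    · have a1 := hl t t0 t1
      have a2 := mul_le_mul_of_nonneg_right (mul_le_mul_of_nonneg_left h hc) hT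
      have a3 : 0 ≤ c * t * T := by positivity
      linarith
    rcases t0.eq_or_lt with rfl | t0'
    · simp [p0]
    have hd : ∀ u : ℝ, |u| ≤ 1 →
        HasDerivAt (fun u : ℝ => f (x₀ + u • ez)) (∇ f (x₀ + u • ez) 2) u := by
      intro u hu
      have h1 : HasDerivAt (fun u : ℝ => x₀ + u • ez) ez u := by
        simpa using ((hasDerivAt_id u).smul_const ez).const_add x₀
      have h2 := (dif _ (mem u hu)).hasFDerivAt.comp_hasDerivAt u h1
      rw [← s05_inner_grad, real_inner_comm, S07.inner_ez] at h2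
      exact h2
    obtain ⟨u, hu, e⟩ := exists_hasDerivAt_eq_slope (fun u : ℝ => f (x₀ + u • ez))
      (fun u => ∇ f (x₀ + u • ez) 2) t0'
      (fun u hu => (hd u (abs_le.2
        ⟨by linarith [hu.1], by linarith [hu.2]⟩)).continuousAt.continuousWithinAt)
      (fun u hu => hd u (abs_le.2 ⟨by linarith [hu.1], by linarith [hu.2]⟩))
    simp only [zero_smul, add_zero, p0, sub_zero] at e
    have a1 := dz u (abs_le.2 ⟨by linarith [hu.1], by linarith [hu.2]⟩)
    rw [e, le_div_iff₀ t0'] at a1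
    linarith
  refine ⟨?_, ?_, ?_, dz z⟩
  · rcases le_total 0 z with h | h
    · rw [abs_of_nonneg h] at hz ⊢
      exact (lo z h hz).trans (le_abs_self _)
    · rw [abs_of_nonpos h] at hz ⊢
      have e : R (x₀ + z • ez) = x₀ + (-z) • ez := by
        simp only [R, PiLp.add_apply, PiLp.smul_apply, h0, S07.ez_two, smul_eq_mul]
        module
      have a1 := lo (-z) (neg_nonneg.2 h) hz
      rw [← e, ho] at a1
      exact a1.trans (neg_le_abs _)
  · have k := (convex_ball x₀ 2).norm_image_sub_le_of_norm_fderiv_le dif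
      (fun x hx => by rw [← s05_norm_grad]; exact hg x hx) (mem_ball_self two_pos) (mem z hz)
    rw [p0, sub_zero, add_sub_cancel_left, F0d.norm_smul_ez, Real.norm_eq_abs] at k
    linarith
  · linarith [(odd_holder h0 hp ho hH hs hs1 hz).1]

theorem nsq_S {o : OD} (ho : o.OK) {c : ℝ} {m : MD} (hm : m.OK o c) (hc : c * m.l ≤ 3 / 10)
    (hI : 0 ≤ m.I ∧ m.I ≤ 7 / 10) :
    nsq (fun y => -((o.v y + m.I + m.l * m.w y) * m.f y) + m.ef y + 8 ^ 2 / 2 * m.f y) ≤
      (10000 + 96 * dir o.u0) ^ 2 := by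
  have hf := hm.sf.h1
  have hu := ho.su.h1
  have hg := hm.h1.2.2.2.1
  have r3 : ∫ x, m.r x ^ 2 = 3 := hm.nr
  have a1 : ∫ x, m.f x ^ 2 ≤ 3 := by
    rw [← r3]
    refine integral_mono_ae hf.l2.integrable_sq hm.h1.1.l2.integrable_sq ?_
    filter_upwards [hm.pyth] with x hx
    linarith [hx.2.1, sq_nonneg (m.g x)]
  have a2 : ∫ x, m.g x ^ 2 ≤ 3 := by
    rw [← r3]
    refine integral_mono_ae hg.l2.integrable_sq hm.h1.1.l2.integrable_sq ?_
    filter_upwards [hm.pyth] with x hx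
    linarith [hx.2.1, sq_nonneg (m.f x)]
  have a3 : dir m.f ≤ 2 * dir (fun x => m.f x - o.u0 x) + 2 * dir o.u0 := by
    unfold dir
    rw [← integral_const_mul, ← integral_const_mul, ← integral_add
      ((S11_int_normsq (hf.sub hu).dl2).const_mul 2) ((S11_int_normsq hu.dl2).const_mul 2)]
    refine integral_mono_ae (S11_int_normsq hf.dl2) (((S11_int_normsq (hf.sub hu).dl2).const_mul
      2).add ((S11_int_normsq hu.dl2).const_mul 2)) ?_
    filter_upwards [D_sub hf.hl hu.hl] with x hx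
    rw [hx]
    have h1 := norm_add_le (D m.f x - D o.u0 x) (D o.u0 x)
    rw [sub_add_cancel] at h1
    nlinarith [pow_le_pow_left₀ (norm_nonneg _) h1 2, sq_nonneg (‖D m.f x - D o.u0 x‖ - ‖D o.u0 x‖)]
  have a4 := hm.close.2.2.1
  have a5 := S11_nsq_nonneg fun x => m.f x - o.u0 x
  have a6 := S11_dir_nonneg o.u0
  obtain ⟨b1, b2⟩ := (vx_facts o.d).2.2 _ hf
  have b2' : ∫ x, (vx o.d x * m.f x) ^ 2 ≤ 16 * dir m.f := b2
  have i1 := (hf.l2.integrable_sq.const_mul 3072).add (b1.integrable_sq.const_mul 3)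
  have i1' : Integrable fun x => 3072 * m.f x ^ 2 + 3 * (vx o.d x * m.f x) ^ 2 := i1
  have k : nsq (fun y => -((o.v y + m.I + m.l * m.w y) * m.f y) + m.ef y + 8 ^ 2 / 2 * m.f y) ≤
      ∫ x, (3072 * m.f x ^ 2 + 3 * (vx o.d x * m.f x) ^ 2 + 3 * m.g x ^ 2) := by
    refine integral_mono_of_nonneg (ae_of_all _ fun _ => sq_nonneg _)
      (i1'.add (hg.l2.integrable_sq.const_mul 3)) ?_
    filter_upwards [hm.ef_bd] with x hx
    have w1 : 0 ≤ m.l * m.w x := mul_nonneg hm.l0.1.le (hm.w_bd x).1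
    have w2 : m.l * m.w x ≤ 3 / 10 :=
      (mul_le_mul_of_nonneg_left (hm.w_bd x).2.1 hm.l0.1.le).trans (by linarith)
    have j1 : 1 ≤ jb x ^ 2 := one_le_pow₀ (jb_facts x).1
    have g0 := (hm.nn x).2.2.2.1
    have e1 : |m.ef x| ≤ m.g x := by
      refine hx.trans (mul_le_of_le_one_left g0 ?_)
      rw [div_le_one (by linarith)]
      linarith
    have e2 : m.ef x ^ 2 ≤ m.g x ^ 2 := sq_le_sq' (abs_le.1 e1).1 (abs_le.1 e1).2
    have e3 : (32 - m.I - m.l * m.w x) ^ 2 ≤ 32 ^ 2 :=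
      pow_le_pow_left₀ (by linarith [hI.2]) (by linarith [hI.1]) 2
    have e4 := mul_le_mul_of_nonneg_right e3 (sq_nonneg (m.f x))
    have e5 : -((o.v x + m.I + m.l * m.w x) * m.f x) + m.ef x + 8 ^ 2 / 2 * m.f x =
        (32 - m.I - m.l * m.w x) * m.f x + -(vx o.d x * m.f x) + m.ef x := by
      simp only [OD.v]
      ring
    simp only [e5]
    nlinarith [sq_nonneg ((32 - m.I - m.l * m.w x) * m.f x + vx o.d x * m.f x),
      sq_nonneg ((32 - m.I - m.l * m.w x) * m.f x - m.ef x), sq_nonneg (vx o.d x * m.f x + m.ef x)]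
  rw [integral_add i1' (hg.l2.integrable_sq.const_mul 3),
    integral_add (hf.l2.integrable_sq.const_mul 3072) (b1.integrable_sq.const_mul 3),
    integral_const_mul, integral_const_mul, integral_const_mul] at k
  nlinarith

theorem vx_abs {d : ℝ} (hd : 0 ≤ d) {y : E} (hy : d + 2 ≤ ‖y‖) : -1 ≤ vx d y := by
  have h1 := norm_sub_norm_le y (d • ez)
  have h2 := norm_sub_norm_le y (-(d • ez))
  rw [norm_neg, sub_neg_eq_add] at h2
  rw [F0d.norm_smul_ez, abs_of_nonneg hd] at h1 h2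
  have h3 : 1 / ‖y - d • ez‖ ≤ 1 / 2 := one_div_le_one_div_of_le two_pos (by linarith)
  have h4 : 1 / ‖y + d • ez‖ ≤ 1 / 2 := one_div_le_one_div_of_le two_pos (by linarith)
  unfold vx
  linarith

theorem J_le {f : E → ℝ} (hf : MemLp f 2 volume) {x₀ : E} (h0 : x₀ 2 = 0) :
    ∫ y, Real.exp (-(4 * ‖x₀ - y‖)) * (|y 2| * |f y|) ≤
      Real.exp 4 * ∫ y, Real.exp (-(4 * jb (x₀ - y))) * (|y 2| * |f y|) := by
  rw [← integral_const_mul]
  refine integral_mono_of_nonneg (ae_of_all _ fun y => by positivity)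
    ((int_G hf h0).const_mul _) (ae_of_all _ fun y => ?_)
  simp only
  rw [← mul_assoc (Real.exp 4), ← Real.exp_add]
  refine mul_le_mul_of_nonneg_right (Real.exp_le_exp.2 ?_) (by positivity)
  linarith [(jb_facts (x₀ - y)).2.2.1]

theorem hor_of_two {x : E} (h : x 2 = 0) : hor x = x := by simp [hor, h]

theorem hor_add (x : E) : hor x + x 2 • ez = x := by simp [hor]

theorem hor_add_ez {x : E} (h : x 2 = 0) (z : ℝ) : hor (x + z • ez) = x ∧ (x + z • ez) 2 = z := by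
  have e : (x + z • ez) 2 = z := by
    simp only [PiLp.add_apply, PiLp.smul_apply, h, S07.ez_two, smul_eq_mul]
    ring
  exact ⟨by rw [hor, e, add_sub_cancel_right], e⟩

end F9gA

end

end Crest.Agent.R335
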