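import Crest.Agent.R335.F8
import Crest.Agent.R335.F9Aux39
import Crest.Agent.R335.F9gAux

set_option autoImplicit false

open MeasureTheory Set Filter Topology Metric
open scoped Gradient ContDiff RealInnerProductSpace ENNReal

namespace Crest.Agent.R335

noncomputable section

theorem F9f : ∃ C : ℝ, 0 < C ∧ Lg fun o => ∀ c, ∃ ρ : ℝ, Sm o c fun m =>
    ∀ x, ρ ≤ ‖x‖ → ∀ y, |m.f y| ≤ C * Real.exp (4 * ‖y - x‖) * m.J x :=
  F9a_f
theorem F9g : Lg fun o => ∀ c, ∃ ρ : ℝ, Sm o c fun m =>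
    (∀ x ∈ Sl ρ, |x 2| * m.Dt x / o.L ≤ |m.f x| ∧ |m.f x| ≤ o.L * (|x 2| * m.Dt x)) ∧
    ∀ᵐ x, x ∈ Sl ρ → ‖D m.f x‖ ≤ o.L * m.Dt x ∧ ‖hor (D m.f x)‖ ≤ o.L * (√|x 2| * m.Dt x) ∧
      (|x 2| ≤ 1 / o.L → m.Dt x / o.L ≤ D m.f x 2) := by
  obtain ⟨Cf, Cf0, hf⟩ := F9f
  obtain ⟨CY, CY0, hY⟩ := F9gA.reg
  obtain ⟨Cr, Cr0, hr⟩ := rad_cmp 3
  obtain ⟨B, hB⟩ : ∃ B : ℝ, B = 33 * Cf * Real.exp 4 + 1 := ⟨_, rfl⟩
  have B0 : 0 < B := by rw [hB]; positivity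
  obtain ⟨H, hH⟩ : ∃ H : ℝ, H = CY * (B + 1) := ⟨_, rfl⟩
  have H0 : 0 < H := by rw [hH]; positivity
  obtain ⟨c0, hc0⟩ : ∃ c0 : ℝ, c0 = Real.exp (-2) / 4 := ⟨_, rfl⟩
  have c00 : 0 < c0 := by rw [hc0]; positivity
  obtain ⟨s, s0, s1, s2⟩ : ∃ s : ℝ, 0 < s ∧ s ≤ 1 / 2 ∧ 2 * H * √s ≤ c0 / 4 := by
    refine ⟨min (1 / 2) ((c0 / (8 * H)) ^ 2), by positivity, min_le_left _ _, ?_⟩
    have h1 : √(min (1 / 2) ((c0 / (8 * H)) ^ 2)) ≤ c0 / (8 * H) :=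
      Real.sqrt_le_iff.2 ⟨by positivity, min_le_right _ _⟩
    refine (mul_le_mul_of_nonneg_left h1 (by positivity)).trans (le_of_eq ?_)
    field_simp
    ring
  obtain ⟨ε, ε0, ε1, ε2⟩ : ∃ ε : ℝ, 0 < ε ∧ ε ≤ 1 ∧ 8 * Real.exp (3 / 2) * ε ≤ c0 * s / 2 := by
    refine ⟨min 1 (c0 * s / (16 * Real.exp (3 / 2))), by positivity, min_le_left _ _, ?_⟩
    refine (mul_le_mul_of_nonneg_left (min_le_right _ _) (by positivity)).trans (le_of_eq ?_)
    field_simp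
    ring
  refine ((((hf.and F9c).and F2).and F5a).and (Lg.ge (max H (max (4 / c0) (1 / s))))).mono ?_
  rintro o ho ⟨⟨⟨⟨h1, h2⟩, h3⟩, h4⟩, hd⟩ c
  obtain ⟨ρ1, h1⟩ := h1 c
  obtain ⟨ρ2, h2⟩ := h2 c
  obtain ⟨c2, c21, h3⟩ := h3 c
  obtain ⟨Γ, Γ1, h4⟩ := h4 c
  have d0 : 100 ≤ o.d := ho.C0.1.trans ho.C0.2.2
  have dL : o.d ≤ o.L := le_add_of_nonneg_right (abs_nonneg _)
  have L0 : 0 < o.L := by linarith
  have L1 : H ≤ o.L := (le_of_max_le_left hd).trans dL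
  have L2 : 1 / o.L ≤ c0 / 4 := by
    rw [← one_div_div 4 c0]
    exact one_div_le_one_div_of_le (by positivity)
      ((le_of_max_le_left (le_of_max_le_right hd)).trans dL)
  have L3 : 1 / o.L ≤ s := by
    rw [← one_div_one_div s]
    exact one_div_le_one_div_of_le (by positivity)
      ((le_of_max_le_right (le_of_max_le_right hd)).trans dL)
  have G0 : 0 < o.Γ1 := Real.exp_pos _
  obtain ⟨N, hN⟩ : ∃ N : ℝ, N = 10000 + 96 * dir o.u0 := ⟨_, rfl⟩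
  have N0 : 0 < N := by rw [hN]; linarith [S11_dir_nonneg o.u0]
  refine ⟨max (max ρ1 ρ2) (max (2 * o.d + 8) (2 * (N * Cr * o.Γ1 * Real.exp 2))), ?_⟩
  refine ((((((h1.and h2).and h3).and h4).and (num_kappa o ho c 1 one_pos)).and
    (Sm.le o c (a := ε / (c2 * Cr * o.Γ1)) (by positivity))).and
    (Sm.le o c (a := 3 / 10 / (|c| + 1)) (by positivity))).mono ?_
  rintro m hm ⟨⟨⟨⟨⟨⟨a1, -, a2⟩, -, a3⟩, a4, -⟩, -, -, k1, k2, k3, -, -, -, k4, -⟩, l1⟩, l2⟩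
  have l0 := hm.l0.1
  have cl : c * m.l ≤ 3 / 10 := by
    rw [le_div_iff₀ (by positivity)] at l2
    nlinarith [mul_le_mul_of_nonneg_right (le_abs_self c) l0.le]
  have k5 : m.κ ≤ 11 / 10 := by linarith [ho.δ.1]
  have I0 : 0 ≤ m.I ∧ m.I ≤ 7 / 10 := by
    rw [← k3]
    exact ⟨by positivity, by nlinarith⟩
  have w1 : ∀ y, 0 ≤ m.l * m.w y ∧ m.l * m.w y ≤ 3 / 10 := fun y =>
    ⟨mul_nonneg l0.le (hm.w_bd y).1,
      (mul_le_mul_of_nonneg_left (hm.w_bd y).2.1 l0.le).trans (by linarith)⟩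
  have v0 : ∀ y, o.v y ≤ 0 := fun y => ((vx_facts o.d).2.1 y).1
  have D0 : ∀ y, 0 < m.Dm y := fun y => (radb_facts _ _ _ y).1
  have hrad : ∀ x y, m.Dm y ≤ Cr * Real.exp (3 / 2 * ‖y - x‖) * m.Dm x := by
    intro x y
    have b1 : 0 ≤ (2 - 2 * m.l) / m.κ := div_nonneg (by linarith [hm.l0.2]) (by linarith)
    have b2 : (2 - 2 * m.l) / m.κ ≤ 3 := by
      rw [div_le_iff₀ (by linarith)]
      linarith
    refine (hr _ m.κ (abs_le.2 ⟨by linarith, by linarith⟩) (by linarith) x y).trans ?_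
    refine mul_le_mul_of_nonneg_right (mul_le_mul_of_nonneg_left (Real.exp_le_exp.2 ?_) Cr0.le)
      (D0 x).le
    exact mul_le_mul_of_nonneg_right (by linarith) (norm_nonneg _)
  have hs : ∀ y : E, 0 ≤ y 2 → 0 ≤ m.f y := fun y hy =>
    le_trans (div_nonneg (mul_nonneg hy (D0 y).le) (by linarith)) (a4 y hy).1
  obtain ⟨S8, e8⟩ := hm.sf.eq_YP (k := 8) (by norm_num) hm.cf.1
  obtain ⟨S2, e2⟩ := hm.sf.eq_YP two_pos hm.cf.1
  have f2 := hm.sf.h1.l2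
  have T0 : ∀ x, 0 ≤ m.Dt x := fun x => integral_nonneg fun y => by positivity
  have main : ∀ x₀ : E, x₀ 2 = 0 →
      max (max ρ1 ρ2) (max (2 * o.d + 8) (2 * (N * Cr * o.Γ1 * Real.exp 2))) ≤ ‖x₀‖ →
      ContDiffOn ℝ 1 m.f (ball x₀ 2) ∧ (∀ x ∈ ball x₀ 2, ‖∇ m.f x‖ ≤ H * m.Dt x₀) ∧
      ∀ z : ℝ, |z| ≤ 1 → c0 / 4 * (|z| * m.Dt x₀) ≤ |m.f (x₀ + z • ez)| ∧
        |m.f (x₀ + z • ez)| ≤ H * (|z| * m.Dt x₀) ∧
        ‖hor (∇ m.f (x₀ + z • ez))‖ ≤ H * (√|z| * m.Dt x₀) ∧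
        (|z| ≤ s → c0 / 4 * m.Dt x₀ ≤ ∇ m.f (x₀ + z • ez) 2) := by
    intro x₀ h0 hρ
    have hh := F9gA.hor_of_two h0
    have r1 := le_of_max_le_left (le_of_max_le_left hρ)
    have r2 := le_of_max_le_right (le_of_max_le_left hρ)
    have r3 := le_of_max_le_left (le_of_max_le_right hρ)
    have r4 := le_of_max_le_right (le_of_max_le_right hρ)
    have eT : m.Dt x₀ = ∫ y, Real.exp (-(4 * jb (x₀ - y))) * (|y 2| * |m.f y|) := by
      rw [MD.Dt, hh]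
    have t0 := T0 x₀
    have t1 : m.Dm x₀ ≤ o.Γ1 * m.Dt x₀ := by
      have := (a2 x₀ (by rwa [hh])).1
      rwa [hh, div_le_iff₀ G0, mul_comm] at this
    have t2 : m.J x₀ ≤ Real.exp 4 * m.Dt x₀ := by
      rw [eT]
      exact F9gA.J_le f2 h0
    have t3 : ∀ᵐ y, |m.ef y| ≤ ε * m.Dt x₀ * Real.exp (3 / 2 * ‖y - x₀‖) := by
      filter_upwards [a3] with y hy
      have j1 : 1 ≤ jb y ^ 2 := one_le_pow₀ (jb_facts y).1
      have b1 : c2 * m.l / jb y ^ 2 ≤ c2 * m.l := div_le_self (by positivity) j1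
      have b2 : m.l * (c2 * Cr * o.Γ1) ≤ ε := (le_div_iff₀ (by positivity)).1 l1
      calc |m.ef y| ≤ c2 * m.l * m.Dm y := hy.2.trans (mul_le_mul_of_nonneg_right b1 (D0 y).le)
        _ ≤ c2 * m.l * (Cr * Real.exp (3 / 2 * ‖y - x₀‖) * (o.Γ1 * m.Dt x₀)) :=
            mul_le_mul_of_nonneg_left ((hrad x₀ y).trans
              (mul_le_mul_of_nonneg_left t1 (by positivity))) (by positivity)
        _ = m.l * (c2 * Cr * o.Γ1) * (m.Dt x₀ * Real.exp (3 / 2 * ‖y - x₀‖)) := by ring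
        _ ≤ ε * (m.Dt x₀ * Real.exp (3 / 2 * ‖y - x₀‖)) :=
            mul_le_mul_of_nonneg_right b2 (by positivity)
        _ = _ := by ring
    have t4 : Real.exp (-(4 * (‖x₀‖ / 2))) * N ≤ m.Dt x₀ := by
      have b1 := hrad x₀ 0
      have b2 : Real.exp (-2) ≤ m.Dm 0 := by
        simp only [MD.Dm, radb, jb, norm_zero, ne_eq, OfNat.ofNat_ne_zero, not_false_eq_true,
          zero_pow, add_zero, Real.sqrt_one, Real.one_rpow, mul_one, zero_div, one_mul]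
        exact Real.exp_le_exp.2 (by linarith)
      rw [zero_sub, norm_neg] at b1
      have b3 : N * Cr * o.Γ1 * Real.exp 2 ≤ Real.exp (‖x₀‖ / 2) := by
        linarith [Real.add_one_le_exp (‖x₀‖ / 2)]
      have b4 : Real.exp (-2) ≤ Cr * Real.exp (3 / 2 * ‖x₀‖) * (o.Γ1 * m.Dt x₀) :=
        b2.trans (b1.trans (mul_le_mul_of_nonneg_left t1 (by positivity)))
      calc Real.exp (-(4 * (‖x₀‖ / 2))) * N
          = Real.exp (-(4 * (‖x₀‖ / 2))) * N * Real.exp 2 * Real.exp (-2) := by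
            rw [mul_assoc _ (Real.exp 2), ← Real.exp_add]
            simp
        _ ≤ Real.exp (-(4 * (‖x₀‖ / 2))) * N * Real.exp 2 *
            (Cr * Real.exp (3 / 2 * ‖x₀‖) * (o.Γ1 * m.Dt x₀)) :=
            mul_le_mul_of_nonneg_left b4 (by positivity)
        _ = Real.exp (-(4 * (‖x₀‖ / 2))) * Real.exp (3 / 2 * ‖x₀‖) *
            (N * Cr * o.Γ1 * Real.exp 2) * m.Dt x₀ := by ring
        _ ≤ Real.exp (-(4 * (‖x₀‖ / 2))) * Real.exp (3 / 2 * ‖x₀‖) * Real.exp (‖x₀‖ / 2) *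
            m.Dt x₀ := by gcongr
        _ = m.Dt x₀ := by
            rw [← Real.exp_add, ← Real.exp_add,
              show -(4 * (‖x₀‖ / 2)) + 3 / 2 * ‖x₀‖ + ‖x₀‖ / 2 = 0 by ring, Real.exp_zero, one_mul]
    have t5 := hY _ x₀ B (m.Dt x₀) N (‖x₀‖ / 2) S8 B0.le t0 N0.le (by linarith)
      (hN ▸ F9gA.nsq_S ho hm cl I0) t4 (by
        filter_upwards [t3] with y hy hy2
        have n1 := norm_sub_norm_le x₀ y
        rw [norm_sub_rev] at n1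
        have v1 : -1 ≤ o.v y := F9gA.vx_abs (by linarith) (by linarith)
        have e5 : -((o.v y + m.I + m.l * m.w y) * m.f y) + m.ef y + 8 ^ 2 / 2 * m.f y =
            (32 - o.v y - m.I - m.l * m.w y) * m.f y + m.ef y := by ring
        have b1 : |32 - o.v y - m.I - m.l * m.w y| ≤ 33 :=
          abs_le.2 ⟨by linarith [v0 y, I0.2, (w1 y).2], by linarith [I0.1, (w1 y).1]⟩
        have b2 : |m.f y| ≤ Cf * Real.exp (4 * ‖y - x₀‖) * (Real.exp 4 * m.Dt x₀) :=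
          (a1 x₀ r1 y).trans (mul_le_mul_of_nonneg_left t2 (by positivity))
        have b3 : |m.ef y| ≤ 1 * m.Dt x₀ * Real.exp (4 * ‖y - x₀‖) := hy.trans (by
          gcongr
          norm_num)
        have b4 := mul_le_mul b1 b2 (abs_nonneg _) (by norm_num)
        rw [e5, hB]
        refine (abs_add_le _ _).trans ?_
        rw [abs_mul]
        linarith)
    rw [← e8, ← hH] at t5
    refine ⟨t5.1, t5.2.1, fun z hz => F9gA.fin h0 t5.1 hm.cf.2.2 t0 c00.le t5.2.1 t5.2.2 s0 s1 s2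
      (fun z z0 z1 => ?_) hz⟩
    obtain ⟨q1, q2⟩ := F9gA.hor_add_ez h0 z
    have k := F9gA.low (x := x₀ + z • ez) (P := fun y => 2 - o.v y - m.I - m.l * m.w y)
      (ef := m.ef) (ε := ε * m.Dt x₀) f2 S2 e2 (fun y => by ring)
      (fun y => by linarith [v0 y, I0.2, (w1 y).2]) hm.cf.2.2 hs (by positivity)
      (by rwa [q1]) (by rwa [q2]) (by rwa [q2])
    rw [q1, q2, ← eT, ← hc0] at k
    linarith [mul_le_mul_of_nonneg_right ε2 t0]
  have eD : ∀ x, m.Dt (hor x) = m.Dt x := fun x => by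
    rw [MD.Dt, F9gA.hor_of_two (F0d.hor_two x), MD.Dt]
  have mem : ∀ x : E, |x 2| < 1 → x ∈ ball (hor x) 2 := fun x hx => by
    rw [mem_ball, dist_eq_norm, F9gA.norm_sub_hor]
    linarith
  have pw := fun x (hx : x ∈ Sl _) => main (hor x) (F0d.hor_two x) (le_of_lt hx.2)
  constructor
  · intro x hx
    have k := (pw x hx).2.2 (x 2) hx.1.le
    rw [F9gA.hor_add, eD] at k
    have t0 : 0 ≤ |x 2| * m.Dt x := mul_nonneg (abs_nonneg _) (T0 x)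
    refine ⟨le_trans ?_ k.1, k.2.1.trans (mul_le_mul_of_nonneg_right L1 t0)⟩
    rw [div_eq_mul_one_div, mul_comm]
    exact mul_le_mul_of_nonneg_right L2 t0
  · have hO : IsOpen (Sl (max (max ρ1 ρ2) (max (2 * o.d + 8) (2 * (N * Cr * o.Γ1 * Real.exp 2))))) :=
      (isOpen_lt S07.cont_two.abs continuous_const).inter (isOpen_lt continuous_const
        (continuous_id.sub (S07.cont_two.smul continuous_const)).norm)
    filter_upwards [D_eq_grad_on hm.sf.h1.hl hO fun x hx =>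
      ((pw x hx).1.contDiffAt (isOpen_ball.mem_nhds (mem x hx.1))).contDiffWithinAt] with x e hx
    have k := (pw x hx).2.2 (x 2) hx.1.le
    have k' := (pw x hx).2.1 x (mem x hx.1)
    rw [F9gA.hor_add, eD] at k
    rw [eD] at k'
    rw [e hx]
    refine ⟨k'.trans (mul_le_mul_of_nonneg_right L1 (T0 x)), k.2.2.1.trans
      (mul_le_mul_of_nonneg_right L1 (mul_nonneg (Real.sqrt_nonneg _) (T0 x))), fun h =>
      le_trans ?_ (k.2.2.2 (h.trans L3))⟩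
    rw [div_eq_mul_one_div, mul_comm]
    exact mul_le_mul_of_nonneg_right L2 (T0 x)

end

end Crest.Agent.R335
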