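import Crest.Agent.R335.Defs3
import Crest.Agent.R335.BDefs
import Crest.Agent.R335.S11
import Crest.Agent.R335.S09
import Crest.Agent.R335.S08
import Crest.Agent.R335.S07

/-! Row 335, module MA: definitions, invariance under isometries. -/

set_option autoImplicit false
set_option linter.unusedSectionVars false

open MeasureTheory Set Filter Topology Metric
open scoped Gradient ContDiff RealInnerProductSpace ENNReal

namespace Crest.Agent.R335

noncomputable section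

variable {V : Type*} [NormedAddCommGroup V] [InnerProductSpace ℝ V] [FiniteDimensional ℝ V]
  [MeasurableSpace V] [BorelSpace V]
variable {W : Type*} [NormedAddCommGroup W] [InnerProductSpace ℝ W] [FiniteDimensional ℝ W]
  [MeasurableSpace W] [BorelSpace W]

/-- `U` is a multiplication operator `H¹ → L²` -/
structure OpB (C : ℝ) (U : V → ℝ) : Prop where
  nn : 0 ≤ C
  meas : AEStronglyMeasurable U volume
  bd : ∀ u, H1 u → MemLp (fun x => U x * u x) 2 volume ∧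
    nsq (fun x => U x * u x) ≤ C * (dir u + nsq u)

/-- perturbed ground state in the class `P`, close to the unperturbed one `b` -/
structure PT (P : (V → ℝ) → Prop) (U b : V → ℝ) (e0 δ ε En : ℝ) (ψ : V → ℝ) : Prop where
  mem : P ψ
  h1 : H1 ψ
  norm : nsq ψ = 1
  eE : En = Q U ψ
  bd : e0 ≤ En ∧ En ≤ e0 + ε ∧ En < e0 + δ
  low : ∀ u, P u → En * nsq u ≤ Q U u
  el : ∀ χ, P χ → ∫ x, (1 / 2) * ⟪D ψ x, D χ x⟫ = ∫ x, (En - U x) * ψ x * χ x
  gap : ∀ u, P u → ip ψ u = 0 → (e0 + δ) * nsq u ≤ Q U u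
  gapb : ∀ u, P u → ip b u = 0 → (e0 + δ) * nsq u ≤ Q U u
  close : nsq (fun x => ψ x - b x) + dir (fun x => ψ x - b x) ≤ ε

def V2 (v : E → ℝ) (y : E6) : ℝ := v y.fst + v y.snd
def W2 (y : E6) : ℝ := 1 / ‖y.fst - y.snd‖
def W3 (p : E9) : ℝ := W2 p.snd + Wx p.fst p.snd
def sw6 (y : E6) : E6 := pt y.snd y.fst
def Anti2 (F : E6 → ℝ) : Prop := ∀ y, F (sw6 y) = -F y
def gg (g : E → ℝ) (y : E6) : ℝ := g y.fst * g y.snd
def w0 (g u : E → ℝ) (y : E6) : ℝ := (u y.fst * g y.snd - g y.fst * u y.snd) / √2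

theorem U2_eq (d l : ℝ) : U2 d l = fun y => V2 (vx d) y + l * W2 y := by
  funext y
  simp only [U2, V2, W2]
  ring
theorem U3_eq (d l : ℝ) : U3 d l = fun p => V3 (vx d) p + l * W3 p := by
  funext p
  simp only [U3, U2, V3, W3, W2]
  ring
theorem W2_nonneg (y : E6) : 0 ≤ W2 y := by
  unfold W2
  positivity
theorem W3_nonneg (p : E9) : 0 ≤ W3 p := by
  unfold W3 W2 Wx
  positivity

theorem ip_comm (u w : V → ℝ) : ip u w = ip w u := by
  simp only [ip, mul_comm]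
theorem ip_self (u : V → ℝ) : ip u u = nsq u := by
  simp only [ip, nsq, sq]
theorem ip_congr {u u' w w' : V → ℝ} (h : ∀ᵐ x, u x = u' x) (h' : ∀ᵐ x, w x = w' x) :
    ip u w = ip u' w' := by
  refine integral_congr_ae ?_
  filter_upwards [h, h'] with x hx hx'
  rw [hx, hx']
theorem Q_congr (U : V → ℝ) {u w : V → ℝ} (h : ∀ᵐ x, u x = w x) : Q U u = Q U w := by
  have e1 : dir u = dir w := by
    refine integral_congr_ae ?_
    filter_upwards [D_congr h] with x hx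
    rw [hx]
  have e2 : ∫ x, U x * u x ^ 2 = ∫ x, U x * w x ^ 2 := by
    refine integral_congr_ae ?_
    filter_upwards [h] with x hx
    rw [hx]
  rw [Q, Q, e1, e2]
theorem integral_iso (L : V ≃ₗᵢ[ℝ] W) (f : W → ℝ) : ∫ x, f (L x) = ∫ y, f y :=
  L.measurePreserving.integral_comp L.toHomeomorph.measurableEmbedding f
theorem ae_iso (L : V ≃ₗᵢ[ℝ] W) {p : W → Prop} (h : ∀ᵐ y, p y) : ∀ᵐ x, p (L x) :=
  L.measurePreserving.quasiMeasurePreserving.ae h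
theorem memLp_iso (L : V ≃ₗᵢ[ℝ] W) {u : W → ℝ} (h : MemLp u 2 volume) :
    MemLp (fun x => u (L x)) 2 volume := h.comp_measurePreserving L.measurePreserving
theorem nsq_iso (L : V ≃ₗᵢ[ℝ] W) (u : W → ℝ) : nsq (fun x => u (L x)) = nsq u :=
  integral_iso L fun y => u y ^ 2
theorem ip_iso (L : V ≃ₗᵢ[ℝ] W) (u w : W → ℝ) :
    ip (fun x => u (L x)) (fun x => w (L x)) = ip u w :=
  integral_iso L fun y => u y * w y
theorem Q_iso (L : V ≃ₗᵢ[ℝ] W) (U : W → ℝ) {u : W → ℝ} (h : H1 u) :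
    Q (fun x => U (L x)) (fun x => u (L x)) = Q U u := by
  rw [Q, Q, (h.iso L).2.1, integral_iso L fun y => U y * u y ^ 2]
theorem ae_zero_of_nsq {u : V → ℝ} (h : MemLp u 2 volume) (h0 : nsq u ≤ 0) : ∀ᵐ x, u x = 0 := by
  have h1 : ∫ x, u x ^ 2 = 0 := le_antisymm h0 (integral_nonneg fun x => sq_nonneg _)
  rw [integral_eq_zero_iff_of_nonneg (fun x => sq_nonneg _) h.integrable_sq] at h1
  filter_upwards [h1] with x hx
  exact pow_eq_zero_iff (two_ne_zero) |>.1 hx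

theorem exists_sw6 : ∃ L : E6 ≃ₗᵢ[ℝ] E6, ∀ y, L y = sw6 y :=
  ⟨LinearIsometryEquiv.withLpProdComm 2 ℝ E E, fun _ => rfl⟩
theorem exists_R6 : ∃ L : E6 ≃ₗᵢ[ℝ] E6, ∀ y, L y = R6 y := by
  obtain ⟨L, hL, -⟩ := exists_Riso
  refine ⟨LinearIsometryEquiv.withLpProdCongr 2 L L, fun y => ?_⟩
  rw [R6, ← hL, ← hL]
  rfl
theorem exists_R9 : ∃ L : E9 ≃ₗᵢ[ℝ] E9, ∀ p, L p = R9 p := by
  obtain ⟨L, hL, -⟩ := exists_Riso
  obtain ⟨L', hL'⟩ := exists_R6
  refine ⟨LinearIsometryEquiv.withLpProdCongr 2 L L', fun y => ?_⟩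
  rw [R9, ← hL, ← hL']
  rfl
theorem sw6_sw6 (y : E6) : sw6 (sw6 y) = y := rfl
theorem R6_R6 (y : E6) : R6 (R6 y) = y := by
  show pt (R (R y.fst)) (R (R y.snd)) = y
  rw [R_R, R_R]
  rfl
theorem sw6_R6 (y : E6) : sw6 (R6 y) = R6 (sw6 y) := rfl
theorem sw12_sw12 (p : E9) : sw12 (sw12 p) = p := rfl
theorem R9_R9 (p : E9) : R9 (R9 p) = p := by
  show pt (R (R p.fst)) (R6 (R6 p.snd)) = p
  rw [R_R, R6_R6]
  rfl
theorem sw12_R9 (p : E9) : sw12 (R9 p) = R9 (sw12 p) := rfl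
theorem norm_R_sub (x y : E) : ‖R x - R y‖ = ‖x - y‖ := by
  obtain ⟨L, hL, -⟩ := exists_Riso
  rw [← hL, ← hL, ← map_sub, L.norm_map]
theorem MA0_R_ez (d : ℝ) : R (d • ez) = -(d • ez) := by
  have : (d • ez : E) 2 = d := by simp [ez]
  rw [R, this, mul_smul, two_smul]
  abel
theorem vx_R (d : ℝ) (x : E) : vx d (R x) = vx d x := by
  have h1 : ‖R x + d • ez‖ = ‖x - d • ez‖ := by
    rw [← norm_R_sub x, MA0_R_ez, sub_neg_eq_add]
  have h2 : ‖R x - d • ez‖ = ‖x + d • ez‖ := by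
    have := norm_R_sub x ((-d) • ez)
    rw [MA0_R_ez, neg_smul, neg_neg, sub_neg_eq_add] at this
    exact this
  rw [vx, vx, h1, h2]
  ring
theorem U2_sw6 (d l : ℝ) (y : E6) : U2 d l (sw6 y) = U2 d l y := by
  show vx d y.snd + vx d y.fst + l / ‖y.snd - y.fst‖ = vx d y.fst + vx d y.snd + l / ‖y.fst - y.snd‖
  rw [norm_sub_rev y.snd]
  ring
theorem U2_R6 (d l : ℝ) (y : E6) : U2 d l (R6 y) = U2 d l y := by
  show vx d (R y.fst) + vx d (R y.snd) + l / ‖R y.fst - R y.snd‖ =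
    vx d y.fst + vx d y.snd + l / ‖y.fst - y.snd‖
  rw [vx_R, vx_R, norm_R_sub]
theorem U3_sw12 (d l : ℝ) (p : E9) : U3 d l (sw12 p) = U3 d l p := by
  show vx d p.snd.fst + (vx d p.fst + vx d p.snd.snd + l / ‖p.fst - p.snd.snd‖) +
      l * (1 / ‖p.snd.fst - p.fst‖ + 1 / ‖p.snd.fst - p.snd.snd‖) =
    vx d p.fst + (vx d p.snd.fst + vx d p.snd.snd + l / ‖p.snd.fst - p.snd.snd‖) +
      l * (1 / ‖p.fst - p.snd.fst‖ + 1 / ‖p.fst - p.snd.snd‖)
  rw [norm_sub_rev p.snd.fst p.fst]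
  ring
theorem U3_R9 (d l : ℝ) (p : E9) : U3 d l (R9 p) = U3 d l p := by
  show vx d (R p.fst) + U2 d l (R6 p.snd) +
      l * (1 / ‖R p.fst - R p.snd.fst‖ + 1 / ‖R p.fst - R p.snd.snd‖) =
    vx d p.fst + U2 d l p.snd + l * (1 / ‖p.fst - p.snd.fst‖ + 1 / ‖p.fst - p.snd.snd‖)
  rw [vx_R, U2_R6, norm_R_sub, norm_R_sub]

end

end Crest.Agent.R335
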