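import Crest.Agent.R335.MA0

/-! Row 335, module MA: operator bounds for the potentials. -/

set_option autoImplicit false
set_option linter.unusedSectionVars false

open MeasureTheory Set Filter Topology Metric
open scoped Gradient ContDiff RealInnerProductSpace ENNReal

namespace Crest.Agent.R335

noncomputable section

variable {V : Type*} [NormedAddCommGroup V] [InnerProductSpace ℝ V] [FiniteDimensional ℝ V]
  [MeasurableSpace V] [BorelSpace V]
variable {W : Type*} [NormedAddCommGroup W] [InnerProductSpace ℝ W] [FiniteDimensional ℝ W]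
  [MeasurableSpace W] [BorelSpace W]

theorem OpB.mono {C C' : ℝ} {U : V → ℝ} (h : OpB C U) (hC : C ≤ C') : OpB C' U := by
  refine ⟨h.nn.trans hC, h.meas, fun u hu => ⟨(h.bd u hu).1, (h.bd u hu).2.trans ?_⟩⟩
  exact mul_le_mul_of_nonneg_right hC (add_nonneg (S11_dir_nonneg u) (S11_nsq_nonneg u))

theorem OpB.add {C C' : ℝ} {U U' : V → ℝ} (h : OpB C U) (h' : OpB C' U') :
    OpB (2 * C + 2 * C') fun x => U x + U' x := by
  refine ⟨by linarith [h.nn, h'.nn], h.meas.add h'.meas, fun u hu => ?_⟩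
  obtain ⟨a1, a2⟩ := h.bd u hu
  obtain ⟨b1, b2⟩ := h'.bd u hu
  have e : (fun x => (U x + U' x) * u x) = fun x => 1 * (U x * u x) + 1 * (U' x * u x) := by
    funext x; ring
  rw [e]
  refine ⟨(a1.const_mul 1).add (b1.const_mul 1), ?_⟩
  have h1 := S11_nsq_lc a1 b1 1 1
  have h2 := S11_nsq_lc a1 b1 1 (-1)
  have h3 := S11_nsq_nonneg fun x => 1 * (U x * u x) + -1 * (U' x * u x)
  rw [h1]
  linarith

theorem OpB.smul {C : ℝ} {U : V → ℝ} (h : OpB C U) {l : ℝ} (hl : |l| ≤ 1) :
    OpB C fun x => l * U x := by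
  refine ⟨h.nn, h.meas.const_mul l, fun u hu => ?_⟩
  obtain ⟨a1, a2⟩ := h.bd u hu
  have e : (fun x => l * U x * u x) = fun x => l * (U x * u x) + 0 * (U x * u x) := by
    funext x; ring
  rw [e]
  refine ⟨(a1.const_mul l).add (a1.const_mul 0), ?_⟩
  rw [S11_nsq_lc a1 a1 l 0]
  have h3 := S11_nsq_nonneg fun x => U x * u x
  have h4 : l ^ 2 ≤ 1 := by rw [← sq_abs]; nlinarith [abs_nonneg l]
  nlinarith

theorem opB_bdd {U : V → ℝ} {M : ℝ} (hm : AEStronglyMeasurable U volume) (h : ∀ x, |U x| ≤ M) :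
    OpB (M ^ 2) U := by
  refine ⟨sq_nonneg M, hm, fun u hu => ?_⟩
  have a1 : MemLp (fun x => U x * u x) 2 volume := by
    refine (hu.l2.const_mul M).of_le (hm.mul hu.l2.1) (Eventually.of_forall fun x => ?_)
    simp only [Real.norm_eq_abs, abs_mul]
    exact mul_le_mul_of_nonneg_right ((h x).trans (le_abs_self M)) (abs_nonneg _)
  refine ⟨a1, ?_⟩
  have a2 : nsq (fun x => U x * u x) ≤ M ^ 2 * nsq u := by
    unfold nsq
    rw [← integral_const_mul]
    refine integral_mono a1.integrable_sq (hu.l2.integrable_sq.const_mul _) fun x => ?_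
    have : U x ^ 2 ≤ M ^ 2 := by
      rw [← sq_abs (U x)]
      exact pow_le_pow_left₀ (abs_nonneg _) (h x) 2
    simp only [mul_pow]
    exact mul_le_mul_of_nonneg_right this (sq_nonneg _)
  have := mul_nonneg (sq_nonneg M) (S11_dir_nonneg u)
  linarith

theorem OpB.int {C : ℝ} {U u : V → ℝ} (h : OpB C U) (hu : H1 u) :
    Integrable fun x => U x * u x ^ 2 := S11_int_U hu (h.bd u hu).1

theorem Q_add_pot {C C' : ℝ} {U U' u : V → ℝ} (h : OpB C U) (h' : OpB C' U') (hu : H1 u) (l : ℝ) :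
    Q (fun x => U x + l * U' x) u = Q U u + l * ∫ x, U' x * u x ^ 2 := by
  unfold Q
  rw [← integral_const_mul, add_assoc, ← integral_add (h.int hu) ((h'.int hu).const_mul l)]
  congr 2
  funext x
  ring

theorem Q_le_add_pot {C C' : ℝ} {U U' u : V → ℝ} (h : OpB C U) (h' : OpB C' U') (hu : H1 u) {l : ℝ}
    (hl : 0 ≤ l) (h0 : ∀ x, 0 ≤ U' x) : Q U u ≤ Q (fun x => U x + l * U' x) u := by
  rw [Q_add_pot h h' hu]
  have : 0 ≤ ∫ x, U' x * u x ^ 2 := integral_nonneg fun x => mul_nonneg (h0 x) (sq_nonneg _)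
  have := mul_nonneg hl this
  linarith

/-- coercivity (`Q_lower` with `ε = 1/4`) -/
theorem OpB.coer {C : ℝ} {U u : V → ℝ} (h : OpB C U) (hu : H1 u) :
    dir u ≤ 4 * Q U u + (1 + 4 * C) * nsq u := by
  have h1 := S11_Q_lower h.nn h.bd (ε := 1 / 4) (by norm_num) hu
  have h2 := (abs_le.1 h1).1
  unfold Q
  have e : C / (4 * (1 / 4)) = C := by norm_num
  rw [e] at h2
  linarith

theorem MA1_iso {C : ℝ} {U : W → ℝ} (h : OpB C U) (L : V ≃ₗᵢ[ℝ] W) : OpB C fun x => U (L x) := by
  refine ⟨h.nn, h.meas.comp_measurePreserving L.measurePreserving, fun u hu => ?_⟩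
  obtain ⟨a1, a2, a3⟩ := hu.iso L.symm
  obtain ⟨b1, b2⟩ := h.bd _ a1
  have e : (fun x => U (L x) * u x) = (fun y => U y * u (L.symm y)) ∘ L := by
    funext x; simp
  rw [a2, a3] at b2
  refine ⟨e ▸ b1.comp_measurePreserving L.measurePreserving, le_of_eq_of_le ?_ b2⟩
  unfold nsq
  rw [← L.measurePreserving.integral_comp L.toHomeomorph.measurableEmbedding]
  simp

theorem MA1_slice {F G : WithLp 2 (V × W) → ℝ} (hF : AEStronglyMeasurable F volume)
    (h0 : ∀ p, 0 ≤ F p) (hG : Integrable G)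
    (h : ∀ᵐ x, Integrable (fun y => F (pt x y)) ∧ ∫ y, F (pt x y) ≤ ∫ y, G (pt x y)) :
    Integrable F ∧ ∫ p, F p ≤ ∫ p, G p := by
  have m : AEStronglyMeasurable (fun z : V × W => F (pt z.1 z.2)) (volume.prod volume) :=
    hF.comp_measurePreserving S08_mp
  have hi : Integrable F := by
    rw [← S08_int, integrable_prod_iff m]
    refine ⟨h.mono fun x hx => hx.1, ?_⟩
    refine (integrable_pt hG).2.mono' m.norm.integral_prod_right' ?_
    filter_upwards [h] with x hx
    have e : ∫ y, ‖F (pt x y)‖ = ∫ y, F (pt x y) := by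
      congr 1; funext y; exact Real.norm_of_nonneg (h0 _)
    rw [e, Real.norm_of_nonneg (integral_nonneg fun y => h0 _)]
    exact hx.2
  refine ⟨hi, ?_⟩
  rw [integral_pt hi, integral_pt hG]
  exact integral_mono_ae (integrable_pt hi).2 (integrable_pt hG).2 (h.mono fun x hx => hx.2)

theorem MA1_snd {C : ℝ} {U : WithLp 2 (V × W) → ℝ} (hC : 0 ≤ C)
    (hm : AEStronglyMeasurable U volume) (h : ∀ x, OpB C fun y => U (pt x y)) : OpB C U := by
  refine ⟨hC, hm, fun u hu => ?_⟩
  have m : AEStronglyMeasurable (fun p => U p * u p) volume := hm.mul hu.l2.1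
  have i1 := S11_int_normsq hu.dl2
  have i2 := hu.l2.integrable_sq
  have k := MA1_slice (F := fun p => (U p * u p) ^ 2) (G := fun p => C * (‖D u p‖ ^ 2 + u p ^ 2))
    (m.pow 2) (fun p => sq_nonneg _) ((i1.add i2).const_mul C) (by
      filter_upwards [hu.slice_snd, (integrable_pt i1).1, (integrable_pt i2).1] with x hx j1 j2
      obtain ⟨b1, b2⟩ := (h x).bd _ hx.1
      refine ⟨b1.integrable_sq, b2.trans ?_⟩
      rw [integral_const_mul, integral_add j1 j2]
      refine mul_le_mul_of_nonneg_left (add_le_add ?_ le_rfl) hC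
      refine integral_mono_ae (S11_int_normsq hx.1.dl2) j1 ?_
      filter_upwards [hx.2] with y hy
      rw [hy, WithLp.prod_norm_sq_eq_of_L2]
      linarith [sq_nonneg ‖(D u (pt x y)).fst‖])
  refine ⟨(memLp_two_iff_integrable_sq m).2 k.1, k.2.trans (le_of_eq ?_)⟩
  rw [integral_const_mul, integral_add i1 i2]
  rfl

/-- slicing in the first variable (`H1.slice_fst`, Tonelli, `exists_swap`) -/
theorem opB_of_fst {C : ℝ} {U : WithLp 2 (V × W) → ℝ} (hC : 0 ≤ C)
    (hm : AEStronglyMeasurable U volume) (h : ∀ y, OpB C fun x => U (pt x y)) : OpB C U := by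
  obtain ⟨L, hL⟩ := exists_swap (V := W) (W := V)
  have h1 : OpB C fun p => U (L p) :=
    MA1_snd hC (hm.comp_measurePreserving L.measurePreserving) fun y => by
      simpa only [hL] using h y
  simpa using MA1_iso h1 L.symm

/-- slicing in the second variable (`H1.slice_snd`, Tonelli) -/
theorem opB_of_snd {C : ℝ} {U : WithLp 2 (V × W) → ℝ} (hC : 0 ≤ C)
    (hm : AEStronglyMeasurable U volume) (h : ∀ x, OpB C fun y => U (pt x y)) : OpB C U :=
  MA1_snd hC hm h

theorem OpB.fst {C : ℝ} {U : V → ℝ} (h : OpB C U) :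
    OpB C fun p : WithLp 2 (V × W) => U p.fst := by
  refine opB_of_fst h.nn ?_ fun _ => h
  obtain ⟨U', m, e⟩ := h.meas
  exact ⟨fun p => U' p.fst, m.comp_measurable (by fun_prop), ae_fst e⟩

theorem OpB.snd {C : ℝ} {U : W → ℝ} (h : OpB C U) :
    OpB C fun p : WithLp 2 (V × W) => U p.snd := by
  refine opB_of_snd h.nn ?_ fun _ => h
  obtain ⟨U', m, e⟩ := h.meas
  exact ⟨fun p => U' p.snd, m.comp_measurable (by fun_prop), ae_snd e⟩

/-- Hardy -/
theorem opB_coul (c : E) : OpB 4 fun x : E => 1 / ‖x - c‖ := by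
  refine ⟨by norm_num, Measurable.aestronglyMeasurable (by fun_prop), fun u hu => ?_⟩
  have e : (fun x => 1 / ‖x - c‖ * u x) = fun x => u x / ‖x - c‖ := by
    funext x; ring
  obtain ⟨a1, a2⟩ := hardy hu c
  rw [e]
  refine ⟨a1, le_trans a2 ?_⟩
  linarith [S11_nsq_nonneg u]

theorem opB_vx (d : ℝ) : OpB 16 (vx d) := by
  have h := ((opB_coul (d • ez)).smul (l := -1) (by simp)).add
    ((opB_coul (-(d • ez))).smul (l := -1) (by simp))
  have e : vx d = fun x => -1 * (1 / ‖x - d • ez‖) + -1 * (1 / ‖x - -(d • ez)‖) := by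
    funext x
    simp only [vx, sub_neg_eq_add]
    ring
  rw [e]
  exact h.mono (by norm_num)

theorem opB_V2 (d : ℝ) : OpB 64 (V2 (vx d)) :=
  (((opB_vx d).fst (W := E)).add ((opB_vx d).snd (V := E))).mono (by norm_num)

theorem opB_W2 : OpB 4 W2 := by
  refine opB_of_fst (by norm_num) (Measurable.aestronglyMeasurable ?_) fun y => opB_coul y
  unfold W2
  fun_prop

theorem opB_V3 (d : ℝ) : OpB 160 (V3 (vx d)) := by
  have h := ((opB_vx d).fst (W := E6)).add ((opB_V2 d).snd (V := E))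
  have e : V3 (vx d) = fun p : E9 => vx d p.fst + V2 (vx d) p.snd := by
    funext p
    simp only [V3, V2, add_assoc]
  rw [e]
  exact h.mono (by norm_num)

theorem opB_W3 : OpB 40 W3 := by
  have h1 : OpB 16 fun p : E9 => Wx p.fst p.snd := by
    refine opB_of_fst (by norm_num) (Measurable.aestronglyMeasurable ?_) fun y =>
      ((opB_coul y.fst).add (opB_coul y.snd)).mono (by norm_num)
    unfold Wx
    fun_prop
  exact ((opB_W2.snd (V := E)).add h1).mono (by norm_num)

theorem opB_U2 (d : ℝ) {l : ℝ} (h0 : 0 ≤ l) (h1 : l ≤ 1) : OpB 400 (U2 d l) := by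
  rw [U2_eq]
  exact ((opB_V2 d).add (opB_W2.smul (by rwa [abs_of_nonneg h0]))).mono (by norm_num)

theorem opB_U3 (d : ℝ) {l : ℝ} (h0 : 0 ≤ l) (h1 : l ≤ 1) : OpB 400 (U3 d l) := by
  rw [U3_eq]
  exact ((opB_V3 d).add (opB_W3.smul (by rwa [abs_of_nonneg h0]))).mono (by norm_num)

end

end Crest.Agent.R335
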