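import Crest.Agent.R335.MA1
import Crest.Agent.R335.MA2

/-! Row 335, module MA: the form of a sum of potentials on a product. -/

set_option autoImplicit false
set_option linter.unusedSectionVars false

open MeasureTheory Set Filter Topology Metric
open scoped Gradient ContDiff RealInnerProductSpace ENNReal

namespace Crest.Agent.R335

noncomputable section

variable {V : Type*} [NormedAddCommGroup V] [InnerProductSpace ℝ V] [FiniteDimensional ℝ V]
  [MeasurableSpace V] [BorelSpace V]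
variable {W : Type*} [NormedAddCommGroup W] [InnerProductSpace ℝ W] [FiniteDimensional ℝ W]
  [MeasurableSpace W] [BorelSpace W]

theorem MA3_fst {C : ℝ} {U : V → ℝ} (hU : OpB C U) {χ : WithLp 2 (V × W) → ℝ} (h : H1 χ) :
    Integrable (fun p : WithLp 2 (V × W) => (1 / 2) * ‖(D χ p).fst‖ ^ 2 + U p.fst * χ p ^ 2) ∧
    Integrable (fun y => Q U fun x => χ (pt x y)) ∧
      ∫ p : WithLp 2 (V × W), ((1 / 2) * ‖(D χ p).fst‖ ^ 2 + U p.fst * χ p ^ 2) =
        ∫ y, Q U fun x => χ (pt x y) := by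
  have i1 : Integrable fun p : WithLp 2 (V × W) => (1 / 2 : ℝ) * ‖(D χ p).fst‖ ^ 2 :=
    (S08_mem_fst h.dl2).norm.integrable_sq.const_mul _
  have i2 : Integrable fun p : WithLp 2 (V × W) => U p.fst * χ p ^ 2 := (hU.fst (W := W)).int h
  have i3 : Integrable
      fun p : WithLp 2 (V × W) => (1 / 2 : ℝ) * ‖(D χ p).fst‖ ^ 2 + U p.fst * χ p ^ 2 := i1.add i2
  have e : ∀ᵐ y, ∫ x, ((1 / 2 : ℝ) * ‖(D χ (pt x y)).fst‖ ^ 2 + U (pt x y).fst * χ (pt x y) ^ 2) =
      Q U fun x => χ (pt x y) := by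
    filter_upwards [h.slice_fst, (integrable_pt' i1).1, (integrable_pt' i2).1] with y a b c
    rw [integral_add b c, integral_const_mul]
    unfold Q dir
    congr 2
    exact integral_congr_ae (a.2.mono fun x hx => by simp only [hx])
  exact ⟨i3, (integrable_pt' i3).2.congr e, (integral_pt' i3).trans (integral_congr_ae e)⟩

theorem MA3_snd {C : ℝ} {U : W → ℝ} (hU : OpB C U) {χ : WithLp 2 (V × W) → ℝ} (h : H1 χ) :
    Integrable (fun p : WithLp 2 (V × W) => (1 / 2) * ‖(D χ p).snd‖ ^ 2 + U p.snd * χ p ^ 2) ∧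
    Integrable (fun x => Q U fun y => χ (pt x y)) ∧
      ∫ p : WithLp 2 (V × W), ((1 / 2) * ‖(D χ p).snd‖ ^ 2 + U p.snd * χ p ^ 2) =
        ∫ x, Q U fun y => χ (pt x y) := by
  have i1 : Integrable fun p : WithLp 2 (V × W) => (1 / 2 : ℝ) * ‖(D χ p).snd‖ ^ 2 :=
    (S08_mem_snd h.dl2).norm.integrable_sq.const_mul _
  have i2 : Integrable fun p : WithLp 2 (V × W) => U p.snd * χ p ^ 2 := (hU.snd (V := V)).int h
  have i3 : Integrable
      fun p : WithLp 2 (V × W) => (1 / 2 : ℝ) * ‖(D χ p).snd‖ ^ 2 + U p.snd * χ p ^ 2 := i1.add i2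
  have e : ∀ᵐ x, ∫ y, ((1 / 2 : ℝ) * ‖(D χ (pt x y)).snd‖ ^ 2 + U (pt x y).snd * χ (pt x y) ^ 2) =
      Q U fun y => χ (pt x y) := by
    filter_upwards [h.slice_snd, (integrable_pt i1).1, (integrable_pt i2).1] with x a b c
    rw [integral_add b c, integral_const_mul]
    unfold Q dir
    congr 2
    exact integral_congr_ae (a.2.mono fun y hy => by simp only [hy])
  exact ⟨i3, (integrable_pt i3).2.congr e, (integral_pt i3).trans (integral_congr_ae e)⟩

/-- `‖D χ‖² = ‖(D χ).fst‖² + ‖(D χ).snd‖²`, `H1.slice_fst`, `H1.slice_snd`, Fubini -/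
theorem Q_split {C C' : ℝ} {U : V → ℝ} {U' : W → ℝ} (hU : OpB C U) (hU' : OpB C' U')
    {χ : WithLp 2 (V × W) → ℝ} (h : H1 χ) :
    Integrable (fun y => Q U fun x => χ (pt x y)) ∧ Integrable (fun x => Q U' fun y => χ (pt x y)) ∧
      Q (fun p : WithLp 2 (V × W) => U p.fst + U' p.snd) χ =
        (∫ y, Q U fun x => χ (pt x y)) + ∫ x, Q U' fun y => χ (pt x y) := by
  obtain ⟨a1, a2, a3⟩ := MA3_fst hU h
  obtain ⟨b1, b2, b3⟩ := MA3_snd hU' h
  refine ⟨a2, b2, ?_⟩
  have i1 : Integrable fun p : WithLp 2 (V × W) => (1 / 2 : ℝ) * ‖D χ p‖ ^ 2 :=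
    h.dl2.norm.integrable_sq.const_mul _
  have i2 : Integrable fun p : WithLp 2 (V × W) => (U p.fst + U' p.snd) * χ p ^ 2 :=
    ((hU.fst (W := W)).add (hU'.snd (V := V))).int h
  rw [← a3, ← b3, ← integral_add a1 b1]
  unfold Q dir
  rw [← integral_const_mul, ← integral_add i1 i2]
  refine integral_congr_ae (ae_of_all _ fun p => ?_)
  simp only [WithLp.prod_norm_sq_eq_of_L2 (D χ p)]
  ring
/-- `Q_split` and `proj_ineq` with one-element families -/
theorem tensor_gap {C C' : ℝ} {U a : V → ℝ} {U' b : W → ℝ} (hU : OpB C U) (hU' : OpB C' U')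
    (ha : MemLp a 2 volume) (na : nsq a = 1) (hb : MemLp b 2 volume) (nb : nsq b = 1)
    {α β δ : ℝ} (hδ : 0 ≤ δ) {P : (W → ℝ) → Prop}
    (h1 : ∀ f, H1 f → α * nsq f - δ * ip a f ^ 2 ≤ Q U f)
    (h2 : ∀ F, H1 F → P F → β * nsq F - δ * ip b F ^ 2 ≤ Q U' F)
    {χ : WithLp 2 (V × W) → ℝ} (h : H1 χ) (hP : ∀ x, P fun y => χ (pt x y)) :
    (α + β - δ) * nsq χ - δ * ip (fun p : WithLp 2 (V × W) => a p.fst * b p.snd) χ ^ 2 ≤
      Q (fun p : WithLp 2 (V × W) => U p.fst + U' p.snd) χ := by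
  obtain ⟨q1, q2, q3⟩ := Q_split hU hU' h
  obtain ⟨n1, n2⟩ := nsq_slice_fst h.l2
  obtain ⟨n3, n4⟩ := nsq_slice_snd h.l2
  have mA := (memLp_pair_fst ha h.l2).integrable_sq
  have mB := (memLp_pair_snd hb h.l2).integrable_sq
  have e1 : α * nsq χ - δ * nsq (fun y => ip a fun x => χ (pt x y)) ≤
      ∫ y, Q U fun x => χ (pt x y) := by
    rw [n2, ← integral_const_mul, nsq, ← integral_const_mul,
      ← integral_sub (n1.const_mul α) (mA.const_mul δ)]
    refine integral_mono_ae ((n1.const_mul α).sub (mA.const_mul δ)) q1 ?_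
    filter_upwards [h.slice_fst] with y hy
    exact h1 _ hy.1
  have e2 : β * nsq χ - δ * nsq (fun x => ip b fun y => χ (pt x y)) ≤
      ∫ x, Q U' fun y => χ (pt x y) := by
    rw [n4, ← integral_const_mul, nsq, ← integral_const_mul,
      ← integral_sub (n3.const_mul β) (mB.const_mul δ)]
    refine integral_mono_ae ((n3.const_mul β).sub (mB.const_mul δ)) q2 ?_
    filter_upwards [h.slice_snd] with x hx
    exact h2 _ hx.1 (hP x)
  have e3 := proj_ineq (ι := Unit) (κ := Unit) (a := fun _ => a) (b := fun _ => b)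
    (fun _ => ha) (fun _ _ => by simp [ip_self, na]) (fun _ => hb)
    (fun _ _ => by simp [ip_self, nb]) h.l2
  simp only [Finset.univ_unique, Finset.sum_singleton] at e3
  rw [q3]
  nlinarith [mul_le_mul_of_nonneg_left e3 hδ]
/-- lower bounds by bounded potentials add up -/
theorem tensor_pot {C C' M : ℝ} {U Λ : V → ℝ} {U' Λ' : W → ℝ} (hU : OpB C U) (hU' : OpB C' U')
    (hΛ : OpB M Λ) (hΛ' : OpB M Λ')
    (h1 : ∀ f, H1 f → ∫ x, Λ x * f x ^ 2 ≤ Q U f) (h2 : ∀ F, H1 F → ∫ y, Λ' y * F y ^ 2 ≤ Q U' F)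
    {χ : WithLp 2 (V × W) → ℝ} (h : H1 χ) :
    ∫ p, (Λ p.fst + Λ' p.snd) * χ p ^ 2 ≤
      Q (fun p : WithLp 2 (V × W) => U p.fst + U' p.snd) χ := by
  obtain ⟨q1, q2, q3⟩ := Q_split hU hU' h
  have i1 : Integrable fun p : WithLp 2 (V × W) => Λ p.fst * χ p ^ 2 := (hΛ.fst (W := W)).int h
  have i2 : Integrable fun p : WithLp 2 (V × W) => Λ' p.snd * χ p ^ 2 := (hΛ'.snd (V := V)).int h
  simp only [add_mul]
  rw [q3, integral_add i1 i2, integral_pt' i1, integral_pt i2]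
  refine add_le_add (integral_mono_ae (integrable_pt' i1).2 q1 ?_)
    (integral_mono_ae (integrable_pt i2).2 q2 ?_)
  · filter_upwards [h.slice_fst] with y hy
    exact h1 _ hy.1
  · filter_upwards [h.slice_snd] with x hx
    exact h2 _ hx.1

end

end Crest.Agent.R335
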