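import Crest.Agent.R335.MA3
import Crest.Agent.R335.S12

/-! Row 335, module MA: the unperturbed states and their gaps. -/

set_option autoImplicit false
set_option linter.unusedSectionVars false

open MeasureTheory Set Filter Topology Metric
open scoped Gradient ContDiff RealInnerProductSpace ENNReal

namespace Crest.Agent.R335

noncomputable section

variable {V : Type*} [NormedAddCommGroup V] [InnerProductSpace ℝ V] [FiniteDimensional ℝ V]
  [MeasurableSpace V] [BorelSpace V]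
variable {W : Type*} [NormedAddCommGroup W] [InnerProductSpace ℝ W] [FiniteDimensional ℝ W]
  [MeasurableSpace W] [BorelSpace W]

theorem OD.OK0.ip_gu {o : OD} (h : o.OK0) : ip o.g0 o.u0 = 0 := by
  refine Od.integral (u := fun x => o.g0 x * o.u0 x) (Eventually.of_forall fun x => ?_)
  show o.g0 (R x) * o.u0 (R x) = -(o.g0 x * o.u0 x)
  rw [h.evg, h.odu]
  ring
/-- `δ0 ≤ exp (-d/4) ≤ 32 / d² ≤ 1 / (2 d) ≤ γ / 2 ≤ e3 - eu` -/
theorem OD.OK.δ_le {o : OD} (h : o.OK) : o.δ0 ≤ o.e3 - o.eu := by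
  obtain ⟨h1, h2, h3⟩ := h.C0
  obtain ⟨g1, -⟩ := h.γ0
  have hd : 100 ≤ o.d := h1.trans h3
  have hγ : 1 ≤ o.γ * o.d := by
    have := h2.trans h3
    rw [div_le_iff₀ g1] at this
    linarith
  have e1 : o.d ^ 2 / 32 ≤ Real.exp (o.d / 4) := by
    have := Real.quadratic_le_exp_of_nonneg (x := o.d / 4) (by linarith)
    nlinarith
  have e2 : Real.exp (-(o.d / 4)) ≤ o.γ / 2 := by
    rw [Real.exp_neg, inv_le_iff_one_le_mul₀ (Real.exp_pos _)]
    have : o.γ / 2 * (o.d ^ 2 / 32) ≤ o.γ / 2 * Real.exp (o.d / 4) :=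
      mul_le_mul_of_nonneg_left e1 (by linarith)
    nlinarith
  have := h.δ.2
  have := h.en.2.2
  unfold OD.e3
  linarith

theorem MA4_bessel {o : OD} (h : o.OK0) {f : E → ℝ} (hf : MemLp f 2 volume) :
    ip o.g0 f ^ 2 + ip o.u0 f ^ 2 ≤ nsq f := by
  have := bessel (ι := Fin 2) (a := ![o.g0, o.u0]) (f := f)
    (fun i => by fin_cases i; exacts [h.sg.h1.l2, h.su.h1.l2])
    (fun i j => by
      fin_cases i <;> fin_cases j
      · simpa [ip_self] using h.ng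
      · simpa using h.ip_gu
      · simpa [ip_comm o.u0] using h.ip_gu
      · simpa [ip_self] using h.nu) hf
  simpa [Fin.sum_univ_two] using this

/-- `OK0.gap` and Bessel -/
theorem OD.OK0.gap1 {o : OD} (h : o.OK0) {f : E → ℝ} (hf : H1 f) :
    o.eu * nsq f - o.δ0 * ip o.g0 f ^ 2 ≤ Q o.v f := by
  have h1 := h.gap f hf
  have h2 := MA4_bessel h hf.l2
  have h3 : 0 ≤ o.e3 - o.eu := by
    have := h.en.2.2
    have := h.γ0.1
    unfold OD.e3
    linarith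
  have h4 := mul_le_mul_of_nonneg_left h2 h3
  unfold OD.δ0
  nlinarith
theorem OD.OK0.low1 {o : OD} (h : o.OK0) {f : E → ℝ} (hf : H1 f) : o.eg * nsq f ≤ Q o.v f := by
  have h1 := h.gap1 hf
  have h2 := S11_cs h.sg.h1.l2 hf.l2
  rw [h.ng, one_mul] at h2
  have h3 : 0 ≤ o.δ0 := sub_nonneg.2 h.en.2.1
  have h4 := mul_le_mul_of_nonneg_left h2 h3
  unfold OD.δ0 at h1 h4
  nlinarith
theorem OD.OK0.sol_gg {o : OD} (h : o.OK0) :
    Sol (gg o.g0) fun y => (2 * o.eg - V2 o.v y) * gg o.g0 y := by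
  refine (h.sg.tensor h.sg).congr (Eventually.of_forall fun _ => rfl)
    (Eventually.of_forall fun y => ?_)
  unfold V2 gg
  ring
theorem OD.OK0.nsq_gg {o : OD} (h : o.OK0) : nsq (gg o.g0) = 1 := by
  have hg := h.sg.h1.l2
  have := ip_tensor hg hg hg hg
  rw [ip_self, ip_self, h.ng, one_mul] at this
  exact this

theorem MA4_sq : ((√2)⁻¹ : ℝ) ^ 2 = 1 / 2 := by
  rw [inv_pow, Real.sq_sqrt (by norm_num)]
  norm_num

theorem OD.OK0.l2_w0 {o : OD} (h : o.OK0) :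
    MemLp (w0 o.g0 o.u0) 2 volume ∧ nsq (w0 o.g0 o.u0) = 1 := by
  have hg := h.sg.h1.l2
  have hu := h.su.h1.l2
  have e : w0 o.g0 o.u0 = fun y : E6 => (√2)⁻¹ * (o.u0 y.fst * o.g0 y.snd) +
      (-(√2)⁻¹) * (o.g0 y.fst * o.u0 y.snd) := by
    funext y
    unfold w0
    ring
  have m1 := memLp_tensor hu hg
  have m2 := memLp_tensor hg hu
  rw [e]
  refine ⟨(m1.const_mul _).add (m2.const_mul _), ?_⟩
  rw [S11_nsq_lc m1 m2, ← ip_self, ← ip_self, ip_tensor hu hu hg hg, ip_tensor hu hg hg hu,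
    ip_tensor hg hg hu hu, h.ip_gu, ip_self, ip_self, h.ng, h.nu, neg_sq, MA4_sq]
  norm_num

theorem MA4_sol_ug {o : OD} (h : o.OK0) :
    Sol (fun y : E6 => o.u0 y.fst * o.g0 y.snd)
      fun y => (o.eu + o.eg - V2 o.v y) * (o.u0 y.fst * o.g0 y.snd) := by
  refine (h.su.tensor h.sg).congr (Eventually.of_forall fun _ => rfl)
    (Eventually.of_forall fun y => ?_)
  unfold V2
  ring

theorem MA4_psi0 (g u : E → ℝ) : psi0 g u = fun p : E9 => (√2)⁻¹ * (u p.fst * gg g p.snd) +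
    (-(√2)⁻¹) * (g p.fst * (fun y : E6 => u y.fst * g y.snd) p.snd) := by
  funext p
  unfold psi0 gg
  ring

theorem OD.OK0.sol_psi0 {o : OD} (h : o.OK0) :
    Sol (psi0 o.g0 o.u0) fun p => (2 * o.eg + o.eu - V3 o.v p) * psi0 o.g0 o.u0 p := by
  refine (((h.su.tensor h.sol_gg).lin (h.sg.tensor (MA4_sol_ug h)) (√2)⁻¹ (-(√2)⁻¹))).congr
    (Eventually.of_forall fun p => by rw [MA4_psi0]) (Eventually.of_forall fun p => ?_)
  unfold psi0 V3 V2 gg
  ring
theorem OD.OK0.nsq_psi0 {o : OD} (h : o.OK0) : nsq (psi0 o.g0 o.u0) = 1 := by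
  have hg := h.sg.h1.l2
  have hu := h.su.h1.l2
  have m0 : MemLp (gg o.g0) 2 volume := memLp_tensor hg hg
  have m0' := memLp_tensor hu hg
  have m1 := memLp_tensor hu m0
  have m2 := memLp_tensor hg m0'
  have n1 : ip o.u0 o.g0 = 0 := by rw [ip_comm, h.ip_gu]
  rw [MA4_psi0, S11_nsq_lc m1 m2, ← ip_self, ← ip_self, ip_tensor hu hu m0 m0,
    ip_tensor hu hg m0 m0', ip_tensor hg hg m0' m0', ip_tensor hu hu hg hg, n1, ip_self, ip_self,
    ip_self, h.ng, h.nu, h.nsq_gg, neg_sq, MA4_sq]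
  norm_num
theorem anti_psi0 (g u : E → ℝ) : Anti (psi0 g u) := by
  intro p
  show (u p.snd.fst * g p.fst - g p.snd.fst * u p.fst) * g p.snd.snd / √2 =
    -((u p.fst * g p.snd.fst - g p.fst * u p.snd.fst) * g p.snd.snd / √2)
  ring
theorem OD.OK0.psi0_R9 {o : OD} (h : o.OK0) (p : E9) :
    psi0 o.g0 o.u0 (R9 p) = -psi0 o.g0 o.u0 p := by
  show (o.u0 (R p.fst) * o.g0 (R p.snd.fst) - o.g0 (R p.fst) * o.u0 (R p.snd.fst)) *
    o.g0 (R p.snd.snd) / √2 =
    -((o.u0 p.fst * o.g0 p.snd.fst - o.g0 p.fst * o.u0 p.snd.fst) * o.g0 p.snd.snd / √2)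
  simp only [h.evg, h.odu]
  ring
theorem OD.OK0.gg_R6 {o : OD} (h : o.OK0) (y : E6) : gg o.g0 (R6 y) = gg o.g0 y := by
  show o.g0 (R y.fst) * o.g0 (R y.snd) = o.g0 y.fst * o.g0 y.snd
  rw [h.evg, h.evg]
theorem gg_sw6 (g : E → ℝ) (y : E6) : gg g (sw6 y) = gg g y := by
  show g y.snd * g y.fst = g y.fst * g y.snd
  ring
/-- `tensor_gap` -/
theorem OD.OK0.gap_two {o : OD} (h : o.OK0) {P : E6 → ℝ} (hP : H1 P) :
    (o.eg + o.eu) * nsq P - o.δ0 * ip (gg o.g0) P ^ 2 ≤ Q (V2 o.v) P := by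
  have hg := h.sg.h1.l2
  have := tensor_gap (P := fun _ => True) (opB_vx o.d) (opB_vx o.d) hg h.ng hg h.ng
    (sub_nonneg.2 h.en.2.1) (fun f hf => h.gap1 hf) (fun f hf _ => h.gap1 hf) hP fun _ => trivial
  have e : o.eu + o.eu - (o.eu - o.eg) = o.eg + o.eu := by ring
  rw [e] at this
  exact this

end

end Crest.Agent.R335
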