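import Crest.Agent.R335.MBD

/-! Row 335, module MB: symmetries, the equation of `F`. -/

set_option autoImplicit false
set_option linter.unusedSectionVars false

open MeasureTheory Set Filter Topology Metric
open scoped Gradient ContDiff RealInnerProductSpace ENNReal

namespace Crest.Agent.R335

noncomputable section

variable {V : Type*} [NormedAddCommGroup V] [InnerProductSpace ℝ V] [FiniteDimensional ℝ V]
  [MeasurableSpace V] [BorelSpace V]
variable {W : Type*} [NormedAddCommGroup W] [InnerProductSpace ℝ W] [FiniteDimensional ℝ W]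
  [MeasurableSpace W] [BorelSpace W]


theorem MB_sol_iso {p A : W → ℝ} (h : Sol p A) (L : V ≃ₗᵢ[ℝ] W) :
    Sol (fun x => p (L x)) (fun x => A (L x)) := by
  refine ⟨(h.h1.iso L).1, memLp_iso L h.l2, fun χ hχ => ?_⟩
  have h1 := h.eq _ (hχ.iso L.symm).1
  rw [← integral_iso L, ← integral_iso L (fun y => A y * χ (L.symm y))] at h1
  simp only [LinearIsometryEquiv.symm_apply_apply] at h1
  rw [← h1]
  refine integral_congr_ae ?_
  filter_upwards [(h.h1.hl.iso L).2, ae_iso L (hχ.hl.iso L.symm).2] with x e1 e2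
  rw [e1, e2, LinearIsometryEquiv.symm_symm, LinearIsometryEquiv.symm_apply_apply,
    ← L.inner_map_map, LinearIsometryEquiv.apply_symm_apply]
theorem MB_sol_shift {p A : V → ℝ} (h : Sol p A) (v : V) :
    Sol (fun x => p (x + v)) (fun x => A (x + v)) := by
  have mp : MeasurePreserving (fun x : V => x + v) volume volume :=
    measurePreserving_add_right volume v
  refine ⟨h.h1.shift v, h.l2.comp_measurePreserving mp, fun χ hχ => ?_⟩
  have h1 := h.eq _ (hχ.shift (-v))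
  rw [← integral_add_right_eq_self _ v,
    ← integral_add_right_eq_self (fun y => A y * χ (y + -v)) v] at h1
  simp only [add_neg_cancel_right] at h1
  rw [← h1]
  refine integral_congr_ae ?_
  filter_upwards [(h.h1.hl.shift v).2, mp.quasiMeasurePreserving.ae (hχ.hl.shift (-v)).2]
    with x e1 e2
  rw [e1, e2, add_neg_cancel_right]
theorem exists_Ry : ∃ L : E9 ≃ₗᵢ[ℝ] E9, ∀ p, L p = Ry p := by
  obtain ⟨L', hL'⟩ := exists_R6
  refine ⟨LinearIsometryEquiv.withLpProdCongr 2 (LinearIsometryEquiv.refl ℝ E) L', fun y => ?_⟩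
  rw [Ry, ← hL']
  rfl
theorem Ry_Ry (p : E9) : Ry (Ry p) = p := by
  show pt p.fst (R6 (R6 p.snd)) = p
  rw [R6_R6]
  rfl
theorem Ry_pt (x : E) (y : E6) : Ry (pt x y) = pt x (R6 y) := rfl
theorem R9_pt (x : E) (y : E6) : R9 (pt x y) = pt (R x) (R6 y) := rfl
theorem pt_add_pt (x k : E) (y : E6) : pt x y + pt k 0 = pt (x + k) y := by
  show pt (x + k) (y + 0) = pt (x + k) y
  rw [add_zero]
theorem norm_R6 (y : E6) : ‖R6 y‖ = ‖y‖ := by
  obtain ⟨L, hL⟩ := exists_R6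
  rw [← hL, L.norm_map]
theorem U3_cyc (d l : ℝ) (p : E9) : U3 d l (cyc p) = U3 d l p := by
  show vx d p.snd.fst + (vx d p.snd.snd + vx d p.fst + l / ‖p.snd.snd - p.fst‖) +
      l * (1 / ‖p.snd.fst - p.snd.snd‖ + 1 / ‖p.snd.fst - p.fst‖) =
    vx d p.fst + (vx d p.snd.fst + vx d p.snd.snd + l / ‖p.snd.fst - p.snd.snd‖) +
      l * (1 / ‖p.fst - p.snd.fst‖ + 1 / ‖p.fst - p.snd.snd‖)
  rw [norm_sub_rev p.snd.fst p.fst, norm_sub_rev p.snd.snd p.fst]
  ring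
theorem integral_R6 (u : E6 → ℝ) : ∫ y, u (R6 y) = ∫ y, u y := by
  obtain ⟨L, hL⟩ := exists_R6
  simpa only [hL] using integral_iso L u
theorem integral_odd6 {u : E6 → ℝ} (h : ∀ y, u (R6 y) = -u y) : ∫ y, u y = 0 := by
  have h1 := integral_R6 u
  simp only [h, integral_neg] at h1
  linarith
theorem integral_sw6 (u : E6 → ℝ) : ∫ y, u (sw6 y) = ∫ y, u y := by
  obtain ⟨L, hL⟩ := exists_sw6
  simpa only [hL] using integral_iso L u
theorem memLp_R6 {u : E6 → ℝ} (h : MemLp u 2 volume) : MemLp (fun y => u (R6 y)) 2 volume := by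
  obtain ⟨L, hL⟩ := exists_R6
  simpa only [hL] using memLp_iso L h
theorem Wx_nonneg (x : E) (y : E6) : 0 ≤ Wx x y := by
  unfold Wx
  positivity
theorem Wx_R6 (x : E) (y : E6) : Wx x (R6 y) = Wx (R x) y := by
  show 1 / ‖x - R y.fst‖ + 1 / ‖x - R y.snd‖ = 1 / ‖R x - y.fst‖ + 1 / ‖R x - y.snd‖
  rw [← norm_R_sub x, ← norm_R_sub x, R_R, R_R]
theorem Wx_sw6 (x : E) (y : E6) : Wx x (sw6 y) = Wx x y := by
  show 1 / ‖x - y.snd‖ + 1 / ‖x - y.fst‖ = 1 / ‖x - y.fst‖ + 1 / ‖x - y.snd‖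
  ring
theorem W2_R6 (y : E6) : W2 (R6 y) = W2 y := by
  show 1 / ‖R y.fst - R y.snd‖ = 1 / ‖y.fst - y.snd‖
  rw [norm_R_sub]
theorem We_R6 (x : E) (y : E6) : We x (R6 y) = We x y := by
  rw [We, We, Wx_R6, Wx_R6, R_R, add_comm]
theorem Wo_R6 (x : E) (y : E6) : Wo x (R6 y) = -Wo x y := by
  rw [Wo, Wo, Wx_R6, Wx_R6, R_R]
  ring
theorem Wx_eq (x : E) (y : E6) : Wx x y = We x y + Wo x y := by
  rw [We, Wo]
  ring
theorem We_nonneg (x : E) (y : E6) : 0 ≤ We x y := by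
  have := Wx_nonneg x y
  have := Wx_nonneg (R x) y
  unfold We
  positivity
theorem MB_one_le_jb (x : E) : 1 ≤ jb x := by
  unfold jb
  exact Real.one_le_sqrt.2 (by nlinarith [sq_nonneg ‖x‖])
theorem MB_norm_le_jb (x : E) : ‖x‖ ≤ jb x := by
  unfold jb
  exact Real.le_sqrt_of_sq_le (by linarith)
theorem MB_jb_sq (x : E) : jb x ^ 2 = 1 + ‖x‖ ^ 2 := by
  unfold jb
  exact Real.sq_sqrt (by positivity)
theorem MB_jb_cont : Continuous jb := by
  unfold jb
  fun_prop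
theorem MB_jb_near {x x' : E} (h : ‖x - x'‖ ≤ 1) : jb x ≤ 2 * jb x' := by
  have h1 : ‖x‖ ≤ ‖x'‖ + 1 := by
    have := norm_add_le (x - x') x'
    rw [sub_add_cancel] at this
    linarith
  have h2 := MB_one_le_jb x
  have h3 := MB_one_le_jb x'
  refine abs_le_of_sq_le_sq' ?_ (by linarith) |>.2
  rw [mul_pow, MB_jb_sq, MB_jb_sq]
  nlinarith [norm_nonneg x, norm_nonneg x', sq_nonneg (‖x'‖ - 1)]
/-- exponentials beat powers of `jb` -/
theorem MB_exp_jb {b : ℝ} (hb : 0 < b) (n : ℕ) :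
    ∃ K : ℝ, 1 ≤ K ∧ ∀ x : E, Real.exp (-(b * ‖x‖)) ≤ K / jb x ^ n := by
  refine ⟨max 1 ((n.factorial : ℝ) * Real.exp b / b ^ n), le_max_left _ _, fun x => ?_⟩
  have h1 := MB_one_le_jb x
  have h0 : 0 < jb x := by linarith
  have h2 : jb x ≤ 1 + ‖x‖ := by
    refine abs_le_of_sq_le_sq' ?_ (by positivity) |>.2
    rw [MB_jb_sq]
    nlinarith [norm_nonneg x]
  have h3 := Real.pow_div_factorial_le_exp (b * jb x) (by positivity) n
  have h4 : Real.exp (b * jb x) ≤ Real.exp b * Real.exp (b * ‖x‖) := by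
    rw [← Real.exp_add]
    exact Real.exp_le_exp.2 (by nlinarith)
  have hf : (0 : ℝ) < n.factorial := by exact_mod_cast n.factorial_pos
  rw [le_div_iff₀ (by positivity)]
  refine le_trans ?_ (le_max_right _ _)
  rw [le_div_iff₀ (by positivity), Real.exp_neg]
  rw [div_le_iff₀ hf, mul_pow] at h3
  have he := Real.exp_pos (b * ‖x‖)
  rw [mul_assoc, inv_mul_le_iff₀ he]
  calc jb x ^ n * b ^ n = b ^ n * jb x ^ n := mul_comm _ _
    _ ≤ Real.exp (b * jb x) * n.factorial := h3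
    _ ≤ Real.exp b * Real.exp (b * ‖x‖) * n.factorial := by gcongr
    _ = _ := by ring
theorem MB_meas_vx (d : ℝ) : Measurable (vx d) := by
  unfold vx
  fun_prop
theorem MB_meas_Wx : Measurable fun p : E × E6 => Wx p.1 p.2 := by
  have h1 : Measurable fun p : E × E6 => p.2.fst :=
    ((WithLp.continuous_fst 2 E E).comp continuous_snd).measurable
  have h2 : Measurable fun p : E × E6 => p.2.snd :=
    ((WithLp.continuous_snd 2 E E).comp continuous_snd).measurable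
  unfold Wx
  exact (measurable_const.div (measurable_fst.sub h1).norm).add
    (measurable_const.div (measurable_fst.sub h2).norm)

namespace Dat

variable {a : Dat}

theorem OK.decΦ (h : a.OK) : Dec a.Φ a.c := ⟨h.mb.sΦ.h1, h.mb.decΦ⟩
theorem OK.F_R9 (h : a.OK) (i : Fin 2) (p : E9) : a.F i (R9 p) = -a.F i p := by
  fin_cases i
  · show √2 * a.ψ (R9 p) = -(√2 * a.ψ p)
    rw [h.mb.odd]
    ring
  · exact h.mb.odd (cyc p)
theorem OK.F1_anti (h : a.OK) (x : E) (y : E6) : a.F 1 (pt x (sw6 y)) = -a.F 1 (pt x y) := h.mb.gs.anti (cyc (pt x y))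
/-- `U3 = v(x) + U2(y) + l Wx`; for `i = 1` use `MB_sol_iso`, `U3_cyc` -/
theorem OK.solF (h : a.OK) (i : Fin 2) : Sol (a.F i) (a.rhs a.V (a.F i) (a.BF i)) := by
  fin_cases i
  · refine (h.mb.sψ.lin h.mb.sψ (√2) 0).congr (Eventually.of_forall fun p => ?_)
      (Eventually.of_forall fun p => ?_)
    · show √2 * a.ψ p = _
      ring
    · show (a.E3 - vx a.o.d p.fst - U2 a.o.d a.l p.snd) * (√2 * a.ψ p) +
        -(a.l * (Wx p.fst p.snd * (√2 * a.ψ p))) = _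
      unfold U3
      ring
  · obtain ⟨L, hL⟩ := exists_cyc
    refine (MB_sol_iso h.mb.sψ L).congr (Eventually.of_forall fun p => ?_)
      (Eventually.of_forall fun p => ?_)
    · show a.ψ (cyc p) = _
      rw [hL]
    · show (a.E3 - vx a.o.d p.fst - U2 a.o.d a.l p.snd) * a.ψ (cyc p) +
        -(a.l * (Wx p.fst p.snd * a.ψ (cyc p))) = _
      rw [hL, U3_cyc]
      unfold U3
      ring
theorem OK.decF (h : a.OK) (i : Fin 2) :
    Integrable (fun p => Real.exp ‖p‖ * (a.F i p ^ 2 + ‖D (a.F i) p‖ ^ 2)) ∧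
      ∫ p, Real.exp ‖p‖ * (a.F i p ^ 2 + ‖D (a.F i) p‖ ^ 2) ≤ 2 * a.c := by
  obtain ⟨h1, h2⟩ := h.mb.decψ
  have hc := h.hc
  fin_cases i
  · have e : ∀ᵐ p, Real.exp ‖p‖ * (a.F 0 p ^ 2 + ‖D (a.F 0) p‖ ^ 2) =
        2 * (Real.exp ‖p‖ * (a.ψ p ^ 2 + ‖D a.ψ p‖ ^ 2)) := by
      filter_upwards [D_smul (√2) h.mb.gs.h1.hl] with p hp
      have e1 : D (a.F 0) p = √2 • D a.ψ p := hp
      have e2 : a.F 0 p = √2 * a.ψ p := rfl
      rw [e1, e2, norm_smul, mul_pow, mul_pow, Real.norm_eq_abs, sq_abs,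
        Real.sq_sqrt (by norm_num)]
      ring
    refine ⟨(h1.const_mul 2).congr (EventuallyEq.symm e), ?_⟩
    refine (integral_congr_ae e).trans_le ?_
    rw [integral_const_mul]
    linarith
  · obtain ⟨L, hL⟩ := exists_cyc
    have eF : a.F 1 = fun p => a.ψ (L p) := by
      funext p
      rw [hL]
      rfl
    have e : ∀ᵐ p, Real.exp ‖p‖ * (a.F 1 p ^ 2 + ‖D (a.F 1) p‖ ^ 2) =
        Real.exp ‖L p‖ * (a.ψ (L p) ^ 2 + ‖D a.ψ (L p)‖ ^ 2) := by
      filter_upwards [(h.mb.gs.h1.hl.iso L).2] with p hp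
      rw [eF, hp, L.norm_map, L.symm.norm_map]
    refine ⟨(L.measurePreserving.integrable_comp_of_integrable h1).congr (EventuallyEq.symm e), ?_⟩
    refine (integral_congr_ae e).trans_le ?_
    rw [integral_iso L fun p => Real.exp ‖p‖ * (a.ψ p ^ 2 + ‖D a.ψ p‖ ^ 2)]
    linarith
theorem OK.nsqF (h : a.OK) : nsq (a.F 0) = 2 ∧ nsq (a.F 1) = 1 := by
  have hn := h.mb.gs.norm
  constructor
  · have e : ∀ p, a.F 0 p ^ 2 = 2 * a.ψ p ^ 2 := by
      intro p
      show (√2 * a.ψ p) ^ 2 = _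
      rw [mul_pow, Real.sq_sqrt (by norm_num)]
    unfold nsq at hn ⊢
    simp only [e]
    rw [integral_const_mul, hn]
    norm_num
  · obtain ⟨L, hL⟩ := exists_cyc
    have eF : a.F 1 = fun p => a.ψ (L p) := by
      funext p
      rw [hL]
      rfl
    rw [eF, nsq_iso, hn]
/-- for `i = 1`: antisymmetric against symmetric -/
theorem OK.fv_eq (h : a.OK) (i : Fin 2) : ∀ᵐ x, a.fv i x = ∫ y, a.F i (pt x y) * a.Φ y := by
  fin_cases i
  · exact crep_ae _
  · refine Eventually.of_forall fun x => ?_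
    have h1 := integral_sw6 fun y => a.F 1 (pt x y) * a.Φ y
    have h2 : ∀ y, a.Φ (sw6 y) = a.Φ y := fun y => (h.mb.symΦ y).2
    simp only [h.F1_anti, h2, neg_mul, integral_neg] at h1
    show (0 : ℝ) = ∫ y, a.F 1 (pt x y) * a.Φ y
    linarith
theorem OK.WF_one (h : a.OK) (x : E) : a.WF 1 x = 0 := by
  have h1 := integral_sw6 fun y => Wx x y * a.F 1 (pt x y) * a.Φ y
  have h2 : ∀ y, a.Φ (sw6 y) = a.Φ y := fun y => (h.mb.symΦ y).2
  simp only [h.F1_anti, h2, Wx_sw6, mul_neg, neg_mul, integral_neg] at h1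
  unfold WF
  linarith
theorem OK.ug_R6 (h : a.OK) (y : E6) : a.ug (R6 y) = -a.ug y := by
  show a.o.u0 (R y.fst) * a.o.g0 (R y.snd) = -(a.o.u0 y.fst * a.o.g0 y.snd)
  rw [h.ho.odu, h.ho.evg]
  ring
theorem OK.sol_ug (h : a.OK) :
    Sol a.ug (fun y => (a.o.eg + a.o.eu - V2 a.o.v y) * a.ug y) ∧ nsq a.ug = 1 := by
  constructor
  · refine (h.ho.su.tensor h.ho.sg).congr (Eventually.of_forall fun _ => rfl)
      (Eventually.of_forall fun y => ?_)
    unfold V2 ug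
    ring
  · have hu := h.ho.su.h1.l2
    have hg := h.ho.sg.h1.l2
    have := ip_tensor hu hu hg hg
    rw [ip_self, ip_self, ip_self, h.ho.nu, h.ho.ng, mul_one] at this
    exact this
theorem Fe_Ry (i : Fin 2) (p : E9) : a.Fe i (Ry p) = -a.Fe i p := by
  rw [Fe, Fe, Ry_Ry]
  ring
theorem OK.Fo_Ry (h : a.OK) (i : Fin 2) (p : E9) : a.Fo i (Ry p) = a.Fo i p := by
  have e1 : (Ry p).fst = p.fst := rfl
  have e2 : a.Φ (Ry p).snd = a.Φ p.snd := (h.mb.symΦ p.snd).1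
  rw [Fo, Fo, Fp, Fp, Fe, Fe, Ry_Ry, e1, e2]
  ring
theorem OK.Fe_eq (h : a.OK) (i : Fin 2) (p : E9) : a.Fe i p = (a.Fp i p - a.Fp i (Ry p)) / 2 := by
  have e1 : (Ry p).fst = p.fst := rfl
  have e2 : a.Φ (Ry p).snd = a.Φ p.snd := (h.mb.symΦ p.snd).1
  rw [Fp, Fp, Fe, e1, e2]
  ring
theorem OK.Fo_eq (h : a.OK) (i : Fin 2) (p : E9) : a.Fo i p = (a.Fp i p + a.Fp i (Ry p)) / 2 := by
  rw [Fo, h.Fe_eq]
  ring
theorem OK.num (h : a.OK) :
    |a.md.I + a.o.eu| ≤ a.c * a.l ∧ |a.md.dt - a.o.δ0| ≤ a.c * a.l := by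
  obtain ⟨h1, h2⟩ := h.mb.E2b
  obtain ⟨h3, h4⟩ := h.mb.E3b
  have h5 : 0 ≤ a.c * a.l := by linarith
  constructor
  · show |a.E2 - a.E3 + a.o.eu| ≤ _
    rw [abs_le]
    constructor <;> linarith
  · show |a.o.eg + a.o.eu - a.E2 - (a.o.eu - a.o.eg)| ≤ _
    rw [abs_le]
    constructor <;> linarith
theorem OK.abs_E (h : a.OK) : |a.E2| ≤ 2 + a.c ∧ |a.E3| ≤ 2 + a.c := by
  obtain ⟨h1, h2⟩ := h.mb.E2b
  obtain ⟨h3, h4⟩ := h.mb.E3b
  obtain ⟨h5, h6, h7⟩ := h.ho.en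
  obtain ⟨h8, h9⟩ := h.ho.γ0
  obtain ⟨h10, h11⟩ := h.mb.l0
  have hc := h.hc
  have h12 : a.c * a.l ≤ a.c := by nlinarith
  constructor
  · rw [abs_le]
    constructor <;> linarith
  · rw [abs_le]
    constructor <;> linarith

end Dat

end

end Crest.Agent.R335
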