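import Crest.Agent.R335.MBD

/-! Row 335, module MB: conjugating an equation by a weight `W` with `∇W = W Z`. -/

set_option autoImplicit false
set_option linter.unusedSectionVars false

open MeasureTheory Set Filter Topology Metric
open scoped Gradient ContDiff RealInnerProductSpace ENNReal

namespace Crest.Agent.R335

noncomputable section

variable {V : Type*} [NormedAddCommGroup V] [InnerProductSpace ℝ V] [FiniteDimensional ℝ V]
  [MeasurableSpace V] [BorelSpace V]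

/-- an identity tested on `Tst` functions extends to `H¹` tests -/
theorem MB10a_ext {X : V → V} {c : V → ℝ} (hX : MemLp X 2 volume) (hc : MemLp c 2 volume)
    (h : ∀ φ, Tst φ → ∫ x, ⟪X x, ∇ φ x⟫ = ∫ x, c x * φ x) {χ : V → ℝ} (hχ : H1 χ) :
    ∫ x, ⟪X x, D χ x⟫ = ∫ x, c x * χ x := by
  obtain ⟨φ, h1, h2, h3, -, -⟩ := hχ.approx_seq
  have ht : ∀ n, Tst (φ n) := fun n => S06_tst (h1 n).1 (h1 n).2
  have l1 := S06_lim hχ.dl2 (fun n => S06_grad_mem (ht n)) hX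
    (squeeze_zero (fun n => integral_nonneg fun _ => sq_nonneg _) h3 S06_quarter)
  have l2 := S06_lim_mul hχ.l2 (fun n => (ht n).h1.l2) hc
    (squeeze_zero (fun n => integral_nonneg fun _ => sq_nonneg _) h2 S06_quarter)
  have e : (fun n => ∫ x, ⟪∇ (φ n) x, X x⟫) = fun n => ∫ x, c x * φ n x := by
    funext n
    rw [← h _ (ht n)]
    exact integral_congr_ae (ae_of_all _ fun x => real_inner_comm _ _)
  rw [e] at l1
  rw [← tendsto_nhds_unique l1 l2]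
  exact integral_congr_ae (ae_of_all _ fun x => real_inner_comm _ _)

theorem MB10a_mul {G b : V → ℝ} {M : ℝ} (hG : MemLp G 2 volume) (hb : Continuous b)
    (hM : ∀ x, |b x| ≤ M) : MemLp (fun x => G x * b x) 2 volume := by
  refine (hG.const_mul M).norm.mono' (hG.1.mul hb.aestronglyMeasurable) (ae_of_all _ fun x => ?_)
  rw [norm_mul, norm_mul, mul_comm]
  exact mul_le_mul_of_nonneg_right ((hM x).trans (le_abs_self M)) (norm_nonneg _)

theorem MB10a_smul {G : V → ℝ} {Z : V → V} {M : ℝ} (hG : MemLp G 2 volume) (hZ : Continuous Z)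
    (hM : ∀ x, ‖Z x‖ ≤ M) : MemLp (fun x => G x • Z x) 2 volume := by
  refine (hG.const_mul M).norm.mono' (hG.1.smul hZ.aestronglyMeasurable) (ae_of_all _ fun x => ?_)
  rw [norm_smul, norm_mul, mul_comm]
  exact mul_le_mul_of_nonneg_right ((hM x).trans (le_abs_self M)) (norm_nonneg _)

theorem MB10a_inner {Y Z : V → V} {M : ℝ} (hY : MemLp Y 2 volume) (hZ : Continuous Z)
    (hM : ∀ x, ‖Z x‖ ≤ M) : MemLp (fun x => ⟪Y x, Z x⟫) 2 volume := by
  refine (hY.norm.const_mul M).mono' (hY.1.inner hZ.aestronglyMeasurable) (ae_of_all _ fun x => ?_)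
  refine (norm_inner_le_norm _ _).trans ?_
  rw [mul_comm]
  exact mul_le_mul_of_nonneg_right (hM x) (norm_nonneg _)

theorem MB10a_dvg_cont {Z : V → V} (hZ : ContDiff ℝ 1 Z) : Continuous (dvg Z) :=
  continuousOn_univ.1 (S12_dvg_cont isOpen_univ hZ.contDiffOn)

theorem MB10a_ibp {G χ : V → ℝ} {Z : V → V} {M : ℝ} (hG : H1 G) (hχ : H1 χ) (hZ : ContDiff ℝ 1 Z)
    (hM : ∀ x, ‖Z x‖ ≤ M) (hM' : ∀ x, |dvg Z x| ≤ M) :
    ∫ x, ⟪G x • Z x, D χ x⟫ = ∫ x, -(G x * dvg Z x + ⟪D G x, Z x⟫) * χ x := by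
  refine MB10a_ext (MB10a_smul hG.l2 hZ.continuous hM)
    ((MB10a_mul hG.l2 (MB10a_dvg_cont hZ) hM').add (MB10a_inner hG.dl2 hZ.continuous hM)).neg
    (fun φ hφ => ?_) hχ
  have h1 := S06_mul isOpen_univ hZ.contDiffOn hG.hl hφ.h1 (hφ.tf (subset_univ _)).cs
  rw [← integral_neg] at h1
  calc ∫ x, ⟪G x • Z x, ∇ φ x⟫ = ∫ x, ⟪G x • Z x, D φ x⟫ := by
        refine integral_congr_ae ?_
        filter_upwards [D_c1 hφ.1] with x hx
        rw [hx]
    _ = _ := by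
        rw [h1]
        exact integral_congr_ae (ae_of_all _ fun x => (neg_mul _ _).symm)

/-- the extra term -/
def MB10aB (G : V → ℝ) (Y Z : V → V) (δ : V → ℝ) (x : V) : ℝ :=
  -⟪Y x, Z x⟫ - (1 / 2) * (G x * δ x) + (1 / 2) * (G x * ‖Z x‖ ^ 2)

theorem MB10a_sq_le {Z : V → V} {M : ℝ} (hM : ∀ x, ‖Z x‖ ≤ M) (x : V) : |‖Z x‖ ^ 2| ≤ M ^ 2 := by
  rw [abs_of_nonneg (sq_nonneg _)]
  exact pow_le_pow_left₀ (norm_nonneg _) (hM x) 2

theorem MB10aB_l2 {G : V → ℝ} {Z : V → V} {M : ℝ} (hG : H1 G) (hZ : ContDiff ℝ 1 Z)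
    (hM : ∀ x, ‖Z x‖ ≤ M) (hM' : ∀ x, |dvg Z x| ≤ M) :
    MemLp (MB10aB G (D G) Z (dvg Z)) 2 volume :=
  ((MB10a_inner hG.dl2 hZ.continuous hM).neg.sub
    ((MB10a_mul hG.l2 (MB10a_dvg_cont hZ) hM').const_mul (1 / 2))).add
    ((MB10a_mul hG.l2 (hZ.continuous.norm.pow 2) (MB10a_sq_le hM)).const_mul (1 / 2))

theorem MB10a_lin {f₁ f₂ f₃ f₄ g : V → ℝ} (c₁ c₂ c₃ c₄ : ℝ) (h₁ : Integrable f₁)
    (h₂ : Integrable f₂) (h₃ : Integrable f₃) (h₄ : Integrable f₄)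
    (h : ∀ᵐ x, g x = c₁ * f₁ x + c₂ * f₂ x + c₃ * f₃ x + c₄ * f₄ x) :
    ∫ x, g x = c₁ * (∫ x, f₁ x) + c₂ * (∫ x, f₂ x) + c₃ * (∫ x, f₃ x) + c₄ * ∫ x, f₄ x := by
  have a1 := h₁.const_mul c₁
  have a2 := h₂.const_mul c₂
  have a3 := h₃.const_mul c₃
  have a4 := h₄.const_mul c₄
  have b2 : Integrable fun x => c₁ * f₁ x + c₂ * f₂ x := a1.add a2
  have b3 : Integrable fun x => c₁ * f₁ x + c₂ * f₂ x + c₃ * f₃ x := b2.add a3
  rw [integral_congr_ae h, integral_add b3 a4, integral_add b2 a3, integral_add a1 a2,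
    integral_const_mul, integral_const_mul, integral_const_mul, integral_const_mul]

theorem MB10aB_self {G : V → ℝ} {Z : V → V} {M : ℝ} (hG : H1 G) (hZ : ContDiff ℝ 1 Z)
    (hM : ∀ x, ‖Z x‖ ≤ M) (hM' : ∀ x, |dvg Z x| ≤ M) :
    ∫ x, MB10aB G (D G) Z (dvg Z) x * G x = (1 / 2) * ∫ x, G x * ‖Z x‖ ^ 2 * G x := by
  have h1 := MB10a_ibp hG hG hZ hM hM'
  have i1 : Integrable fun x => ⟪D G x, Z x⟫ * G x :=
    (MB10a_inner hG.dl2 hZ.continuous hM).integrable_mul hG.l2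
  have i2 : Integrable fun x => G x * dvg Z x * G x :=
    (MB10a_mul hG.l2 (MB10a_dvg_cont hZ) hM').integrable_mul hG.l2
  have i3 : Integrable fun x => G x * ‖Z x‖ ^ 2 * G x :=
    (MB10a_mul hG.l2 (hZ.continuous.norm.pow 2) (MB10a_sq_le hM)).integrable_mul hG.l2
  have e1 : ∫ x, ⟪G x • Z x, D G x⟫ = ∫ x, ⟪D G x, Z x⟫ * G x :=
    integral_congr_ae (ae_of_all _ fun x => by
      simp only
      rw [real_inner_smul_left, real_inner_comm, mul_comm])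
  have e2 := MB10a_lin (g := fun x => -(G x * dvg Z x + ⟪D G x, Z x⟫) * G x) (-1) (-1) 0 0
    i1 i2 i3 i3 (ae_of_all _ fun x => by ring)
  have e3 := MB10a_lin (g := fun x => MB10aB G (D G) Z (dvg Z) x * G x) (-1) (-1 / 2) (1 / 2) 0
    i1 i2 i3 i3 (ae_of_all _ fun x => by simp only [MB10aB]; ring)
  rw [e1, e2] at h1
  rw [e3]
  linarith

theorem MB10a_sol {F A W : V → ℝ} {Z : V → V} {M : ℝ} (h : Sol F A) (hW : ContDiff ℝ 1 W)
    (hg : ∀ x, ∇ W x = W x • Z x) (hG : H1 fun x => W x * F x)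
    (hA : MemLp (fun x => W x * A x) 2 volume) (hZ : ContDiff ℝ 1 Z)
    (hM : ∀ x, ‖Z x‖ ≤ M) (hM' : ∀ x, |dvg Z x| ≤ M) :
    Sol (fun x => W x * F x) fun x => W x * A x +
      MB10aB (fun x => W x * F x) (D fun x => W x * F x) Z (dvg Z) x := by
  have hDG := D_mul_c1 h.h1.hl hW
  obtain ⟨G, hGd⟩ : ∃ G : V → ℝ, G = fun x => W x * F x := ⟨_, rfl⟩
  have hGx : ∀ x, G x = W x * F x := fun x => by rw [hGd]
  rw [← hGd] at hG hDG ⊢
  have hB := MB10aB_l2 hG hZ hM hM'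
  have hAB : MemLp (fun x => W x * A x + MB10aB G (D G) Z (dvg Z) x) 2 volume := hA.add hB
  refine ⟨hG, hAB, fun χ hχ => ?_⟩
  have key := MB10a_ext hG.dl2 (hAB.const_mul 2) (fun φ hφ => ?_) hχ
  · rw [integral_const_mul, key, ← integral_const_mul]
    exact integral_congr_ae (ae_of_all _ fun x => by ring)
  have hWφ : Tst fun x => W x * φ x := ⟨hW.mul hφ.1, hφ.2.mul_left⟩
  have h1 := h.eq _ hWφ.h1
  have h2 := MB10a_ibp hG hφ.h1 hZ hM hM'
  have lφ := hφ.h1.l2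
  have lg := S06_grad_mem hφ
  have i0 := S08_inner_int hG.dl2 lg
  have i1 : Integrable fun x => ⟪D G x, Z x⟫ * φ x :=
    (MB10a_inner hG.dl2 hZ.continuous hM).integrable_mul lφ
  have i2 : Integrable fun x => G x * dvg Z x * φ x :=
    (MB10a_mul hG.l2 (MB10a_dvg_cont hZ) hM').integrable_mul lφ
  have i3 : Integrable fun x => G x * ‖Z x‖ ^ 2 * φ x :=
    (MB10a_mul hG.l2 (hZ.continuous.norm.pow 2) (MB10a_sq_le hM)).integrable_mul lφ
  have i4 := S08_inner_int (MB10a_smul hG.l2 hZ.continuous hM) lg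
  have i5 : Integrable fun x => W x * A x * φ x := hA.integrable_mul lφ
  have e1 := MB10a_lin (g := fun x => (1 / 2) * ⟪D F x, D (fun x => W x * φ x) x⟫)
    (1 / 2) (1 / 2) (-1 / 2) (-1 / 2) i0 i1 i4 i3 (by
      filter_upwards [D_mul_c1 hφ.h1.hl hW, D_c1 hφ.1, hDG] with x a b c
      rw [a, b, c, hg, hGx]
      simp only [inner_add_left, inner_add_right, real_inner_smul_left, real_inner_smul_right,
        real_inner_self_eq_norm_sq]
      ring)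
  have e2 : ∫ x, ⟪G x • Z x, D φ x⟫ = ∫ x, ⟪G x • Z x, ∇ φ x⟫ := by
    refine integral_congr_ae ?_
    filter_upwards [D_c1 hφ.1] with x hx
    rw [hx]
  have e3 := MB10a_lin (g := fun x => -(G x * dvg Z x + ⟪D G x, Z x⟫) * φ x) (-1) (-1) 0 0
    i1 i2 i3 i3 (ae_of_all _ fun x => by ring)
  have e4 : ∫ x, A x * (W x * φ x) = ∫ x, W x * A x * φ x :=
    integral_congr_ae (ae_of_all _ fun x => by ring)
  have e5 := MB10a_lin (g := fun x => 2 * (W x * A x + MB10aB G (D G) Z (dvg Z) x) * φ x)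
    2 (-2) (-1) 1 i5 i1 i2 i3 (ae_of_all _ fun x => by simp only [MB10aB]; ring)
  rw [e1, e4] at h1
  rw [e2, e3] at h2
  rw [e5]
  linarith

/-- divergence of a field depending on the second factor only -/
theorem MB10a_dvg_snd {W : Type*} [NormedAddCommGroup W] [InnerProductSpace ℝ W]
    [FiniteDimensional ℝ W] {Z : W → W} (hZ : ContDiff ℝ 1 Z) (p : WithLp 2 (V × W)) :
    dvg (fun p : WithLp 2 (V × W) => pt (0 : V) (Z p.snd)) p = dvg Z p.snd := by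
  have h1 : HasFDerivAt Z (fderiv ℝ Z p.snd) (WithLp.sndL 2 ℝ V W p) :=
    (hZ.differentiable one_ne_zero p.snd).hasFDerivAt
  have h2 := (S08_inr V W).hasFDerivAt.comp p (h1.comp p (WithLp.sndL 2 ℝ V W).hasFDerivAt)
  have h3 : (fun p : WithLp 2 (V × W) => pt (0 : V) (Z p.snd)) =
      S08_inr V W ∘ Z ∘ WithLp.sndL 2 ℝ V W := rfl
  unfold dvg
  rw [h3, h2.fderiv, ContinuousLinearMap.toLinearMap_comp, LinearMap.trace_comp_comm']
  rfl

theorem MB10a_dvg_le {Z : V → V} {M : ℝ} {x : V} (h : ‖fderiv ℝ Z x‖ ≤ M) :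
    |dvg Z x| ≤ Module.finrank ℝ V * M := by
  unfold dvg
  rw [LinearMap.trace_eq_sum_inner _ (stdOrthonormalBasis ℝ V)]
  refine (Finset.abs_sum_le_sum_abs _ _).trans ?_
  refine (Finset.sum_le_card_nsmul _ _ M fun i _ => ?_).trans (by simp)
  refine (abs_real_inner_le_norm _ _).trans ?_
  have h1 := (stdOrthonormalBasis ℝ V).orthonormal.1 i
  have h2 := (fderiv ℝ Z x).le_opNorm (stdOrthonormalBasis ℝ V i)
  rw [h1, mul_one] at h2
  rw [h1, one_mul]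
  exact h2.trans h

/-- the logarithmic gradient of the weight -/
def MB10aZ (y : V) : V := (4 * √(1 + ‖y‖ ^ 2))⁻¹ • y

theorem MB10a_one_le (y : V) : 1 ≤ √(1 + ‖y‖ ^ 2) :=
  Real.one_le_sqrt.2 (le_add_of_nonneg_right (sq_nonneg _))

theorem MB10a_norm_le (y : V) : ‖y‖ ≤ √(1 + ‖y‖ ^ 2) :=
  Real.le_sqrt_of_sq_le (by linarith)

theorem MB10a_sqrt_le (y : V) : √(1 + ‖y‖ ^ 2) ≤ 1 + ‖y‖ :=
  Real.sqrt_le_iff.2 ⟨by positivity, by nlinarith [norm_nonneg y]⟩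

theorem MB10a_r_smooth : ContDiff ℝ 1 fun y : V => √(1 + ‖y‖ ^ 2) :=
  (contDiff_const.add (contDiff_norm_sq ℝ)).sqrt fun y => by positivity

theorem MB10a_r_deriv (y : V) : HasFDerivAt (fun y : V => √(1 + ‖y‖ ^ 2))
    ((√(1 + ‖y‖ ^ 2))⁻¹ • innerSL ℝ y) y := by
  have h1 : HasFDerivAt (fun y : V => 1 + ‖y‖ ^ 2) (2 • innerSL ℝ y) y :=
    ((hasStrictFDerivAt_norm_sq y).hasFDerivAt).const_add 1
  have h2 := h1.sqrt (by positivity)
  have h3 := MB10a_one_le y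
  refine h2.congr_fderiv ?_
  ext v
  simp only [smul_apply, smul_eq_mul, nsmul_eq_mul, Nat.cast_ofNat]
  field_simp

/-- the weight -/
def MB10aw (y : V) : ℝ := Real.exp (√(1 + ‖y‖ ^ 2) / 4)

theorem MB10a_wt_smooth : ContDiff ℝ 1 (MB10aw (V := V)) := (MB10a_r_smooth.div_const 4).exp

theorem MB10a_wt_deriv (y v : V) : fderiv ℝ MB10aw y v = MB10aw y * ⟪MB10aZ y, v⟫ := by
  have h1 := ((MB10a_r_deriv y).const_mul (1 / 4)).exp
  have h2 : MB10aw = fun y : V => Real.exp (1 / 4 * √(1 + ‖y‖ ^ 2)) := by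
    funext y
    rw [MB10aw, div_eq_inv_mul, one_div]
  have h3 := MB10a_one_le y
  rw [h2, h1.fderiv, MB10aZ, real_inner_smul_left]
  simp only [smul_apply, smul_eq_mul, innerSL_apply_apply]
  field_simp

theorem MB10aZ_smooth : ContDiff ℝ 1 (MB10aZ (V := V)) :=
  ((contDiff_const.mul MB10a_r_smooth).inv fun y => by
    have := MB10a_one_le y
    positivity).smul contDiff_id

theorem MB10aZ_le (y : V) : ‖MB10aZ y‖ ≤ 1 / 4 := by
  have h1 := MB10a_one_le y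
  have h2 := MB10a_norm_le y
  rw [MB10aZ, norm_smul, Real.norm_of_nonneg (by positivity), inv_mul_le_iff₀ (by positivity)]
  linarith

theorem MB10aZ_deriv (y : V) : ‖fderiv ℝ MB10aZ y‖ ≤ 1 := by
  have h1 := MB10a_one_le y
  have h2 := MB10a_norm_le y
  set r := √(1 + ‖y‖ ^ 2) with hr
  have h3 : HasFDerivAt (fun y : V => (4 * √(1 + ‖y‖ ^ 2))⁻¹)
      ((-((4 * r) ^ 2)⁻¹) • ((4 : ℝ) • (r⁻¹ • innerSL ℝ y))) y :=
    (hasDerivAt_inv (x := 4 * r) (by positivity)).comp_hasFDerivAt y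
      ((MB10a_r_deriv y).const_mul 4)
  have h4 := h3.smul (hasFDerivAt_id y)
  have h5 : fderiv ℝ MB10aZ y = _ := h4.fderiv
  rw [h5]
  refine ContinuousLinearMap.opNorm_le_bound _ zero_le_one fun v => ?_
  simp only [add_apply, smul_apply,
    ContinuousLinearMap.id_apply, ContinuousLinearMap.smulRight_apply, innerSL_apply_apply,
    smul_eq_mul, id]
  refine (norm_add_le _ _).trans ?_
  rw [norm_smul, norm_smul, ← hr, Real.norm_of_nonneg (by positivity), Real.norm_eq_abs, abs_mul,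
    abs_mul, abs_mul, abs_neg, abs_of_nonneg (by positivity : 0 ≤ ((4 * r) ^ 2)⁻¹),
    abs_of_nonneg (by positivity : 0 ≤ r⁻¹), abs_of_nonneg (by norm_num : (0 : ℝ) ≤ 4)]
  have h6 := abs_real_inner_le_norm y v
  have hv := norm_nonneg v
  have hy := norm_nonneg y
  have h7 : (4 * r)⁻¹ ≤ 1 / 4 := by
    rw [inv_le_comm₀ (by positivity) (by norm_num)]
    linarith
  have h8 : ((4 * r) ^ 2)⁻¹ * (4 * (r⁻¹ * |⟪y, v⟫|)) * ‖y‖ ≤ 1 / 4 * ‖v‖ := by
    have a : |⟪y, v⟫| * ‖y‖ ≤ r * ‖v‖ * r :=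
      mul_le_mul (h6.trans (mul_le_mul_of_nonneg_right h2 hv)) h2 hy (by positivity)
    have b : ((4 * r) ^ 2)⁻¹ * (4 * (r⁻¹ * |⟪y, v⟫|)) * ‖y‖ =
        (4 * r)⁻¹ * (r ^ 2)⁻¹ * (|⟪y, v⟫| * ‖y‖) := by
      field_simp
    have c : (4 * r)⁻¹ * (r ^ 2)⁻¹ * (r * ‖v‖ * r) = (4 * r)⁻¹ * ‖v‖ := by
      field_simp
    rw [b]
    refine (mul_le_mul_of_nonneg_left a (by positivity)).trans ?_
    rw [c]
    exact mul_le_mul_of_nonneg_right h7 hv
  have h9 := mul_le_mul_of_nonneg_right h7 hv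
  linarith

variable {W : Type*} [NormedAddCommGroup W] [InnerProductSpace ℝ W] [FiniteDimensional ℝ W]
  [MeasurableSpace W] [BorelSpace W]

/-- the field on the product -/
def MB10aZ9 (p : WithLp 2 (V × W)) : WithLp 2 (V × W) := pt (0 : V) (MB10aZ p.snd)

theorem MB10a_W_smooth : ContDiff ℝ 1 fun p : WithLp 2 (V × W) => MB10aw p.snd :=
  MB10a_wt_smooth.comp (WithLp.sndL 2 ℝ V W).contDiff

theorem MB10aZ9_smooth : ContDiff ℝ 1 (MB10aZ9 (V := V) (W := W)) :=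
  (S08_inr V W).contDiff.comp (MB10aZ_smooth.comp (WithLp.sndL 2 ℝ V W).contDiff)

theorem MB10aZ9_norm (p : WithLp 2 (V × W)) : ‖MB10aZ9 p‖ = ‖MB10aZ p.snd‖ := by
  have := WithLp.prod_norm_sq_eq_of_L2 (MB10aZ9 p)
  refine (pow_left_inj₀ (norm_nonneg _) (norm_nonneg _) two_ne_zero).1 ?_
  rw [this]
  simp [MB10aZ9]

theorem MB10a_W_grad (p : WithLp 2 (V × W)) :
    ∇ (fun p : WithLp 2 (V × W) => MB10aw p.snd) p = MB10aw p.snd • MB10aZ9 p := by
  refine ext_inner_right ℝ fun v => ?_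
  have h1 : HasFDerivAt MB10aw (fderiv ℝ MB10aw p.snd) (WithLp.sndL 2 ℝ V W p) :=
    (MB10a_wt_smooth.differentiable one_ne_zero p.snd).hasFDerivAt
  have h2 : fderiv ℝ (fun p : WithLp 2 (V × W) => MB10aw p.snd) p = _ :=
    (h1.comp p (WithLp.sndL 2 ℝ V W).hasFDerivAt).fderiv
  rw [s05_inner_grad, h2, real_inner_smul_left, real_inner_comm, MB10aZ9, S08_inner_pt,
    inner_zero_right, zero_add, real_inner_comm]
  exact MB10a_wt_deriv p.snd v.snd

theorem MB10a_dvg_bd (y : W) : |dvg MB10aZ y| ≤ Module.finrank ℝ W + 1 := by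
  have := MB10a_dvg_le (MB10aZ_deriv y)
  linarith

theorem MB10aZ_le' (y : W) : ‖MB10aZ y‖ ≤ Module.finrank ℝ W + 1 := by
  have := MB10aZ_le y
  have : (0 : ℝ) ≤ Module.finrank ℝ W := Nat.cast_nonneg _
  linarith

end

end Crest.Agent.R335
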