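import Crest.Agent.R335.MB2
import Crest.Agent.R335.MB10aAux

/-! Row 335, module MB: the exponential weight. -/

set_option autoImplicit false
set_option linter.unusedSectionVars false

open MeasureTheory Set Filter Topology Metric
open scoped Gradient ContDiff RealInnerProductSpace ENNReal

namespace Crest.Agent.R335

noncomputable section

theorem MB10a_s : ContDiff ℝ 1 fun p : E9 => wt p.snd := MB10a_W_smooth

theorem MB10a_g (p : E9) : ∇ (fun p : E9 => wt p.snd) p = wt p.snd • MB10aZ9 p := MB10a_W_grad p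

theorem MB10a_wt_sq_le (p : E9) : wt p.snd ^ 2 ≤ 2 * Real.exp ‖p‖ := by
  have h1 := MB10a_sqrt_le p.snd
  have h2 : ‖p.snd‖ ≤ ‖p‖ := WithLp.norm_snd_le _ p
  have h3 := norm_nonneg p.snd
  have h4 : Real.exp (1 / 2) ≤ 2 := by
    have a : Real.exp (1 / 2) ^ 2 = Real.exp 1 := by
      rw [← Real.exp_nat_mul]
      norm_num
    have b := Real.exp_one_lt_d9
    nlinarith [Real.exp_pos (1 / 2)]
  rw [wt, ← Real.exp_nat_mul]
  calc Real.exp ((2 : ℕ) * (√(1 + ‖p.snd‖ ^ 2) / 4)) ≤ Real.exp (1 / 2 + ‖p‖) := by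
        refine Real.exp_le_exp.2 ?_
        push_cast
        linarith
    _ ≤ _ := by
        rw [Real.exp_add]
        exact mul_le_mul_of_nonneg_right h4 (Real.exp_pos _).le

theorem one_le_wt (y : E6) : 1 ≤ wt y := Real.one_le_exp (by positivity)
theorem wt_sq_ge (y : E6) : Real.exp (‖y‖ / 2) ≤ wt y ^ 2 := by
  have := MB10a_norm_le y
  rw [wt, ← Real.exp_nat_mul]
  refine Real.exp_le_exp.2 ?_
  push_cast
  linarith
theorem wt_R6 (y : E6) : wt (R6 y) = wt y := by rw [wt, wt, norm_R6]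
/-- `Hl.mul_c1`, `‖∇ wt‖ ≤ wt / 4`, `wt² ≤ 2 e^{‖y‖}` -/
theorem wt_h1 {F : E9 → ℝ} (h : H1 F)
    (hd : Integrable fun p => Real.exp ‖p‖ * (F p ^ 2 + ‖D F p‖ ^ 2)) :
    H1 (fun p : E9 => wt p.snd * F p) ∧
      nsq (fun p : E9 => wt p.snd * F p) + dir (fun p : E9 => wt p.snd * F p) ≤
        10 * ∫ p, Real.exp ‖p‖ * (F p ^ 2 + ‖D F p‖ ^ 2) := by
  have hl := h.hl.mul_c1 MB10a_s
  have b1 : ∀ p : E9, (wt p.snd * F p) ^ 2 ≤ 2 * (Real.exp ‖p‖ * (F p ^ 2 + ‖D F p‖ ^ 2)) := by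
    intro p
    rw [mul_pow, ← mul_assoc]
    exact mul_le_mul (MB10a_wt_sq_le p) (le_add_of_nonneg_right (sq_nonneg _)) (sq_nonneg _)
      (by positivity)
  have b2 : ∀ᵐ p : E9, ‖D (fun p : E9 => wt p.snd * F p) p‖ ^ 2 ≤
      4 * (Real.exp ‖p‖ * (F p ^ 2 + ‖D F p‖ ^ 2)) := by
    filter_upwards [D_mul_c1 h.hl MB10a_s] with p hp
    have hw : 0 ≤ wt p.snd := zero_le_one.trans (one_le_wt _)
    have a : ‖D (fun p : E9 => wt p.snd * F p) p‖ ≤ wt p.snd * (‖D F p‖ + |F p|) := by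
      rw [hp, MB10a_g, smul_comm, ← smul_add, norm_smul, Real.norm_of_nonneg hw]
      refine mul_le_mul_of_nonneg_left ((norm_add_le _ _).trans ?_) hw
      rw [norm_smul, MB10aZ9_norm, Real.norm_eq_abs]
      have := MB10aZ_le p.snd
      nlinarith [abs_nonneg (F p)]
    have b : (‖D F p‖ + |F p|) ^ 2 ≤ 2 * (F p ^ 2 + ‖D F p‖ ^ 2) := by
      nlinarith [sq_nonneg (‖D F p‖ - |F p|), sq_abs (F p)]
    refine (pow_le_pow_left₀ (norm_nonneg _) a 2).trans ?_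
    rw [mul_pow]
    refine (mul_le_mul (MB10a_wt_sq_le p) b (sq_nonneg _) (by positivity)).trans_eq ?_
    ring
  have i1 : Integrable fun p : E9 => (wt p.snd * F p) ^ 2 :=
    (hd.const_mul 2).mono' (hl.aesm.pow 2) (ae_of_all _ fun p => by
      rw [Real.norm_of_nonneg (sq_nonneg _)]
      exact b1 p)
  have i2 : Integrable fun p : E9 => ‖D (fun p : E9 => wt p.snd * F p) p‖ ^ 2 :=
    (hd.const_mul 4).mono' (hl.aesm_D.norm.pow 2) (by
      filter_upwards [b2] with p hp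
      rwa [Real.norm_of_nonneg (sq_nonneg _)])
  refine ⟨hl.h1 ((memLp_two_iff_integrable_sq hl.aesm).2 i1)
    ((memLp_two_iff_integrable_sq_norm hl.aesm_D).2 i2), ?_⟩
  have c1 := integral_mono i1 (hd.const_mul 2) b1
  have c2 := integral_mono_ae i2 (hd.const_mul 4) b2
  have c3 : 0 ≤ ∫ p, Real.exp ‖p‖ * (F p ^ 2 + ‖D F p‖ ^ 2) :=
    integral_nonneg fun p => by positivity
  rw [integral_const_mul] at c1 c2
  unfold nsq dir
  linarith
/-- `B = -⟪∇wt, ∇_y F⟫ - ½ (Δ wt) F` (`|Δ wt| ≤ C wt`); on a slice `∫ B wt F = ½ ∫ |∇wt|² F²`.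
First test with `Tst` functions, then extend to `H1` tests by `H1.approx_seq`, `S06_lim`. -/
theorem wt_sol {F A : E9 → ℝ} (h : Sol F A)
    (hd : Integrable fun p => Real.exp ‖p‖ * (F p ^ 2 + ‖D F p‖ ^ 2))
    (hA : MemLp (fun p : E9 => wt p.snd * A p) 2 volume) :
    ∃ B : E9 → ℝ, MemLp B 2 volume ∧
      Sol (fun p : E9 => wt p.snd * F p) (fun p => wt p.snd * A p + B p) ∧
      ∀ᵐ x, ∫ y, B (pt x y) * (wt y * F (pt x y)) ≤ (1 / 32) * ∫ y, (wt y * F (pt x y)) ^ 2 := by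
  have hG := (wt_h1 h.h1 hd).1
  have hdv : ∀ p : E9, dvg MB10aZ9 p = dvg MB10aZ p.snd := MB10a_dvg_snd MB10aZ_smooth
  have hM : ∀ p : E9, ‖MB10aZ9 p‖ ≤ Module.finrank ℝ E6 + 1 := fun p => by
    rw [MB10aZ9_norm]
    exact MB10aZ_le' _
  have hM' : ∀ p : E9, |dvg MB10aZ9 p| ≤ Module.finrank ℝ E6 + 1 := fun p => by
    rw [hdv]
    exact MB10a_dvg_bd _
  refine ⟨_, MB10aB_l2 hG MB10aZ9_smooth hM hM',
    MB10a_sol h MB10a_s MB10a_g hG hA MB10aZ9_smooth hM hM', ?_⟩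
  obtain ⟨G, hGd⟩ : ∃ G : E9 → ℝ, G = fun p : E9 => wt p.snd * F p := ⟨_, rfl⟩
  have hGx : ∀ x y, wt y * F (pt x y) = G (pt x y) := fun x y => by rw [hGd]; rfl
  rw [← hGd] at hG ⊢
  filter_upwards [hG.slice_snd] with x hx
  simp only [hGx]
  have h1 := MB10aB_self hx.1 MB10aZ_smooth MB10aZ_le' MB10a_dvg_bd
  have h2 : ∫ y, MB10aB G (D G) MB10aZ9 (dvg MB10aZ9) (pt x y) * G (pt x y) =
      ∫ y, MB10aB (fun y => G (pt x y)) (D fun y => G (pt x y)) MB10aZ (dvg MB10aZ) y *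
        G (pt x y) := by
    refine integral_congr_ae ?_
    filter_upwards [hx.2] with y hy
    simp only [MB10aB]
    rw [hy, hdv, MB10aZ9_norm, MB10aZ9, S08_inner_pt, inner_zero_right, zero_add]
    rfl
  have i3 : Integrable fun y => G (pt x y) * ‖MB10aZ y‖ ^ 2 * G (pt x y) :=
    (MB10a_mul hx.1.l2 (MB10aZ_smooth.continuous.norm.pow 2)
      (MB10a_sq_le MB10aZ_le)).integrable_mul hx.1.l2
  have h3 := integral_mono i3 (hx.1.l2.integrable_sq.const_mul (1 / 16)) fun y => by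
    have a := pow_le_pow_left₀ (norm_nonneg _) (MB10aZ_le y) 2
    have b := mul_le_mul_of_nonneg_left a (sq_nonneg (G (pt x y)))
    simp only
    nlinarith
  rw [integral_const_mul] at h3
  rw [h2, h1]
  linarith
theorem Dat.OK.h1_Pw {a : Dat} (h : a.OK) (i : Fin 2) :
    H1 (a.Pw i) ∧ nsq (a.Pw i) + dir (a.Pw i) ≤ 20 * a.c := by
  obtain ⟨h1, h2⟩ := wt_h1 (h.solF i).h1 (h.decF i).1
  have h3 := (h.decF i).2
  exact ⟨h1, h2.trans (by linarith)⟩

end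

end Crest.Agent.R335
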