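import Crest.Agent.R335.MB10b

/-! Row 335, module MB: distance to the unperturbed state. -/

set_option autoImplicit false
set_option linter.unusedSectionVars false

open MeasureTheory Set Filter Topology Metric
open scoped Gradient ContDiff RealInnerProductSpace ENNReal

namespace Crest.Agent.R335

noncomputable section

theorem Dat.F0_zero (a : Dat) (p : E9) : a.F0 0 p =
    a.o.u0 p.fst * gg a.o.g0 p.snd - a.o.g0 p.fst * a.ug p.snd := by
  have h2 : √2 ≠ 0 := by positivity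
  change √2 * ((a.o.u0 p.fst * a.o.g0 p.snd.fst - a.o.g0 p.fst * a.o.u0 p.snd.fst) *
    a.o.g0 p.snd.snd / √2) = a.o.u0 p.fst * (a.o.g0 p.snd.fst * a.o.g0 p.snd.snd) -
      a.o.g0 p.fst * (a.o.u0 p.snd.fst * a.o.g0 p.snd.snd)
  rw [mul_div_cancel₀ _ h2]
  ring
theorem Dat.F0_one (a : Dat) (p : E9) : a.F0 1 p = a.o.g0 p.fst * w0 a.o.g0 a.o.u0 p.snd := by
  change (a.o.u0 p.snd.fst * a.o.g0 p.snd.snd - a.o.g0 p.snd.fst * a.o.u0 p.snd.snd) *
    a.o.g0 p.fst / √2 = a.o.g0 p.fst *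
      ((a.o.u0 p.snd.fst * a.o.g0 p.snd.snd - a.o.g0 p.snd.fst * a.o.u0 p.snd.snd) / √2)
  ring
/-- `Sol.tensor` -/
theorem Dat.OK.solF0 {a : Dat} (h : a.OK) (i : Fin 2) :
    Sol (a.F0 i) fun p => (2 * a.o.eg + a.o.eu - V3 a.o.v p) * a.F0 i p := by
  have sg := h.ho.sg
  have su := h.ho.su
  fin_cases i
  · refine ((su.tensor (sg.tensor sg)).lin (sg.tensor (su.tensor sg)) 1 (-1)).congr
      (ae_of_all _ fun p => ?_) (ae_of_all _ fun p => ?_)
    · change a.F0 0 p = _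
      simp only [Dat.F0_zero, gg, Dat.ug]
      ring
    · change _ * a.F0 0 p = _
      simp only [Dat.F0_zero, gg, Dat.ug, V3]
      ring
  · refine ((sg.tensor (su.tensor sg)).lin (sg.tensor (sg.tensor su)) (1 / √2) (-(1 / √2))).congr
      (ae_of_all _ fun p => ?_) (ae_of_all _ fun p => ?_)
    · change a.F0 1 p = _
      simp only [Dat.F0_one, w0]
      ring
    · change _ * a.F0 1 p = _
      simp only [Dat.F0_one, w0, V3]
      ring

theorem MB11_smul {u : E9 → ℝ} (h : H1 u) (s : ℝ) :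
    nsq (fun p => s * u p) + dir (fun p => s * u p) = s ^ 2 * (nsq u + dir u) := by
  have h1 := S11_nsq_lc h.l2 h.l2 s 0
  have h2 := S11_dir_lc h h s 0
  simp only [zero_mul, add_zero] at h1 h2
  rw [h1, h2]
  ring

theorem Dat.OK.clF {a : Dat} (h : a.OK) (i : Fin 2) :
    nsq (fun p => a.F i p - a.F0 i p) + dir (fun p => a.F i p - a.F0 i p) ≤ 2 * a.c * a.l := by
  have h2 : √2 ≠ 0 := by positivity
  have h0 : H1 (psi0 a.o.g0 a.o.u0) :=
    ((h.solF0 0).h1.smul (√2)⁻¹).congr (ae_of_all _ fun p => (inv_mul_cancel_left₀ h2 _).symm)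
  have h1 := h.mb.gs.h1.sub h0
  have h3 := h.mb.clψ
  fin_cases i
  · have e : (fun p => a.F 0 p - a.F0 0 p) = fun p => √2 * (a.ψ p - psi0 a.o.g0 a.o.u0 p) :=
      funext fun p => (mul_sub _ _ _).symm
    change nsq (fun p => a.F 0 p - a.F0 0 p) + dir (fun p => a.F 0 p - a.F0 0 p) ≤ _
    rw [e, MB11_smul h1, Real.sq_sqrt zero_le_two]
    linarith
  · obtain ⟨L, hL⟩ := exists_cyc
    obtain ⟨-, e1, e2⟩ := h1.iso L
    simp only [hL] at e1 e2
    have h4 : 0 ≤ a.c * a.l := mul_nonneg (zero_le_one.trans h.hc) h.mb.l0.1.le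
    change nsq (fun p => a.ψ (cyc p) - psi0 a.o.g0 a.o.u0 (cyc p)) +
      dir (fun p => a.ψ (cyc p) - psi0 a.o.g0 a.o.u0 (cyc p)) ≤ _
    rw [e1, e2]
    linarith

theorem MB11_F {a : Dat} (h : a.OK) (i : Fin 2) : dir (a.F i) + nsq (a.F i) ≤ 2 * a.c := by
  have h1 := (h.solF i).h1
  obtain ⟨h2, h3⟩ := h.decF i
  refine le_trans ?_ h3
  unfold dir nsq
  rw [← integral_add (S11_int_normsq h1.dl2) h1.l2.integrable_sq]
  refine integral_mono ((S11_int_normsq h1.dl2).add h1.l2.integrable_sq) h2 fun p => ?_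
  have h4 := mul_le_mul_of_nonneg_right (Real.one_le_exp (norm_nonneg p))
    (show 0 ≤ a.F i p ^ 2 + ‖D (a.F i) p‖ ^ 2 by positivity)
  linarith

theorem MB11_nsq3 {u v w : E9 → ℝ} (hu : MemLp u 2 volume) (hv : MemLp v 2 volume)
    (hw : MemLp w 2 volume) (r s t : ℝ) :
    MemLp (fun p => r * u p + s * v p + t * w p) 2 volume ∧
      nsq (fun p => r * u p + s * v p + t * w p) ≤
        3 * r ^ 2 * nsq u + 3 * s ^ 2 * nsq v + 3 * t ^ 2 * nsq w := by
  have m : MemLp (fun p => r * u p + s * v p + t * w p) 2 volume :=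
    ((hu.const_mul r).add (hv.const_mul s)).add (hw.const_mul t)
  refine ⟨m, ?_⟩
  have i1 := hu.integrable_sq.const_mul (3 * r ^ 2)
  have i2 := hv.integrable_sq.const_mul (3 * s ^ 2)
  have i3 := hw.integrable_sq.const_mul (3 * t ^ 2)
  have i4 : Integrable fun p => 3 * r ^ 2 * u p ^ 2 + 3 * s ^ 2 * v p ^ 2 := i1.add i2
  unfold nsq
  rw [← integral_const_mul, ← integral_const_mul, ← integral_const_mul, ← integral_add i1 i2,
    ← integral_add i4 i3]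
  exact integral_mono m.integrable_sq ((i1.add i2).add i3) fun p => Y3_sq3 _ _ _ _ _ _

/-- the energy of the unperturbed state -/
def MB11_M (o : OD) : ℝ := ∑ i, (dir (comp (psi0 o.g0 o.u0) i) + nsq (comp (psi0 o.g0 o.u0) i))

theorem MB11_M_le (a : Dat) (i : Fin 2) : dir (a.F0 i) + nsq (a.F0 i) ≤ MB11_M a.o :=
  Finset.single_le_sum (f := fun i => dir (a.F0 i) + nsq (a.F0 i))
    (fun _ _ => add_nonneg (S11_dir_nonneg _) (S11_nsq_nonneg _)) (Finset.mem_univ i)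

/-- the source term of `F - F0` -/
def MB11_B (a : Dat) (i : Fin 2) (p : E9) : ℝ :=
  -a.l * (Wx p.fst p.snd * a.F i p) + (a.E3 - (2 * a.o.eg + a.o.eu)) * a.F0 i p +
    -a.l * (W2 p.snd * a.F0 i p)

theorem MB11_B_bd {a : Dat} (h : a.OK) (i : Fin 2) : MemLp (MB11_B a i) 2 volume ∧
    nsq (MB11_B a i) ≤ (96 * a.c + 3 * a.c ^ 2 * MB11_M a.o + 12 * MB11_M a.o) * a.l := by
  obtain ⟨m1, b1⟩ := (opB_W9 measurable_id).bd _ (h.solF i).h1
  obtain ⟨m3, b3⟩ := (opB_W2.snd (V := E)).bd _ (h.solF0 i).h1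
  obtain ⟨m, b⟩ := MB11_nsq3 m1 (h.solF0 i).h1.l2 m3 (-a.l) (a.E3 - (2 * a.o.eg + a.o.eu)) (-a.l)
  refine ⟨m, b.trans ?_⟩
  obtain ⟨l0, l1⟩ := h.mb.l0
  have c0 : 0 ≤ a.c := zero_le_one.trans h.hc
  have hF := MB11_F h i
  have hM := MB11_M_le a i
  have hd := S11_dir_nonneg (a.F0 i)
  have hn := S11_nsq_nonneg (a.F0 i)
  have l2 : (-a.l) ^ 2 ≤ a.l := by nlinarith
  have t2 : (a.E3 - (2 * a.o.eg + a.o.eu)) ^ 2 ≤ a.c ^ 2 * a.l :=
    calc _ ≤ (a.c * a.l) ^ 2 :=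
          pow_le_pow_left₀ (by linarith [h.mb.E3b.1]) (by linarith [h.mb.E3b.2]) 2
      _ = a.c ^ 2 * (-a.l) ^ 2 := by ring
      _ ≤ _ := mul_le_mul_of_nonneg_left l2 (sq_nonneg _)
  have k1 := mul_le_mul l2 (b1.trans (show _ ≤ 32 * a.c by linarith)) (S11_nsq_nonneg _) l0.le
  have k2 := mul_le_mul t2 (show nsq (a.F0 i) ≤ MB11_M a.o by linarith) hn (by positivity)
  have k3 := mul_le_mul l2 (b3.trans (show _ ≤ 4 * MB11_M a.o by linarith)) (S11_nsq_nonneg _) l0.le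
  linarith

theorem MB11_sol {a : Dat} (h : a.OK) (i : Fin 2) : Sol (fun p => a.F i p - a.F0 i p)
    (a.rhs a.V (fun p => a.F i p - a.F0 i p) (MB11_B a i)) := by
  refine ((h.solF i).lin (h.solF0 i) 1 (-1)).congr (ae_of_all _ fun p => by ring)
    (ae_of_all _ fun p => ?_)
  simp only [Dat.rhs, Dat.V, Dat.BF, MB11_B, U2, V3, W2, OD.v]
  ring

theorem MB11_sub {a : Dat} (h : a.OK) : Sub univ a.hh
    fun x => (a.E3 - a.E2 - vx a.o.d x) * a.hh x + snorm (MB11_B a) x := by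
  have h1 : H1 a.hh := (snorm_h1 fun i => (MB11_sol h i).h1).1
  have hB := fun i => (MB11_B_bd h i).1
  have m : MemLp (fun x => (a.E3 - a.E2 - vx a.o.d x) * a.hh x + snorm (MB11_B a) x) 2 volume := by
    simp only [sub_mul _ (vx _ _)]
    exact ((h1.l2.const_mul _).sub ((opB_vx a.o.d).bd _ h1).1).add (snorm_l2 hB).1
  refine snorm_sub (fun i => MB11_sol h i)
    (fun K hK _ => (m.locallyIntegrable one_le_two).integrableOn_isCompact hK) ?_
  filter_upwards [a.srem_eq h.mb.l0.1.le h.mb.l0.2 a.V (fun i => (MB11_sol h i).h1) hB]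
    with x hx _
  refine ⟨?_, fun h0 => ?_⟩
  · have k1 := (le_abs_self _).trans (snorm_cs (P := fun i p => a.F i p - a.F0 i p)
      (fun i => (hx.1 i).1.l2) fun i => (hx.1 i).2)
    have k2 : a.E2 * snorm (fun i p => a.F i p - a.F0 i p) x ^ 2 ≤
        a.Q2 (fun i p => a.F i p - a.F0 i p) x := by
      rw [snorm_sq, Finset.mul_sum]
      exact Finset.sum_le_sum fun i _ => h.mb.low2 _ (hx.1 i).1
    rw [hx.2]
    simp only [Dat.V, OD.v, Dat.hh]
    linarith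
  · have h2 : a.hh x = 0 := h0
    rw [h2, mul_zero, zero_add]
    exact snorm_nonneg _ _

/-- `H = F - F0` solves `rhs V H B` with `B = -l W F + (E3 - 2eg - eu - l W2) F0`, `nsq B ≤ C l²`;
`srem_eq`, `low2`, `snorm_cs`, `snorm_sub` with source `(E3 - E2 - v) hh + snorm B`, `yuk_bd` -/
theorem hh_bd : Un fun C a => ∀ᵐ x, a.hh x ≤ C * √a.l := by
  obtain ⟨K, hK, hb⟩ := yuk_bd
  refine Un.of (fun o c => K * ((5 + 2 * c) * √(4 * c) +
    √(2 * (96 * c + 3 * c ^ 2 * MB11_M o + 12 * MB11_M o)))) fun C a h _ _ hC => ?_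
  obtain ⟨h1, h2, -, -, h3⟩ := snorm_h1 fun i => (MB11_sol h i).h1
  have hB := fun i => (MB11_B_bd h i).1
  filter_upwards [hb _ _ _ _ h1 (snorm_l2 hB).1 (MB11_sub h)] with x hx
  refine hx.trans (le_trans ?_ (mul_le_mul_of_nonneg_right hC (Real.sqrt_nonneg _)))
  have c0 : 0 ≤ a.c := zero_le_one.trans h.hc
  have k1 : √(dir (snorm fun i p => a.F i p - a.F0 i p) + nsq (snorm fun i p => a.F i p - a.F0 i p)) ≤
      √(4 * a.c) * √a.l := by
    rw [← Real.sqrt_mul' _ h.mb.l0.1.le]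
    refine Real.sqrt_le_sqrt ?_
    rw [Fin.sum_univ_two] at h2 h3
    linarith [h.clF 0, h.clF 1]
  have k2 : √(nsq (snorm (MB11_B a))) ≤
      √(2 * (96 * a.c + 3 * a.c ^ 2 * MB11_M a.o + 12 * MB11_M a.o)) * √a.l := by
    rw [← Real.sqrt_mul' _ h.mb.l0.1.le]
    refine Real.sqrt_le_sqrt ?_
    rw [(snorm_l2 hB).2, Fin.sum_univ_two]
    linarith [(MB11_B_bd h 0).2, (MB11_B_bd h 1).2]
  have k3 : 1 + |a.E3 - a.E2| ≤ 5 + 2 * a.c := by
    linarith [abs_sub a.E3 a.E2, h.abs_E.1, h.abs_E.2]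
  have k4 := mul_le_mul k3 k1 (Real.sqrt_nonneg _) (by positivity)
  rw [mul_assoc]
  refine mul_le_mul_of_nonneg_left ?_ (zero_le_one.trans hK)
  linarith

end

end Crest.Agent.R335
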