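import Crest.Agent.R335.MB11
import Crest.Agent.R335.MA4

/-! Row 335, module MB: auxiliary lemmas for the field `close`. -/

set_option autoImplicit false
set_option linter.unusedSectionVars false

open MeasureTheory Set Filter Topology Metric
open scoped Gradient ContDiff RealInnerProductSpace ENNReal

namespace Crest.Agent.R335

noncomputable section

section generic

variable {V : Type*} [NormedAddCommGroup V] [InnerProductSpace ℝ V] [FiniteDimensional ℝ V]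
  [MeasurableSpace V] [BorelSpace V]
variable {W : Type*} [NormedAddCommGroup W] [InnerProductSpace ℝ W] [FiniteDimensional ℝ W]
  [MeasurableSpace W] [BorelSpace W]

theorem MB12_nsq_le {u w : V → ℝ} (hu : MemLp u 2 volume) (hw : MemLp w 2 volume) (s t : ℝ) :
    nsq (fun x => s * u x + t * w x) ≤ 2 * s ^ 2 * nsq u + 2 * t ^ 2 * nsq w := by
  have h1 := S11_nsq_lc hu hw s t
  have h2 := S11_nsq_lc hu hw s (-t)
  have h3 := S11_nsq_nonneg fun x => s * u x + -t * w x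
  rw [h2] at h3
  rw [h1]
  nlinarith

theorem MB12_dir_le {u w : V → ℝ} (hu : H1 u) (hw : H1 w) (s t : ℝ) :
    dir (fun x => s * u x + t * w x) ≤ 2 * s ^ 2 * dir u + 2 * t ^ 2 * dir w := by
  have h1 := S11_dir_lc hu hw s t
  have h2 := S11_dir_lc hu hw s (-t)
  have h3 := S11_dir_nonneg fun x => s * u x + -t * w x
  rw [h2] at h3
  rw [h1]
  nlinarith

theorem MB12_pair {F : WithLp 2 (V × W) → ℝ} (h : H1 F) {Φ : W → ℝ} (b : MemLp Φ 2 volume)
    (nb : nsq Φ = 1) : nsq (fun x => ∫ y, F (pt x y) * Φ y) ≤ nsq F ∧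
      dir (fun x => ∫ y, F (pt x y) * Φ y) ≤ dir F := by
  constructor
  · rw [(nsq_slice_snd h.l2).2]
    refine integral_mono_of_nonneg (ae_of_all _ fun _ => sq_nonneg _) (nsq_slice_snd h.l2).1 ?_
    filter_upwards [memLp_slice_snd h.l2] with x hx
    have := S11_cs hx b
    rw [nb, mul_one] at this
    exact this
  · have h1 : ∀ _ : Unit, H1 F := fun _ => h
    have h2 := s13H_integral (P := fun _ : Unit => F) h1
    have h3 := s13H_int (P := fun _ : Unit => F) h1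
    simp only [Finset.univ_unique, Finset.sum_singleton] at h2
    refine le_trans ?_ h2
    refine integral_mono_of_nonneg (ae_of_all _ fun _ => sq_nonneg _) h3 ?_
    filter_upwards [(h.pair b).2, S08_slice (s13_fst2 h.dl2)] with x e1 e2
    have := s13_cs (ι := Unit) (a := fun _ => Φ) (g := fun _ y => (D F (pt x y)).fst)
      (fun _ => b.integrable_sq) (fun _ => s13_sqn_int e2) (fun _ => s13_smul_int b e2)
    simp only [Finset.univ_unique, Finset.sum_singleton] at this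
    have nb' : ∫ y, Φ y ^ 2 = 1 := nb
    rw [nb', one_mul] at this
    rw [e1]
    simpa only [s13H, Finset.univ_unique, Finset.sum_singleton] using this

theorem MB12_all {u : V → ℝ} (hu : Continuous u) {c : ℝ} (h : ∀ᵐ x, |u x| ≤ c) (x : V) :
    |u x| ≤ c := by
  have h1 : IsClosed {x : V | |u x| ≤ c} := isClosed_le hu.abs continuous_const
  have h2 : Dense {x : V | |u x| ≤ c} := Measure.dense_of_ae h
  have h3 := h2.closure_eq
  rw [h1.closure_eq] at h3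
  have : x ∈ {x : V | |u x| ≤ c} := h3 ▸ mem_univ x
  exact this

end generic

theorem MB12_pair_le {ι : Type} [Fintype ι] {P : ι → E9 → ℝ} {x : E} {i : ι}
    (hP : MemLp (fun y => P i (pt x y)) 2 volume) {b : E6 → ℝ} (hb : MemLp b 2 volume)
    (nb : nsq b = 1) : |∫ y, P i (pt x y) * b y| ≤ snorm P x := by
  refine le_trans ?_ (snorm_comp_le P x i)
  refine Real.abs_le_sqrt ?_
  have := S11_cs hP hb
  rw [nb, mul_one] at this
  exact this

theorem MB12_par {ι : Type} [Fintype ι] {P : ι → E9 → ℝ} {x : E}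
    (hP : ∀ i, MemLp (fun y => P i (pt x y)) 2 volume) :
    snorm (fun i p => (P i p - P i (Ry p)) / 2) x ≤ snorm P x ∧
      snorm (fun i p => (P i p + P i (Ry p)) / 2) x ≤ snorm P x := by
  have h := snorm_parity hP
  constructor
  · refine (abs_le_of_sq_le_sq' ?_ (snorm_nonneg _ _)).2
    nlinarith [sq_nonneg (snorm (fun i p => (P i p + P i (Ry p)) / 2) x)]
  · refine (abs_le_of_sq_le_sq' ?_ (snorm_nonneg _ _)).2
    nlinarith [sq_nonneg (snorm (fun i p => (P i p - P i (Ry p)) / 2) x)]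

namespace Dat

/-- the difference to the unperturbed state -/
def MB12H (a : Dat) (i : Fin 2) (p : E9) : ℝ := a.F i p - a.F0 i p
/-- the odd part of `F0` -/
def MB12Z (a : Dat) : Fin 2 → E9 → ℝ :=
  ![fun p => -(a.o.g0 p.fst) * a.ug p.snd, fun p => a.o.g0 p.fst * w0 a.o.g0 a.o.u0 p.snd]
/-- the even part of `F0` minus the channel `Φ` -/
def MB12Y (a : Dat) : Fin 2 → E9 → ℝ :=
  ![fun p => a.o.u0 p.fst * gg a.o.g0 p.snd - a.f p.fst * a.Φ p.snd, fun _ => 0]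
/-- the defect `‖Φ - g⊗g‖²` -/
def MB12e (a : Dat) : ℝ := nsq fun y => a.Φ y - gg a.o.g0 y

variable {a : Dat}

theorem MB12_hh (a : Dat) : a.hh = snorm a.MB12H := rfl
theorem OK.MB12_lΦ (h : a.OK) : MemLp a.Φ 2 volume := h.mb.sΦ.h1.l2
theorem OK.MB12_lG (h : a.OK) : MemLp (gg a.o.g0) 2 volume := h.ho.toOK0.sol_gg.h1.l2
theorem OK.MB12_lu (h : a.OK) : MemLp a.ug 2 volume := h.sol_ug.1.h1.l2
theorem OK.MB12_lw (h : a.OK) : MemLp (w0 a.o.g0 a.o.u0) 2 volume := h.ho.toOK0.l2_w0.1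
theorem OK.MB12_h1 (h : a.OK) (i : Fin 2) : H1 (a.MB12H i) := (h.solF i).h1.sub (h.solF0 i).h1

theorem OK.MB12_ip (h : a.OK) : ip a.ug a.Φ = 0 ∧ ip (gg a.o.g0) a.ug = 0 ∧
    ip (gg a.o.g0) a.Φ = 1 - a.MB12e / 2 := by
  refine ⟨integral_odd6 fun y => ?_, integral_odd6 fun y => ?_, ?_⟩
  · rw [h.ug_R6, (h.mb.symΦ y).1, neg_mul]
  · rw [h.ug_R6, h.ho.toOK0.gg_R6, mul_neg]
  · have h1 := S11_nsq_lc h.MB12_lΦ h.MB12_lG 1 (-1)
    simp only [one_mul, neg_mul, ← sub_eq_add_neg] at h1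
    rw [h.mb.nΦ, h.ho.toOK0.nsq_gg, ip_comm] at h1
    unfold MB12e
    rw [h1]
    ring

theorem OK.MB12_e (h : a.OK) : 0 ≤ a.MB12e ∧ a.MB12e ≤ a.c * a.l := by
  refine ⟨S11_nsq_nonneg _, le_trans ?_ h.mb.clΦ⟩
  exact le_add_of_nonneg_right (S11_dir_nonneg _)

theorem OK.MB12_w_R6 (h : a.OK) (y : E6) :
    w0 a.o.g0 a.o.u0 (R6 y) = -w0 a.o.g0 a.o.u0 y := by
  show (a.o.u0 (R y.fst) * a.o.g0 (R y.snd) - a.o.g0 (R y.fst) * a.o.u0 (R y.snd)) / √2 =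
    -((a.o.u0 y.fst * a.o.g0 y.snd - a.o.g0 y.fst * a.o.u0 y.snd) / √2)
  rw [h.ho.odu, h.ho.odu, h.ho.evg, h.ho.evg]
  ring

theorem OK.MB12_lZ (h : a.OK) (x : E) (i : Fin 2) :
    MemLp (fun y => a.MB12Z i (pt x y)) 2 volume := by
  fin_cases i
  · exact h.MB12_lu.const_mul (-(a.o.g0 x))
  · exact h.MB12_lw.const_mul (a.o.g0 x)

theorem OK.MB12_lY (h : a.OK) (x : E) (i : Fin 2) :
    MemLp (fun y => a.MB12Y i (pt x y)) 2 volume := by
  fin_cases i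
  · exact (h.MB12_lG.const_mul (a.o.u0 x)).sub (h.MB12_lΦ.const_mul (a.f x))
  · exact MemLp.zero

theorem OK.MB12_sZ (h : a.OK) (x : E) : snorm a.MB12Z x = √2 * a.o.g0 x := by
  have h0 := h.ho.g_nn x
  have e : snorm a.MB12Z x ^ 2 = (√2 * a.o.g0 x) ^ 2 := by
    rw [snorm_sq, Fin.sum_univ_two, mul_pow, Real.sq_sqrt (by norm_num)]
    have e1 : nsq (fun y => a.MB12Z 0 (pt x y)) = a.o.g0 x ^ 2 := by
      show ∫ y, (-(a.o.g0 x) * a.ug y) ^ 2 = _
      simp only [mul_pow, integral_const_mul]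
      have : ∫ y, a.ug y ^ 2 = 1 := h.sol_ug.2
      rw [this]
      ring
    have e2 : nsq (fun y => a.MB12Z 1 (pt x y)) = a.o.g0 x ^ 2 := by
      show ∫ y, (a.o.g0 x * w0 a.o.g0 a.o.u0 y) ^ 2 = _
      simp only [mul_pow, integral_const_mul]
      have : ∫ y, w0 a.o.g0 a.o.u0 y ^ 2 = 1 := h.ho.toOK0.l2_w0.2
      rw [this]
      ring
    rw [e1, e2]
    ring
  exact (pow_left_inj₀ (snorm_nonneg _ _) (by positivity) two_ne_zero).1 e

theorem OK.MB12_sY (h : a.OK) (x : E) :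
    snorm a.MB12Y x ^ 2 ≤ 2 * (a.f x - a.o.u0 x) ^ 2 + 2 * a.o.u0 x ^ 2 * a.MB12e := by
  rw [snorm_sq, Fin.sum_univ_two]
  have e1 : nsq (fun y => a.MB12Y 1 (pt x y)) = 0 := by
    show ∫ _ : E6, (0 : ℝ) ^ 2 = 0
    simp
  have e2 : (fun y => a.MB12Y 0 (pt x y)) =
      fun y => (a.o.u0 x - a.f x) * a.Φ y + (-a.o.u0 x) * (a.Φ y - gg a.o.g0 y) := by
    funext y
    show a.o.u0 x * gg a.o.g0 y - a.f x * a.Φ y = _
    ring
  have h1 := MB12_nsq_le h.MB12_lΦ (h.MB12_lΦ.sub h.MB12_lG) (a.o.u0 x - a.f x) (-a.o.u0 x)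
  rw [h.mb.nΦ] at h1
  rw [e1, e2, add_zero]
  refine h1.trans_eq ?_
  show _ + _ * a.MB12e = _
  ring

theorem OK.MB12_Fe (h : a.OK) : (fun i p => a.Fe i p - a.MB12Z i p) =
    fun i p => (a.MB12H i p - a.MB12H i (Ry p)) / 2 := by
  funext i p
  have e1 : (Ry p).fst = p.fst := rfl
  have e2 : (Ry p).snd = R6 p.snd := rfl
  fin_cases i
  · show a.Fe 0 p - -(a.o.g0 p.fst) * a.ug p.snd = (a.MB12H 0 p - a.MB12H 0 (Ry p)) / 2
    rw [Fe, MB12H, MB12H, F0_zero, F0_zero, e1, e2, h.ug_R6, h.ho.toOK0.gg_R6]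
    ring
  · show a.Fe 1 p - a.o.g0 p.fst * w0 a.o.g0 a.o.u0 p.snd = (a.MB12H 1 p - a.MB12H 1 (Ry p)) / 2
    rw [Fe, MB12H, MB12H, F0_one, F0_one, e1, e2, h.MB12_w_R6]
    ring

theorem OK.MB12_Fo (h : a.OK) : a.Fo =
    fun i p => (a.MB12H i p + a.MB12H i (Ry p)) / 2 + a.MB12Y i p := by
  funext i p
  have e1 : (Ry p).fst = p.fst := rfl
  have e2 : (Ry p).snd = R6 p.snd := rfl
  fin_cases i
  · show a.Fo 0 p = (a.MB12H 0 p + a.MB12H 0 (Ry p)) / 2 +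
      (a.o.u0 p.fst * gg a.o.g0 p.snd - a.f p.fst * a.Φ p.snd)
    have e3 : a.fv 0 p.fst = a.f p.fst := rfl
    rw [Fo, Fp, Fe, MB12H, MB12H, F0_zero, F0_zero, e1, e2, h.ug_R6, h.ho.toOK0.gg_R6, e3]
    ring
  · show a.Fo 1 p = (a.MB12H 1 p + a.MB12H 1 (Ry p)) / 2 + 0
    have e3 : a.fv 1 p.fst = 0 := rfl
    rw [Fo, Fp, Fe, MB12H, MB12H, F0_one, F0_one, e1, e2, h.MB12_w_R6, e3]
    ring

theorem MB12_Fp (a : Dat) : (fun i p => a.Fp i p - a.MB12Z i p) =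
    fun i p => a.MB12H i p + a.MB12Y i p := by
  funext i p
  fin_cases i
  · show a.Fp 0 p - -(a.o.g0 p.fst) * a.ug p.snd = a.MB12H 0 p +
      (a.o.u0 p.fst * gg a.o.g0 p.snd - a.f p.fst * a.Φ p.snd)
    have e3 : a.fv 0 p.fst = a.f p.fst := rfl
    rw [Fp, MB12H, F0_zero, e3]
    ring
  · show a.Fp 1 p - a.o.g0 p.fst * w0 a.o.g0 a.o.u0 p.snd = a.MB12H 1 p + 0
    have e3 : a.fv 1 p.fst = 0 := rfl
    rw [Fp, MB12H, F0_one, e3]
    ring

theorem OK.MB12_sl (h : a.OK) : ∀ᵐ x, ∀ i, MemLp (fun y => a.MB12H i (pt x y)) 2 volume :=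
  ae_all_iff.2 fun i => memLp_slice_snd (h.MB12_h1 i).l2

theorem OK.MB12_key (h : a.OK) : ∀ᵐ x,
    a.f x - a.o.u0 x = 1 * (∫ y, a.MB12H 0 (pt x y) * a.Φ y) + -(a.MB12e / 2) * a.o.u0 x ∧
      a.s x - a.o.g0 x = -∫ y, a.MB12H 0 (pt x y) * a.ug y := by
  obtain ⟨i1, i2, i3⟩ := h.MB12_ip
  filter_upwards [h.MB12_sl, crep_ae fun x => ∫ y, a.F 0 (pt x y) * a.Φ y,
    crep_ae fun x => -∫ y, a.F 0 (pt x y) * a.ug y] with x h1 h2 h3
  have key : ∀ b : E6 → ℝ, MemLp b 2 volume → ∫ y, a.F 0 (pt x y) * b y =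
      (∫ y, a.MB12H 0 (pt x y) * b y) + a.o.u0 x * ip (gg a.o.g0) b - a.o.g0 x * ip a.ug b := by
    intro b hb
    have := S11_int3 (S11_int_mul (h1 0) hb) (S11_int_mul h.MB12_lG hb) (S11_int_mul h.MB12_lu hb)
      1 (a.o.u0 x) (-(a.o.g0 x))
    unfold ip
    refine Eq.trans (integral_congr_ae (ae_of_all _ fun y => ?_)) (this.trans (by ring))
    show a.F 0 (pt x y) * b y = _
    rw [MB12H, F0_zero]
    simp only [WithLp.toLp_fst, WithLp.toLp_snd]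
    ring
  constructor
  · have e : a.f x = ∫ y, a.F 0 (pt x y) * a.Φ y := h2
    rw [e, key _ h.MB12_lΦ, i1, i3]
    ring
  · have e : a.s x = -∫ y, a.F 0 (pt x y) * a.ug y := h3
    rw [e, key _ h.MB12_lu, i2, ip_self, h.sol_ug.2]
    ring

theorem OK.MB12_sqrt (h : a.OK) : 0 < √a.l ∧ a.l ≤ √a.l ∧ √a.l ^ 2 = a.l := by
  obtain ⟨h0, h1⟩ := h.mb.l0
  refine ⟨Real.sqrt_pos.2 h0, Real.le_sqrt_of_sq_le (by nlinarith), Real.sq_sqrt h0.le⟩

theorem OK.MB12_g (h : a.OK) : ∀ᵐ x, |a.md.G x - √2 * a.o.g0 x| ≤ a.hh x ∧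
    a.md.n x ≤ a.hh x + snorm a.MB12Y x ∧
    |a.md.g x - √2 * a.o.g0 x| ≤ a.hh x + snorm a.MB12Y x := by
  filter_upwards [h.MB12_sl, ae_all_iff.2 fun i => memLp_slice_snd (h.sol_Fe i).1.h1.l2,
    ae_all_iff.2 fun i => memLp_slice_snd (h.sol_Fp i).1.h1.l2] with x h1 h2 h3
  obtain ⟨p1, p2⟩ := MB12_par h1
  refine ⟨?_, ?_, ?_⟩
  · have := snorm_sub_abs h2 (h.MB12_lZ x)
    rw [h.MB12_Fe, h.MB12_sZ] at this
    exact this.trans p1
  · have hB : ∀ i, MemLp (fun y => a.MB12H i (Ry (pt x y))) 2 volume := fun i =>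
      memLp_R6 (u := fun y => a.MB12H i (pt x y)) (h1 i)
    have := snorm_add_le (P := fun i p => (a.MB12H i p + a.MB12H i (Ry p)) / 2) (x := x)
      (fun i => by simpa only [div_eq_mul_inv, Pi.add_apply] using ((h1 i).add (hB i)).mul_const 2⁻¹)
      (h.MB12_lY x)
    show snorm a.Fo x ≤ _
    rw [h.MB12_Fo]
    exact this.trans (add_le_add p2 le_rfl)
  · have := snorm_sub_abs h3 (h.MB12_lZ x)
    rw [MB12_Fp, h.MB12_sZ] at this
    exact this.trans (snorm_add_le h1 (h.MB12_lY x))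

end Dat

end

end Crest.Agent.R335
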