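import Crest.Agent.R335.MB2

/-! Row 335, module MB: multipole estimates for `Wx`. -/

set_option autoImplicit false
set_option linter.unusedSectionVars false

open MeasureTheory Set Filter Topology Metric
open scoped Gradient ContDiff RealInnerProductSpace ENNReal

namespace Crest.Agent.R335

noncomputable section

theorem MB3a_cs {a b : E6 → ℝ} (ha : MemLp a 2 volume) (hb : MemLp b 2 volume) :
    Integrable (fun y => |a y| * |b y|) ∧ ∫ y, |a y| * |b y| ≤ √(nsq a) * √(nsq b) := by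
  refine ⟨S11_int_mul ha.abs hb.abs, ?_⟩
  have h := S08_cs (μ := volume) ha.abs hb.abs
  simp only [Pi.abs_apply, sq_abs] at h
  rw [← Real.sqrt_mul (S11_nsq_nonneg a)]
  exact Real.le_sqrt_of_sq_le h

theorem MB3a_inv {p q : E} (hp : p ≠ 0) (hq : q ≠ 0) :
    |1 / ‖p‖ - 1 / ‖q‖| ≤ ‖p - q‖ * (1 / ‖p‖ * (1 / ‖q‖)) := by
  have h1 : 0 < ‖p‖ := norm_pos_iff.2 hp
  have h2 : 0 < ‖q‖ := norm_pos_iff.2 hq
  have e : 1 / ‖p‖ - 1 / ‖q‖ = (‖q‖ - ‖p‖) * (1 / ‖p‖ * (1 / ‖q‖)) := by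
    field_simp
  rw [e, abs_mul, abs_of_nonneg (by positivity : 0 ≤ 1 / ‖p‖ * (1 / ‖q‖))]
  refine mul_le_mul_of_nonneg_right ?_ (by positivity)
  rw [abs_sub_comm]
  exact abs_norm_sub_norm_le p q

theorem MB3a_inv' (x k : E) {z : E} (h1 : z ≠ x + k) (h2 : z ≠ x) :
    |1 / ‖x + k - z‖ - 1 / ‖x - z‖| ≤ ‖k‖ * (1 / ‖x + k - z‖ * (1 / ‖x - z‖)) := by
  have h := MB3a_inv (sub_ne_zero.2 h1.symm) (sub_ne_zero.2 h2.symm)
  have e : x + k - z - (x - z) = k := by abel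
  rwa [e] at h

theorem MB3a_ae (x k : E) : ∀ᵐ y : E6, |Wx (x + k) y - Wx x y| ≤
    ‖k‖ * (1 / ‖x + k - y.fst‖ * (1 / ‖x - y.fst‖) + 1 / ‖x + k - y.snd‖ * (1 / ‖x - y.snd‖)) := by
  have h : ∀ᵐ z : E, z ≠ x + k ∧ z ≠ x :=
    (Measure.ae_ne volume (x + k)).and (Measure.ae_ne volume x)
  filter_upwards [ae_fst (W := E) h, ae_snd (V := E) h] with y h1 h2
  have a1 := MB3a_inv' x k h1.1 h1.2
  have a2 := MB3a_inv' x k h2.1 h2.2
  have e : Wx (x + k) y - Wx x y = (1 / ‖x + k - y.fst‖ - 1 / ‖x - y.fst‖) +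
      (1 / ‖x + k - y.snd‖ - 1 / ‖x - y.snd‖) := by
    unfold Wx
    ring
  rw [e, mul_add]
  exact (abs_add_le _ _).trans (add_le_add a1 a2)

theorem MB3a_sqrt {C t s : ℝ} (hC : 0 ≤ C) (h : t ≤ C ^ 2 * s) : √t ≤ C * √s := by
  refine (Real.sqrt_le_sqrt h).trans (le_of_eq ?_)
  rw [Real.sqrt_mul (sq_nonneg C), Real.sqrt_sq hC]

theorem MB3a_fst (y : E6) : ‖y.fst‖ ≤ ‖y‖ := WithLp.norm_fst_le _ y
theorem MB3a_snd (y : E6) : ‖y.snd‖ ≤ ‖y‖ := WithLp.norm_snd_le _ y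

theorem MB3a_near1 {x z : E} (hx : 1 ≤ ‖x‖) {t : ℝ} (hz : ‖z‖ ≤ t) (ht : t ≤ ‖x‖ / 2) :
    |1 / ‖x - z‖ - 1 / jb x| ≤ (4 * t + 2) / jb x ^ 2 := by
  have h0 : 0 < ‖x‖ := by linarith
  have h1 : ‖x‖ / 2 ≤ ‖x - z‖ := by
    have := norm_sub_norm_le x z
    linarith
  have h2 : 0 < ‖x - z‖ := by linarith
  have hj := MB_norm_le_jb x
  have hj2 := MB_jb_sq x
  have hj0 : 0 < jb x := by linarith
  have a1 := MB3a_inv (norm_pos_iff.1 h2) (norm_pos_iff.1 h0)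
  have e : x - z - x = -z := by abel
  rw [e, norm_neg] at a1
  have t0 : 0 ≤ t := (norm_nonneg z).trans hz
  have a2 : ‖z‖ * (1 / ‖x - z‖ * (1 / ‖x‖)) ≤ 4 * t / jb x ^ 2 := by
    have b1 : 1 / ‖x - z‖ * (1 / ‖x‖) ≤ 4 / jb x ^ 2 := by
      rw [div_mul_div_comm, one_mul, div_le_div_iff₀ (by positivity) (by positivity)]
      nlinarith
    calc ‖z‖ * (1 / ‖x - z‖ * (1 / ‖x‖)) ≤ t * (4 / jb x ^ 2) :=
          mul_le_mul hz b1 (by positivity) t0
      _ = 4 * t / jb x ^ 2 := by ring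
  have a3 : |1 / ‖x‖ - 1 / jb x| ≤ 2 / jb x ^ 2 := by
    have b0 : 1 / jb x ≤ 1 / ‖x‖ := one_div_le_one_div_of_le h0 hj
    rw [abs_of_nonneg (by linarith), div_sub_div _ _ h0.ne' hj0.ne',
      div_le_div_iff₀ (by positivity) (by positivity)]
    have b1 : jb x - ‖x‖ ≤ 1 := by nlinarith
    have b2 : jb x ≤ 2 * ‖x‖ := by nlinarith
    have b3 : (jb x - ‖x‖) * jb x ^ 2 ≤ 1 * jb x ^ 2 :=
      mul_le_mul_of_nonneg_right b1 (sq_nonneg _)
    nlinarith
  have e2 : 1 / ‖x - z‖ - 1 / jb x = (1 / ‖x - z‖ - 1 / ‖x‖) + (1 / ‖x‖ - 1 / jb x) := by ring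
  rw [e2, add_div]
  exact (abs_add_le _ _).trans (add_le_add (a1.trans a2) a3)

theorem MB3a_near {x : E} (hx : 1 ≤ ‖x‖) {y : E6} (hy : ‖y‖ ≤ ‖x‖ / 2) :
    (Wx x y - 2 / jb x) ^ 2 ≤ 128 / jb x ^ 4 * Real.exp ‖y‖ := by
  have a1 := MB3a_near1 hx (MB3a_fst y) hy
  have a2 := MB3a_near1 hx (MB3a_snd y) hy
  have hj0 : 0 < jb x := lt_of_lt_of_le one_pos (MB_one_le_jb x)
  have a3 : |Wx x y - 2 / jb x| ≤ (8 * ‖y‖ + 4) / jb x ^ 2 := by
    have e : Wx x y - 2 / jb x =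
        (1 / ‖x - y.fst‖ - 1 / jb x) + (1 / ‖x - y.snd‖ - 1 / jb x) := by
      unfold Wx
      ring
    have e' : (8 * ‖y‖ + 4) / jb x ^ 2 =
        (4 * ‖y‖ + 2) / jb x ^ 2 + (4 * ‖y‖ + 2) / jb x ^ 2 := by ring
    rw [e, e']
    exact (abs_add_le _ _).trans (add_le_add a1 a2)
  have a4 : (8 * ‖y‖ + 4) ^ 2 ≤ 128 * Real.exp ‖y‖ := by
    have := Real.quadratic_le_exp_of_nonneg (norm_nonneg y)
    nlinarith [norm_nonneg y]
  calc (Wx x y - 2 / jb x) ^ 2 = |Wx x y - 2 / jb x| ^ 2 := (sq_abs _).symm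
    _ ≤ ((8 * ‖y‖ + 4) / jb x ^ 2) ^ 2 := pow_le_pow_left₀ (abs_nonneg _) a3 2
    _ = (8 * ‖y‖ + 4) ^ 2 / jb x ^ 4 := by ring
    _ ≤ 128 * Real.exp ‖y‖ / jb x ^ 4 := by gcongr
    _ = _ := by ring

theorem MB3a_meas (ρ : ℝ) : MeasurableSet {y : E6 | ρ ≤ ‖y‖} :=
  (isClosed_le continuous_const continuous_norm).measurableSet

theorem MB3a_crude (x : E) (y : E6) (p : ℝ) :
    ((Wx x y - 2 / jb x) * p) ^ 2 ≤ 2 * (Wx x y * p) ^ 2 + 8 * p ^ 2 := by
  have hj := MB_one_le_jb x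
  have h1 : (2 / jb x) ^ 2 ≤ 4 := by
    have h2 : 2 / jb x ≤ 2 := div_le_self (by norm_num) hj
    have h3 : 0 ≤ 2 / jb x := by positivity
    nlinarith
  have h2 : (2 / jb x) ^ 2 * p ^ 2 ≤ 4 * p ^ 2 := mul_le_mul_of_nonneg_right h1 (sq_nonneg _)
  nlinarith [sq_nonneg (Wx x y * p + 2 / jb x * p)]

/-- near region `‖y‖ ≤ ‖x‖/2`: `|1/‖x-yᵢ‖ - 1/‖x‖| ≤ 2‖y‖/‖x‖²`, `|1/‖x‖ - 1/jb x| ≤ 1/‖x‖³`;
far region: `Dec.far`; `‖x‖ ≤ 1`: `opB_Wx` -/
theorem Dec_W_sub : ∃ K : ℝ, 1 ≤ K ∧ ∀ (Φ : E6 → ℝ) (A : ℝ), Dec Φ A → ∀ x : E,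
    MemLp (fun y => (Wx x y - 2 / jb x) * Φ y) 2 volume ∧
      √(nsq fun y => (Wx x y - 2 / jb x) * Φ y) ≤ K * √A / jb x ^ 2 := by
  obtain ⟨K, hK, hK'⟩ := MB_exp_jb (b := 1 / 2) (by norm_num) 4
  refine ⟨100 * K, by linarith, fun Φ A h x => ?_⟩
  obtain ⟨w1, w2⟩ := (opB_Wx x).bd Φ h.1
  have hA := h.nonneg
  have hj := MB_one_le_jb x
  have hj0 : 0 < jb x := by linarith
  have m : MemLp (fun y => (Wx x y - 2 / jb x) * Φ y) 2 volume := by
    have e : (fun y => (Wx x y - 2 / jb x) * Φ y) =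
        fun y => Wx x y * Φ y - 2 / jb x * Φ y := by
      funext y
      ring
    rw [e]
    exact w1.sub (h.1.l2.const_mul _)
  refine ⟨m, ?_⟩
  have i1 := w1.integrable_sq
  have i2 := h.1.l2.integrable_sq
  have key : nsq (fun y => (Wx x y - 2 / jb x) * Φ y) ≤ 10000 * K * A / jb x ^ 4 := by
    rcases le_total ‖x‖ 1 with hx | hx
    · have a1 : nsq (fun y => (Wx x y - 2 / jb x) * Φ y) ≤
          ∫ y, (2 * (Wx x y * Φ y) ^ 2 + 8 * Φ y ^ 2) :=
        integral_mono m.integrable_sq ((i1.const_mul 2).add (i2.const_mul 8))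
          fun y => MB3a_crude x y (Φ y)
      rw [integral_add (i1.const_mul 2) (i2.const_mul 8), integral_const_mul,
        integral_const_mul] at a1
      have a2 := h.h1_le
      have a3 := S11_dir_nonneg Φ
      have a4 : nsq (fun y => (Wx x y - 2 / jb x) * Φ y) ≤ 40 * A := by
        unfold nsq at w2 a2
        linarith
      have a5 : jb x ^ 4 ≤ 4 := by
        have := MB_jb_sq x
        have b : jb x ^ 2 ≤ 2 := by nlinarith [norm_nonneg x]
        nlinarith [sq_nonneg (jb x)]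
      refine a4.trans ?_
      rw [le_div_iff₀ (by positivity)]
      nlinarith [mul_nonneg hA (sub_nonneg.2 hK), mul_nonneg hA (sub_nonneg.2 a5)]
    · set S : Set E6 := {y : E6 | ‖x‖ / 2 ≤ ‖y‖} with hS
      have mS : MeasurableSet S := MB3a_meas _
      have j1 : Integrable fun y => 2 * (Wx x y * Φ y) ^ 2 + 8 * Φ y ^ 2 :=
        (i1.const_mul 2).add (i2.const_mul 8)
      have a1 : nsq (fun y => (Wx x y - 2 / jb x) * Φ y) ≤
          ∫ y, (128 / jb x ^ 4 * (Real.exp ‖y‖ * (Φ y ^ 2 + ‖D Φ y‖ ^ 2)) +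
            S.indicator (fun y => 2 * (Wx x y * Φ y) ^ 2 + 8 * Φ y ^ 2) y) := by
        refine integral_mono m.integrable_sq ((h.2.1.const_mul _).add (j1.indicator mS))
          fun y => ?_
        by_cases hy : y ∈ S
        · simp only [indicator_of_mem hy]
          have : 0 ≤ 128 / jb x ^ 4 * (Real.exp ‖y‖ * (Φ y ^ 2 + ‖D Φ y‖ ^ 2)) := by positivity
          linarith [MB3a_crude x y (Φ y)]
        · simp only [indicator_of_notMem hy, add_zero]
          have b1 := MB3a_near hx (y := y) (le_of_lt (not_le.1 hy))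
          rw [mul_pow, ← mul_assoc]
          exact mul_le_mul b1 (le_add_of_nonneg_right (sq_nonneg _)) (sq_nonneg _) (by positivity)
      rw [integral_add (h.2.1.const_mul _) (j1.indicator mS), integral_const_mul,
        integral_indicator mS, integral_add (i1.const_mul 2).integrableOn
          (i2.const_mul 8).integrableOn, integral_const_mul, integral_const_mul] at a1
      obtain ⟨f1, f2⟩ := h.far x (‖x‖ / 2)
      have e1 : Real.exp (-(‖x‖ / 2)) ≤ K / jb x ^ 4 := by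
        have := hK' x
        rwa [show 1 / 2 * ‖x‖ = ‖x‖ / 2 by ring] at this
      have e2 : A * Real.exp (-(‖x‖ / 2)) ≤ A * (K / jb x ^ 4) :=
        mul_le_mul_of_nonneg_left e1 hA
      have e3 : 128 / jb x ^ 4 * ∫ y, Real.exp ‖y‖ * (Φ y ^ 2 + ‖D Φ y‖ ^ 2) ≤
          128 * (A * (K / jb x ^ 4)) := by
        calc _ ≤ 128 / jb x ^ 4 * A := mul_le_mul_of_nonneg_left h.2.2 (by positivity)
          _ = 128 * (A * (1 / jb x ^ 4)) := by ring
          _ ≤ _ := by gcongr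
      have e4 : 10000 * K * A / jb x ^ 4 = 10000 * (A * (K / jb x ^ 4)) := by ring
      have e5 : 0 ≤ A * (K / jb x ^ 4) := by positivity
      rw [e4]
      linarith
  have e : 100 * K * √A / jb x ^ 2 = 100 * K / jb x ^ 2 * √A := by ring
  rw [e]
  refine MB3a_sqrt (by positivity) (key.trans ?_)
  have e' : (100 * K / jb x ^ 2) ^ 2 * A = 10000 * (K * K) * A / jb x ^ 4 := by ring
  rw [e']
  have : K ≤ K * K := by nlinarith
  gcongr

/-- `|1/‖x+k-y‖ - 1/‖x-y‖| ≤ ‖k‖/(‖x-y‖‖x+k-y‖)` a.e., Cauchy-Schwarz, `opB_c1`, `opB_c2` -/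
theorem dW_le {P Y : E6 → ℝ} (hP : H1 P) (hY : H1 Y) (x k : E) :
    |∫ y, (Wx (x + k) y - Wx x y) * P y * Y y| ≤
      8 * ‖k‖ * √(dir P + nsq P) * √(dir Y + nsq Y) := by
  obtain ⟨a1, a2⟩ := (opB_c1 (x + k)).bd P hP
  obtain ⟨b1, b2⟩ := (opB_c1 x).bd Y hY
  obtain ⟨c1, c2⟩ := (opB_c2 (x + k)).bd P hP
  obtain ⟨d1, d2⟩ := (opB_c2 x).bd Y hY
  obtain ⟨i1, k1⟩ := MB3a_cs a1 b1
  obtain ⟨i2, k2⟩ := MB3a_cs c1 d1
  have h4 : (4 : ℝ) = 2 ^ 2 := by norm_num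
  rw [h4] at a2 b2 c2 d2
  have a3 := MB3a_sqrt (by norm_num) a2
  have b3 := MB3a_sqrt (by norm_num) b2
  have c3 := MB3a_sqrt (by norm_num) c2
  have d3 := MB3a_sqrt (by norm_num) d2
  have k1' := k1.trans (mul_le_mul a3 b3 (Real.sqrt_nonneg _) (by positivity))
  have k2' := k2.trans (mul_le_mul c3 d3 (Real.sqrt_nonneg _) (by positivity))
  have h := norm_integral_le_of_norm_le (f := fun y => (Wx (x + k) y - Wx x y) * P y * Y y)
    ((i1.add i2).const_mul ‖k‖) (by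
      filter_upwards [MB3a_ae x k] with y hy
      simp only [Real.norm_eq_abs, abs_mul, Pi.add_apply]
      rw [abs_of_nonneg (by positivity : 0 ≤ 1 / ‖x + k - y.fst‖),
        abs_of_nonneg (by positivity : 0 ≤ 1 / ‖x - y.fst‖),
        abs_of_nonneg (by positivity : 0 ≤ 1 / ‖x + k - y.snd‖),
        abs_of_nonneg (by positivity : 0 ≤ 1 / ‖x - y.snd‖)]
      have := mul_le_mul_of_nonneg_right hy (mul_nonneg (abs_nonneg (P y)) (abs_nonneg (Y y)))
      linarith)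
  rw [Real.norm_eq_abs, integral_const_mul] at h
  simp only [Pi.add_apply] at h
  rw [integral_add i1 i2] at h
  refine h.trans ?_
  have := mul_le_mul_of_nonneg_left (add_le_add k1' k2') (norm_nonneg k)
  linarith

theorem MB3a_near2 {x k z : E} (hx : 4 ≤ ‖x‖) (hk : ‖k‖ ≤ 1) (hz : ‖z‖ ≤ ‖x‖ / 2) :
    1 / ‖x + k - z‖ * (1 / ‖x - z‖) ≤ 16 / jb x ^ 2 := by
  have h1 : ‖x‖ / 2 ≤ ‖x - z‖ := by
    have := norm_sub_norm_le x z
    linarith
  have h2 : ‖x‖ / 4 ≤ ‖x + k - z‖ := by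
    have a := norm_sub_norm_le (x - z) (-k)
    have e : x - z - -k = x + k - z := by abel
    rw [e, norm_neg] at a
    linarith
  have hj2 := MB_jb_sq x
  have hj := MB_one_le_jb x
  have h3 : 0 < ‖x - z‖ := by linarith
  have h4 : 0 < ‖x + k - z‖ := by linarith
  rw [div_mul_div_comm, one_mul, div_le_div_iff₀ (by positivity) (by positivity)]
  have h5 : ‖x‖ / 4 * (‖x‖ / 2) ≤ ‖x + k - z‖ * ‖x - z‖ :=
    mul_le_mul h2 h1 (by positivity) (by positivity)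
  nlinarith

/-- `‖x‖ ≤ 4`: `dW_le`; otherwise near region pointwise, far region `Dec.far` and Hardy for `Y` -/
theorem Dec_dW : ∃ K : ℝ, 1 ≤ K ∧ ∀ (Φ : E6 → ℝ) (A : ℝ), Dec Φ A → ∀ Y : E6 → ℝ, H1 Y →
    ∀ x k : E, ‖k‖ ≤ 1 → |∫ y, (Wx (x + k) y - Wx x y) * Φ y * Y y| ≤
      K * √A * ‖k‖ / jb x ^ 2 * √(dir Y + nsq Y) := by
  obtain ⟨K, hK, hK'⟩ := MB_exp_jb (b := 1 / 2) (by norm_num) 4
  refine ⟨300 * K, by linarith, fun Φ A h Y hY x k hk => ?_⟩
  have hA := h.nonneg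
  have hj := MB_one_le_jb x
  have hj0 : 0 < jb x := by linarith
  have sA : √(dir Φ + nsq Φ) ≤ √A := Real.sqrt_le_sqrt h.h1_le
  set T : ℝ := √A * ‖k‖ / jb x ^ 2 * √(dir Y + nsq Y) with hT
  have T0 : 0 ≤ T := by positivity
  have eT : 300 * K * √A * ‖k‖ / jb x ^ 2 * √(dir Y + nsq Y) = 300 * (K * T) := by
    rw [hT]
    ring
  have KT : T ≤ K * T := by nlinarith
  rw [eT]
  rcases le_total ‖x‖ 4 with hx | hx
  · refine (dW_le h.1 hY x k).trans ?_
    have a5 : jb x ^ 2 ≤ 17 := by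
      have := MB_jb_sq x
      nlinarith [norm_nonneg x]
    have a6 : 8 * ‖k‖ * √(dir Φ + nsq Φ) * √(dir Y + nsq Y) ≤ 8 * jb x ^ 2 * T := by
      have e : 8 * jb x ^ 2 * T = 8 * ‖k‖ * √A * √(dir Y + nsq Y) := by
        rw [hT]
        field_simp
      rw [e]
      gcongr
    have a7 := mul_le_mul_of_nonneg_right a5 T0
    linarith
  · set S : Set E6 := {y : E6 | ‖x‖ / 2 ≤ ‖y‖} with hS
    have mS : MeasurableSet S := MB3a_meas _
    obtain ⟨w1, -⟩ := (opB_Wx (x + k)).bd Φ h.1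
    obtain ⟨v1, v2⟩ := (opB_Wx x).bd Y hY
    have w2 : MemLp (S.indicator fun y => Wx (x + k) y * Φ y) 2 volume := w1.indicator mS
    obtain ⟨i1, k1⟩ := MB3a_cs h.1.l2 hY.l2
    obtain ⟨i2, k2⟩ := MB3a_cs w2 v1
    have h16 : (16 : ℝ) = 4 ^ 2 := by norm_num
    rw [h16] at v2
    have v3 := MB3a_sqrt (by norm_num) v2
    have n1 : √(nsq Φ) ≤ √A :=
      (Real.sqrt_le_sqrt (le_add_of_nonneg_left (S11_dir_nonneg Φ))).trans sA
    have n2 : √(nsq Y) ≤ √(dir Y + nsq Y) :=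
      Real.sqrt_le_sqrt (le_add_of_nonneg_left (S11_dir_nonneg Y))
    have n3 : √(nsq (S.indicator fun y => Wx (x + k) y * Φ y)) ≤ 60 * K / jb x ^ 2 * √A := by
      refine MB3a_sqrt (by positivity) ?_
      have e : nsq (S.indicator fun y => Wx (x + k) y * Φ y) =
          ∫ y in S, (Wx (x + k) y * Φ y) ^ 2 := by
        unfold nsq
        rw [← integral_indicator mS]
        congr 1
        funext y
        by_cases hy : y ∈ S
        · simp only [indicator_of_mem hy]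
        · simp [indicator_of_notMem hy]
      rw [e]
      refine (h.far (x + k) (‖x‖ / 2)).2.trans ?_
      have e1 : Real.exp (-(‖x‖ / 2)) ≤ K / jb x ^ 4 := by
        have := hK' x
        rwa [show 1 / 2 * ‖x‖ = ‖x‖ / 2 by ring] at this
      have e2 : K ≤ K * K := by nlinarith
      calc 3000 * A * Real.exp (-(‖x‖ / 2)) ≤ 3600 * A * (K * K / jb x ^ 4) := by
            refine mul_le_mul (by linarith) (e1.trans ?_) (Real.exp_nonneg _) (by positivity)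
            gcongr
        _ = _ := by ring
    have k1' := k1.trans (mul_le_mul n1 n2 (Real.sqrt_nonneg _) (Real.sqrt_nonneg _))
    have k2' := k2.trans (mul_le_mul n3 v3 (Real.sqrt_nonneg _) (by positivity))
    have hh := norm_integral_le_of_norm_le (f := fun y => (Wx (x + k) y - Wx x y) * Φ y * Y y)
      (((i1.const_mul (32 / jb x ^ 2)).add i2).const_mul ‖k‖) (by
        filter_upwards [MB3a_ae x k] with y hy
        simp only [Real.norm_eq_abs, abs_mul, Pi.add_apply]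
        have p0 := mul_nonneg (abs_nonneg (Φ y)) (abs_nonneg (Y y))
        have hy' := mul_le_mul_of_nonneg_right hy p0
        rw [mul_assoc ‖k‖] at hy'
        rw [mul_assoc]
        refine hy'.trans (mul_le_mul_of_nonneg_left ?_ (norm_nonneg k))
        by_cases hyS : y ∈ S
        · simp only [indicator_of_mem hyS, abs_mul]
          rw [abs_of_nonneg (Wx_nonneg _ _), abs_of_nonneg (Wx_nonneg _ _)]
          have q1 : 1 / ‖x + k - y.fst‖ * (1 / ‖x - y.fst‖) +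
              1 / ‖x + k - y.snd‖ * (1 / ‖x - y.snd‖) ≤ Wx (x + k) y * Wx x y := by
            unfold Wx
            have r1 : 0 ≤ 1 / ‖x + k - y.fst‖ * (1 / ‖x - y.snd‖) := by positivity
            have r2 : 0 ≤ 1 / ‖x + k - y.snd‖ * (1 / ‖x - y.fst‖) := by positivity
            nlinarith
          have q2 := mul_le_mul_of_nonneg_right q1 p0
          have q3 : 0 ≤ 32 / jb x ^ 2 * (|Φ y| * |Y y|) := by positivity
          linarith
        · simp only [indicator_of_notMem hyS, abs_zero, zero_mul, add_zero]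
          have hy2 : ‖y‖ ≤ ‖x‖ / 2 := le_of_lt (not_le.1 hyS)
          have q1 := MB3a_near2 hx hk ((MB3a_fst y).trans hy2)
          have q2 := MB3a_near2 hx hk ((MB3a_snd y).trans hy2)
          refine mul_le_mul_of_nonneg_right ?_ p0
          have e : 32 / jb x ^ 2 = 16 / jb x ^ 2 + 16 / jb x ^ 2 := by ring
          rw [e]
          exact add_le_add q1 q2)
    rw [Real.norm_eq_abs, integral_const_mul] at hh
    simp only [Pi.add_apply] at hh
    rw [integral_add (i1.const_mul _) i2, integral_const_mul] at hh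
    refine hh.trans ?_
    have z1 := mul_le_mul_of_nonneg_left k1' (by positivity : 0 ≤ 32 / jb x ^ 2)
    have z2 := mul_le_mul_of_nonneg_left (add_le_add z1 k2') (norm_nonneg k)
    refine z2.trans ?_
    have e : ‖k‖ * (32 / jb x ^ 2 * (√A * √(dir Y + nsq Y)) +
        60 * K / jb x ^ 2 * √A * (4 * √(dir Y + nsq Y))) = 32 * T + 240 * (K * T) := by
      rw [hT]
      ring
    rw [e]
    linarith

end

end Crest.Agent.R335
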