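import Crest.Agent.R335.MB5
import Crest.Agent.R335.MB3a

/-! Row 335, module MB: the equation of the difference quotient. -/

set_option autoImplicit false
set_option linter.unusedSectionVars false

open MeasureTheory Set Filter Topology Metric
open scoped Gradient ContDiff RealInnerProductSpace ENNReal

namespace Crest.Agent.R335

noncomputable section

theorem MB13_opB (d : ℝ) (k : E) : OpB 16 fun x : E => vx d (x + k) := by
  have h1 := (opB_coul (d • ez - k)).smul (l := -1) (by norm_num)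
  have h2 := (opB_coul (-(d • ez) - k)).smul (l := -1) (by norm_num)
  have h3 := h1.add h2
  have e : (fun x : E => vx d (x + k)) =
      fun x => -1 * (1 / ‖x - (d • ez - k)‖) + -1 * (1 / ‖x - (-(d • ez) - k)‖) := by
    funext x
    have e1 : x - (d • ez - k) = x + k - d • ez := by abel
    have e2 : x - (-(d • ez) - k) = x + k + d • ez := by abel
    rw [e1, e2, vx]
    ring
  rw [e]
  exact h3.mono (by norm_num)

theorem MB13_inv {a b : E} (ha : 1 / 40 ≤ ‖a‖) (hb : 1 / 40 ≤ ‖b‖) :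
    |1 / ‖a‖ - 1 / ‖b‖| ≤ 1600 * ‖a - b‖ := by
  have ha0 : 0 < ‖a‖ := by linarith
  have hb0 : 0 < ‖b‖ := by linarith
  have e : 1 / ‖a‖ - 1 / ‖b‖ = (‖b‖ - ‖a‖) / (‖a‖ * ‖b‖) := by field_simp
  rw [e, abs_div, abs_of_pos (mul_pos ha0 hb0), div_le_iff₀ (mul_pos ha0 hb0)]
  have h1 : |‖b‖ - ‖a‖| ≤ ‖a - b‖ := by
    rw [abs_sub_comm]; exact abs_norm_sub_norm_le a b
  have h2 : 1 ≤ 1600 * (‖a‖ * ‖b‖) := by nlinarith
  nlinarith [norm_nonneg (a - b)]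

theorem MB13_far {x₀ x c : E} (h : 1 / 8 ≤ ‖x₀ - c‖) (hx : x ∈ ball x₀ (1 / 10)) :
    1 / 40 ≤ ‖x - c‖ := by
  have h1 : ‖x₀ - c‖ ≤ ‖x - c‖ + ‖x₀ - x‖ := by
    have : x₀ - c = (x - c) + (x₀ - x) := by abel
    rw [this]; exact norm_add_le _ _
  have h2 : ‖x₀ - x‖ < 1 / 10 := by
    rw [norm_sub_rev]; exact mem_ball_iff_norm.1 hx
  linarith

theorem MB13_v {d : ℝ} {x₀ : E} (h1 : 1 / 8 ≤ ‖x₀ - d • ez‖) (h2 : 1 / 8 ≤ ‖x₀ + d • ez‖) {x x' : E}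
    (hx : x ∈ ball x₀ (1 / 10)) (hx' : x' ∈ ball x₀ (1 / 10)) :
    |vx d x| ≤ 80 ∧ |vx d x - vx d x'| ≤ 3200 * ‖x - x'‖ := by
  have h2' : 1 / 8 ≤ ‖x₀ - -(d • ez)‖ := by rwa [sub_neg_eq_add]
  have a1 := MB13_far h1 hx
  have a2 := MB13_far h2' hx
  have b1 := MB13_far h1 hx'
  have b2 := MB13_far h2' hx'
  rw [sub_neg_eq_add] at a2 b2
  constructor
  · have c1 : 1 / ‖x - d • ez‖ ≤ 40 := by
      rw [div_le_iff₀ (by linarith)]; linarith
    have c2 : 1 / ‖x + d • ez‖ ≤ 40 := by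
      rw [div_le_iff₀ (by linarith)]; linarith
    have c3 : 0 ≤ 1 / ‖x - d • ez‖ := by positivity
    have c4 : 0 ≤ 1 / ‖x + d • ez‖ := by positivity
    rw [vx, abs_le]
    constructor <;> linarith
  · have c1 := MB13_inv a1 b1
    have c2 := MB13_inv a2 b2
    rw [sub_sub_sub_cancel_right] at c1
    rw [add_sub_add_right_eq_sub] at c2
    rw [vx, vx, abs_le]
    rw [abs_le] at c1 c2
    constructor <;> linarith [c1.1, c1.2, c2.1, c2.2]

theorem MB13_cs {u w : E6 → ℝ} (hu : MemLp u 2 volume) (hw : MemLp w 2 volume) :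
    |∫ y, u y * w y| ≤ √(nsq u) * √(nsq w) := by
  rw [← Real.sqrt_mul (S11_nsq_nonneg u)]
  exact Real.abs_le_sqrt (S11_cs hu hw)

theorem MB13_am {s t a b : ℝ} (ha : 0 ≤ a) (hb : 0 ≤ b) (ht : 0 < t) :
    s * √a * √b ≤ t * b + s ^ 2 / (4 * t) * a := by
  have e1 := Real.sq_sqrt ha
  have e2 := Real.sq_sqrt hb
  have h : 0 ≤ (2 * t * √b - s * √a) ^ 2 / (4 * t) := by positivity
  have e : (2 * t * √b - s * √a) ^ 2 / (4 * t) =
      t * √b ^ 2 + s ^ 2 / (4 * t) * √a ^ 2 - s * √a * √b := by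
    field_simp
    ring
  rw [e, e1, e2] at h
  linarith

/-- the estimate on one slice -/
theorem MB13_slice {Φ P Y : E6 → ℝ} {x k : E} {l δ f f' w w' K M J : ℝ} (hΦ : H1 Φ) (hP : H1 P)
    (hY : H1 Y) (hk : k ≠ 0) (hl0 : 0 ≤ l) (hl1 : l ≤ 1) (hK : 0 ≤ K) (hM : 0 ≤ M)
    (horth : ip Φ Y = 0) (hδ : |δ| ≤ 3200 * ‖k‖)
    (h1 : MemLp (fun y => (Wx (x + k) y - 2 / jb (x + k)) * Φ y) 2 volume)
    (h2 : √(nsq fun y => (Wx (x + k) y - 2 / jb (x + k)) * Φ y) ≤ K / jb (x + k) ^ 2)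
    (h3 : |∫ y, (Wx (x + k) y - Wx x y) * Φ y * Y y| ≤ K * ‖k‖ / jb x ^ 2 * √(dir Y + nsq Y))
    (hJ1 : J ≤ 2 * jb x) (hJ2 : J ≤ 2 * jb (x + k)) (hJ : 0 ≤ J)
    (hf : l * |f| ≤ M * J ^ 2) (hf' : l * |f' - f| ≤ M * J ^ 2 * ‖k‖) :
    ∫ y, (δ * P y + (-(l * (Wx (x + k) y * (P y + ‖k‖ * Y y + f' * Φ y))) + l * (w' * Φ y)) -
        (-(l * (Wx x y * (P y + f * Φ y))) + l * (w * Φ y))) / ‖k‖ * Y y ≤
      (1 / 4) * dir Y + (1601 + 2 * K) * nsq Y + 1728 * nsq P + 128 * dir P +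
        (2 * K + 32 * K ^ 2) * M ^ 2 := by
  have k0 : 0 < ‖k‖ := norm_pos_iff.2 hk
  have i1 := S11_int_mul hP.l2 hY.l2
  have i2 := S11_int_mul ((opB_Wx (x + k)).bd Y hY).1 hY.l2
  have m3 : ∀ {Z : E6 → ℝ}, H1 Z → MemLp (fun y => (Wx (x + k) y - Wx x y) * Z y) 2 volume := by
    intro Z hZ
    have := ((opB_Wx (x + k)).bd Z hZ).1.sub ((opB_Wx x).bd Z hZ).1
    refine (memLp_congr_ae (Eventually.of_forall fun y => ?_)).1 this
    simp only [Pi.sub_apply]; ring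
  have i3 := S11_int_mul (m3 hP) hY.l2
  have i4 := S11_int_mul h1 hY.l2
  have i5 := S11_int_mul (m3 hΦ) hY.l2
  have i6 := S11_int_mul hΦ.l2 hY.l2
  have e : ∀ y, (δ * P y + (-(l * (Wx (x + k) y * (P y + ‖k‖ * Y y + f' * Φ y))) + l * (w' * Φ y)) -
        (-(l * (Wx x y * (P y + f * Φ y))) + l * (w * Φ y))) / ‖k‖ * Y y =
      (δ / ‖k‖ * (P y * Y y) + -l * (Wx (x + k) y * Y y * Y y) +
        -(l / ‖k‖) * ((Wx (x + k) y - Wx x y) * P y * Y y)) +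
      (-(l * (f' - f) / ‖k‖) * ((Wx (x + k) y - 2 / jb (x + k)) * Φ y * Y y) +
        -(l * f / ‖k‖) * ((Wx (x + k) y - Wx x y) * Φ y * Y y) +
        (l * (w' - w - (f' - f) * (2 / jb (x + k))) / ‖k‖) * (Φ y * Y y)) := by
    intro y
    field_simp
    ring
  simp only [e]
  have int3 : ∀ {f g h : E6 → ℝ}, Integrable f → Integrable g → Integrable h → ∀ a b c : ℝ,
      Integrable fun y => a * f y + b * g y + c * h y := fun hf hg hh a b c =>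
    ((hf.const_mul a).add (hg.const_mul b)).add (hh.const_mul c)
  rw [integral_add (int3 i1 i2 i3 _ _ _) (int3 i4 i5 i6 _ _ _), S11_int3 i1 i2 i3,
    S11_int3 i4 i5 i6]
  have o6 : ∫ y, Φ y * Y y = 0 := horth
  have nP := S11_nsq_nonneg P
  have nY := S11_nsq_nonneg Y
  have dP := S11_dir_nonneg P
  have dY := S11_dir_nonneg Y
  have j1 := MB_one_le_jb x
  have j2 := MB_one_le_jb (x + k)
  -- term 1
  have t1 : δ / ‖k‖ * ∫ y, P y * Y y ≤ 1600 * nsq Y + 1600 * nsq P := by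
    have a1 : |δ / ‖k‖| ≤ 3200 := by
      rw [abs_div, abs_of_pos k0, div_le_iff₀ k0]; exact hδ
    have a2 := MB13_cs hP.l2 hY.l2
    have a3 := MB13_am (s := 3200) (t := 1600) nP nY (by norm_num)
    calc δ / ‖k‖ * ∫ y, P y * Y y ≤ |δ / ‖k‖ * ∫ y, P y * Y y| := le_abs_self _
      _ = |δ / ‖k‖| * |∫ y, P y * Y y| := abs_mul _ _
      _ ≤ 3200 * (√(nsq P) * √(nsq Y)) := mul_le_mul a1 a2 (abs_nonneg _) (by norm_num)
      _ ≤ _ := by norm_num at a3 ⊢; linarith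
  have t2 : -l * ∫ y, Wx (x + k) y * Y y * Y y ≤ 0 := by
    have : 0 ≤ ∫ y, Wx (x + k) y * Y y * Y y := integral_nonneg fun y => by
      have := Wx_nonneg (x + k) y
      simp only [Pi.zero_apply]
      rw [mul_assoc]
      exact mul_nonneg this (mul_self_nonneg _)
    nlinarith
  have t3 : -(l / ‖k‖) * ∫ y, (Wx (x + k) y - Wx x y) * P y * Y y ≤
      (1 / 8) * (dir Y + nsq Y) + 128 * (dir P + nsq P) := by
    have a2 := dW_le hP hY x k
    have a3 := MB13_am (s := 8) (t := 1 / 8) (add_nonneg dP nP) (add_nonneg dY nY) (by norm_num)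
    have a1 : |-(l / ‖k‖)| ≤ 1 / ‖k‖ := by
      rw [abs_neg, abs_of_nonneg (by positivity)]
      exact div_le_div_of_nonneg_right hl1 k0.le
    calc _ ≤ |-(l / ‖k‖) * ∫ y, (Wx (x + k) y - Wx x y) * P y * Y y| := le_abs_self _
      _ = |-(l / ‖k‖)| * |∫ y, (Wx (x + k) y - Wx x y) * P y * Y y| := abs_mul _ _
      _ ≤ 1 / ‖k‖ * (8 * ‖k‖ * √(dir P + nsq P) * √(dir Y + nsq Y)) :=
          mul_le_mul a1 a2 (abs_nonneg _) (by positivity)
      _ = 8 * √(dir P + nsq P) * √(dir Y + nsq Y) := by field_simp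
      _ ≤ _ := by norm_num at a3 ⊢; linarith
  have t4 : -(l * (f' - f) / ‖k‖) * ∫ y, (Wx (x + k) y - 2 / jb (x + k)) * Φ y * Y y ≤
      2 * K * nsq Y + 2 * K * M ^ 2 := by
    have a1 : |-(l * (f' - f) / ‖k‖)| ≤ M * (2 * jb (x + k)) ^ 2 := by
      rw [abs_neg, abs_div, abs_of_pos k0, div_le_iff₀ k0, abs_mul, abs_of_nonneg hl0]
      refine hf'.trans (mul_le_mul_of_nonneg_right (mul_le_mul_of_nonneg_left ?_ hM) k0.le)
      exact pow_le_pow_left₀ hJ hJ2 2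
    have a2 := (MB13_cs h1 hY.l2).trans (mul_le_mul_of_nonneg_right h2 (Real.sqrt_nonneg _))
    have a3 : 2 * M * √(nsq Y) ≤ nsq Y + M ^ 2 := by
      nlinarith [sq_nonneg (√(nsq Y) - M), Real.sq_sqrt nY]
    calc _ ≤ |-(l * (f' - f) / ‖k‖) * ∫ y, (Wx (x + k) y - 2 / jb (x + k)) * Φ y * Y y| :=
          le_abs_self _
      _ = |-(l * (f' - f) / ‖k‖)| * |∫ y, (Wx (x + k) y - 2 / jb (x + k)) * Φ y * Y y| :=
          abs_mul _ _
      _ ≤ M * (2 * jb (x + k)) ^ 2 * (K / jb (x + k) ^ 2 * √(nsq Y)) :=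
          mul_le_mul a1 a2 (abs_nonneg _) (by positivity)
      _ = 2 * K * (2 * M * √(nsq Y)) := by field_simp
      _ ≤ 2 * K * (nsq Y + M ^ 2) := mul_le_mul_of_nonneg_left a3 (by positivity)
      _ = _ := by ring
  have t5 : -(l * f / ‖k‖) * ∫ y, (Wx (x + k) y - Wx x y) * Φ y * Y y ≤
      (1 / 8) * (dir Y + nsq Y) + 32 * K ^ 2 * M ^ 2 := by
    have a1 : |-(l * f / ‖k‖)| ≤ M * (2 * jb x) ^ 2 / ‖k‖ := by
      rw [abs_neg, abs_div, abs_of_pos k0, abs_mul, abs_of_nonneg hl0]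
      refine div_le_div_of_nonneg_right (hf.trans (mul_le_mul_of_nonneg_left ?_ hM)) k0.le
      exact pow_le_pow_left₀ hJ hJ1 2
    have a3 : 4 * K * M * √(dir Y + nsq Y) ≤ (1 / 8) * (dir Y + nsq Y) + 32 * K ^ 2 * M ^ 2 := by
      nlinarith [sq_nonneg (√(dir Y + nsq Y) - 16 * K * M), Real.sq_sqrt (add_nonneg dY nY)]
    calc _ ≤ |-(l * f / ‖k‖) * ∫ y, (Wx (x + k) y - Wx x y) * Φ y * Y y| := le_abs_self _
      _ = |-(l * f / ‖k‖)| * |∫ y, (Wx (x + k) y - Wx x y) * Φ y * Y y| := abs_mul _ _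
      _ ≤ M * (2 * jb x) ^ 2 / ‖k‖ * (K * ‖k‖ / jb x ^ 2 * √(dir Y + nsq Y)) :=
          mul_le_mul a1 h3 (abs_nonneg _) (by positivity)
      _ = 4 * K * M * √(dir Y + nsq Y) := by field_simp; ring
      _ ≤ _ := a3
  rw [o6, mul_zero, add_zero]
  linarith

/-- the source of the equation of `Yq` -/
def Dat.BY (a : Dat) (k : E) (i : Fin 2) (p : E9) : ℝ :=
  ((a.o.v p.fst - a.o.v (p.fst + k)) * a.Fp i p + a.Bp i (p + pt k 0) - a.Bp i p) / ‖k‖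

theorem MB13_fst (p : E9) (k : E) : (p + pt k 0).fst = p.fst + k := rfl
theorem MB13_snd (p : E9) (k : E) : (p + pt k 0).snd = p.snd := add_zero _

theorem MB13_sol {a : Dat} (h : a.OK) {k : E} (hk : k ≠ 0) (i : Fin 2) :
    Sol (a.Yq k i) (a.rhs (fun x => a.V (x + k)) (a.Yq k i) (a.BY k i)) ∧
      MemLp (a.BY k i) 2 volume := by
  have k0 : ‖k‖ ≠ 0 := norm_ne_zero_iff.2 hk
  obtain ⟨s1, s2⟩ := h.sol_Fp i
  constructor
  · refine ((MB_sol_shift s1 (pt k 0)).lin s1 (1 / ‖k‖) (-(1 / ‖k‖))).congr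
      (Eventually.of_forall fun p => ?_) (Eventually.of_forall fun p => ?_)
    · simp only [Dat.Yq]; ring
    · simp only [Dat.rhs, Dat.Yq, Dat.BY, MB13_fst, MB13_snd, Dat.V]
      ring
  · have m1 := ((opB_vx a.o.d).fst (W := E6).bd _ s1.h1).1
    have m2 := ((MB13_opB a.o.d k).fst (W := E6).bd _ s1.h1).1
    have m3 : MemLp (fun p => a.Bp i (p + pt k 0)) 2 volume :=
      s2.comp_measurePreserving (measurePreserving_add_right volume (pt k 0))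
    have := (((m1.sub m2).add m3).sub s2).const_mul (1 / ‖k‖)
    refine (memLp_congr_ae (Eventually.of_forall fun p => ?_)).1 this
    simp only [Pi.sub_apply, Pi.add_apply, Dat.BY, OD.v]
    ring

theorem MB13_fv {a : Dat} {x₀ : E} {M : ℝ} (h : a.LipH x₀ M) (i : Fin 2) {y y' : E}
    (hy : y ∈ ball x₀ (1 / 10)) (hy' : y' ∈ ball x₀ (1 / 10)) :
    a.l * |a.fv i y| ≤ M * jb x₀ ^ 2 ∧ a.l * |a.fv i y' - a.fv i y| ≤ M * jb x₀ ^ 2 * ‖y' - y‖ := by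
  have hM := h.2.2.1
  fin_cases i
  · exact ⟨(h.2.2.2.2 y hy).1, (h.2.2.2.2 y' hy').2 y hy⟩
  · constructor
    · change a.l * |(0 : ℝ)| ≤ _
      rw [abs_zero, mul_zero]; positivity
    · change a.l * |(0 : ℝ) - 0| ≤ _
      rw [sub_zero, abs_zero, mul_zero]; positivity

/-- `Yq = (Fp(· + k) - Fp)/‖k‖` solves `rhs (V(· + k)) Yq B'` (`MB_sol_shift`, `Sol.lin`) with
`‖k‖ B' = (v(x) - v(x+k)) Fp + Bp(· + k) - Bp`. -/
theorem Yq_sol : Un fun C a => ∀ (x₀ : E) (M : ℝ), a.LipH x₀ M → ∀ k : E, k ≠ 0 → ‖k‖ ≤ 1 / 100 →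
    ∃ A : Fin 2 → E9 → ℝ, (∀ i, Sol (a.Yq k i) (A i)) ∧ ∀ᵐ x, x ∈ ball x₀ (1 / 20) →
      srem (a.Yq k) A x ≤ C * (snorm (a.Yq k) x ^ 2 + M ^ 2 + sdir a.Fp x) := by
  obtain ⟨K1, hK1, H1'⟩ := Dec_W_sub
  obtain ⟨K2, hK2, H2⟩ := Dec_dW
  refine Un.of (fun _ c => 3000 + c + 4 * ((K1 + K2) * √c) + 64 * ((K1 + K2) * √c) ^ 2) ?_
  intro C a h _ _ hC x₀ M hL k hk hk1
  obtain ⟨K, hK⟩ : ∃ K, K = (K1 + K2) * √a.c := ⟨_, rfl⟩
  rw [← hK] at hC
  have k0 : 0 < ‖k‖ := norm_pos_iff.2 hk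
  have hK0 : 0 ≤ K := by rw [hK]; positivity
  have hl := h.mb.l0
  refine ⟨_, fun i => (MB13_sol h hk i).1, ?_⟩
  have e1 := a.srem_eq hl.1.le hl.2 (fun x => a.V (x + k)) (fun i => (MB13_sol h hk i).1.h1)
    fun i => (MB13_sol h hk i).2
  have e2 := a.srem_eq hl.1.le hl.2 a.V (fun i => (h.sol_Fp i).1.h1) fun i => (h.sol_Fp i).2
  have qm := (measurePreserving_add_right (volume : Measure E) k).quasiMeasurePreserving
  filter_upwards [e1, e2, qm.ae e2, h.orth, qm.ae h.orth, hL.2.2.2.1] with x x1 x2 x3 o1 o2 hg hx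
  have hx0 : ‖x - x₀‖ < 1 / 20 := mem_ball_iff_norm.1 hx
  have hx1 : x ∈ ball x₀ (1 / 10) := mem_ball_iff_norm.2 (by linarith)
  have hx0' : ‖x + k - x₀‖ < 1 / 10 := by
    have : x + k - x₀ = (x - x₀) + k := by abel
    rw [this]
    linarith [norm_add_le (x - x₀) k]
  have hx2 : x + k ∈ ball x₀ (1 / 10) := mem_ball_iff_norm.2 hx0'
  obtain ⟨v1, -⟩ := MB13_v hL.1 hL.2.1 hx2 hx1
  obtain ⟨-, v2⟩ := MB13_v hL.1 hL.2.1 hx1 hx2
  have v3 : ‖x - (x + k)‖ = ‖k‖ := by rw [sub_add_cancel_left, norm_neg]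
  rw [v3] at v2
  have hM := hL.2.2.1
  have est : ∀ i, ∫ y, a.BY k i (pt x y) * a.Yq k i (pt x y) ≤
      (1 / 4) * dir (fun y => a.Yq k i (pt x y)) + (1601 + 2 * K) * nsq (fun y => a.Yq k i (pt x y)) +
        1728 * nsq (fun y => a.Fp i (pt x y)) + 128 * dir (fun y => a.Fp i (pt x y)) +
        (2 * K + 32 * K ^ 2) * M ^ 2 := by
    intro i
    have hY := (x1.1 i).1
    have hP := (x2.1 i).1
    have hP' := (x3.1 i).1
    have eY : ∀ y, a.Yq k i (pt x y) =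
        1 / ‖k‖ * a.Fp i (pt (x + k) y) + -(1 / ‖k‖) * a.Fp i (pt x y) := by
      intro y
      simp only [Dat.Yq, pt_add_pt]
      ring
    have ho : ip a.Φ (fun y => a.Yq k i (pt x y)) = 0 := by
      simp only [eY]
      rw [S11_ip_lc h.mb.sΦ.h1.l2 hP'.l2 hP.l2, o1 i, o2 i]
      ring
    obtain ⟨f1, f2⟩ := MB13_fv hL i hx1 hx2
    rw [add_sub_cancel_left] at f2
    have w1 := H1' a.Φ a.c h.decΦ (x + k)
    have w2 := H2 a.Φ a.c h.decΦ _ hY x k (by linarith)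
    have s1 : 0 ≤ √a.c := Real.sqrt_nonneg _
    have key := MB13_slice (x := x) (k := k) (l := a.l) (δ := a.o.v x - a.o.v (x + k))
      (f := a.fv i x) (f' := a.fv i (x + k)) (w := a.WF i x) (w' := a.WF i (x + k)) (K := K) (M := M)
      (J := jb x₀) h.mb.sΦ.h1 hP hY hk hl.1.le hl.2 hK0 hM.le ho v2 w1.1
      (w1.2.trans (div_le_div_of_nonneg_right (by rw [hK]; nlinarith) (sq_nonneg _)))
      (w2.trans (mul_le_mul_of_nonneg_right (div_le_div_of_nonneg_right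
        (mul_le_mul_of_nonneg_right (by rw [hK]; nlinarith) k0.le) (sq_nonneg _))
        (Real.sqrt_nonneg _)))
      (MB_jb_near (by rw [norm_sub_rev]; linarith)) (MB_jb_near (by rw [norm_sub_rev]; linarith))
      (zero_le_one.trans (MB_one_le_jb _)) f1 f2
    refine le_of_eq_of_le (integral_congr_ae (Eventually.of_forall fun y => ?_)) key
    have q0 : ∀ x, a.F i (pt x y) = a.Fp i (pt x y) + a.fv i x * a.Φ y := fun x =>
      (sub_add_cancel _ _).symm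
    have q1 := q0 x
    have q2 : a.F i (pt (x + k) y) =
        a.Fp i (pt x y) + ‖k‖ * a.Yq k i (pt x y) + a.fv i (x + k) * a.Φ y := by
      rw [eY, q0 (x + k)]
      field_simp
      ring
    have q3 : a.BY k i (pt x y) = ((a.o.v x - a.o.v (x + k)) * a.Fp i (pt x y) +
        (-(a.l * (Wx (x + k) y * a.F i (pt (x + k) y))) + a.l * (a.WF i (x + k) * a.Φ y)) -
        (-(a.l * (Wx x y * a.F i (pt x y))) + a.l * (a.WF i x * a.Φ y))) / ‖k‖ := by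
      simp only [Dat.BY, pt_add_pt]
      rfl
    dsimp only
    rw [q3, q2, q1]
  have c1 := a.Q2_coer hl.1.le hl.2 fun i => (x1.1 i).1
  have g1 : snorm a.Fp x ^ 2 ≤ M ^ 2 := pow_le_pow_left₀ (snorm_nonneg _ _) (hg hx1) 2
  have n1 := snorm_sq (a.Yq k) x
  have n2 := snorm_sq a.Fp x
  have hV : a.V (x + k) ≤ 82 + a.c := by
    have := (abs_le.1 h.abs_E.2).2
    have := (abs_le.1 v1).1
    simp only [Dat.V, OD.v]
    linarith
  have hY0 : 0 ≤ snorm (a.Yq k) x ^ 2 := sq_nonneg _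
  have hV' := mul_le_mul_of_nonneg_right hV hY0
  have d0 := sdir_nonneg a.Fp x
  have sumest : ∑ i, ∫ y, a.BY k i (pt x y) * a.Yq k i (pt x y) ≤
      (1 / 4) * sdir (a.Yq k) x + (1601 + 2 * K) * snorm (a.Yq k) x ^ 2 +
        1728 * snorm a.Fp x ^ 2 + 128 * sdir a.Fp x + 2 * ((2 * K + 32 * K ^ 2) * M ^ 2) := by
    rw [n1, n2]
    simp only [sdir, Fin.sum_univ_two]
    linarith [est 0, est 1]
  rw [x1.2]
  have hc0 : 0 ≤ a.c := zero_le_one.trans h.hc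
  have b1 : (2084 + a.c + 2 * K) * snorm (a.Yq k) x ^ 2 ≤ C * snorm (a.Yq k) x ^ 2 :=
    mul_le_mul_of_nonneg_right (by nlinarith) hY0
  have b2 : (1728 + 4 * K + 64 * K ^ 2) * M ^ 2 ≤ C * M ^ 2 :=
    mul_le_mul_of_nonneg_right (by nlinarith) (sq_nonneg _)
  have b3 : 128 * sdir a.Fp x ≤ C * sdir a.Fp x :=
    mul_le_mul_of_nonneg_right (by nlinarith) d0
  linarith

end

end Crest.Agent.R335
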