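import Crest.Agent.R335.MB1

/-! Row 335, module MB: Hardy bounds, slice algebra, the slice energy. -/

set_option autoImplicit false
set_option linter.unusedSectionVars false

open MeasureTheory Set Filter Topology Metric
open scoped Gradient ContDiff RealInnerProductSpace ENNReal

namespace Crest.Agent.R335

noncomputable section

theorem opB_c1 (x : E) : OpB 4 fun y : E6 => 1 / ‖x - y.fst‖ := by
  simpa only [norm_sub_rev x] using (opB_coul x).fst (W := E)
theorem opB_c2 (x : E) : OpB 4 fun y : E6 => 1 / ‖x - y.snd‖ := by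
  simpa only [norm_sub_rev x] using (opB_coul x).snd (V := E)
theorem opB_Wx (x : E) : OpB 16 (Wx x) :=
  ((opB_c1 x).add (opB_c2 x)).mono (by norm_num)
theorem opB_We (x : E) : OpB 64 (We x) := by
  have h := ((opB_Wx x).smul (l := 1 / 2) (by norm_num [abs_of_nonneg])).add
    ((opB_Wx (R x)).smul (l := 1 / 2) (by norm_num [abs_of_nonneg]))
  have e : We x = fun y => 1 / 2 * Wx x y + 1 / 2 * Wx (R x) y := by
    funext y
    simp only [We]
    ring
  rw [e]
  exact h.mono (by norm_num)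
theorem opB_Wo (x : E) : OpB 64 (Wo x) := by
  have h := ((opB_Wx x).smul (l := 1 / 2) (by norm_num [abs_of_nonneg])).add
    ((opB_Wx (R x)).smul (l := -(1 / 2)) (by norm_num [abs_of_nonneg]))
  have e : Wo x = fun y => 1 / 2 * Wx x y + -(1 / 2) * Wx (R x) y := by
    funext y
    simp only [Wo]
    ring
  rw [e]
  exact h.mono (by norm_num)
theorem MB2_meas {T : E → E} (hT : Measurable T) : Measurable fun p : E9 => Wx (T p.fst) p.snd := by
  unfold Wx
  fun_prop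
theorem opB_W9 {T : E → E} (hT : Measurable T) : OpB 16 fun p : E9 => Wx (T p.fst) p.snd :=
  opB_of_snd (by norm_num) (MB2_meas hT).aestronglyMeasurable fun x => opB_Wx (T x)
theorem opB_We9 : OpB 64 fun p : E9 => We p.fst p.snd :=
  opB_of_snd (by norm_num) (((MB2_meas measurable_id).add
    (MB2_meas S07.cont_R.measurable)).div_const 2).aestronglyMeasurable fun x => opB_We x
theorem opB_Wo9 : OpB 64 fun p : E9 => Wo p.fst p.snd :=
  opB_of_snd (by norm_num) (((MB2_meas measurable_id).sub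
    (MB2_meas S07.cont_R.measurable)).div_const 2).aestronglyMeasurable fun x => opB_Wo x
theorem MB2_cut (ρ : ℝ) : ∃ χ : E6 → ℝ, ContDiff ℝ 1 χ ∧ (∀ y, |χ y| ≤ 1) ∧ (∀ y, ‖∇ χ y‖ ≤ 4) ∧
    (∀ y, ρ ≤ ‖y‖ → χ y = 1) ∧ ∀ y, ‖y‖ < ρ - 1 → χ y = 0 ∧ ∇ χ y = 0 := by
  rcases le_or_gt ρ 1 with h | h
  · refine ⟨fun _ => 1, contDiff_const, fun _ => by simp, fun y => by simp, fun _ _ => rfl,
      fun y hy => absurd hy (by linarith [norm_nonneg y])⟩
  obtain ⟨j, j1, -, j3, j4, j5, j6, -⟩ := exists_cutoff (0 : E6) (r := ρ - 1) (s := 1)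
    (by linarith) one_pos
  have c1 : ContDiff ℝ 1 j := j1.of_le (by simp)
  simp only [sub_zero] at j4 j5
  refine ⟨fun y => 1 - j y, contDiff_const.sub c1, fun y => ?_, fun y => ?_, fun y hy => ?_,
    fun y hy => ⟨by simp only [j4 y hy.le, sub_self], ?_⟩⟩
  · exact abs_le.2 ⟨by linarith [(j3 y).2], by linarith [(j3 y).1]⟩
  · have := j6 y
    rw [s05_norm_grad] at this ⊢
    rw [fderiv_const_sub, norm_neg]
    linarith
  · simp only [j5 y (by linarith), sub_zero]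
  · have e : (fun y => 1 - j y) =ᶠ[𝓝 y] fun _ => 0 := by
      filter_upwards [(isOpen_lt continuous_norm continuous_const).mem_nhds hy] with z hz
      rw [j4 z (le_of_lt hz), sub_self]
    rw [e.gradient_eq]
    exact gradient_fun_const y 0
theorem MB2_mset (ρ : ℝ) : MeasurableSet {y : E6 | ρ ≤ ‖y‖} :=
  (isClosed_le continuous_const continuous_norm).measurableSet
/-- Hardy for `χ P`, `χ` a cutoff equal to `1` on `ρ ≤ ‖y‖`, `0` on `‖y‖ ≤ ρ - 1` -/
theorem hardy_far {P : E6 → ℝ} (h : H1 P) (x : E) (ρ : ℝ) :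
    ∫ y in {y : E6 | ρ ≤ ‖y‖}, (Wx x y * P y) ^ 2 ≤
      1000 * ∫ y in {y : E6 | ρ - 1 ≤ ‖y‖}, (P y ^ 2 + ‖D P y‖ ^ 2) := by
  obtain ⟨χ, c1, c2, c3, c4, c5⟩ := MB2_cut ρ
  obtain ⟨h1, h2⟩ := h.mul_lip (bl_c1 c1).hl ⟨1, ae_of_all _ c2⟩ ⟨4, by
    filter_upwards [D_c1 c1] with y hy
    rw [hy, abs_norm]
    exact c3 y⟩
  obtain ⟨b1, b2⟩ := (opB_Wx x).bd _ h1
  have i0 : Integrable fun y => P y ^ 2 + ‖D P y‖ ^ 2 :=
    h.l2.integrable_sq.add (S11_int_normsq h.dl2)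
  have k1 : ∫ y in {y : E6 | ρ ≤ ‖y‖}, (Wx x y * P y) ^ 2 ≤ nsq fun y => Wx x y * (χ y * P y) := by
    refine le_trans (le_of_eq ?_) (setIntegral_le_integral (s := {y : E6 | ρ ≤ ‖y‖})
      b1.integrable_sq (ae_of_all _ fun y => sq_nonneg _))
    refine setIntegral_congr_fun (MB2_mset ρ) fun y hy => ?_
    simp only [c4 y hy, one_mul]
  have k2 : dir (fun y => χ y * P y) + nsq (fun y => χ y * P y) ≤
      33 * ∫ y in {y : E6 | ρ - 1 ≤ ‖y‖}, (P y ^ 2 + ‖D P y‖ ^ 2) := by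
    unfold dir nsq
    rw [← integral_add (S11_int_normsq h1.dl2) h1.l2.integrable_sq, ← integral_indicator (MB2_mset _),
      ← integral_const_mul]
    refine integral_mono_ae ((S11_int_normsq h1.dl2).add h1.l2.integrable_sq)
      ((i0.indicator (MB2_mset _)).const_mul _) ?_
    filter_upwards [h2, D_c1 c1] with y e1 e2
    rw [e1, e2]
    by_cases hy : ρ - 1 ≤ ‖y‖
    · rw [indicator_of_mem (show y ∈ {y : E6 | ρ - 1 ≤ ‖y‖} from hy)]
      have a1 : ‖χ y • D P y + P y • ∇ χ y‖ ≤ ‖D P y‖ + 4 * |P y| := by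
        refine (norm_add_le _ _).trans (add_le_add ?_ ?_)
        · rw [norm_smul]
          exact mul_le_of_le_one_left (norm_nonneg _) (c2 y)
        · rw [norm_smul, mul_comm]
          exact mul_le_mul_of_nonneg_right (c3 y) (norm_nonneg _)
      have a2 := pow_le_pow_left₀ (norm_nonneg _) a1 2
      have a3 : χ y ^ 2 ≤ 1 := by
        rw [← sq_abs]
        exact pow_le_one₀ (abs_nonneg _) (c2 y)
      have a4 : (χ y * P y) ^ 2 ≤ P y ^ 2 := by
        rw [mul_pow]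
        exact mul_le_of_le_one_left (sq_nonneg _) a3
      nlinarith [sq_abs (P y), sq_nonneg (‖D P y‖ - 4 * |P y|), sq_nonneg ‖D P y‖]
    · rw [indicator_of_notMem (show y ∉ {y : E6 | ρ - 1 ≤ ‖y‖} from hy),
        (c5 y (not_le.1 hy)).1, (c5 y (not_le.1 hy)).2]
      simp
  have k3 : 0 ≤ ∫ y in {y : E6 | ρ - 1 ≤ ‖y‖}, (P y ^ 2 + ‖D P y‖ ^ 2) :=
    integral_nonneg fun y => by positivity
  linarith
theorem Dec.nonneg {Φ : E6 → ℝ} {A : ℝ} (h : Dec Φ A) : 0 ≤ A :=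
  le_trans (integral_nonneg fun y => by positivity) h.2.2
theorem MB2_tail {Φ : E6 → ℝ} {A : ℝ} (h : Dec Φ A) (ρ : ℝ) :
    ∫ y in {y : E6 | ρ ≤ ‖y‖}, (Φ y ^ 2 + ‖D Φ y‖ ^ 2) ≤ A * Real.exp (-ρ) := by
  refine le_trans ?_ (mul_le_mul_of_nonneg_right h.2.2 (Real.exp_pos _).le)
  rw [← integral_mul_const]
  refine le_trans ?_ (setIntegral_le_integral (s := {y : E6 | ρ ≤ ‖y‖}) (h.2.1.mul_const _)
    (ae_of_all _ fun y => by positivity))
  refine setIntegral_mono_on (h.1.l2.integrable_sq.add (S11_int_normsq h.1.dl2)).integrableOn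
    (h.2.1.mul_const _).integrableOn (MB2_mset ρ) fun y hy => ?_
  rw [mul_right_comm, ← Real.exp_add]
  exact le_mul_of_one_le_left (by positivity) (Real.one_le_exp (by
    have : ρ ≤ ‖y‖ := hy
    linarith))
theorem Dec.h1_le {Φ : E6 → ℝ} {A : ℝ} (h : Dec Φ A) : dir Φ + nsq Φ ≤ A := by
  have k := MB2_tail h 0
  simp only [norm_nonneg, ofPred_true, Measure.restrict_univ, neg_zero, Real.exp_zero, mul_one] at k
  rw [integral_add h.1.l2.integrable_sq (S11_int_normsq h.1.dl2), add_comm] at k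
  exact k
theorem Dec.far {Φ : E6 → ℝ} {A : ℝ} (h : Dec Φ A) (x : E) (ρ : ℝ) :
    ∫ y in {y : E6 | ρ ≤ ‖y‖}, Φ y ^ 2 ≤ A * Real.exp (-ρ) ∧
      ∫ y in {y : E6 | ρ ≤ ‖y‖}, (Wx x y * Φ y) ^ 2 ≤ 3000 * A * Real.exp (-ρ) := by
  constructor
  · refine le_trans ?_ (MB2_tail h ρ)
    exact integral_mono h.1.l2.integrable_sq.integrableOn
      (h.1.l2.integrable_sq.add (S11_int_normsq h.1.dl2)).integrableOn
      fun y => le_add_of_nonneg_right (sq_nonneg _)
  · have k1 := hardy_far h.1 x ρ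
    have k2 := MB2_tail h (ρ - 1)
    rw [neg_sub, sub_eq_add_neg 1, Real.exp_add] at k2
    have k3 := Real.exp_one_lt_d9
    have k4 : 0 ≤ A * Real.exp (-ρ) := mul_nonneg h.nonneg (Real.exp_pos _).le
    nlinarith
theorem Q2_coer (d : ℝ) {l : ℝ} (h0 : 0 ≤ l) (h1 : l ≤ 1) {P : E6 → ℝ} (h : H1 P) :
    (1 / 4) * dir P - 401 * nsq P ≤ Q (U2 d l) P := by
  have k := (opB_U2 d h0 h1).coer h
  linarith [S11_nsq_nonneg P]

section slices

variable {ι : Type} [Fintype ι] {P B : ι → E9 → ℝ} {x : E}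

theorem snorm_nonneg (P : ι → E9 → ℝ) (x : E) : 0 ≤ snorm P x := Real.sqrt_nonneg _
theorem snorm_sq (P : ι → E9 → ℝ) (x : E) : snorm P x ^ 2 = ∑ i, nsq fun y => P i (pt x y) :=
  s13_snorm_sq P x
theorem snorm_comp_le (P : ι → E9 → ℝ) (x : E) (i : ι) :
    √(nsq fun y => P i (pt x y)) ≤ snorm P x :=
  Real.sqrt_le_sqrt (Finset.single_le_sum (f := fun i => nsq fun y => P i (pt x y))
    (fun _ _ => S11_nsq_nonneg _) (Finset.mem_univ i))
theorem snorm_mono (hB : ∀ i, MemLp (fun y => B i (pt x y)) 2 volume)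
    (h : ∀ i, ∀ᵐ y, |P i (pt x y)| ≤ |B i (pt x y)|) : snorm P x ≤ snorm B x := by
  refine Real.sqrt_le_sqrt (Finset.sum_le_sum fun i _ => ?_)
  refine integral_mono_of_nonneg (ae_of_all _ fun _ => sq_nonneg _) (hB i).integrable_sq ?_
  filter_upwards [h i] with y hy using sq_le_sq.2 hy
theorem MB2_lc (hP : ∀ i, MemLp (fun y => P i (pt x y)) 2 volume)
    (hB : ∀ i, MemLp (fun y => B i (pt x y)) 2 volume) (s t : ℝ) :
    snorm (fun i p => s * B i p + t * P i p) x ^ 2 = s ^ 2 * snorm B x ^ 2 +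
      2 * s * t * (∑ i, ∫ y, B i (pt x y) * P i (pt x y)) + t ^ 2 * snorm P x ^ 2 := by
  simp only [snorm_sq, Finset.mul_sum, ← Finset.sum_add_distrib]
  exact Finset.sum_congr rfl fun i _ => S11_nsq_lc (hB i) (hP i) s t
theorem snorm_cs (hP : ∀ i, MemLp (fun y => P i (pt x y)) 2 volume)
    (hB : ∀ i, MemLp (fun y => B i (pt x y)) 2 volume) :
    |∑ i, ∫ y, B i (pt x y) * P i (pt x y)| ≤ snorm B x * snorm P x := by
  have h := discrim_le_zero (a := snorm B x ^ 2) (b := 2 * ∑ i, ∫ y, B i (pt x y) * P i (pt x y))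
    (c := snorm P x ^ 2) fun s => by
      have h1 := sq_nonneg (snorm (fun i p => s * B i p + 1 * P i p) x)
      rw [MB2_lc hP hB] at h1
      linarith
  rw [discrim] at h
  refine abs_le_of_sq_le_sq' ?_ (mul_nonneg (snorm_nonneg _ _) (snorm_nonneg _ _)) |> abs_le.2
  nlinarith
theorem snorm_add_le (hP : ∀ i, MemLp (fun y => P i (pt x y)) 2 volume)
    (hB : ∀ i, MemLp (fun y => B i (pt x y)) 2 volume) :
    snorm (fun i p => P i p + B i p) x ≤ snorm P x + snorm B x := by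
  have h1 := MB2_lc hB hP 1 1
  simp only [one_mul] at h1
  have h2 := (abs_le.1 (snorm_cs hB hP)).2
  refine (abs_le_of_sq_le_sq' ?_ (add_nonneg (snorm_nonneg _ _) (snorm_nonneg _ _))).2
  rw [h1]
  nlinarith
theorem snorm_sub_abs (hP : ∀ i, MemLp (fun y => P i (pt x y)) 2 volume)
    (hB : ∀ i, MemLp (fun y => B i (pt x y)) 2 volume) :
    |snorm P x - snorm B x| ≤ snorm (fun i p => P i p - B i p) x := by
  have h1 := MB2_lc hB hP 1 (-1)
  simp only [one_mul, neg_mul, ← sub_eq_add_neg] at h1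
  have h2 := (abs_le.1 (snorm_cs hB hP)).2
  refine abs_le.2 (abs_le_of_sq_le_sq' ?_ (snorm_nonneg _ _))
  rw [h1]
  nlinarith
theorem snorm_smul (t : ℝ) (P : ι → E9 → ℝ) (x : E) :
    snorm (fun i p => t * P i p) x = |t| * snorm P x := by
  unfold snorm
  simp only [mul_pow, integral_const_mul, ← Finset.mul_sum]
  rw [Real.sqrt_mul (sq_nonneg t), Real.sqrt_sq_eq_abs]
/-- Pythagoras for the parts odd and even under `R6` -/
theorem snorm_parity (hP : ∀ i, MemLp (fun y => P i (pt x y)) 2 volume) :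
    snorm P x ^ 2 = snorm (fun i p => (P i p - P i (Ry p)) / 2) x ^ 2 +
      snorm (fun i p => (P i p + P i (Ry p)) / 2) x ^ 2 := by
  have hB : ∀ i, MemLp (fun y => P i (Ry (pt x y))) 2 volume := fun i =>
    memLp_R6 (u := fun y => P i (pt x y)) (hP i)
  have h1 := MB2_lc (B := P) (P := fun i p => P i (Ry p)) hB hP (1 / 2) (-(1 / 2))
  have h2 := MB2_lc (B := P) (P := fun i p => P i (Ry p)) hB hP (1 / 2) (1 / 2)
  have h3 : snorm (fun i p => P i (Ry p)) x ^ 2 = snorm P x ^ 2 := by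
    simp only [snorm_sq]
    exact Finset.sum_congr rfl fun i _ => integral_R6 fun y => P i (pt x y) ^ 2
  have e1 : (fun i p => (P i p - P i (Ry p)) / 2) =
      fun i p => 1 / 2 * P i p + -(1 / 2) * P i (Ry p) := by
    funext i p
    ring
  have e2 : (fun i p => (P i p + P i (Ry p)) / 2) =
      fun i p => 1 / 2 * P i p + 1 / 2 * P i (Ry p) := by
    funext i p
    ring
  rw [e1, e2, h1, h2, h3]
  ring
theorem snorm_l2 (hB : ∀ i, MemLp (B i) 2 volume) :
    MemLp (snorm B) 2 volume ∧ nsq (snorm B) = ∑ i, nsq (B i) := by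
  have i1 : Integrable fun x => ∑ i, nsq fun y => B i (pt x y) :=
    integrable_finsetSum _ fun i _ => (nsq_slice_snd (hB i)).1
  have m : AEStronglyMeasurable (snorm B) volume :=
    Real.continuous_sqrt.comp_aestronglyMeasurable i1.1
  refine ⟨(memLp_two_iff_integrable_sq m).2 (i1.congr (ae_of_all _ fun x => (snorm_sq B x).symm)), ?_⟩
  conv_lhs => unfold nsq
  simp only [snorm_sq]
  rw [integral_finsetSum _ fun i _ => (nsq_slice_snd (hB i)).1]
  exact Finset.sum_congr rfl fun i _ => (nsq_slice_snd (hB i)).2.symm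
theorem sdir_nonneg (P : ι → E9 → ℝ) (x : E) : 0 ≤ sdir P x :=
  Finset.sum_nonneg fun _ _ => S11_dir_nonneg _

/-- the slice energy of an equation with right-hand side `(V(x) - U₂(y)) P + B` -/
theorem Dat.srem_eq (a : Dat) (h0 : 0 ≤ a.l) (h1 : a.l ≤ 1) (V : E → ℝ) (hP : ∀ i, H1 (P i))
    (hB : ∀ i, MemLp (B i) 2 volume) :
    ∀ᵐ x, (∀ i, H1 (fun y => P i (pt x y)) ∧ MemLp (fun y => B i (pt x y)) 2 volume) ∧
      srem P (fun i => a.rhs V (P i) (B i)) x =
        V x * snorm P x ^ 2 - a.Q2 P x + ∑ i, ∫ y, B i (pt x y) * P i (pt x y) := by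
  filter_upwards [ae_all_iff.2 fun i => (hP i).slice_snd,
    ae_all_iff.2 fun i => memLp_slice_snd (hB i)] with x a1 a2
  refine ⟨fun i => ⟨(a1 i).1, a2 i⟩, ?_⟩
  rw [snorm_sq, Finset.mul_sum, Dat.Q2, ← Finset.sum_sub_distrib, ← Finset.sum_add_distrib]
  refine Finset.sum_congr rfl fun i _ => ?_
  have j1 := (a1 i).1.l2.integrable_sq.const_mul (V x)
  have j2 := (opB_U2 a.o.d h0 h1).int (a1 i).1
  have j3 := S11_int_mul (a2 i) (a1 i).1.l2
  have j4 := (S11_int_normsq (a1 i).1.dl2).const_mul (1 / 2)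
  have j5 : Integrable fun y => 1 / 2 * ‖D (fun y => P i (pt x y)) y‖ ^ 2 +
      U2 a.o.d a.l y * P i (pt x y) ^ 2 := j4.add j2
  have j6 : Integrable fun y => V x * P i (pt x y) ^ 2 -
      (1 / 2 * ‖D (fun y => P i (pt x y)) y‖ ^ 2 + U2 a.o.d a.l y * P i (pt x y) ^ 2) := j1.sub j5
  unfold Q nsq dir
  rw [← integral_const_mul, ← integral_const_mul, ← integral_add j4 j2, ← integral_sub j1 j5,
    ← integral_add j6 j3]
  refine integral_congr_ae ?_
  filter_upwards [(a1 i).2] with y hy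
  rw [hy]
  simp only [Dat.rhs, WithLp.toLp_fst, WithLp.toLp_snd]
  ring
theorem Dat.Q2_coer (a : Dat) (h0 : 0 ≤ a.l) (h1 : a.l ≤ 1) (hP : ∀ i, H1 fun y => P i (pt x y)) :
    (1 / 4) * sdir P x - 401 * snorm P x ^ 2 ≤ a.Q2 P x := by
  rw [snorm_sq, sdir, Finset.mul_sum, Finset.mul_sum, ← Finset.sum_sub_distrib]
  exact Finset.sum_le_sum fun i _ => R335.Q2_coer a.o.d h0 h1 (hP i)

end slices

theorem Dat.OK.BF_l2 {a : Dat} (h : a.OK) (i : Fin 2) : MemLp (a.BF i) 2 volume :=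
  (((opB_W9 measurable_id).bd _ (h.solF i).h1).1.const_mul a.l).neg

end

end Crest.Agent.R335
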