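import Crest.Agent.R335.MB2

/-! Row 335, module MB: the odd part of the repulsion. -/

set_option autoImplicit false
set_option linter.unusedSectionVars false

open MeasureTheory Set Filter Topology Metric
open scoped Gradient ContDiff RealInnerProductSpace ENNReal

namespace Crest.Agent.R335

noncomputable section

theorem MB3b_sq (x y : E) : ‖R x - y‖ ^ 2 - ‖x - y‖ ^ 2 = 4 * x 2 * y 2 := by
  rw [EuclideanSpace.norm_sq_eq, EuclideanSpace.norm_sq_eq]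
  simp only [Fin.sum_univ_three, PiLp.sub_apply, S07.R_two', S07.R_zero', S07.R_one',
    Real.norm_eq_abs, sq_abs]
  ring

theorem MB3b_one {x y : E} (hx : x ≠ 0) (h : ‖y‖ ≤ ‖x‖ / 2) :
    |1 / ‖x - y‖ - 1 / ‖R x - y‖| ≤ 16 * |x 2| * ‖y‖ / ‖x‖ ^ 3 := by
  have hr : 0 < ‖x‖ := norm_pos_iff.2 hx
  have ha : ‖x‖ / 2 ≤ ‖x - y‖ := by
    have := norm_sub_norm_le x y
    linarith
  have hb : ‖x‖ / 2 ≤ ‖R x - y‖ := by
    have := norm_sub_norm_le (R x) y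
    rw [norm_R] at this
    linarith
  have hy : |y 2| ≤ ‖y‖ := by simpa using PiLp.norm_apply_le y 2
  have e := MB3b_sq x y
  generalize ‖x - y‖ = a at ha e ⊢
  generalize ‖R x - y‖ = b at hb e ⊢
  have ha0 : 0 < a := by linarith
  have hb0 : 0 < b := by linarith
  have e2 : 1 / a - 1 / b = 4 * x 2 * y 2 / (a * b * (a + b)) := by
    rw [← e]
    field_simp
    ring
  have h3 : ‖x‖ ^ 3 / 4 ≤ a * b * (a + b) := by
    have : ‖x‖ / 2 * (‖x‖ / 2) * (‖x‖ / 2 + ‖x‖ / 2) ≤ a * b * (a + b) := by gcongr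
    nlinarith
  rw [e2, abs_div, abs_of_pos (by positivity : 0 < a * b * (a + b)), abs_mul, abs_mul,
    abs_of_pos (by norm_num : (0 : ℝ) < 4)]
  calc 4 * |x 2| * |y 2| / (a * b * (a + b)) ≤ 4 * |x 2| * ‖y‖ / (‖x‖ ^ 3 / 4) := by gcongr
    _ = 16 * |x 2| * ‖y‖ / ‖x‖ ^ 3 := by
      field_simp
      ring

theorem MB3b_sum (y : E6) : ‖y.fst‖ + ‖y.snd‖ ≤ √2 * ‖y‖ := by
  have h := WithLp.prod_norm_sq_eq_of_L2 y
  have h2 : √2 ^ 2 = 2 := Real.sq_sqrt (by norm_num)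
  refine le_of_sq_le_sq ?_ (by positivity)
  rw [mul_pow, h2, h]
  nlinarith [sq_nonneg (‖y.fst‖ - ‖y.snd‖)]

/-- `‖x - R y‖² - ‖x - y‖² = 4 x₂ y₂` -/
theorem Wo_near {x : E} {y : E6} (hx : x ≠ 0) (h : ‖y‖ ≤ ‖x‖ / 2) :
    |Wo x y| ≤ 8 * √2 * |x 2| * ‖y‖ / ‖x‖ ^ 3 := by
  have hr : 0 < ‖x‖ := norm_pos_iff.2 hx
  have h1 := MB3b_one hx ((WithLp.norm_fst_le _ y).trans h)
  have h2 := MB3b_one hx ((WithLp.norm_snd_le _ y).trans h)
  have e : Wo x y = ((1 / ‖x - y.fst‖ - 1 / ‖R x - y.fst‖) +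
      (1 / ‖x - y.snd‖ - 1 / ‖R x - y.snd‖)) / 2 := by
    unfold Wo Wx
    ring
  have h3 := abs_add_le (1 / ‖x - y.fst‖ - 1 / ‖R x - y.fst‖)
    (1 / ‖x - y.snd‖ - 1 / ‖R x - y.snd‖)
  rw [e, abs_div, abs_two]
  calc _ ≤ (16 * |x 2| * ‖y.fst‖ / ‖x‖ ^ 3 + 16 * |x 2| * ‖y.snd‖ / ‖x‖ ^ 3) / 2 := by linarith
    _ = 8 * |x 2| * (‖y.fst‖ + ‖y.snd‖) / ‖x‖ ^ 3 := by ring
    _ ≤ 8 * |x 2| * (√2 * ‖y‖) / ‖x‖ ^ 3 := by
      gcongr
      exact MB3b_sum y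
    _ = _ := by ring

theorem MB3b_sq_exp (t : ℝ) (ht : 0 ≤ t) : t ^ 2 ≤ 2 * Real.exp t := by
  have := Real.quadratic_le_exp_of_nonneg ht
  linarith

theorem MB3b_mom {Φ : E6 → ℝ} {A : ℝ} (h : Dec Φ A) :
    Integrable (fun y : E6 => ‖y‖ ^ 2 * Φ y ^ 2) ∧ ∫ y, ‖y‖ ^ 2 * Φ y ^ 2 ≤ 2 * A := by
  have hp : ∀ y : E6, ‖y‖ ^ 2 * Φ y ^ 2 ≤ 2 * (Real.exp ‖y‖ * (Φ y ^ 2 + ‖D Φ y‖ ^ 2)) := by
    intro y
    have h1 := MB3b_sq_exp ‖y‖ (norm_nonneg _)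
    have h2 : ‖y‖ ^ 2 * Φ y ^ 2 ≤ 2 * Real.exp ‖y‖ * (Φ y ^ 2 + ‖D Φ y‖ ^ 2) :=
      mul_le_mul h1 (by nlinarith [sq_nonneg ‖D Φ y‖]) (sq_nonneg _) (by positivity)
    linarith
  have hi : Integrable (fun y : E6 => ‖y‖ ^ 2 * Φ y ^ 2) := by
    refine (h.2.1.const_mul 2).mono' ?_ (Eventually.of_forall fun y => ?_)
    · exact (continuous_norm.pow 2).aestronglyMeasurable.mul (h.1.l2.1.pow 2)
    · rw [Real.norm_of_nonneg (by positivity)]
      exact hp y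
  refine ⟨hi, (integral_mono hi (h.2.1.const_mul 2) hp).trans ?_⟩
  rw [integral_const_mul]
  linarith [h.2.2]

theorem MB3b_meas (ρ : ℝ) : MeasurableSet {y : E6 | ρ ≤ ‖y‖} :=
  (isClosed_le continuous_const continuous_norm).measurableSet

theorem MB3b_sqrt_add {a b : ℝ} (ha : 0 ≤ a) (hb : 0 ≤ b) : √(a ^ 2 + b ^ 2) ≤ a + b := by
  rw [Real.sqrt_le_left (by positivity)]
  nlinarith [mul_nonneg ha hb]

theorem MB3b_jb3 {x : E} (hx : 4 ≤ ‖x‖) : 8 * √2 * jb x ^ 3 ≤ 14 * ‖x‖ ^ 3 := by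
  have h1 : jb x ≤ 33 / 32 * ‖x‖ := by
    refine le_of_sq_le_sq ?_ (by positivity)
    rw [MB_jb_sq]
    nlinarith
  have h0 : 0 ≤ jb x := zero_le_one.trans (MB_one_le_jb x)
  have h2 : √2 ≤ 3 / 2 := by
    rw [Real.sqrt_le_left (by norm_num)]
    norm_num
  have h3 : jb x ^ 3 ≤ (33 / 32 * ‖x‖) ^ 3 := by gcongr
  have h4 : 0 ≤ ‖x‖ ^ 3 := by positivity
  calc 8 * √2 * jb x ^ 3 ≤ 8 * (3 / 2) * (33 / 32 * ‖x‖) ^ 3 := by gcongr
    _ ≤ 14 * ‖x‖ ^ 3 := by nlinarith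

/-- for `‖x‖ ≥ 4` near region `Wo_near` (`jb³ ≤ 1.1 ‖x‖³`), far region `Dec.far` at `x` and `R x`;
for `‖x‖ ≤ 4` `opB_Wo` -/
theorem Dec_Wo_sharp : ∃ K : ℝ, 1 ≤ K ∧ ∀ (Φ : E6 → ℝ) (A m : ℝ), Dec Φ A → 0 ≤ m →
    ∫ y, ‖y‖ ^ 2 * Φ y ^ 2 ≤ m ^ 2 → ∀ x : E, √(nsq fun y => Wo x y * Φ y) ≤
      14 * m * |x 2| / jb x ^ 3 + K * √A * Real.exp (-(‖x‖ / 8)) := by
  refine ⟨60, by norm_num, fun Φ A m h hm hm2 x => ?_⟩
  have hA := h.nonneg
  have hj : 0 < jb x := one_pos.trans_le (MB_one_le_jb x)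
  have hsA : √A ^ 2 = A := Real.sq_sqrt hA
  rcases le_total ‖x‖ 4 with hx | hx
  · have h1 := ((opB_Wo x).bd Φ h.1).2
    have h2 := h.h1_le
    have h3 : √(nsq fun y => Wo x y * Φ y) ≤ 8 * √A := by
      rw [Real.sqrt_le_left (by positivity), mul_pow, hsA]
      linarith
    have h4 : 1 / 2 ≤ Real.exp (-(‖x‖ / 8)) := by
      have := Real.add_one_le_exp (-(‖x‖ / 8))
      linarith
    have h5 : 0 ≤ 14 * m * |x 2| / jb x ^ 3 := by positivity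
    have h6 : 60 * √A * (1 / 2) ≤ 60 * √A * Real.exp (-(‖x‖ / 8)) := by gcongr
    have h7 := Real.sqrt_nonneg A
    linarith
  · have hx0 : 0 < ‖x‖ := by linarith
    have hx' : x ≠ 0 := norm_pos_iff.1 hx0
    obtain ⟨c, hc⟩ : ∃ c, c = 8 * √2 * |x 2| / ‖x‖ ^ 3 := ⟨_, rfl⟩
    have hc0 : 0 ≤ c := by
      rw [hc]
      positivity
    have hcle : c * m ≤ 14 * m * |x 2| / jb x ^ 3 := by
      have h1 : c ≤ 14 * |x 2| / jb x ^ 3 := by
        rw [hc, div_le_div_iff₀ (by positivity) (by positivity)]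
        have := mul_le_mul_of_nonneg_left (MB3b_jb3 hx) (abs_nonneg (x 2))
        linarith
      calc c * m ≤ 14 * |x 2| / jb x ^ 3 * m := by gcongr
        _ = _ := by ring
    obtain ⟨S, hS⟩ : ∃ S : Set E6, S = {y : E6 | ‖x‖ / 2 ≤ ‖y‖} := ⟨_, rfl⟩
    have hSm : MeasurableSet S := hS ▸ MB3b_meas _
    have i1 := (((opB_Wx x).bd Φ h.1).1.integrable_sq).indicator hSm
    have i2 := (((opB_Wx (R x)).bd Φ h.1).1.integrable_sq).indicator hSm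
    have i0 := (MB3b_mom h).1.const_mul (c ^ 2)
    have hp : ∀ y, (Wo x y * Φ y) ^ 2 ≤ c ^ 2 * (‖y‖ ^ 2 * Φ y ^ 2) +
        ((1 / 2) * S.indicator (fun y => (Wx x y * Φ y) ^ 2) y +
          (1 / 2) * S.indicator (fun y => (Wx (R x) y * Φ y) ^ 2) y) := by
      intro y
      by_cases hy : y ∈ S
      · rw [indicator_of_mem hy, indicator_of_mem hy]
        have h1 : 0 ≤ c ^ 2 * (‖y‖ ^ 2 * Φ y ^ 2) := by positivity
        have h2 : (Wo x y * Φ y) ^ 2 ≤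
            (1 / 2) * (Wx x y * Φ y) ^ 2 + (1 / 2) * (Wx (R x) y * Φ y) ^ 2 := by
          unfold Wo
          nlinarith [sq_nonneg (Wx x y * Φ y + Wx (R x) y * Φ y)]
        linarith
      · rw [indicator_of_notMem hy, indicator_of_notMem hy]
        have hy' : ‖y‖ ≤ ‖x‖ / 2 := by
          rw [hS] at hy
          exact (not_le.1 hy).le
        have h1 : |Wo x y| ≤ c * ‖y‖ := by
          refine (Wo_near hx' hy').trans (le_of_eq ?_)
          rw [hc]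
          ring
        have h2 : Wo x y ^ 2 ≤ (c * ‖y‖) ^ 2 := by
          rw [← sq_abs (Wo x y)]
          exact pow_le_pow_left₀ (abs_nonneg _) h1 2
        have h3 := mul_le_mul_of_nonneg_right h2 (sq_nonneg (Φ y))
        nlinarith
    have hI : nsq (fun y => Wo x y * Φ y) ≤ c ^ 2 * m ^ 2 + 3000 * A * Real.exp (-(‖x‖ / 2)) := by
      have h1 := integral_mono ((opB_Wo x).bd Φ h.1).1.integrable_sq
        (i0.add ((i1.const_mul (1 / 2)).add (i2.const_mul (1 / 2)))) hp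
      refine h1.trans ?_
      have e := integral_add i0 ((i1.const_mul (1 / 2)).add (i2.const_mul (1 / 2)))
      have e' := integral_add (i1.const_mul (1 / 2)) (i2.const_mul (1 / 2))
      simp only [Pi.add_apply] at e ⊢
      rw [e, e', integral_const_mul, integral_const_mul, integral_const_mul,
        integral_indicator hSm, integral_indicator hSm]
      have f1 := (h.far x (‖x‖ / 2)).2
      have f2 := (h.far (R x) (‖x‖ / 2)).2
      rw [← hS] at f1 f2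
      have f0 := mul_le_mul_of_nonneg_left hm2 (sq_nonneg c)
      linarith
    have hE : Real.exp (-(‖x‖ / 2)) ≤ Real.exp (-(‖x‖ / 8)) ^ 2 := by
      rw [← Real.exp_nat_mul]
      refine Real.exp_le_exp.2 ?_
      push_cast
      linarith
    have hB : 3000 * A * Real.exp (-(‖x‖ / 2)) ≤ (60 * √A * Real.exp (-(‖x‖ / 8))) ^ 2 := by
      rw [mul_pow, mul_pow, hsA]
      have h1 := mul_le_mul_of_nonneg_left hE hA
      have h2 : 0 ≤ A * Real.exp (-(‖x‖ / 8)) ^ 2 := by positivity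
      nlinarith
    calc √(nsq fun y => Wo x y * Φ y)
        ≤ √((c * m) ^ 2 + (60 * √A * Real.exp (-(‖x‖ / 8))) ^ 2) := by
          refine Real.sqrt_le_sqrt ?_
          rw [mul_pow c m]
          linarith
      _ ≤ c * m + 60 * √A * Real.exp (-(‖x‖ / 8)) :=
          MB3b_sqrt_add (by positivity) (by positivity)
      _ ≤ _ := by linarith
theorem Dec_Wo_le : ∃ K : ℝ, 1 ≤ K ∧ ∀ (Φ : E6 → ℝ) (A : ℝ), Dec Φ A → ∀ x : E,
    √(nsq fun y => Wo x y * Φ y) ≤ K * √A * ((1 + |x 2|) / jb x ^ 3) := by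
  obtain ⟨K, hK, H⟩ := Dec_Wo_sharp
  obtain ⟨K', hK', H'⟩ := MB_exp_jb (b := 1 / 8) (by norm_num) 3
  refine ⟨28 + K * K', by nlinarith, fun Φ A h x => ?_⟩
  have hA := h.nonneg
  have hj : 0 < jb x := one_pos.trans_le (MB_one_le_jb x)
  have hsA : √A ^ 2 = A := Real.sq_sqrt hA
  have h1 := H Φ A (2 * √A) h (by positivity) (by
    rw [mul_pow, hsA]
    linarith [(MB3b_mom h).2]) x
  have h2 : Real.exp (-(‖x‖ / 8)) ≤ K' / jb x ^ 3 := by
    have := H' x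
    rwa [show 1 / 8 * ‖x‖ = ‖x‖ / 8 by ring] at this
  have h3 : K * √A * Real.exp (-(‖x‖ / 8)) ≤ K * √A * (K' / jb x ^ 3) := by gcongr
  have e : (28 + K * K') * √A * ((1 + |x 2|) / jb x ^ 3) =
      14 * (2 * √A) * |x 2| / jb x ^ 3 + K * √A * (K' / jb x ^ 3) +
        (28 * √A / jb x ^ 3 + K * K' * √A * |x 2| / jb x ^ 3) := by ring
  have h4 : 0 ≤ 28 * √A / jb x ^ 3 + K * K' * √A * |x 2| / jb x ^ 3 := by positivity
  linarith

theorem MB3b_cs {μ : Measure E6} {f g : E6 → ℝ} (hf : MemLp f 2 μ) (hg : MemLp g 2 μ) :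
    |∫ y, f y * g y ∂μ| ≤ √(∫ y, f y ^ 2 ∂μ) * √(∫ y, g y ^ 2 ∂μ) := by
  rw [← Real.sqrt_mul (integral_nonneg fun _ => sq_nonneg _)]
  exact Real.abs_le_sqrt (S08_cs hf hg)

/-- for `‖x‖ ≤ 1` the far set is everything; otherwise `Wo_near` on `‖y‖ < ‖x‖/2` -/
theorem Wo_pair {Po Pe : E6 → ℝ} (ho : MemLp Po 2 volume) (he : H1 Pe) (x : E) :
    |∫ y, Wo x y * Po y * Pe y| ≤ 12 * |x 2| / jb x ^ 2 * √(nsq Po) * √(nsq Pe) +
      8 * √(dir Pe + nsq Pe) * √(∫ y in {y : E6 | ‖x‖ / 2 - 1 / 2 ≤ ‖y‖}, Po y ^ 2) := by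
  obtain ⟨S, hS⟩ : ∃ S : Set E6, S = {y : E6 | ‖x‖ / 2 - 1 / 2 ≤ ‖y‖} := ⟨_, rfl⟩
  have hSm : MeasurableSet S := hS ▸ MB3b_meas _
  rw [← hS]
  obtain ⟨hW, hWn⟩ := (opB_Wo x).bd Pe he
  have hj : 0 < jb x := one_pos.trans_le (MB_one_le_jb x)
  have e0 : (fun y => Wo x y * Po y * Pe y) = fun y => Wo x y * Pe y * Po y := by
    funext y
    ring
  have hi : Integrable fun y => Wo x y * Pe y * Po y := hW.integrable_mul ho
  rw [e0, ← integral_add_compl hSm hi]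
  have hfar : |∫ y in S, Wo x y * Pe y * Po y| ≤
      8 * √(dir Pe + nsq Pe) * √(∫ y in S, Po y ^ 2) := by
    refine (MB3b_cs (hW.restrict S) (ho.restrict S)).trans ?_
    gcongr
    have h0 : 0 ≤ dir Pe + nsq Pe := add_nonneg (S11_dir_nonneg _) (S11_nsq_nonneg _)
    rw [Real.sqrt_le_left (by positivity), mul_pow, Real.sq_sqrt h0]
    have h1 : ∫ y in S, (Wo x y * Pe y) ^ 2 ≤ ∫ y, (Wo x y * Pe y) ^ 2 :=
      setIntegral_le_integral hW.integrable_sq (Eventually.of_forall fun _ => sq_nonneg _)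
    unfold nsq at hWn ⊢
    linarith
  have hnear : |∫ y in Sᶜ, Wo x y * Pe y * Po y| ≤
      12 * |x 2| / jb x ^ 2 * √(nsq Po) * √(nsq Pe) := by
    obtain ⟨c, hc⟩ : ∃ c, c = 12 * |x 2| / jb x ^ 2 := ⟨_, rfl⟩
    have hc0 : 0 ≤ c := by
      rw [hc]
      positivity
    rw [← hc]
    have hp : ∀ y ∈ Sᶜ, (Wo x y * Pe y) ^ 2 ≤ c ^ 2 * Pe y ^ 2 := by
      intro y hy
      rw [hS] at hy
      have hy' : ‖y‖ < ‖x‖ / 2 - 1 / 2 := not_le.1 hy
      have hy0 := norm_nonneg y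
      have hx1 : 1 ≤ ‖x‖ := by linarith
      have hx0 : 0 < ‖x‖ := by linarith
      have hy2 : ‖y‖ ≤ ‖x‖ / 2 := by linarith
      have h2 : √2 ≤ 3 / 2 := by
        rw [Real.sqrt_le_left (by norm_num)]
        norm_num
      have h3 : jb x ^ 2 ≤ 2 * ‖x‖ ^ 2 := by
        rw [MB_jb_sq]
        nlinarith
      have h1 : |Wo x y| ≤ c := by
        refine (Wo_near (norm_pos_iff.1 hx0) hy2).trans ?_
        calc 8 * √2 * |x 2| * ‖y‖ / ‖x‖ ^ 3 ≤ 8 * (3 / 2) * |x 2| * (‖x‖ / 2) / ‖x‖ ^ 3 := by gcongr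
          _ = 12 * |x 2| / (2 * ‖x‖ ^ 2) := by
            field_simp
            ring
          _ ≤ c := by
            rw [hc]
            gcongr
      have h4 : Wo x y ^ 2 ≤ c ^ 2 := by
        rw [← sq_abs (Wo x y)]
        exact pow_le_pow_left₀ (abs_nonneg _) h1 2
      rw [mul_pow]
      exact mul_le_mul_of_nonneg_right h4 (sq_nonneg _)
    have h1 : ∫ y in Sᶜ, (Wo x y * Pe y) ^ 2 ≤ c ^ 2 * nsq Pe := by
      refine (setIntegral_mono_on hW.integrable_sq.integrableOn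
        (he.l2.integrable_sq.const_mul (c ^ 2)).integrableOn hSm.compl hp).trans ?_
      rw [integral_const_mul]
      exact mul_le_mul_of_nonneg_left
        (setIntegral_le_integral he.l2.integrable_sq (Eventually.of_forall fun _ => sq_nonneg _))
        (sq_nonneg _)
    have h2 : ∫ y in Sᶜ, Po y ^ 2 ≤ nsq Po :=
      setIntegral_le_integral ho.integrable_sq (Eventually.of_forall fun _ => sq_nonneg _)
    have h3 : √(∫ y in Sᶜ, (Wo x y * Pe y) ^ 2) ≤ c * √(nsq Pe) := by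
      rw [Real.sqrt_le_left (by positivity), mul_pow, Real.sq_sqrt (S11_nsq_nonneg _)]
      exact h1
    refine (MB3b_cs (hW.restrict Sᶜ) (ho.restrict Sᶜ)).trans ?_
    calc _ ≤ c * √(nsq Pe) * √(nsq Po) := by gcongr
      _ = _ := by ring
  have := abs_add_le (∫ y in S, Wo x y * Pe y * Po y) (∫ y in Sᶜ, Wo x y * Pe y * Po y)
  linarith

end

end Crest.Agent.R335
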