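import Crest.Agent.R335.MB2

/-! Row 335, module MB: the equations of the channels. -/

set_option autoImplicit false
set_option linter.unusedSectionVars false

open MeasureTheory Set Filter Topology Metric
open scoped Gradient ContDiff RealInnerProductSpace ENNReal

namespace Crest.Agent.R335

noncomputable section

namespace Dat

variable {a : Dat}

theorem MB4_pair {F : E6 → ℝ} {Φ U : E6 → ℝ} {C : ℝ} (hF : H1 F) (hΦ : MemLp Φ 2 volume)
    (hU : OpB C U) (s t : ℝ) :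
    ∫ y, (s * (F y * Φ y) - t * (U y * F y * Φ y)) =
      s * (∫ y, F y * Φ y) - t * ∫ y, U y * F y * Φ y := by
  rw [integral_sub ((S11_int_mul hF.l2 hΦ).const_mul s)
    ((S11_int_mul (hU.bd F hF).1 hΦ).const_mul t), integral_const_mul, integral_const_mul]

theorem MB4_fv (h : a.OK) (i : Fin 2) :
    Sol (a.fv i) fun x => -((a.o.v x + a.md.I) * a.fv i x) - a.l * a.WF i x := by
  refine ((h.solF i).pair h.mb.sΦ).congr (h.fv_eq i) ?_
  filter_upwards [h.fv_eq i, (h.solF i).h1.slice_snd] with x h1 h2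
  have h3 := MB4_pair h2.1 h.mb.sΦ.h1.l2 (opB_Wx x) (-(a.o.v x + a.md.I)) a.l
  have h4 : ∫ y, (a.rhs a.V (a.F i) (a.BF i) (pt x y) * a.Φ y -
      a.F i (pt x y) * ((a.E2 - U2 a.o.d a.l y) * a.Φ y)) =
      ∫ y, (-(a.o.v x + a.md.I) * (a.F i (pt x y) * a.Φ y) -
        a.l * (Wx x y * a.F i (pt x y) * a.Φ y)) := by
    refine integral_congr_ae (Eventually.of_forall fun y => ?_)
    show ((a.E3 - a.o.v x - U2 a.o.d a.l y) * a.F i (pt x y) +
        -(a.l * (Wx x y * a.F i (pt x y)))) * a.Φ y -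
      a.F i (pt x y) * ((a.E2 - U2 a.o.d a.l y) * a.Φ y) =
      -(a.o.v x + (a.E2 - a.E3)) * (a.F i (pt x y) * a.Φ y) -
        a.l * (Wx x y * a.F i (pt x y) * a.Φ y)
    ring
  rw [h4, h3, h1]
  unfold WF
  ring

theorem MB4_WF (h : a.OK) (i : Fin 2) : MemLp (a.WF i) 2 volume :=
  S08_pair' (H := fun p : E9 => Wx (id p.fst) p.snd * a.F i p)
    ((opB_W9 measurable_id).bd _ (h.solF i).h1).1 h.mb.sΦ.h1.l2

theorem MB4_contR : Continuous R := by
  obtain ⟨L, hL, -⟩ := exists_Riso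
  have : R = L := funext fun x => (hL x).symm
  rw [this]
  exact L.continuous

/-- `Sol.pair` of `solF 0` with `sΦ`, `crep_ae` -/
theorem OK.sol_f (h : a.OK) :
    Sol a.f fun x => -((a.o.v x + a.md.I + a.l * a.w x) * a.f x) + a.ef x := by
  refine (MB4_fv h 0).congr (Eventually.of_forall fun _ => rfl) (Eventually.of_forall fun x => ?_)
  show -((a.o.v x + a.md.I + a.l * a.w x) * a.f x) + a.l * (a.w x * a.f x - a.WF 0 x) =
    -((a.o.v x + a.md.I) * a.f x) - a.l * a.WF 0 x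
  ring
theorem OK.sol_fv (h : a.OK) (i : Fin 2) :
    Sol (a.fv i) fun x => -((a.o.v x + a.md.I) * a.fv i x) - a.l * a.WF i x := MB4_fv h i
/-- `Sol.pair` of `solF 0` with `sol_ug` -/
theorem OK.sol_s (h : a.OK) :
    Sol a.s fun x => -((a.o.v x + a.md.I + a.md.dt) * a.s x) + a.l * a.o.U x * a.f x + a.es x := by
  have e : ∀ᵐ x, a.s x = -∫ y, a.F 0 (pt x y) * a.ug y := crep_ae _
  refine ((h.solF 0).pair h.sol_ug.1).neg.congr e ?_
  filter_upwards [e, (h.solF 0).h1.slice_snd] with x h1 h2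
  have h3 := MB4_pair h2.1 h.sol_ug.1.h1.l2 (opB_W2.add (opB_Wx x))
    (-(a.o.v x + a.md.I + a.md.dt)) a.l
  have h4 : ∫ y, (a.rhs a.V (a.F 0) (a.BF 0) (pt x y) * a.ug y -
      a.F 0 (pt x y) * ((a.o.eg + a.o.eu - V2 a.o.v y) * a.ug y)) =
      ∫ y, (-(a.o.v x + a.md.I + a.md.dt) * (a.F 0 (pt x y) * a.ug y) -
        a.l * ((W2 y + Wx x y) * a.F 0 (pt x y) * a.ug y)) := by
    refine integral_congr_ae (Eventually.of_forall fun y => ?_)
    have h5 : U2 a.o.d a.l y = V2 a.o.v y + a.l * W2 y := congrFun (U2_eq a.o.d a.l) y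
    show ((a.E3 - a.o.v x - U2 a.o.d a.l y) * a.F 0 (pt x y) +
        -(a.l * (Wx x y * a.F 0 (pt x y)))) * a.ug y -
      a.F 0 (pt x y) * ((a.o.eg + a.o.eu - V2 a.o.v y) * a.ug y) =
      -(a.o.v x + (a.E2 - a.E3) + (a.o.eg + a.o.eu - a.E2)) * (a.F 0 (pt x y) * a.ug y) -
        a.l * ((W2 y + Wx x y) * a.F 0 (pt x y) * a.ug y)
    rw [h5]
    ring
  rw [h4, h3, h1]
  unfold es
  ring
theorem OK.cf (h : a.OK) : Continuous a.f ∧ Continuous a.s ∧ ∀ x, a.f (R x) = -a.f x := by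
  have c1 : Continuous a.f := crep_cont ((h.solF 0).pair h.mb.sΦ)
  refine ⟨c1, crep_cont ((h.solF 0).pair h.sol_ug.1).neg, ?_⟩
  have e : ∀ᵐ x, a.f x = ∫ y, a.F 0 (pt x y) * a.Φ y := crep_ae _
  have e2 : (fun x => a.f (R x)) =ᵐ[volume] fun x => -a.f x := by
    filter_upwards [e, mp_R.quasiMeasurePreserving.ae e] with x h1 h2
    rw [h1, h2, ← integral_R6, ← integral_neg]
    refine integral_congr_ae (Eventually.of_forall fun y => ?_)
    show a.F 0 (R9 (pt x y)) * a.Φ (R6 y) = -(a.F 0 (pt x y) * a.Φ y)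
    rw [h.F_R9, (h.mb.symΦ y).1]
    ring
  exact congrFun (((c1.comp MB4_contR).ae_eq_iff_eq volume c1.neg).1 e2)
theorem OK.ev_s (h : a.OK) : Ev a.s := by
  have e : ∀ᵐ x, a.s x = -∫ y, a.F 0 (pt x y) * a.ug y := crep_ae _
  filter_upwards [e, mp_R.quasiMeasurePreserving.ae e] with x h1 h2
  rw [h1, h2, ← integral_R6]
  congr 1
  refine integral_congr_ae (Eventually.of_forall fun y => ?_)
  show a.F 0 (R9 (pt x y)) * a.ug (R6 y) = a.F 0 (pt x y) * a.ug y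
  rw [h.F_R9, h.ug_R6]
  ring
/-- `solF` minus `Sol.tensor` of `sol_fv` and `sΦ` -/
theorem OK.sol_Fp (h : a.OK) (i : Fin 2) :
    Sol (a.Fp i) (a.rhs a.V (a.Fp i) (a.Bp i)) ∧ MemLp (a.Bp i) 2 volume := by
  refine ⟨((h.solF i).lin ((h.sol_fv i).tensor h.mb.sΦ) 1 (-1)).congr
    (Eventually.of_forall fun p => ?_) (Eventually.of_forall fun p => ?_), ?_⟩
  · unfold Fp
    ring
  · show (a.E3 - a.o.v p.fst - U2 a.o.d a.l p.snd) * (a.F i p - a.fv i p.fst * a.Φ p.snd) +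
        (a.BF i p + a.l * (a.WF i p.fst * a.Φ p.snd)) =
      1 * ((a.E3 - a.o.v p.fst - U2 a.o.d a.l p.snd) * a.F i p + a.BF i p) +
        -1 * ((-((a.o.v p.fst + (a.E2 - a.E3)) * a.fv i p.fst) - a.l * a.WF i p.fst) * a.Φ p.snd +
          a.fv i p.fst * ((a.E2 - U2 a.o.d a.l p.snd) * a.Φ p.snd))
    ring
  · exact (h.BF_l2 i).add ((memLp_tensor (MB4_WF h i) h.mb.sΦ.h1.l2).const_mul a.l)
/-- `solF` minus its reflection (`MB_sol_iso`, `exists_Ry`); `F = fv Φ + Fo + Fe`, `W = We + Wo` -/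
theorem OK.sol_Fe (h : a.OK) (i : Fin 2) :
    Sol (a.Fe i) (a.rhs a.V (a.Fe i) (a.Be i)) ∧ MemLp (a.Be i) 2 volume := by
  obtain ⟨L, hL⟩ := exists_Ry
  have hB : ∀ p, a.Be i p = (1 / 2) * a.BF i p + (-(1 / 2)) * a.BF i (L p) := by
    intro p
    rw [hL]
    show -(a.l * ((Wx p.fst p.snd + Wx (R p.fst) p.snd) / 2 * ((a.F i p - a.F i (Ry p)) / 2) +
        (Wx p.fst p.snd - Wx (R p.fst) p.snd) / 2 * (a.fv i p.fst * a.Φ p.snd +
          (a.F i p - a.fv i p.fst * a.Φ p.snd - (a.F i p - a.F i (Ry p)) / 2)))) =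
      (1 / 2) * -(a.l * (Wx p.fst p.snd * a.F i p)) +
        (-(1 / 2)) * -(a.l * (Wx p.fst (R6 p.snd) * a.F i (Ry p)))
    rw [Wx_R6]
    ring
  refine ⟨((h.solF i).lin (MB_sol_iso (h.solF i) L) (1 / 2) (-(1 / 2))).congr
    (Eventually.of_forall fun p => ?_) (Eventually.of_forall fun p => ?_), ?_⟩
  · rw [hL]
    unfold Fe
    ring
  · unfold rhs
    rw [hB, hL]
    show (a.V p.fst - U2 a.o.d a.l p.snd) * ((a.F i p - a.F i (Ry p)) / 2) +
        ((1 / 2) * a.BF i p + (-(1 / 2)) * a.BF i (Ry p)) =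
      1 / 2 * ((a.V p.fst - U2 a.o.d a.l p.snd) * a.F i p + a.BF i p) +
        -(1 / 2) * ((a.V p.fst - U2 a.o.d a.l (R6 p.snd)) * a.F i (Ry p) + a.BF i (Ry p))
    rw [U2_R6]
    ring
  · rw [funext hB]
    exact ((h.BF_l2 i).const_mul _).add ((memLp_iso L (h.BF_l2 i)).const_mul _)
theorem OK.h1_Fo (h : a.OK) (i : Fin 2) : H1 (a.Fo i) := (h.sol_Fp i).1.h1.sub (h.sol_Fe i).1.h1
theorem OK.mw (h : a.OK) : AEStronglyMeasurable a.w volume ∧ AEStronglyMeasurable a.ef volume ∧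
    AEStronglyMeasurable a.es volume := by
  have m1 : AEStronglyMeasurable a.w volume := by
    have m0 : AEStronglyMeasurable (fun p : E × E6 => Wx p.1 p.2 * a.Φ p.2 ^ 2)
        ((volume : Measure E).prod (volume : Measure E6)) :=
      MB_meas_Wx.aestronglyMeasurable.mul (h.mb.sΦ.h1.l2.1.pow 2).comp_snd
    exact m0.integral_prod_right'
  have m2 : AEStronglyMeasurable a.f volume := h.cf.1.aestronglyMeasurable
  have m3 : MemLp (fun x => ∫ y, (W2 y + Wx x y) * a.F 0 (pt x y) * a.ug y) 2 volume :=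
    S08_pair' (H := fun p : E9 => W3 p * a.F 0 p) (opB_W3.bd _ (h.solF 0).h1).1 h.sol_ug.1.h1.l2
  exact ⟨m1, ((m1.mul m2).sub (MB4_WF h 0).1).const_mul a.l,
    (m3.1.sub (h.ho.U_cont.aestronglyMeasurable.mul m2)).const_mul a.l⟩

end Dat

end

end Crest.Agent.R335
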