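import Crest.Agent.R335.MB4
import Crest.Agent.R335.MB10a

/-! Row 335, module MB: orthogonality, parity, normalisation. -/

set_option autoImplicit false
set_option linter.unusedSectionVars false

open MeasureTheory Set Filter Topology Metric
open scoped Gradient ContDiff RealInnerProductSpace ENNReal

namespace Crest.Agent.R335

noncomputable section

theorem MB5_ev {ι : Type} [Fintype ι] {P : ι → E9 → ℝ} (h : ∀ i p, P i (R9 p) = -P i p) :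
    Ev (snorm P) := by
  refine Eventually.of_forall fun x => ?_
  unfold snorm
  congr 1
  refine Finset.sum_congr rfl fun i _ => ?_
  rw [← integral_R6 fun y => P i (pt (R x) y) ^ 2]
  refine integral_congr_ae (Eventually.of_forall fun y => ?_)
  show P i (pt (R x) (R6 y)) ^ 2 = P i (pt x y) ^ 2
  rw [← R9_pt, h, neg_sq]

namespace Dat

variable {a : Dat}

theorem MB5_sl {P : Fin 2 → E9 → ℝ} (h : ∀ i, H1 (P i)) :
    ∀ᵐ x, ∀ i, MemLp (fun y => P i (pt x y)) 2 volume :=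
  ae_all_iff.2 fun i => memLp_slice_snd (h i).l2

theorem OK.orth (h : a.OK) : ∀ᵐ x, ∀ i, ip a.Φ (fun y => a.Fp i (pt x y)) = 0 := by
  filter_upwards [MB5_sl fun i => (h.solF i).h1, ae_all_iff.2 h.fv_eq] with x h1 h2 i
  have hΦ := h.mb.sΦ.h1.l2
  have e : (fun y => a.Fp i (pt x y)) =
      fun y => 1 * a.F i (pt x y) + (-a.fv i x) * a.Φ y := by
    funext y
    show a.F i (pt x y) - a.fv i x * a.Φ y = _
    ring
  rw [e, S11_ip_lc hΦ (h1 i) hΦ, ip_self, h.mb.nΦ, ip_comm, h2 i]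
  unfold ip
  ring
theorem OK.orth_e (h : a.OK) (x : E) (i : Fin 2) : ip a.Φ (fun y => a.Fe i (pt x y)) = 0 := by
  refine integral_odd6 (u := fun y => a.Φ y * a.Fe i (pt x y)) fun y => ?_
  show a.Φ (R6 y) * a.Fe i (pt x (R6 y)) = -(a.Φ y * a.Fe i (pt x y))
  rw [← Ry_pt, Fe_Ry, (h.mb.symΦ y).1]
  ring

theorem MB5_s (h : a.OK) : ∀ᵐ x, |a.s x| ≤ snorm a.Fe x := by
  filter_upwards [MB5_sl fun i => (h.solF i).h1, MB5_sl fun i => (h.sol_Fe i).1.h1,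
    crep_ae fun x => -∫ y, a.F 0 (pt x y) * a.ug y] with x h1 h2 h3
  have hu := h.sol_ug.1.h1.l2
  have e : (fun y => a.Fe 0 (pt x y)) =
      fun y => (1 / 2) * a.F 0 (pt x y) + (-(1 / 2)) * a.F 0 (pt x (R6 y)) := by
    funext y
    show (a.F 0 (pt x y) - a.F 0 (pt x (R6 y))) / 2 = _
    ring
  have e2 : ip a.ug (fun y => a.F 0 (pt x (R6 y))) = -ip a.ug fun y => a.F 0 (pt x y) := by
    unfold ip
    rw [← integral_R6, ← integral_neg]
    refine integral_congr_ae (Eventually.of_forall fun y => ?_)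
    show a.ug (R6 y) * a.F 0 (pt x (R6 (R6 y))) = -(a.ug y * a.F 0 (pt x y))
    rw [h.ug_R6, R6_R6]
    ring
  have e3 : ip a.ug (fun y => a.Fe 0 (pt x y)) = -a.s x := by
    rw [e, S11_ip_lc hu (h1 0) (memLp_R6 (h1 0)), e2, ip_comm]
    have : a.s x = -ip (fun y => a.F 0 (pt x y)) a.ug := h3
    rw [this]
    ring
  have h4 := S11_cs hu (h2 0)
  rw [e3, h.sol_ug.2, one_mul, neg_sq] at h4
  exact (Real.abs_le_sqrt h4).trans (snorm_comp_le a.Fe x 0)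

theorem OK.pyth (h : a.OK) : ∀ᵐ x, a.md.g x ^ 2 = a.md.G x ^ 2 + a.md.n x ^ 2 ∧
    a.md.r x ^ 2 = a.md.f x ^ 2 + a.md.g x ^ 2 ∧ |a.md.s x| ≤ a.md.G x := by
  filter_upwards [MB5_sl fun i => (h.sol_Fp i).1.h1, h.orth, MB5_s h] with x h1 h2 h3
  refine ⟨?_, ?_, h3⟩
  · have e1 : a.Fe = fun i p => (a.Fp i p - a.Fp i (Ry p)) / 2 :=
      funext fun i => funext fun p => h.Fe_eq i p
    have e2 : a.Fo = fun i p => (a.Fp i p + a.Fp i (Ry p)) / 2 :=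
      funext fun i => funext fun p => h.Fo_eq i p
    show snorm a.Fp x ^ 2 = snorm a.Fe x ^ 2 + snorm a.Fo x ^ 2
    rw [e1, e2]
    exact snorm_parity h1
  · have hΦ := h.mb.sΦ.h1.l2
    have e : ∀ i, (nsq fun y => a.F i (pt x y)) = a.fv i x ^ 2 + nsq fun y => a.Fp i (pt x y) := by
      intro i
      have e : (fun y => a.F i (pt x y)) =
          fun y => a.fv i x * a.Φ y + 1 * a.Fp i (pt x y) := by
        funext y
        show _ = a.fv i x * a.Φ y + 1 * (a.F i (pt x y) - a.fv i x * a.Φ y)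
        ring
      rw [e, S11_nsq_lc hΦ (h1 i), h2 i, h.mb.nΦ]
      ring
    show snorm a.F x ^ 2 = a.f x ^ 2 + snorm a.Fp x ^ 2
    rw [snorm_sq, snorm_sq, Fin.sum_univ_two, Fin.sum_univ_two, e, e]
    show a.f x ^ 2 + _ + ((0 : ℝ) ^ 2 + _) = _
    ring

theorem MB5_Fe (h : a.OK) (i : Fin 2) (p : E9) : a.Fe i (R9 p) = -a.Fe i p := by
  show (a.F i (R9 p) - a.F i (R9 (Ry p))) / 2 = -((a.F i p - a.F i (Ry p)) / 2)
  rw [h.F_R9, h.F_R9]
  ring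

theorem MB5_Fp (h : a.OK) (i : Fin 2) (p : E9) : a.Fp i (R9 p) = -a.Fp i p := by
  have e : a.fv i (R p.fst) = -a.fv i p.fst := by
    fin_cases i
    · exact h.cf.2.2 _
    · exact neg_zero.symm
  show a.F i (R9 p) - a.fv i (R p.fst) * a.Φ (R6 p.snd) = -(a.F i p - a.fv i p.fst * a.Φ p.snd)
  rw [h.F_R9, e, (h.mb.symΦ _).1]
  ring

theorem OK.ev (h : a.OK) : Ev a.md.r ∧ Ev a.md.G ∧ Ev a.md.n ∧ Ev a.md.g ∧ Ev a.md.s := by
  refine ⟨MB5_ev h.F_R9, MB5_ev (MB5_Fe h), MB5_ev fun i p => ?_, MB5_ev (MB5_Fp h), h.ev_s⟩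
  show a.Fp i (R9 p) - a.Fe i (R9 p) = -(a.Fp i p - a.Fe i p)
  rw [MB5_Fp h, MB5_Fe h]
  ring
theorem OK.h1 (h : a.OK) : H1 a.md.r ∧ H1 a.md.G ∧ H1 a.md.n ∧ H1 a.md.g ∧ H1 a.md.N :=
  ⟨(snorm_h1 fun i => (h.solF i).h1).1, (snorm_h1 fun i => (h.sol_Fe i).1.h1).1,
    (snorm_h1 h.h1_Fo).1, (snorm_h1 fun i => (h.sol_Fp i).1.h1).1,
    (snorm_h1 fun i => (h.h1_Pw i).1).1⟩
theorem nn (x : E) : 0 ≤ a.md.r x ∧ 0 ≤ a.md.G x ∧ 0 ≤ a.md.n x ∧ 0 ≤ a.md.g x ∧ 0 ≤ a.md.N x :=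
  ⟨snorm_nonneg _ _, snorm_nonneg _ _, snorm_nonneg _ _, snorm_nonneg _ _, snorm_nonneg _ _⟩
theorem OK.nr (h : a.OK) : nsq a.md.r = 3 := by
  show nsq (snorm a.F) = 3
  rw [(snorm_l2 fun i => (h.solF i).h1.l2).2, Fin.sum_univ_two, h.nsqF.1, h.nsqF.2]
  norm_num
theorem r_sq (x : E) : a.md.r x ^ 2 = dens a.ψ x := snorm_sq a.F x
theorem OK.chain (h : a.OK) : ∀ᵐ x, a.md.r x ≤ a.md.N x ∧ a.md.g x ≤ a.md.r x ∧
    |a.f x| ≤ a.md.r x ∧ a.md.G x ≤ a.md.g x ∧ a.md.n x ≤ a.md.g x := by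
  filter_upwards [MB5_sl fun i => (h.h1_Pw i).1, h.pyth] with x h1 h2
  obtain ⟨p1, p2, -⟩ := h2
  obtain ⟨n1, -, -, n4, -⟩ := nn (a := a) x
  refine ⟨snorm_mono h1 fun i => Eventually.of_forall fun y => ?_,
    (le_abs_self _).trans (abs_le_of_sq_le_sq (by nlinarith [sq_nonneg (a.md.f x)]) n1),
    abs_le_of_sq_le_sq (a := a.md.f x) (by nlinarith [sq_nonneg (a.md.g x)]) n1,
    (le_abs_self _).trans (abs_le_of_sq_le_sq (by nlinarith [sq_nonneg (a.md.n x)]) n4),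
    (le_abs_self _).trans (abs_le_of_sq_le_sq (by nlinarith [sq_nonneg (a.md.G x)]) n4)⟩
  show |a.F i (pt x y)| ≤ |wt y * a.F i (pt x y)|
  rw [abs_mul, abs_of_nonneg (zero_le_one.trans (one_le_wt y))]
  exact le_mul_of_one_le_left (abs_nonneg _) (one_le_wt y)

end Dat

end

end Crest.Agent.R335
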