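import Crest.Agent.R335.MB5

/-! Row 335, module MB: one-body energy. -/

set_option autoImplicit false
set_option linter.unusedSectionVars false

open MeasureTheory Set Filter Topology Metric
open scoped Gradient ContDiff RealInnerProductSpace ENNReal

namespace Crest.Agent.R335

noncomputable section

theorem MB6_orth {f : E → ℝ} {Φ : E6 → ℝ} {P : E9 → ℝ} (hf : H1 f) (hΦ : H1 Φ) (n : nsq Φ = 1)
    (hP : H1 P) (ho : ∀ᵐ x, ip Φ (fun y => P (pt x y)) = 0) :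
    ∫ p, ‖(D (fun p : E9 => f p.fst * Φ p.snd + P p) p).fst‖ ^ 2 =
      dir f + ∫ p, ‖(D P p).fst‖ ^ 2 := by
  obtain ⟨t1, t2⟩ := hf.tensor hΦ
  have m1 := S08_m2 hf.dl2 hΦ.l2
  have m2 := S08_mem_fst hP.dl2
  have e : ∫ p, ‖(D (fun p : E9 => f p.fst * Φ p.snd + P p) p).fst‖ ^ 2 =
      ∫ p : E9, (1 * ‖Φ p.snd • D f p.fst‖ ^ 2 + 2 * ⟪(D P p).fst, Φ p.snd • D f p.fst⟫ +
        1 * ‖(D P p).fst‖ ^ 2) := by
    refine integral_congr_ae ?_
    filter_upwards [D_add t1.hl hP.hl, t2] with p e1 e2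
    rw [e1, e2, WithLp.add_fst, norm_add_sq_real, real_inner_comm, one_mul, one_mul]
    rfl
  have c1 : ∫ p : E9, ‖Φ p.snd • D f p.fst‖ ^ 2 = dir f := by
    have := ip_tensor hf.dl2.norm hf.dl2.norm hΦ.l2 hΦ.l2
    rw [ip_self, ip_self, ip_self, n, mul_one] at this
    refine Eq.trans (integral_congr_ae (Eventually.of_forall fun p => ?_)) this
    simp only [norm_smul, mul_pow, Real.norm_eq_abs, sq_abs, mul_comm]
  have c2 : ∫ p : E9, ⟪(D P p).fst, Φ p.snd • D f p.fst⟫ = 0 := by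
    simp only [real_inner_smul_right]
    rw [← S08_pair_inner m2 hΦ.l2 hf.dl2]
    have z : ∀ᵐ x, (∫ y, P (pt x y) * Φ y) = (0 : ℝ) := by
      filter_upwards [ho] with x hx
      rw [ip_comm] at hx
      exact hx
    refine integral_eq_zero_of_ae ?_
    filter_upwards [(hP.pair hΦ.l2).2, D_congr z, D_const (V := E) (0 : ℝ)] with x h1 h2 h3
    rw [← h1, h2, h3, inner_zero_left]
    rfl
  rw [e, S11_int3 m1.norm.integrable_sq (S08_inner_int m2 m1) m2.norm.integrable_sq, c1, c2]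
  ring

theorem MB6_kin {ψ : E9 → ℝ} (h : H1 ψ) (ha : Anti ψ) :
    ∑ i, ∫ p, ‖(D (comp ψ i) p).fst‖ ^ 2 = dir ψ := by
  obtain ⟨L, hL⟩ := exists_cyc
  obtain ⟨S, hS⟩ := exists_sw12
  have m1 := S08_mem_fst h.dl2
  have m2 := S08_mem_fst (S08_mem_snd h.dl2)
  have m3 := S08_mem_snd (S08_mem_snd h.dl2)
  have c0 : ∫ p, ‖(D (comp ψ 0) p).fst‖ ^ 2 = 2 * ∫ p, ‖(D ψ p).fst‖ ^ 2 := by
    rw [← integral_const_mul]
    refine integral_congr_ae ?_
    filter_upwards [D_smul (√2) h.hl] with p e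
    change ‖(D (fun p => √2 * ψ p) p).fst‖ ^ 2 = _
    rw [e, WithLp.smul_fst, norm_smul, mul_pow, Real.norm_eq_abs, sq_abs, Real.sq_sqrt zero_le_two]
  have c1 : ∫ p, ‖(D (comp ψ 1) p).fst‖ ^ 2 = ∫ p, ‖(D ψ p).snd.snd‖ ^ 2 := by
    rw [← integral_iso L fun p => ‖(D ψ p).snd.snd‖ ^ 2]
    refine integral_congr_ae ?_
    filter_upwards [(h.hl.iso L).2] with p e
    have e' : comp ψ 1 = fun x => ψ (L x) := funext fun x => by rw [hL]; rfl
    have k : ∀ q, (L.symm q).fst = q.snd.snd := fun q => by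
      conv_rhs => rw [← L.apply_symm_apply q, hL]
      rfl
    rw [e', e, k]
  have c2 : ∫ p, ‖(D ψ p).fst‖ ^ 2 = ∫ p, ‖(D ψ p).snd.fst‖ ^ 2 := by
    rw [← integral_iso S fun p => ‖(D ψ p).snd.fst‖ ^ 2]
    refine integral_congr_ae ?_
    filter_upwards [(h.hl.iso S).2, D_smul (-1) h.hl] with p e e2
    have e' : (fun x => ψ (S x)) = fun x => -1 * ψ x := funext fun x => by rw [hS, ha, neg_one_mul]
    have k : ∀ q, (S.symm q).fst = q.snd.fst := fun q => by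
      conv_rhs => rw [← S.apply_symm_apply q, hS]
      rfl
    rw [← k, ← e, e', e2, WithLp.smul_fst, norm_smul]
    simp
  have c3 : dir ψ = ∫ p, (1 * ‖(D ψ p).fst‖ ^ 2 + 1 * ‖(D ψ p).snd.fst‖ ^ 2 +
      1 * ‖(D ψ p).snd.snd‖ ^ 2) := by
    refine integral_congr_ae (Eventually.of_forall fun p => ?_)
    simp only
    rw [WithLp.prod_norm_sq_eq_of_L2, WithLp.prod_norm_sq_eq_of_L2]
    ring
  rw [Fin.sum_univ_two, c0, c1, c3,
    S11_int3 m1.norm.integrable_sq m2.norm.integrable_sq m3.norm.integrable_sq, ← c2]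
  ring

theorem MB6_pot (d : ℝ) {ψ : E9 → ℝ} (h : H1 ψ) (ha : Anti ψ) :
    ∫ x, vx d x * snorm (comp ψ) x ^ 2 = ∫ p, V3 (vx d) p * ψ p ^ 2 := by
  obtain ⟨L, hL⟩ := exists_cyc
  obtain ⟨S, hS⟩ := exists_sw12
  have e' : comp ψ 1 = fun x => ψ (L x) := funext fun x => by rw [hL]; rfl
  have hc : ∀ i, H1 (comp ψ i) := by
    rw [Fin.forall_fin_two, e']
    exact ⟨h.smul _, (h.iso L).1⟩
  have i0 : ∀ i, Integrable fun p : E9 => vx d p.fst * comp ψ i p ^ 2 := fun i =>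
    ((opB_vx d).fst (W := E6)).int (hc i)
  have i1 : Integrable fun p : E9 => vx d p.fst * ψ p ^ 2 := ((opB_vx d).fst (W := E6)).int h
  have i2 : Integrable fun p : E9 => vx d p.snd.fst * ψ p ^ 2 :=
    (((opB_vx d).fst (W := E)).snd (V := E)).int h
  have i3 : Integrable fun p : E9 => vx d p.snd.snd * ψ p ^ 2 :=
    (((opB_vx d).snd (V := E)).snd (V := E)).int h
  have c : ∫ x, vx d x * snorm (comp ψ) x ^ 2 = ∑ i, ∫ p : E9, vx d p.fst * comp ψ i p ^ 2 := by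
    simp only [fun i => integral_pt (i0 i)]
    rw [← integral_finsetSum _ fun i _ => (integrable_pt (i0 i)).2]
    refine integral_congr_ae (Eventually.of_forall fun x => ?_)
    simp only
    rw [snorm_sq, Finset.mul_sum]
    exact Finset.sum_congr rfl fun i _ => (integral_const_mul _ _).symm
  have c0 : ∫ p : E9, vx d p.fst * comp ψ 0 p ^ 2 = 2 * ∫ p : E9, vx d p.fst * ψ p ^ 2 := by
    rw [← integral_const_mul]
    refine integral_congr_ae (Eventually.of_forall fun p => ?_)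
    change vx d p.fst * (√2 * ψ p) ^ 2 = _
    rw [mul_pow, Real.sq_sqrt zero_le_two]
    ring
  have c1 : ∫ p : E9, vx d p.fst * comp ψ 1 p ^ 2 = ∫ p : E9, vx d p.snd.snd * ψ p ^ 2 := by
    rw [← integral_iso L fun p : E9 => vx d p.snd.snd * ψ p ^ 2, e']
    simp only [hL]
    rfl
  have c2 : ∫ p : E9, vx d p.fst * ψ p ^ 2 = ∫ p : E9, vx d p.snd.fst * ψ p ^ 2 := by
    rw [← integral_iso S fun p : E9 => vx d p.snd.fst * ψ p ^ 2]
    simp only [hS, ha _, neg_sq]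
    rfl
  have c3 : ∫ p, V3 (vx d) p * ψ p ^ 2 = ∫ p : E9, (1 * (vx d p.fst * ψ p ^ 2) +
      1 * (vx d p.snd.fst * ψ p ^ 2) + 1 * (vx d p.snd.snd * ψ p ^ 2)) := by
    refine integral_congr_ae (Eventually.of_forall fun p => ?_)
    simp only [V3]
    ring
  rw [c, Fin.sum_univ_two, c0, c1, c3, S11_int3 i1 i2 i3, ← c2]
  ring

/-- `Σᵢ ∫|∇ₓFᵢ|² = dir ψ` and `∫ v r² = ∫ V3 ψ²` (antisymmetry, `cyc`), so the left side with `Σ|∇ₓFᵢ|²` is
`Q (V3 v) ψ ≤ E3`; `∇ₓF = ∇f Φ + ∇ₓFp` orthogonally on slices (`H1.pair`: the pairing of `Fp` with `Φ`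
vanishes, hence so does its gradient), `‖D g‖² ≤ Σ∫|∇ₓFp|²` (`snorm_h1`) -/
theorem Dat.OK.en {a : Dat} (h : a.OK) :
    (1 / 2) * dir a.md.f + (1 / 2) * dir a.md.g + ∫ x, a.o.v x * a.md.r x ^ 2 ≤
      2 * a.o.eg + a.o.eu + a.c * a.l := by
  have hψ := h.mb.gs.h1
  have hΦ := h.mb.sΦ.h1
  have hP : ∀ i, H1 (a.Fp i) := fun i => (h.sol_Fp i).1.h1
  have hf : ∀ i, H1 (a.fv i) := fun i => (h.sol_fv i).h1
  have e1 : ∀ i, ∫ p, ‖(D (a.F i) p).fst‖ ^ 2 = dir (a.fv i) + ∫ p, ‖(D (a.Fp i) p).fst‖ ^ 2 :=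
    fun i => by
      have := MB6_orth (hf i) hΦ h.mb.nΦ (hP i) (h.orth.mono fun x hx => hx i)
      rw [← this]
      congr 1
      funext p
      congr 4
      funext q
      simp only [Dat.Fp]
      ring
  have e2 : dir a.md.g ≤ ∑ i, ∫ p, ‖(D (a.Fp i) p).fst‖ ^ 2 := by
    obtain ⟨s1, -, s3, -⟩ := snorm_h1 hP
    have i1 : ∀ i, Integrable fun p => ‖(D (a.Fp i) p).fst‖ ^ 2 := fun i =>
      (S08_mem_fst (hP i).dl2).norm.integrable_sq
    simp only [fun i => integral_pt (i1 i)]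
    rw [← integral_finsetSum _ fun i _ => (integrable_pt (i1 i)).2]
    exact integral_mono_ae (S11_int_normsq s1.dl2)
      (integrable_finsetSum _ fun i _ => (integrable_pt (i1 i)).2) s3
  have e3 := MB6_kin hψ h.mb.gs.anti
  have e4 := MB6_pot a.o.d hψ h.mb.gs.anti
  have e5 : Q (V3 (vx a.o.d)) a.ψ ≤ a.E3 := by
    rw [h.mb.E3e, U3_eq]
    exact Q_le_add_pot (opB_V3 _) opB_W3 hψ h.mb.l0.1.le W3_nonneg
  have e6 := h.mb.E3b.2
  have e7 : ∑ i, ∫ p, ‖(D (a.F i) p).fst‖ ^ 2 = dir a.ψ := e3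
  simp only [e1, Finset.sum_add_distrib] at e7
  rw [Fin.sum_univ_two] at e7
  have e8 := S11_dir_nonneg (a.fv 1)
  have e9 : dir (a.fv 0) = dir a.md.f := rfl
  have e10 : ∫ x, a.o.v x * a.md.r x ^ 2 = ∫ p, V3 (vx a.o.d) p * a.ψ p ^ 2 := e4
  unfold Q at e5
  linarith


end

end Crest.Agent.R335
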