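import Crest.Agent.R335.MB5
import Crest.Agent.R335.MB3a

/-! Row 335, module MB: the fields `ho`, `w_bd`, `ef_bd`, `sg`. -/

set_option autoImplicit false
set_option linter.unusedSectionVars false

open MeasureTheory Set Filter Topology Metric
open scoped Gradient ContDiff RealInnerProductSpace ENNReal

namespace Crest.Agent.R335

noncomputable section

theorem MB7_cs {u w : E6 → ℝ} (hu : MemLp u 2 volume) (hw : MemLp w 2 volume) :
    |∫ y, u y * w y| ≤ √(nsq u) * √(nsq w) := by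
  rw [← Real.sqrt_mul (S11_nsq_nonneg u)]
  exact Real.abs_le_sqrt (S11_cs hu hw)

theorem MB7_loc {S : E → ℝ} (h : MemLp S 2 volume) {K : Set E} (hK : IsCompact K) :
    IntegrableOn S K volume := by
  have : Fact (volume K < ⊤) := ⟨hK.measure_lt_top⟩
  exact (h.restrict K).integrable (by norm_num)

theorem MB7_pot (d t : ℝ) {u : E → ℝ} (h : H1 u) :
    MemLp (fun x => -((vx d x + t) * u x)) 2 volume := by
  have h1 := (((opB_vx d).bd u h).1.add (h.l2.const_mul t)).neg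
  refine h1.congr_norm h1.1 (Eventually.of_forall fun x => rfl) |>.ae_eq ?_
  refine Eventually.of_forall fun x => ?_
  simp only [Pi.neg_apply, Pi.add_apply]
  ring

/-- pairing of `W Φ` with a slice orthogonal to `Φ` -/
theorem MB7_pair {K A : ℝ} {Φ P : E6 → ℝ} {x : E} (hΦ : MemLp Φ 2 volume) (hP : MemLp P 2 volume)
    (ho : ip Φ P = 0) (h1 : MemLp (fun y => (Wx x y - 2 / jb x) * Φ y) 2 volume)
    (h2 : √(nsq fun y => (Wx x y - 2 / jb x) * Φ y) ≤ K * √A / jb x ^ 2) :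
    Integrable (fun y => Wx x y * Φ y * P y) ∧
      |∫ y, Wx x y * Φ y * P y| ≤ K * √A / jb x ^ 2 * √(nsq P) := by
  have i1 : Integrable fun y => (Wx x y - 2 / jb x) * Φ y * P y := h1.integrable_mul hP
  have i2 : Integrable fun y => 2 / jb x * (Φ y * P y) := (hΦ.integrable_mul hP).const_mul _
  have e : (fun y => Wx x y * Φ y * P y) =
      fun y => (Wx x y - 2 / jb x) * Φ y * P y + 2 / jb x * (Φ y * P y) := by
    funext y
    ring
  refine ⟨e ▸ i1.add i2, ?_⟩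
  have ho' : ∫ y, Φ y * P y = 0 := ho
  rw [e, integral_add i1 i2, integral_const_mul, ho', mul_zero, add_zero]
  exact (MB7_cs h1 hP).trans (mul_le_mul_of_nonneg_right h2 (Real.sqrt_nonneg _))

theorem MB7_w {K : ℝ} {a : Dat} (h : a.OK) {x : E}
    (h1 : MemLp (fun y => (Wx x y - 2 / jb x) * a.Φ y) 2 volume)
    (h2 : √(nsq fun y => (Wx x y - 2 / jb x) * a.Φ y) ≤ K * √a.c / jb x ^ 2) :
    |a.w x - 2 / jb x| ≤ K * √a.c / jb x ^ 2 := by
  have hΦ := h.mb.sΦ.h1.l2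
  have i1 : Integrable fun y => (Wx x y - 2 / jb x) * a.Φ y * a.Φ y := h1.integrable_mul hΦ
  have i2 : Integrable fun y => 2 / jb x * a.Φ y ^ 2 := hΦ.integrable_sq.const_mul _
  have e : (fun y => Wx x y * a.Φ y ^ 2) =
      fun y => (Wx x y - 2 / jb x) * a.Φ y * a.Φ y + 2 / jb x * a.Φ y ^ 2 := by
    funext y
    ring
  have hn : ∫ y, a.Φ y ^ 2 = 1 := h.mb.nΦ
  have e2 : a.w x - 2 / jb x = ∫ y, (Wx x y - 2 / jb x) * a.Φ y * a.Φ y := by
    rw [Dat.w, e, integral_add i1 i2, integral_const_mul, hn]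
    ring
  rw [e2]
  have := MB7_cs h1 hΦ
  rw [h.mb.nΦ, Real.sqrt_one, mul_one] at this
  exact this.trans h2

/-- `snorm_sub`, `srem_eq`, `low2`, `W ≥ 0` -/
theorem Dat.OK.f_ho {a : Dat} (h : a.OK) :
    Sub univ a.md.r fun x => -((a.o.v x + a.md.I) * a.md.r x) := by
  have hl := h.mb.l0
  refine snorm_sub (P := a.F) (A := fun i => a.rhs a.V (a.F i) (a.BF i)) h.solF
    (fun K hK _ => MB7_loc (MB7_pot a.o.d a.md.I h.h1.1) hK) ?_
  filter_upwards [a.srem_eq hl.1.le hl.2 a.V (fun i => (h.solF i).h1) h.BF_l2] with x hx _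
  obtain ⟨hs, he⟩ := hx
  refine ⟨?_, fun h0 => ?_⟩
  · have q : a.E2 * snorm a.F x ^ 2 ≤ a.Q2 a.F x := by
      rw [snorm_sq, Finset.mul_sum]
      exact Finset.sum_le_sum fun i _ => h.mb.low2 _ (hs i).1
    have b : ∑ i, ∫ y, a.BF i (pt x y) * a.F i (pt x y) ≤ 0 := by
      refine Finset.sum_nonpos fun i _ => integral_nonpos fun y => ?_
      have h1 : 0 ≤ Wx x y := Wx_nonneg x y
      have h2 : a.BF i (pt x y) * a.F i (pt x y) = -(a.l * (Wx x y * a.F i (pt x y) ^ 2)) := by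
        show -(a.l * (Wx x y * a.F i (pt x y))) * a.F i (pt x y) = _
        ring
      have h3 : 0 ≤ a.l * (Wx x y * a.F i (pt x y) ^ 2) := by
        have := hl.1.le
        positivity
      show a.BF i (pt x y) * a.F i (pt x y) ≤ 0
      linarith
    rw [he]
    show _ ≤ -((a.o.v x + (a.E2 - a.E3)) * snorm a.F x) * snorm a.F x
    simp only [Dat.V]
    nlinarith
  · show 0 ≤ -((a.o.v x + (a.E2 - a.E3)) * snorm a.F x)
    rw [h0]
    simp

theorem f_w_bd : Un fun C a => ∀ x, 0 ≤ a.w x ∧ a.w x ≤ C ∧ |a.w x - 2 / jb x| ≤ C / jb x ^ 2 := by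
  obtain ⟨K, hK, H⟩ := Dec_W_sub
  refine Un.of (fun _ c => 2 + K * √c) fun C a h _ _ hC x => ?_
  obtain ⟨h1, h2⟩ := H a.Φ a.c h.decΦ x
  have h3 := MB7_w h h1 h2
  have hj := MB_one_le_jb x
  have hK0 : 0 ≤ K * √a.c := by positivity
  have hj2 : 1 ≤ jb x ^ 2 := one_le_pow₀ hj
  refine ⟨integral_nonneg fun y => mul_nonneg (Wx_nonneg x y) (sq_nonneg _), ?_, ?_⟩
  · have e1 : 2 / jb x ≤ 2 := div_le_self (by norm_num) hj
    have e2 : K * √a.c / jb x ^ 2 ≤ K * √a.c := div_le_self hK0 hj2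
    have := (abs_le.1 h3).2
    linarith
  · refine h3.trans (div_le_div_of_nonneg_right ?_ (by positivity))
    linarith

theorem MB7_F_eq (a : Dat) (i : Fin 2) (x : E) (y : E6) :
    a.F i (pt x y) = a.Fp i (pt x y) + a.fv i x * a.Φ y := by
  show _ = a.F i (pt x y) - a.fv i x * a.Φ y + a.fv i x * a.Φ y
  ring

/-- `ef = -l ⟨(W - 2/jb)Φ, Fp 0⟩` by `orth` -/
theorem f_ef_bd : Un fun C a => ∀ᵐ x, |a.ef x| ≤ C * a.l / jb x ^ 2 * a.md.g x := by
  obtain ⟨K, hK, H⟩ := Dec_W_sub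
  refine Un.of (fun _ c => K * √c) fun C a h _ _ hC => ?_
  have hl := h.mb.l0
  filter_upwards [h.orth, memLp_slice_snd (h.sol_Fp 0).1.h1.l2] with x ho hP
  obtain ⟨h1, h2⟩ := H a.Φ a.c h.decΦ x
  obtain ⟨i1, b1⟩ := MB7_pair h.mb.sΦ.h1.l2 hP (ho 0) h1 h2
  have i2 : Integrable fun y => a.f x * (Wx x y * a.Φ y ^ 2) :=
    ((opB_Wx x).int h.mb.sΦ.h1).const_mul _
  have e : a.WF 0 x = (∫ y, Wx x y * a.Φ y * a.Fp 0 (pt x y)) + a.f x * a.w x := by
    rw [Dat.WF, Dat.w, ← integral_const_mul, ← integral_add i1 i2]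
    refine integral_congr_ae (Eventually.of_forall fun y => ?_)
    show Wx x y * a.F 0 (pt x y) * a.Φ y = _
    rw [MB7_F_eq]
    show Wx x y * (a.Fp 0 (pt x y) + a.f x * a.Φ y) * a.Φ y = _
    ring
  have e2 : a.ef x = -(a.l * ∫ y, Wx x y * a.Φ y * a.Fp 0 (pt x y)) := by
    rw [Dat.ef, e]
    ring
  have hj := MB_one_le_jb x
  have hg : √(nsq fun y => a.Fp 0 (pt x y)) ≤ a.md.g x := snorm_comp_le a.Fp x 0
  rw [e2, abs_neg, abs_mul, abs_of_pos hl.1]
  have hK0 : 0 ≤ K * √a.c := by positivity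
  have s1 : K * √a.c / jb x ^ 2 * √(nsq fun y => a.Fp 0 (pt x y)) ≤ C / jb x ^ 2 * a.md.g x :=
    mul_le_mul (div_le_div_of_nonneg_right hC (by positivity)) hg (Real.sqrt_nonneg _)
      (div_nonneg (hK0.trans hC) (by positivity))
  calc a.l * |∫ y, Wx x y * a.Φ y * a.Fp 0 (pt x y)| ≤ a.l * (C / jb x ^ 2 * a.md.g x) :=
        mul_le_mul_of_nonneg_left (b1.trans s1) hl.1.le
    _ = C * a.l / jb x ^ 2 * a.md.g x := by ring

/-- `⟨Bp, Fp⟩ = -l⟨W Fp, Fp⟩ - l fv ⟨(W - 2/jb)Φ, Fp⟩` -/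
theorem Bp_pair : Un fun C a => ∀ᵐ x, ∑ i, ∫ y, a.Bp i (pt x y) * a.Fp i (pt x y) ≤
    C * a.l / jb x ^ 2 * |a.f x| * a.md.g x := by
  obtain ⟨K, hK, H⟩ := Dec_W_sub
  refine Un.of (fun _ c => K * √c) fun C a h _ _ hC => ?_
  have hl := h.mb.l0
  filter_upwards [h.orth, a.srem_eq hl.1.le hl.2 a.V (fun i => (h.sol_Fp i).1.h1)
    (fun i => (h.sol_Fp i).2)] with x ho hx
  obtain ⟨hs, -⟩ := hx
  obtain ⟨h1, h2⟩ := H a.Φ a.c h.decΦ x
  have hj := MB_one_le_jb x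
  have hK0 : 0 ≤ K * √a.c := by positivity
  have key : ∀ i, ∫ y, a.Bp i (pt x y) * a.Fp i (pt x y) ≤
      C * a.l / jb x ^ 2 * |a.fv i x| * a.md.g x := by
    intro i
    have hP := (hs i).1
    obtain ⟨i1, b1⟩ := MB7_pair h.mb.sΦ.h1.l2 hP.l2 (ho i) h1 h2
    have i2 : Integrable fun y => Wx x y * a.Fp i (pt x y) ^ 2 := (opB_Wx x).int hP
    have i3 : Integrable fun y => a.Φ y * a.Fp i (pt x y) := h.mb.sΦ.h1.l2.integrable_mul hP.l2
    have ho' : ∫ y, a.Φ y * a.Fp i (pt x y) = 0 := ho i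
    have e : ∫ y, a.Bp i (pt x y) * a.Fp i (pt x y) =
        (-a.l * ∫ y, Wx x y * a.Fp i (pt x y) ^ 2) +
          (-(a.l * a.fv i x) * ∫ y, Wx x y * a.Φ y * a.Fp i (pt x y)) +
          a.l * a.WF i x * ∫ y, a.Φ y * a.Fp i (pt x y) := by
      have i4 : Integrable fun y => -a.l * (Wx x y * a.Fp i (pt x y) ^ 2) +
          -(a.l * a.fv i x) * (Wx x y * a.Φ y * a.Fp i (pt x y)) :=
        (i2.const_mul _).add (i1.const_mul _)
      rw [← integral_const_mul, ← integral_const_mul, ← integral_const_mul,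
        ← integral_add (i2.const_mul _) (i1.const_mul _), ← integral_add i4 (i3.const_mul _)]
      refine integral_congr_ae (Eventually.of_forall fun y => ?_)
      show (-(a.l * (Wx x y * a.F i (pt x y))) + a.l * (a.WF i x * a.Φ y)) * a.Fp i (pt x y) = _
      rw [MB7_F_eq]
      ring
    have n1 : 0 ≤ ∫ y, Wx x y * a.Fp i (pt x y) ^ 2 :=
      integral_nonneg fun y => mul_nonneg (Wx_nonneg x y) (sq_nonneg _)
    have hg : √(nsq fun y => a.Fp i (pt x y)) ≤ a.md.g x := snorm_comp_le a.Fp x i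
    have s1 : K * √a.c / jb x ^ 2 * √(nsq fun y => a.Fp i (pt x y)) ≤ C / jb x ^ 2 * a.md.g x :=
      mul_le_mul (div_le_div_of_nonneg_right hC (by positivity)) hg (Real.sqrt_nonneg _)
        (div_nonneg (hK0.trans hC) (by positivity))
    have s2 : -(a.l * a.fv i x) * ∫ y, Wx x y * a.Φ y * a.Fp i (pt x y) ≤
        a.l * |a.fv i x| * (C / jb x ^ 2 * a.md.g x) := by
      refine (le_abs_self _).trans ?_
      rw [abs_mul, abs_neg, abs_mul, abs_of_pos hl.1]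
      exact mul_le_mul_of_nonneg_left (b1.trans s1) (mul_nonneg hl.1.le (abs_nonneg _))
    have s3 : 0 ≤ a.l * ∫ y, Wx x y * a.Fp i (pt x y) ^ 2 := mul_nonneg hl.1.le n1
    rw [e, ho', mul_zero, add_zero]
    have e3 : C * a.l / jb x ^ 2 * |a.fv i x| * a.md.g x =
        a.l * |a.fv i x| * (C / jb x ^ 2 * a.md.g x) := by ring
    rw [e3]
    linarith
  rw [Fin.sum_univ_two]
  have k0 : _ ≤ C * a.l / jb x ^ 2 * |a.f x| * a.md.g x := key 0
  have k1 : _ ≤ C * a.l / jb x ^ 2 * |(0 : ℝ)| * a.md.g x := key 1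
  rw [abs_zero, mul_zero, zero_mul] at k1
  linarith

/-- `snorm_sub`, `srem_eq`, `gap2`, `Bp_pair` -/
theorem f_sg : Un fun C a => Sub univ a.md.g fun x =>
    -((a.o.v x + a.md.I + a.md.dt) * a.md.g x) + C * a.l / jb x ^ 2 * |a.f x| := by
  intro o c ho hc
  obtain ⟨c', l0, h1, h2, H⟩ := Bp_pair o c ho hc
  refine ⟨c', l0, h1, h2, fun a h e1 e2 hl0 C hC => ?_⟩
  have hB := H a h e1 e2 hl0 C hC
  have hl := h.mb.l0
  have hC0 : 0 ≤ C := by linarith
  refine snorm_sub (P := a.Fp) (A := fun i => a.rhs a.V (a.Fp i) (a.Bp i))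
    (fun i => (h.sol_Fp i).1) (fun K hK _ => ?_) ?_
  · have m1 := MB7_loc (MB7_pot a.o.d (a.md.I + a.md.dt) h.h1.2.2.2.1) hK
    have m2 : Continuous fun x => C * a.l / jb x ^ 2 * |a.f x| := by
      refine Continuous.mul (continuous_const.div (MB_jb_cont.pow 2) fun x => ?_) h.cf.1.abs
      have := MB_one_le_jb x
      positivity
    refine (m1.add (m2.continuousOn.integrableOn_compact hK)).congr
      (Eventually.of_forall fun x => ?_)
    simp only [Pi.add_apply, OD.v, add_assoc]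
  · filter_upwards [h.orth, hB, a.srem_eq hl.1.le hl.2 a.V (fun i => (h.sol_Fp i).1.h1)
      (fun i => (h.sol_Fp i).2)] with x ho hb hx _
    obtain ⟨hs, he⟩ := hx
    refine ⟨?_, fun h0 => ?_⟩
    · have q : (a.o.eg + a.o.eu) * snorm a.Fp x ^ 2 ≤ a.Q2 a.Fp x := by
        rw [snorm_sq, Finset.mul_sum]
        exact Finset.sum_le_sum fun i _ => h.mb.gap2 _ (hs i).1 (ho i)
      rw [he]
      have hb' : _ ≤ C * a.l / jb x ^ 2 * |a.f x| * snorm a.Fp x := hb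
      show _ ≤ (-((a.o.v x + (a.E2 - a.E3) + (a.o.eg + a.o.eu - a.E2)) * snorm a.Fp x) +
        C * a.l / jb x ^ 2 * |a.f x|) * snorm a.Fp x
      simp only [Dat.V]
      nlinarith
    · show 0 ≤ -((a.o.v x + (a.E2 - a.E3) + (a.o.eg + a.o.eu - a.E2)) * snorm a.Fp x) +
        C * a.l / jb x ^ 2 * |a.f x|
      have := hl.1.le
      rw [h0, mul_zero, neg_zero, zero_add]
      positivity

end

end Crest.Agent.R335
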