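import Crest.Agent.R335.S12
import Crest.Agent.R335.Y1
import Crest.Agent.R335.Y2
import Crest.Agent.R335.S04

set_option autoImplicit false

open MeasureTheory Set Filter Topology Metric
open scoped Gradient ContDiff RealInnerProductSpace ENNReal

namespace Crest.Agent.R335

noncomputable section

theorem Y3_int_le {f g : E → ℝ} (hg : Integrable g) (h0 : ∀ᵐ x, 0 ≤ g x)
    (h : ∀ᵐ x, f x ≤ g x) : ∫ x, f x ≤ ∫ x, g x := by
  by_cases hf : Integrable f
  · exact integral_mono_ae hf hg h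
  · rw [integral_undef hf]
    exact integral_nonneg_of_ae h0

theorem Y3_int3 {f g h : E → ℝ} (hf : Integrable f) (hg : Integrable g) (hh : Integrable h)
    (a b c : ℝ) : Integrable (fun x => a * f x + b * g x + c * h x) ∧
      ∫ x, (a * f x + b * g x + c * h x) = a * (∫ x, f x) + b * (∫ x, g x) + c * ∫ x, h x := by
  have h1 : Integrable (fun x => a * f x + b * g x) := (hf.const_mul a).add (hg.const_mul b)
  refine ⟨h1.add (hh.const_mul c), ?_⟩
  rw [integral_add h1 (hh.const_mul c), integral_add (hf.const_mul a) (hg.const_mul b),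
    integral_const_mul, integral_const_mul, integral_const_mul]

theorem Y3_grad_shift (f : E → ℝ) (c x : E) : ∇ (fun y => f (y - c)) x = ∇ f (x - c) := by
  unfold gradient
  rw [fderiv_comp_sub]

theorem Y3_lap_shift (f : E → ℝ) (c x : E) : lap (fun y => f (y - c)) x = lap f (x - c) := by
  unfold lap dvg
  have : ∇ (fun y => f (y - c)) = fun y => ∇ f (y - c) := funext fun y => Y3_grad_shift f c y
  rw [this, fderiv_comp_sub]

theorem Y3_lap_zero {f : E → ℝ} {x : E} (hx : x ∉ tsupport f) : lap f x = 0 := by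
  unfold lap dvg
  have : ∇ f =ᶠ[𝓝 x] fun _ => 0 := by
    filter_upwards [(isClosed_tsupport f).isOpen_compl.mem_nhds hx] with y hy
    exact s01_grad_zero hy
  rw [this.fderiv_eq]
  simp

/-- cutoffs with translation invariant bounds -/
theorem Y3_cut {r s : ℝ} (hr : 0 ≤ r) (hs : 0 < s) : ∃ L : ℝ, 0 ≤ L ∧ ∀ c : E, ∃ j : E → ℝ,
    ContDiff ℝ 2 j ∧ HasCompactSupport j ∧ (∀ x, 0 ≤ j x ∧ j x ≤ 1) ∧
      (∀ x, ‖x - c‖ ≤ r → j x = 1) ∧ tsupport j ⊆ closedBall c (r + s) ∧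
      (∀ x, ‖∇ j x‖ ≤ 4 / s) ∧ ∀ x, |lap j x| ≤ L := by
  obtain ⟨j, j1, j2, j3, j4, j5, j6, -⟩ := exists_cutoff (0 : E) hr hs
  have j1' : ContDiff ℝ 2 j := contDiff_infty.1 j1 2
  have hc : Continuous (lap j) := continuousOn_univ.1 (S12_lap_cont isOpen_univ j1'.contDiffOn)
  obtain ⟨L, hL⟩ := s01_bd_cpt hc j2.isCompact
  refine ⟨max L 0, le_max_right _ _, fun c => ?_⟩
  have hs : tsupport (fun y => j (y - c)) ⊆ closedBall c (r + s) := by
    refine closure_minimal (fun y hy => ?_) isClosed_closedBall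
    rw [mem_closedBall, dist_eq_norm]
    by_contra h
    exact hy (j5 _ (by rw [sub_zero]; exact (not_le.1 h).le))
  refine ⟨fun y => j (y - c), j1'.comp (contDiff_id.sub contDiff_const),
    (isCompact_closedBall c (r + s)).of_isClosed_subset (isClosed_tsupport _) hs,
    fun x => j3 _, fun x hx => j4 _ (by rwa [sub_zero]), hs, fun x => ?_, fun x => ?_⟩
  · rw [Y3_grad_shift]
    exact j6 _
  · rw [Y3_lap_shift]
    by_cases h : x - c ∈ tsupport j
    · exact (hL _ h).trans (le_max_left _ _)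
    · rw [Y3_lap_zero h, abs_zero]
      exact le_max_right _ _

theorem Y3_pt {B M G p η d w : ℝ} (hB : 0 ≤ B) (hM : 0 ≤ M) (hp : 0 ≤ p) (h0 : 0 ≤ η)
    (h1 : η ≤ 1) (hd : 0 ≤ d) (hw : η * d ≤ w + p * G) :
    (B * p + B * d + M) * p * η ^ 2 ≤
      1 / 4 * w ^ 2 + (B + B ^ 2 + B * G + 1 / 2) * p ^ 2 + 1 / 2 * M ^ 2 * 1 ^ 2 := by
  have a0 : η ^ 2 ≤ 1 := pow_le_one₀ h0 h1
  have a1 : B * p ^ 2 * η ^ 2 ≤ B * p ^ 2 := mul_le_of_le_one_right (by positivity) a0
  have a2 : M * p * η ^ 2 ≤ M * p := mul_le_of_le_one_right (by positivity) a0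
  have a3 : B * p * (η * d) * η ≤ B * p * (η * d) := mul_le_of_le_one_right (by positivity) h1
  have a4 : B * p * (η * d) ≤ B * p * (w + p * G) := mul_le_mul_of_nonneg_left hw (by positivity)
  linarith [sq_nonneg (w / 2 - B * p), sq_nonneg (M - p)]

theorem Y3_tri {η p G : ℝ} {d g w : E} (h0 : 0 ≤ η) (hg : ‖g‖ ≤ G) (hw : w = η • d + p • g) :
    η * ‖d‖ ≤ ‖w‖ + |p| * G := by
  have e : η • d = w - p • g := by rw [hw, add_sub_cancel_right]
  calc η * ‖d‖ = ‖η • d‖ := by rw [norm_smul, Real.norm_of_nonneg h0]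
    _ ≤ ‖w‖ + ‖p • g‖ := by rw [e]; exact norm_sub_le _ _
    _ ≤ _ := by
      rw [norm_smul, Real.norm_eq_abs]
      exact add_le_add le_rfl (mul_le_mul_of_nonneg_left hg (abs_nonneg _))

theorem Y3_sq3 (a b c α β γ : ℝ) :
    (a * α + b * β + c * γ) ^ 2 ≤ 3 * a ^ 2 * α ^ 2 + 3 * b ^ 2 * β ^ 2 + 3 * c ^ 2 * γ ^ 2 := by
  linarith [sq_nonneg (a * α - b * β), sq_nonneg (a * α - c * γ), sq_nonneg (b * β - c * γ)]

/-- Caccioppoli inequality -/
theorem Y3_cacc {p η : E → ℝ} {Ω : Set E} {B M G : ℝ} (hB : 0 ≤ B) (hM : 0 ≤ M) (hG : 0 ≤ G)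
    (h0 : ∀ᵐ x, x ∈ Ω → 0 ≤ p x) (hp : LB p)
    (hs : Sub Ω p (fun x => B * p x + B * ‖D p x‖ + M)) (hη : Tst η)
    (hη1 : ∀ x, 0 ≤ η x ∧ η x ≤ 1) (hηs : tsupport η ⊆ Ω) (hηg : ∀ x, ‖∇ η x‖ ≤ G)
    (hP : MemLp (Ω.indicator p) 2 volume) (hI : MemLp (Ω.indicator fun _ => (1 : ℝ)) 2 volume) :
    dir (fun x => η x * p x) ≤ 4 * (B + B ^ 2 + B * G + 1 / 2 + G ^ 2 / 2) * nsq (Ω.indicator p) +
      2 * M ^ 2 * nsq (Ω.indicator fun _ => (1 : ℝ)) := by
  have he := WSub.energy aestronglyMeasurable_const S12_lb_one hs hp (by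
    filter_upwards [h0] with x hx hne
    exact hx (hηs (subset_tsupport _ hne))) (hη.tf hηs)
  have hH := hs.hl.mul_tst hη
  have i1 := hH.dl2.norm.integrable_sq
  have i2 := hP.integrable_sq
  have i3 := hI.integrable_sq
  obtain ⟨i4, e4⟩ := Y3_int3 i1 i2 i3 (1 / 4) (B + B ^ 2 + B * G + 1 / 2) (1 / 2 * M ^ 2)
  have b1 : ∫ x, (B * p x + B * ‖D p x‖ + M) * p x * η x ^ 2 ≤ _ := Y3_int_le i4
    (Eventually.of_forall fun x => by positivity) (by
      filter_upwards [h0, D_mul_c1 hs.hl hη.1] with x hx e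
      by_cases hx1 : x ∈ Ω
      · rw [indicator_of_mem hx1, indicator_of_mem hx1]
        have := Y3_tri (hη1 x).1 (hηg x) e
        rw [abs_of_nonneg (hx hx1)] at this
        exact Y3_pt hB hM (hx hx1) (hη1 x).1 (hη1 x).2 (norm_nonneg _) this
      · have : η x = 0 := image_eq_zero_of_notMem_tsupport fun h => hx1 (hηs h)
        rw [this]
        have : (B * p x + B * ‖D p x‖ + M) * p x * 0 ^ 2 = 0 := by ring
        rw [this]
        positivity)
  have b2 : ∫ x, (1 / 2) * 1 * p x ^ 2 * ‖D η x‖ ^ 2 ≤ _ := Y3_int_le (i2.const_mul (G ^ 2 / 2))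
    (Eventually.of_forall fun x => by positivity) (by
      filter_upwards [D_c1 hη.1] with x e
      rw [e]
      by_cases hx1 : x ∈ Ω
      · rw [indicator_of_mem hx1]
        have := mul_le_mul_of_nonneg_left (pow_le_pow_left₀ (norm_nonneg _) (hηg x) 2)
          (sq_nonneg (p x))
        linarith
      · rw [s01_grad_zero fun h => hx1 (hηs h), norm_zero]
        have : (1 / 2 : ℝ) * 1 * p x ^ 2 * 0 ^ 2 = 0 := by ring
        rw [this]
        positivity)
  rw [e4] at b1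
  rw [integral_const_mul] at b2 he
  unfold dir nsq
  linarith

/-- local sup bound for nonnegative subsolutions -/
theorem local_sup (a B : ℝ) (ha : 0 < a) (hB : 0 ≤ B) : ∃ C : ℝ, 0 < C ∧
    ∀ (p : E → ℝ) (x₀ : E) (M : ℝ), 0 ≤ M → (∀ᵐ x, x ∈ ball x₀ (2 * a) → 0 ≤ p x) → LB p →
      Sub (ball x₀ (2 * a)) p (fun x => B * p x + B * ‖D p x‖ + M) →
      ∀ᵐ x, x ∈ ball x₀ a → p x ≤ C * (√(∫ y in ball x₀ (2 * a), p y ^ 2) + M) := by
  obtain ⟨L, hL, hj⟩ := Y3_cut (r := a) (s := a / 4) ha.le (by positivity)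
  obtain ⟨L', -, hη⟩ := Y3_cut (r := a + a / 4) (s := a / 4) (by positivity) (by positivity)
  set G : ℝ := 4 / (a / 4) with hGdef
  have hG : 0 ≤ G := by positivity
  set v : ℝ := volume.real (ball (0 : E) (2 * a)) with hvdef
  have hv : 0 ≤ v := measureReal_nonneg
  set c₀ : ℝ := B + B ^ 2 + B * G + 1 / 2 + G ^ 2 / 2 with hc₀
  set c₁ : ℝ := B + L / 2 + 1 / 2 + (B + G) * G with hc₁
  set c₂ : ℝ := B + G with hc₂
  have hc₀0 : 0 ≤ c₀ := by positivity
  have hc₁0 : 0 ≤ c₁ := by positivity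
  have hc₂0 : 0 ≤ c₂ := by positivity
  set K : ℝ := 3 * c₁ ^ 2 + 12 * c₂ ^ 2 * c₀ + 6 * c₂ ^ 2 * v + 3 * v + 1 with hK
  have hK0 : 0 < K := by positivity
  refine ⟨√K, Real.sqrt_pos.2 hK0, fun p x₀ M hM h0 hp hs => ?_⟩
  obtain ⟨j, j1, j2, j3, j4, j5, j6, j7⟩ := hj x₀
  obtain ⟨η, η1, η2, η3, η4, η5, η6, -⟩ := hη x₀
  set Ω := ball x₀ (2 * a) with hΩ
  have hΩm : MeasurableSet Ω := measurableSet_ball
  have hjΩ : tsupport j ⊆ Ω := j5.trans (closedBall_subset_ball (by linarith))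
  have hηΩ : tsupport η ⊆ Ω := η5.trans (closedBall_subset_ball (by linarith))
  have hjt : Tst j := ⟨j1.of_le (by norm_num), j2⟩
  have hηt : Tst η := ⟨η1.of_le (by norm_num), η2⟩
  have hP : MemLp (Ω.indicator p) 2 volume := by
    rw [memLp_indicator_iff_restrict hΩm]
    exact (hs.hl.l2 _ (isCompact_closedBall x₀ (2 * a))).mono_measure
      (Measure.restrict_mono ball_subset_closedBall le_rfl)
  have hI : MemLp (Ω.indicator fun _ => (1 : ℝ)) 2 volume :=
    memLp_indicator_const 2 hΩm 1 (Or.inr measure_ball_lt_top.ne)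
  have eP : nsq (Ω.indicator p) = ∫ y in Ω, p y ^ 2 := by
    unfold nsq
    rw [← integral_indicator hΩm]
    refine integral_congr_ae (Eventually.of_forall fun x => ?_)
    by_cases hx : x ∈ Ω
    · simp only [indicator_of_mem hx]
    · simp [indicator_of_notMem hx]
  have eI : nsq (Ω.indicator fun _ => (1 : ℝ)) = v := by
    unfold nsq
    have : ∫ x, (Ω.indicator (fun _ => (1 : ℝ)) x) ^ 2 = ∫ x, Ω.indicator (fun _ => (1 : ℝ)) x := by
      refine integral_congr_ae (Eventually.of_forall fun x => ?_)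
      by_cases hx : x ∈ Ω
      · simp [indicator_of_mem hx]
      · simp [indicator_of_notMem hx]
    rw [this, integral_indicator hΩm, setIntegral_const, smul_eq_mul, mul_one, hΩ,
      Measure.addHaar_real_ball_center]
  have hcac := Y3_cacc hB hM hG h0 hp hs hηt η3 hηΩ η6 hP hI
  rw [eI, ← hc₀] at hcac
  have hH := hs.hl.mul_tst hηt
  have hu := hs.hl.mul_tst hjt
  set T : E → ℝ := fun x => c₁ * |Ω.indicator p x| + c₂ * ‖D (fun x => η x * p x) x‖ +
    M * Ω.indicator (fun _ => (1 : ℝ)) x with hT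
  have hT2 : MemLp T 2 volume :=
    ((hP.abs.const_mul c₁).add (hH.dl2.norm.const_mul c₂)).add (hI.const_mul M)
  have hsub : Sub univ (fun x => j x * p x) (fun x => T x - 1 ^ 2 / 2 * (j x * p x)) := by
    refine WSub.mono (hs.localize j1 (fun x => (j3 x).1) hjΩ) subset_rfl (fun K hK _ => ?_) ?_
    · exact S12_intOn hK ((hT2.sub (hu.l2.const_mul _)).restrict K)
    · filter_upwards [h0, D_mul_c1 hs.hl hηt.1] with x hx e _
      by_cases hx1 : x ∈ tsupport j
      · have hx2 := hjΩ hx1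
        have hη1 : η x = 1 := η4 x (by
          have := j5 hx1
          rwa [mem_closedBall, dist_eq_norm] at this)
        have t1 := Y3_tri (η3 x).1 (η6 x) e
        have hp0 := hx hx2
        simp only [hT, indicator_of_mem hx2]
        rw [hη1, one_mul, abs_of_nonneg hp0] at t1
        rw [abs_of_nonneg hp0]
        have t2 : j x * (B * p x + B * ‖D p x‖ + M) ≤ B * p x + B * ‖D p x‖ + M :=
          mul_le_of_le_one_left (by positivity) (j3 x).2
        have t3 : -⟪∇ j x, D p x⟫ ≤ G * ‖D p x‖ :=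
          (neg_le_abs _).trans ((abs_real_inner_le_norm _ _).trans
            (mul_le_mul_of_nonneg_right (j6 x) (norm_nonneg _)))
        have t4 : -lap j x * p x ≤ L * p x :=
          mul_le_mul_of_nonneg_right ((neg_le_abs _).trans (j7 x)) hp0
        have t5 : j x * p x ≤ p x := mul_le_of_le_one_left hp0 (j3 x).2
        have t6 := mul_le_mul_of_nonneg_left t1 hc₂0
        simp only [hc₁, hc₂] at t6 ⊢
        linarith only [t2, t3, t4, t5, t6]
      · rw [image_eq_zero_of_notMem_tsupport hx1, s01_grad_zero hx1, Y3_lap_zero hx1]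
        have : 0 ≤ T x := by
          have : 0 ≤ Ω.indicator (fun _ => (1 : ℝ)) x := indicator_nonneg (fun _ _ => zero_le_one) x
          simp only [hT]
          positivity
        simpa using this
  have hnsq : nsq T ≤ 3 * c₁ ^ 2 * nsq (Ω.indicator p) + 3 * c₂ ^ 2 * dir (fun x => η x * p x) +
      3 * M ^ 2 * nsq (Ω.indicator fun _ => (1 : ℝ)) := by
    obtain ⟨i4, e4⟩ := Y3_int3 hP.integrable_sq hH.dl2.norm.integrable_sq hI.integrable_sq
      (3 * c₁ ^ 2) (3 * c₂ ^ 2) (3 * M ^ 2)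
    unfold nsq dir
    rw [← e4]
    refine Y3_int_le i4 (Eventually.of_forall fun x => by positivity)
      (Eventually.of_forall fun x => ?_)
    simp only [hT]
    rw [← sq_abs (Ω.indicator p x)]
    generalize |Ω.indicator p x| = α
    generalize ‖D (fun x => η x * p x) x‖ = β
    generalize Ω.indicator (fun _ => (1 : ℝ)) x = γ
    exact Y3_sq3 _ _ _ _ _ _
  rw [eI] at hnsq
  rw [eP] at hnsq hcac
  set N : ℝ := ∫ y in Ω, p y ^ 2 with hN
  have hN0 : 0 ≤ N := integral_nonneg fun y => sq_nonneg _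
  have hfin : nsq T ≤ K * (√N + M) ^ 2 := by
    have q1 : N + M ^ 2 ≤ (√N + M) ^ 2 := by
      have u1 := Real.sq_sqrt hN0
      have u2 := mul_nonneg (Real.sqrt_nonneg N) hM
      rw [add_sq, u1]
      linarith only [u2]
    have q2 := mul_le_mul_of_nonneg_left hcac (show 0 ≤ 3 * c₂ ^ 2 by positivity)
    have q3 : 0 ≤ (6 * c₂ ^ 2 * v + 3 * v + 1) * N := by positivity
    have q4 : 0 ≤ (3 * c₁ ^ 2 + 12 * c₂ ^ 2 * c₀ + 1) * M ^ 2 := by positivity
    have q5 := mul_le_mul_of_nonneg_left q1 hK0.le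
    have q6 : K * (N + M ^ 2) = 3 * c₁ ^ 2 * N + 3 * c₂ ^ 2 * (4 * c₀ * N + 2 * M ^ 2 * v) +
        3 * M ^ 2 * v + (6 * c₂ ^ 2 * v + 3 * v + 1) * N +
        (3 * c₁ ^ 2 + 12 * c₂ ^ 2 * c₀ + 1) * M ^ 2 := by
      rw [hK]
      ring
    linarith only [q2, q3, q4, q5, q6, hnsq]
  filter_upwards [yukawa_le one_pos hu hT2 hsub] with x hx hxa
  rw [j4 x (by rw [← dist_eq_norm]; exact (mem_ball.1 hxa).le), one_mul] at hx
  refine hx.trans ?_
  have r1 := (YP_integrable one_pos hT2 x).2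
  have r2 : nsq T / (2 * Real.pi * 1) ≤ nsq T :=
    div_le_self (integral_nonneg fun y => sq_nonneg _) (by linarith [Real.pi_gt_three])
  refine (le_abs_self _).trans (abs_le_of_sq_le_sq' ?_ (by positivity) |> abs_le.2)
  rw [mul_pow, Real.sq_sqrt hK0.le]
  linarith only [r1, r2, hfin]

theorem Sol.of_tst {p A : E → ℝ} (hp : H1 p) (hA : MemLp A 2 volume)
    (h : ∀ χ, Tst χ → ∫ x, (1 / 2) * ⟪D p x, D χ x⟫ = ∫ x, A x * χ x) : Sol p A := by
  refine ⟨hp, hA, fun χ hχ => ?_⟩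
  obtain ⟨φ, φ1, φ2, φ3, -, -⟩ := hχ.approx_seq
  have ht : ∀ n, Tst (φ n) := fun n => S06_tst (φ1 n).1 (φ1 n).2
  have l1 := S06_lim hχ.dl2 (fun n => S06_grad_mem (ht n)) hp.dl2
    (squeeze_zero (fun n => integral_nonneg fun x => sq_nonneg _) φ3 S06_quarter)
  have l2 := S06_lim_mul hχ.l2 (fun n => (ht n).h1.l2) hA
    (squeeze_zero (fun n => integral_nonneg fun x => sq_nonneg _) φ2 S06_quarter)
  have e : ∀ n, (1 / 2) * ∫ x, ⟪∇ (φ n) x, D p x⟫ = ∫ x, A x * φ n x := by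
    intro n
    rw [← h _ (ht n), ← integral_const_mul]
    refine integral_congr_ae ?_
    filter_upwards [D_c1 (ht n).1] with x hx
    rw [hx, real_inner_comm]
  have l3 := l1.const_mul (1 / 2)
  simp only [e] at l3
  rw [← tendsto_nhds_unique l3 l2, ← integral_const_mul]
  refine integral_congr_ae (Eventually.of_forall fun x => ?_)
  beta_reduce
  rw [real_inner_comm]

end

end Crest.Agent.R335
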