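import Crest.Agent.R335.MA1
import Crest.Agent.R335.MA2
import Crest.Agent.R335.S13
import Crest.Agent.R335.S12
import Crest.Agent.R335.S10
import Crest.Agent.R335.Y1
import Crest.Agent.R335.Y3

/-! Row 335, module MB (channel equations): definitions. -/

set_option autoImplicit false

open MeasureTheory Set Filter Topology Metric
open scoped Gradient ContDiff RealInnerProductSpace ENNReal

namespace Crest.Agent.R335

noncomputable section

open Classical in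
/-- a continuous representative, if there is one -/
def crep (u : E → ℝ) : E → ℝ :=
  if h : ∃ w : E → ℝ, Continuous w ∧ ∀ᵐ x, w x = u x then h.choose else u

theorem crep_ae (u : E → ℝ) : ∀ᵐ x, crep u x = u x := by
  unfold crep
  split_ifs with h
  · exact h.choose_spec.2
  · exact Eventually.of_forall fun _ => rfl

theorem crep_cont {u A : E → ℝ} (h : Sol u A) : Continuous (crep u) := by
  have h1 : ∃ w : E → ℝ, Continuous w ∧ ∀ᵐ x, w x = u x := by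
    refine ⟨YP 1 fun y => A y + 1 ^ 2 / 2 * u y, YP_continuous one_pos ?_, ?_⟩
    · exact h.l2.add (h.h1.l2.const_mul _)
    · filter_upwards [yukawa_eq one_pos h] with x hx using hx.symm
  unfold crep
  rw [dif_pos h1]
  exact h1.choose_spec.1

/-- reflection of the two untagged electrons -/
def Ry (p : E9) : E9 := pt p.fst (R6 p.snd)
/-- part of `Wx x` even under `R6` -/
def We (x : E) (y : E6) : ℝ := (Wx x y + Wx (R x) y) / 2
/-- part of `Wx x` odd under `R6` -/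
def Wo (x : E) (y : E6) : ℝ := (Wx x y - Wx (R x) y) / 2
/-- the weight `e^{⟨y⟩/4}` -/
def wt (y : E6) : ℝ := Real.exp (√(1 + ‖y‖ ^ 2) / 4)
/-- `Φ` and its gradient decay exponentially outside the ball of radius `ρ₀` -/
def Dec (Φ : E6 → ℝ) (A : ℝ) : Prop :=
  H1 Φ ∧ Integrable (fun y => Real.exp ‖y‖ * (Φ y ^ 2 + ‖D Φ y‖ ^ 2)) ∧
    ∫ y, Real.exp ‖y‖ * (Φ y ^ 2 + ‖D Φ y‖ ^ 2) ≤ A

/-- the input of module MB -/
structure Dat where
  o : OD
  (c l E2 E3 : ℝ)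
  Φ : E6 → ℝ
  ψ : E9 → ℝ

namespace Dat

structure OK (a : Dat) : Prop where
  ho : a.o.OK
  hc : 1 ≤ a.c
  mb : MB a.o a.c a.l a.E2 a.E3 a.Φ a.ψ

variable (a : Dat)

/-- the two spin components -/
def F : Fin 2 → E9 → ℝ := comp a.ψ
/-- the unperturbed components -/
def F0 : Fin 2 → E9 → ℝ := comp (psi0 a.o.g0 a.o.u0)
/-- amplitude of the channel `Φ` -/
def f : E → ℝ := crep fun x => ∫ y, a.F 0 (pt x y) * a.Φ y
def fv : Fin 2 → E → ℝ := ![a.f, fun _ => 0]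
/-- part of `F` orthogonal to `Φ` -/
def Fp (i : Fin 2) (p : E9) : ℝ := a.F i p - a.fv i p.fst * a.Φ p.snd
/-- part of `F` odd in `y` (even in `x`) -/
def Fe (i : Fin 2) (p : E9) : ℝ := (a.F i p - a.F i (Ry p)) / 2
/-- part of `Fp` even in `y` (odd in `x`) -/
def Fo (i : Fin 2) (p : E9) : ℝ := a.Fp i p - a.Fe i p
def Pw (i : Fin 2) (p : E9) : ℝ := wt p.snd * a.F i p
def ug (y : E6) : ℝ := a.o.u0 y.fst * a.o.g0 y.snd
def s : E → ℝ := crep fun x => -∫ y, a.F 0 (pt x y) * a.ug y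
def w (x : E) : ℝ := ∫ y, Wx x y * a.Φ y ^ 2
def WF (i : Fin 2) (x : E) : ℝ := ∫ y, Wx x y * a.F i (pt x y) * a.Φ y
def ef (x : E) : ℝ := a.l * (a.w x * a.f x - a.WF 0 x)
def es (x : E) : ℝ :=
  a.l * ((∫ y, (W2 y + Wx x y) * a.F 0 (pt x y) * a.ug y) - a.o.U x * a.f x)
/-- `E₃ - v` -/
def V (x : E) : ℝ := a.E3 - a.o.v x
/-- right-hand side `(V(x) - U₂(y)) P + B` -/
def rhs (V : E → ℝ) (P B : E9 → ℝ) (p : E9) : ℝ := (V p.fst - U2 a.o.d a.l p.snd) * P p + B p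
def BF (i : Fin 2) (p : E9) : ℝ := -(a.l * (Wx p.fst p.snd * a.F i p))
def Bp (i : Fin 2) (p : E9) : ℝ := a.BF i p + a.l * (a.WF i p.fst * a.Φ p.snd)
def Be (i : Fin 2) (p : E9) : ℝ :=
  -(a.l * (We p.fst p.snd * a.Fe i p + Wo p.fst p.snd * (a.fv i p.fst * a.Φ p.snd + a.Fo i p)))
/-- slice form `Σ Q₂ (P i (x, ·))` -/
def Q2 {ι : Type} [Fintype ι] (P : ι → E9 → ℝ) (x : E) : ℝ :=
  ∑ i, Q (U2 a.o.d a.l) fun y => P i (pt x y)
/-- distance to the unperturbed state -/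
def hh : E → ℝ := snorm fun i p => a.F i p - a.F0 i p
/-- difference quotient of `Fp` -/
def Yq (k : E) (i : Fin 2) (p : E9) : ℝ := (a.Fp i (p + pt k 0) - a.Fp i p) / ‖k‖

def md : MD where
  l := a.l
  I := a.E2 - a.E3
  dt := a.o.eg + a.o.eu - a.E2
  r := snorm a.F
  f := a.f
  G := snorm a.Fe
  n := snorm a.Fo
  g := snorm a.Fp
  s := a.s
  N := snorm a.Pw
  w := a.w
  ef := a.ef
  es := a.es

/-- hypotheses of the field `lip` -/
def LipH (x₀ : E) (M : ℝ) : Prop :=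
  1 / 8 ≤ ‖x₀ - a.o.d • ez‖ ∧ 1 / 8 ≤ ‖x₀ + a.o.d • ez‖ ∧ 0 < M ∧
    (∀ᵐ y, y ∈ ball x₀ (1 / 10) → a.md.g y ≤ M) ∧
    ∀ y ∈ ball x₀ (1 / 10), a.l * |a.f y| ≤ M * jb x₀ ^ 2 ∧ ∀ y' ∈ ball x₀ (1 / 10),
      a.l * |a.f y - a.f y'| ≤ M * jb x₀ ^ 2 * ‖y - y'‖

end Dat

/-- slice Dirichlet energy `Σ ∫ |∇_y P i (x, ·)|²` -/
def sdir {ι : Type} [Fintype ι] (P : ι → E9 → ℝ) (x : E) : ℝ := ∑ i, dir fun y => P i (pt x y)

/-- `P C a` holds for all large `C` and all data with small coupling, uniformly given `a.o`, `a.c` -/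
def Un (P : ℝ → Dat → Prop) : Prop :=
  ∀ (o : OD) (c : ℝ), o.OK → 1 ≤ c → ∃ c' l0 : ℝ, 1 ≤ c' ∧ 0 < l0 ∧
    ∀ a : Dat, a.OK → a.o = o → a.c = c → a.l ≤ l0 → ∀ C, c' ≤ C → P C a

theorem Un.and {P Q : ℝ → Dat → Prop} (h : Un P) (h' : Un Q) : Un fun C a => P C a ∧ Q C a := by
  intro o c ho hc
  obtain ⟨c1, l1, h1, h2, h3⟩ := h o c ho hc
  obtain ⟨c2, l2, -, h5, h6⟩ := h' o c ho hc
  refine ⟨max c1 c2, min l1 l2, le_max_of_le_left h1, lt_min h2 h5, fun a ha e1 e2 hl C hC => ⟨?_, ?_⟩⟩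
  · exact h3 a ha e1 e2 (hl.trans (min_le_left _ _)) C ((le_max_left _ _).trans hC)
  · exact h6 a ha e1 e2 (hl.trans (min_le_right _ _)) C ((le_max_right _ _).trans hC)

/-- a statement with constant `C₁` gives one with any constant `C ≥ φ o c C₁` -/
theorem Un.imp {P Q : ℝ → Dat → Prop} (h : Un P) (φ : OD → ℝ → ℝ → ℝ)
    (H : ∀ (C₁ C : ℝ) (a : Dat), a.OK → 1 ≤ C₁ → a.c ≤ C₁ → C₁ ≤ C → φ a.o a.c C₁ ≤ C → P C₁ a →
      Q C a) : Un Q := by
  intro o c ho hc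
  obtain ⟨c1, l1, h1, h2, h3⟩ := h o c ho hc
  refine ⟨max (max c1 c) (φ o c (max c1 c)), l1, le_max_of_le_left (le_max_of_le_left h1), h2,
    fun a ha e1 e2 hl C hC => ?_⟩
  refine H (max c1 c) C a ha (le_max_of_le_left h1) (e2 ▸ le_max_right _ _)
    ((le_max_left _ _).trans hC) ?_ (h3 a ha e1 e2 hl _ (le_max_left _ _))
  rw [e1, e2]
  exact (le_max_right _ _).trans hC

theorem Un.of {Q : ℝ → Dat → Prop} (φ : OD → ℝ → ℝ)
    (H : ∀ (C : ℝ) (a : Dat), a.OK → 1 ≤ C → a.c ≤ C → φ a.o a.c ≤ C → Q C a) : Un Q := by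
  have h : Un fun _ _ => True := fun o c _ _ => ⟨1, 1, le_rfl, one_pos, fun _ _ _ _ _ _ _ => trivial⟩
  exact h.imp (fun o c _ => φ o c) fun C₁ C a ha h1 h2 h3 h4 _ => H C a ha (h1.trans h3) (h2.trans h3) h4

end

end Crest.Agent.R335
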