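import Crest.Agent.R335.ODefs

set_option autoImplicit false
set_option linter.unusedVariables false

open MeasureTheory Set Filter Topology Metric
open scoped Gradient ContDiff RealInnerProductSpace ENNReal

namespace Crest.Agent.R335

noncomputable section

/-! Module O: the potential. -/

theorem O_vx_meas (d : ℝ) : Measurable (vx d) := by
  unfold vx
  fun_prop

theorem O_vx_nonpos (d : ℝ) (x : E) : vx d x ≤ 0 := by
  unfold vx
  have h1 : 0 ≤ 1 / ‖x - d • ez‖ := by positivity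
  have h2 : 0 ≤ 1 / ‖x + d • ez‖ := by positivity
  linarith

theorem O_vx_eq (d : ℝ) (x : E) : vx d x = hv (d • ez) x + hv (-(d • ez)) x := by
  rw [hv_def, hv_def, sub_neg_eq_add, vx]
  ring

theorem O_R_sub_ez (d : ℝ) (x : E) :
    ‖R x - d • ez‖ = ‖x + d • ez‖ ∧ ‖R x + d • ez‖ = ‖x - d • ez‖ := by
  have h1 := norm_R_sub x (-(d • ez))
  have h2 := norm_R_sub x (d • ez)
  have h3 : R (-(d • ez)) = d • ez := by rw [← MA0_R_ez, R_R]
  rw [h3, sub_neg_eq_add] at h1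
  rw [MA0_R_ez, sub_neg_eq_add] at h2
  exact ⟨h1, h2⟩

/-- `hardy` -/
theorem O_hv_op (c : E) {u : E → ℝ} (h : H1 u) :
    MemLp (fun x => hv c x * u x) 2 volume ∧ nsq (fun x => hv c x * u x) ≤ 4 * dir u := by
  obtain ⟨h1, h2⟩ := hardy h c
  have e : (fun x => hv c x * u x) = fun x => -(u x / ‖x - c‖) := by
    funext x
    rw [hv_def]
    ring
  rw [e]
  refine ⟨h1.neg, ?_⟩
  unfold nsq
  simp only [neg_sq]
  exact h2

theorem O_vx_op (d : ℝ) {u : E → ℝ} (h : H1 u) :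
    MemLp (fun x => vx d x * u x) 2 volume ∧ nsq (fun x => vx d x * u x) ≤ 16 * dir u := by
  obtain ⟨a1, a2⟩ := O_hv_op (d • ez) h
  obtain ⟨b1, b2⟩ := O_hv_op (-(d • ez)) h
  have e : (fun x => vx d x * u x) =
      fun x => 1 * (hv (d • ez) x * u x) + 1 * (hv (-(d • ez)) x * u x) := by
    funext x
    rw [O_vx_eq]
    ring
  have e2 := S11_nsq_lc a1 b1 1 1
  have e3 := S11_nsq_lc a1 b1 1 (-1)
  have e4 := S11_nsq_nonneg fun x => 1 * (hv (d • ez) x * u x) + (-1) * (hv (-(d • ez)) x * u x)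
  rw [e]
  refine ⟨(a1.const_mul 1).add (b1.const_mul 1), ?_⟩
  linarith

/-- the form used by `exists_min` -/
theorem O_vx_op' (d : ℝ) : ∀ u : E → ℝ, H1 u → MemLp (fun x => vx d x * u x) 2 volume ∧
    nsq (fun x => vx d x * u x) ≤ 16 * (dir u + nsq u) := by
  intro u h
  obtain ⟨h1, h2⟩ := O_vx_op d h
  have := S11_nsq_nonneg u
  exact ⟨h1, by linarith⟩

theorem O_dn_lip (d : ℝ) (x y : E) : |dn d x - dn d y| ≤ ‖x - y‖ := by
  rw [dn_def, dn_def]
  refine (abs_min_sub_min_le_max _ _ _ _).trans (max_le ?_ ?_)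
  · have := abs_norm_sub_norm_le (x - d • ez) (y - d • ez)
    rwa [sub_sub_sub_cancel_right] at this
  · have := abs_norm_sub_norm_le (x + d • ez) (y + d • ez)
    rwa [add_sub_add_right_eq_sub] at this

theorem O_dn_cont (d : ℝ) : Continuous (dn d) := by
  unfold dn
  fun_prop

theorem O1_norm_ez (d : ℝ) : ‖d • ez‖ = |d| := by
  rw [norm_smul, Real.norm_eq_abs]
  simp [ez]

theorem O1_two (d : ℝ) : (d • ez) 2 = d := by
  simp [ez]

theorem O1_abs_two (x : E) : |x 2| ≤ ‖x‖ := by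
  have := PiLp.norm_apply_le x 2
  rwa [Real.norm_eq_abs] at this

theorem O_dn_ge {d : ℝ} (hd : 0 ≤ d) (x : E) : ‖x‖ - d ≤ dn d x ∧ d - |x 2| ≤ dn d x := by
  have h0 : ‖d • ez‖ = d := by rw [O1_norm_ez, abs_of_nonneg hd]
  have h1 := norm_sub_norm_le x (d • ez)
  have h2 := norm_sub_norm_le x (-(d • ez))
  rw [sub_neg_eq_add, norm_neg] at h2
  have h3 := O1_abs_two (x - d • ez)
  have h4 := O1_abs_two (x + d • ez)
  rw [PiLp.sub_apply, O1_two] at h3
  rw [PiLp.add_apply, O1_two] at h4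
  have h5 := abs_le.1 h3
  have h6 := abs_le.1 h4
  have h7 := le_abs_self (x 2)
  have h8 := neg_abs_le (x 2)
  rw [dn_def]
  exact ⟨le_min (by linarith) (by linarith), le_min (by linarith) (by linarith)⟩

theorem O_vx_far {d t : ℝ} {x : E} (ht : 0 < t) (h : t ≤ dn d x) : |vx d x| ≤ 2 / t := by
  rw [dn_def, le_min_iff] at h
  have h1 := one_div_le_one_div_of_le ht h.1
  have h2 := one_div_le_one_div_of_le ht h.2
  rw [abs_of_nonpos (O_vx_nonpos d x), vx]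
  have : 2 / t = 1 / t + 1 / t := by ring
  linarith

theorem O_vx_ball (d : ℝ) : ∀ᵐ x : E, x ∈ ball (d • ez) 8 → vx d x ≤ -(1 / 8) := by
  have h0 : ∀ᵐ x : E, x ≠ d • ez := by simp [ae_iff]
  filter_upwards [h0] with x hx hb
  rw [mem_ball, dist_eq_norm] at hb
  have h1 := one_div_le_one_div_of_le (norm_pos_iff.2 (sub_ne_zero.2 hx)) hb.le
  have h2 : 0 ≤ 1 / ‖x + d • ez‖ := by positivity
  rw [vx]
  linarith

theorem O_ball_two {d : ℝ} {y : E} (h : y ∈ ball (d • ez) 8) : d - 8 ≤ y 2 ∧ ‖y‖ ≤ |d| + 8 := by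
  rw [mem_ball, dist_eq_norm] at h
  have h3 := O1_abs_two (y - d • ez)
  rw [PiLp.sub_apply, O1_two] at h3
  have h5 := abs_le.1 h3
  have h1 := norm_sub_norm_le y (d • ez)
  rw [O1_norm_ez] at h1
  exact ⟨by linarith, by linarith⟩

theorem O_jb_bd (x : E) : 1 ≤ jb x ∧ ‖x‖ ≤ jb x ∧ jb x ≤ ‖x‖ + 1 ∧ jb x ^ 2 = 1 + ‖x‖ ^ 2 := by
  have h0 := norm_nonneg x
  have h1 : (0 : ℝ) ≤ ‖x‖ ^ 2 := sq_nonneg _
  unfold jb
  refine ⟨Real.le_sqrt_of_sq_le (by linarith), Real.le_sqrt_of_sq_le (by linarith),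
    Real.sqrt_le_iff.2 ⟨by linarith, by nlinarith⟩, Real.sq_sqrt (by linarith)⟩

theorem O1_inv {r s d : ℝ} (hd : 0 < d) (hr : 2 * d ≤ r) (h : |s - r| ≤ d) :
    |1 / s - 1 / r| ≤ 2 * d / r ^ 2 := by
  have h1 := abs_le.1 h
  have hr0 : 0 < r := by linarith
  have hs : r / 2 ≤ s := by linarith
  have hs0 : 0 < s := by linarith
  have e : 1 / s - 1 / r = (r - s) / (s * r) := by field_simp
  rw [e, abs_div, abs_of_pos (mul_pos hs0 hr0), abs_sub_comm]
  calc |s - r| / (s * r) ≤ d / (r / 2 * r) := by gcongr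
    _ = 2 * d / r ^ 2 := by field_simp

/-- `|1/‖x ∓ a‖ - 1/‖x‖| ≤ 2d/‖x‖²`, `|2/‖x‖ - 2/jb| ≤ 1/‖x‖³`, `jb² ≤ (5/4)‖x‖²` -/
theorem O_vx_asym {d : ℝ} {x : E} (hd : 1 ≤ d) (hx : 2 * d ≤ ‖x‖) :
    |vx d x + 2 / jb x| ≤ 6 * d / jb x ^ 2 := by
  have hd0 : 0 < d := by linarith
  have h0 : ‖d • ez‖ = d := by rw [O1_norm_ez, abs_of_pos hd0]
  have a1 : |‖x - d • ez‖ - ‖x‖| ≤ d := by
    have := abs_norm_sub_norm_le (x - d • ez) x
    rwa [sub_sub_cancel_left, norm_neg, h0] at this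
  have a2 : |‖x + d • ez‖ - ‖x‖| ≤ d := by
    have := abs_norm_sub_norm_le (x + d • ez) x
    rwa [add_sub_cancel_left, h0] at this
  have b1 := abs_le.1 (O1_inv hd0 hx a1)
  have b2 := abs_le.1 (O1_inv hd0 hx a2)
  obtain ⟨j1, j2, j3, j4⟩ := O_jb_bd x
  set r := ‖x‖ with hr
  set j := jb x with hj
  have hr2 : 2 ≤ r := by linarith
  have hr0 : 0 < r := by linarith
  have hj0 : 0 < j := by linarith
  have c1 : 1 / j ≤ 1 / r := one_div_le_one_div_of_le hr0 j2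
  have c2 : 1 / r - 1 / j ≤ 1 / 4 / r ^ 2 := by
    have e1 : j - r ≤ 1 / 4 := by
      by_contra hh
      have h5 : r + 1 / 4 < j := by linarith
      nlinarith
    have e : 1 / r - 1 / j = (j - r) / (r * j) := by field_simp
    rw [e, pow_two]
    gcongr
  have c3 : 9 / 2 * d / r ^ 2 ≤ 6 * d / j ^ 2 := by
    rw [div_le_div_iff₀ (by positivity) (by positivity), j4]
    have : 4 ≤ r ^ 2 := by nlinarith
    nlinarith
  have c4 : 1 / 4 / r ^ 2 ≤ 1 / 4 * d / r ^ 2 := by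
    gcongr
    linarith
  have e2 : 9 / 2 * d / r ^ 2 = 2 * (2 * d / r ^ 2) + 2 * (1 / 4 * d / r ^ 2) := by ring
  have e3 : 2 / j = 2 * (1 / j) := by ring
  have e4 : 0 ≤ 1 / 4 * d / r ^ 2 := by positivity
  rw [vx, abs_le]
  constructor <;> linarith [b1.1, b1.2, b2.1, b2.2]

/-- `‖x - R y‖² = ‖x - y‖² + 4 x₂ y₂` -/
theorem O_norm_sub_R (x y : E) : ‖x - R y‖ ^ 2 = ‖x - y‖ ^ 2 + 4 * x 2 * y 2 := by
  rw [EuclideanSpace.norm_sq_eq, EuclideanSpace.norm_sq_eq]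
  simp only [Fin.sum_univ_three, Real.norm_eq_abs, sq_abs, PiLp.sub_apply, R_two, S07.R_zero',
    S07.R_one']
  ring

/-- an integrable function: `∫ F = ∫_{Hp} (F y + F (R y))` -/
theorem O_integral_fold {F : E → ℝ} (h : Integrable F) : ∫ y, F y = ∫ y in Hp, (F y + F (R y)) := by
  have hR : Integrable fun y => F (R y) := (mp_R.integrable_comp h.aestronglyMeasurable).2 h
  have h1 : Ev fun y => F y + F (R y) := ae_of_all _ fun y => by
    simp only [R_R]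
    ring
  have h2 := h1.integral (h.add hR)
  rw [integral_add h hR, S07.integral_R] at h2
  linarith

end

end Crest.Agent.R335
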