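import Crest.Agent.R335.O1
import Crest.Agent.R335.F0

set_option autoImplicit false
set_option linter.unusedVariables false

open MeasureTheory Set Filter Topology Metric
open scoped Gradient ContDiff RealInnerProductSpace ENNReal

namespace Crest.Agent.R335

noncomputable section

/-! Module O: barrier calculus. -/

theorem O_radb_pos (a k b : ℝ) (x : E) : 0 < radb a k b x := by
  exact (radb_facts a k b x).1

theorem O_radb_c2 (a k b : ℝ) : ContDiff ℝ 2 (radb a k b) := by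
  exact (radb_smooth a k b).of_le (by norm_cast)

theorem O_radb_R (a k b : ℝ) (x : E) : radb a k b (R x) = radb a k b x := by
  exact (radb_facts a k b x).2.1

theorem O_radb_cmp (a k : ℝ) (x : E) :
    rad a k x ≤ radb a k 1 x ∧ radb a k 1 x ≤ 3 * rad a k x ∧
      radb a k (-1) x ≤ rad a k x ∧ rad a k x ≤ 3 * radb a k (-1) x := by
  have hj := (O_jb_bd x).1
  have hs : 1 ≤ √(jb x) := Real.one_le_sqrt.2 hj
  have h0 : 0 ≤ 1 / √(jb x) := by positivity
  have h1 : 1 / √(jb x) ≤ 1 := by rw [div_le_one (by linarith)]; exact hs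
  have e1 : radb a k 1 x = rad a k x * Real.exp (1 / √(jb x)) := by
    simp only [rad, radb, zero_div, add_zero, Real.exp_add]; ring
  have e2 : rad a k x = radb a k (-1) x * Real.exp (1 / √(jb x)) := by
    simp only [rad, radb, zero_div, add_zero]
    rw [mul_assoc, ← Real.exp_add]; congr 2; ring
  have h2 : 1 ≤ Real.exp (1 / √(jb x)) := Real.one_le_exp h0
  have h3 : Real.exp (1 / √(jb x)) ≤ 3 :=
    (Real.exp_le_exp.2 h1).trans (by have := Real.exp_one_lt_d9; linarith)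
  have p0 := O_radb_pos a k 0 x
  have p1 := O_radb_pos a k (-1) x
  change 0 < rad a k x at p0
  refine ⟨?_, ?_, ?_, ?_⟩
  · rw [e1]; nlinarith
  · rw [e1]; nlinarith
  · rw [e2]; nlinarith
  · rw [e2]; nlinarith

theorem O_radb_l2 (a b : ℝ) {k : ℝ} (hk : 0 < k) :
    MemLp (radb a k b) 2 volume ∧ MemLp (fun x => x 2 * radb a k b x) 2 volume := by
  refine ⟨(radb_memLp a b hk).1, ?_⟩
  refine MemLp.of_le (radb_memLp (a + 1) b hk).1 ?_ (Eventually.of_forall fun x => ?_)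
  · have h1 : Continuous fun x : E => x 2 := by fun_prop
    exact (h1.mul (O_radb_c2 a k b).continuous).aestronglyMeasurable
  · rw [(radb_facts a k b x).2.2.2.2.2 1, Real.rpow_one, norm_mul, norm_mul]
    refine mul_le_mul_of_nonneg_right ?_ (norm_nonneg _)
    rw [Real.norm_eq_abs, Real.norm_eq_abs]
    exact ((O1_abs_two x).trans (O_jb_bd x).2.1).trans (le_abs_self _)

/-- `q = exp (φ j)`, `j = jb x`, `φ' = a/j - k - (b/2) j^{-3/2}`, `∇ q = q φ' x / j`,
`lap q / q = φ'² + φ'' + 2φ'/j - (φ'² + φ'')/j² + φ'/j³`, `lap (z q) = z (lap q + 2 q φ'/j)`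
(`Y1A.rad_grad`, `Y1A.rad_lap`, or `R335/F0.lean` if it is on main). -/
theorem O_radb_calc : ∃ C : ℝ, 0 < C ∧ ∀ a k b : ℝ, |a| ≤ 2 → 0 < k → k ≤ 2 → |b| ≤ 1 → ∀ x : E,
    |(1 / 2) * lap (radb a k b) x -
      (k ^ 2 / 2 - k * (a + 1) / jb x + k * b / (2 * (jb x * √(jb x)))) * radb a k b x| ≤
        C / jb x ^ 2 * radb a k b x ∧
    |(1 / 2) * lap (fun y => y 2 * radb a k b y) x -
      (k ^ 2 / 2 - k * (a + 2) / jb x + k * b / (2 * (jb x * √(jb x)))) * (x 2 * radb a k b x)| ≤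
        C / jb x ^ 2 * (|x 2| * radb a k b x) := by
  obtain ⟨C, hC, h1⟩ := lap_radb 2
  obtain ⟨C', hC', h2⟩ := lap_zradb 2
  refine ⟨C + C', by positivity, fun a k b ha hk0 hk hb x => ?_⟩
  have hk' : |k| ≤ 2 := by rw [abs_of_pos hk0]; exact hk
  have g1 := h1 a k b ha hk' (by linarith) x
  have g2 := h2 a k b ha hk' (by linarith) x
  have p0 := O_radb_pos a k b x
  have hj : 0 < jb x ^ 2 := by have := (O_jb_bd x).1; positivity
  constructor
  · rw [← abs_neg]
    refine le_trans (le_of_eq ?_) (g1.trans ?_)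
    · congr 1; ring
    · gcongr; linarith
  · rw [← abs_neg]
    refine le_trans (le_of_eq ?_) (g2.trans ?_)
    · congr 1; ring
    · gcongr; linarith

/-- `O_radb_calc`, `O_vx_asym`, `√jb ≥ √(C0/2) d` -/
theorem O_bar_ineq : ∃ C1 : ℝ, ∀ C0 d k s : ℝ, C1 ≤ C0 → C0 ≤ d → 99 / 100 ≤ k → k ≤ 21 / 20 →
    s = 1 ∨ s = -1 → ∀ x : E, C0 * d ^ 2 - 1 ≤ ‖x‖ →
      s * ((vx d x + k ^ 2 / 2) * radb (2 / k - 1) k s x) ≤
        s * ((1 / 2) * lap (radb (2 / k - 1) k s) x) ∧
      (x ∈ Hp → s * ((vx d x + k ^ 2 / 2) * (x 2 * radb (2 / k - 2) k s x)) ≤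
        s * ((1 / 2) * lap (fun y => y 2 * radb (2 / k - 2) k s y) x)) := by
  obtain ⟨C, hC, h⟩ := O_radb_calc
  refine ⟨C + 450, fun C0 d k s h1 h2 hk1 hk2 hs x hx => ?_⟩
  have hk0 : 0 < k := by linarith
  have hd : 450 ≤ d := by linarith
  have hC0 : 450 * d ^ 2 ≤ C0 * d ^ 2 := mul_le_mul_of_nonneg_right (by linarith) (sq_nonneg d)
  have hx2 : 2 * d ≤ ‖x‖ := by nlinarith
  have hv := O_vx_asym (by linarith) hx2
  obtain ⟨j1, j2, -, -⟩ := O_jb_bd x
  have hj0 : 0 < jb x := by linarith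
  have hsq : 15 * d ≤ √(jb x) := Real.le_sqrt_of_sq_le (by nlinarith)
  have hs0 : 0 < √(jb x) := by linarith
  have hss : √(jb x) * √(jb x) = jb x := Real.mul_self_sqrt hj0.le
  have key : C / jb x ^ 2 + 6 * d / jb x ^ 2 ≤ k / (2 * (jb x * √(jb x))) := by
    rw [← add_div, div_le_div_iff₀ (by positivity) (by positivity)]
    have e : k * jb x ^ 2 = (k * √(jb x)) * (jb x * √(jb x)) := by
      rw [sq]; nth_rewrite 2 [← hss]; ring
    rw [e, ← mul_assoc]
    refine mul_le_mul_of_nonneg_right ?_ (by positivity)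
    have : 99 / 100 * (15 * d) ≤ k * √(jb x) := mul_le_mul hk1 hsq (by linarith) hk0.le
    linarith
  have hq1 : 40 / 21 ≤ 2 / k := by rw [div_le_div_iff₀ (by norm_num) hk0]; linarith
  have hq2 : 2 / k ≤ 200 / 99 := by rw [div_le_div_iff₀ hk0 (by norm_num)]; linarith
  have hsa : |s| ≤ 1 := by rcases hs with rfl | rfl <;> simp
  have g1 := (h (2 / k - 1) k s (abs_le.2 ⟨by linarith, by linarith⟩) hk0 (by linarith) hsa x).1
  have g2 := (h (2 / k - 2) k s (abs_le.2 ⟨by linarith, by linarith⟩) hk0 (by linarith) hsa x).2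
  have e1 : k * (2 / k - 1 + 1) = 2 := by field_simp; ring
  have e2 : k * (2 / k - 2 + 2) = 2 := by field_simp; ring
  rw [e1] at g1
  rw [e2] at g2
  have main : ∀ L q : ℝ, 0 ≤ q →
      |L - (k ^ 2 / 2 - 2 / jb x + k * s / (2 * (jb x * √(jb x)))) * q| ≤ C / jb x ^ 2 * q →
      s * ((vx d x + k ^ 2 / 2) * q) ≤ s * L := by
    intro L q hq hL
    obtain ⟨a1, a2⟩ := abs_le.1 hL
    obtain ⟨b1, b2⟩ := abs_le.1 hv
    have c0 := mul_le_mul_of_nonneg_right key hq
    have c1 := mul_le_mul_of_nonneg_right b1 hq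
    have c2 := mul_le_mul_of_nonneg_right b2 hq
    rcases hs with rfl | rfl
    · rw [mul_one] at a1 a2
      nlinarith
    · have e3 : k * -1 / (2 * (jb x * √(jb x))) = -(k / (2 * (jb x * √(jb x)))) := by ring
      rw [e3] at a1 a2
      nlinarith
  refine ⟨main _ _ (O_radb_pos _ _ _ x).le g1, fun hp => ?_⟩
  have hp' : 0 ≤ x 2 := hp
  rw [abs_of_nonneg hp'] at g2
  exact main _ _ (mul_nonneg hp' (O_radb_pos _ _ _ x).le) g2

end

end Crest.Agent.R335
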