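import Crest.Agent.R335.O8

set_option autoImplicit false
set_option linter.unusedVariables false

open MeasureTheory Set Filter Topology Metric
open scoped Gradient ContDiff RealInnerProductSpace ENNReal

namespace Crest.Agent.R335

noncomputable section

/-! Module O: the dipole potential, `ρ = u0 g0` (continuous, `|ρ| ≤ 169`, `∫ |ρ| ≤ 1`, odd). -/

/-- the singular part of the Newton kernel -/
def O13_k (r : ℝ) : ℝ := 1 / r - 1 / max r 1

theorem O13_k_meas : Measurable O13_k := by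
  unfold O13_k
  fun_prop

theorem O13_k_int : Integrable (fun z : E => O13_k ‖z‖) := by
  refine Y1A.rad_integrable ?_
  have h1 : IntegrableOn ((Icc (0 : ℝ) 1).indicator fun _ => (1 : ℝ)) (Ioi 0) :=
    ((integrable_indicator_iff measurableSet_Icc).2 (integrableOn_const (by simp))).integrableOn
  refine h1.mono' ((measurable_id.pow_const 2).mul O13_k_meas).aestronglyMeasurable ?_
  refine (ae_restrict_iff' measurableSet_Ioi).2 (Eventually.of_forall fun y hy => ?_)
  have hy0 : 0 < y := hy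
  unfold O13_k
  rcases le_total y 1 with h | h
  · rw [indicator_of_mem (show y ∈ Icc (0 : ℝ) 1 from ⟨hy0.le, h⟩), max_eq_right h]
    have e : y ^ 2 * (1 / y - 1 / 1) = y - y ^ 2 := by field_simp
    rw [e, Real.norm_eq_abs, abs_le]
    constructor <;> nlinarith
  · rw [max_eq_left h, sub_self, mul_zero, norm_zero]
    exact indicator_nonneg (fun _ _ => zero_le_one) _

theorem O13_max (r : ℝ) : 0 ≤ 1 / max r 1 ∧ 1 / max r 1 ≤ 1 := by
  have h : (1 : ℝ) ≤ max r 1 := le_max_right _ _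
  exact ⟨by positivity, (div_le_one (by linarith)).2 h⟩

theorem O13_split (a r : ℝ) : a / r = a * O13_k r + a * (1 / max r 1) := by
  unfold O13_k
  ring

theorem O13_int1 {ρ : E → ℝ} {M : ℝ} (hi : Integrable ρ) (hM : ∀ᵐ y, |ρ y| ≤ M) (x : E) :
    Integrable (fun y => ρ y * O13_k ‖x - y‖) :=
  (O13_k_int.comp_sub_left x).bdd_mul hi.1 hM

theorem O13_int2 {ρ : E → ℝ} (hi : Integrable ρ) (x : E) :
    Integrable (fun y => ρ y * (1 / max ‖x - y‖ 1)) := by
  refine hi.mul_bdd (c := 1) (Measurable.aestronglyMeasurable (by fun_prop))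
    (Eventually.of_forall fun y => ?_)
  rw [Real.norm_of_nonneg (O13_max _).1]
  exact (O13_max _).2

theorem O13_diff {s t a : ℝ} (hs : 0 < s) (ha : 0 ≤ a) (ht : 0 ≤ t) (h : t ^ 2 = s ^ 2 + 4 * a) :
    0 < t ∧ 2 * a / t ^ 3 ≤ 1 / s - 1 / t := by
  have hst : s ≤ t := (abs_le_of_sq_le_sq' (by linarith) ht).2
  have ht0 : 0 < t := hs.trans_le hst
  refine ⟨ht0, ?_⟩
  rw [div_sub_div _ _ hs.ne' ht0.ne', div_le_div_iff₀ (by positivity) (by positivity)]
  have e : 2 * a = (t ^ 2 - s ^ 2) / 2 := by linarith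
  have h1 : 0 ≤ t ^ 2 - (t + s) / 2 * s := by nlinarith
  rw [e]
  nlinarith [mul_nonneg (sub_nonneg.2 hst) (mul_nonneg ht h1)]

theorem O13_rho {o : OD} (h : o.OK0) : Continuous (fun y => o.u0 y * o.g0 y) ∧
    Integrable (fun y => o.u0 y * o.g0 y) ∧ ∀ y, |o.u0 y * o.g0 y| ≤ 169 := by
  refine ⟨h.cu.mul h.cg, S12_mul h.su.h1.l2 h.sg.h1.l2, fun y => ?_⟩
  rw [abs_mul]
  have := mul_le_mul (h.bs_u.abs_le y) (h.bs_g.abs_le y) (abs_nonneg _) (by norm_num)
  linarith

/-- Newton potential of a bounded integrable function: split at `‖x - y‖ = 1` (`Y1A.rad_integrable`) -/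
theorem O_newton_bd : ∃ C : ℝ, 0 < C ∧ ∀ (ρ : E → ℝ) (M : ℝ), Integrable ρ → 0 ≤ M →
    (∀ᵐ y, |ρ y| ≤ M) → ∀ x : E, Integrable (fun y => ρ y / ‖x - y‖) ∧
      ∫ y, |ρ y| / ‖x - y‖ ≤ C * M + ∫ y, |ρ y| := by
  have h0 : 0 ≤ ∫ z : E, |O13_k ‖z‖| := integral_nonneg fun z => abs_nonneg _
  refine ⟨(∫ z : E, |O13_k ‖z‖|) + 1, by linarith, fun ρ M hi hM0 hM x => ?_⟩
  have i1 : Integrable (fun y => ρ y / ‖x - y‖) := by
    simp only [O13_split (ρ _)]
    exact (O13_int1 hi hM x).add (O13_int2 hi x)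
  refine ⟨i1, ?_⟩
  have i2 : Integrable (fun y => M * |O13_k ‖x - y‖|) :=
    (O13_k_int.comp_sub_left x).abs.const_mul M
  have i3 : Integrable (fun y => |ρ y| / ‖x - y‖) := by
    refine i1.abs.congr (Eventually.of_forall fun y => ?_)
    beta_reduce
    rw [abs_div, abs_norm]
  have h1 : ∫ y, |ρ y| / ‖x - y‖ ≤ ∫ y, (M * |O13_k ‖x - y‖| + |ρ y|) := by
    refine integral_mono_ae i3 (i2.add hi.abs) ?_
    filter_upwards [hM] with y hy
    rw [O13_split]
    exact add_le_add ((mul_le_mul_of_nonneg_left (le_abs_self _) (abs_nonneg _)).trans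
      (mul_le_mul_of_nonneg_right hy (abs_nonneg _)))
      (mul_le_of_le_one_right (abs_nonneg _) (O13_max _).2)
  rw [integral_add i2 hi.abs, integral_const_mul,
    integral_sub_left_eq_self (fun z : E => |O13_k ‖z‖|) volume x] at h1
  nlinarith

/-- `1/‖z‖ = K₁ z + 1 / max ‖z‖ 1`, `K₁` integrable; dominated convergence for `∫ ρ (x - z) K₁ z` and
`∫ ρ y / max ‖x - y‖ 1` -/
theorem O_newton_cont {ρ : E → ℝ} {M : ℝ} (hc : Continuous ρ) (hi : Integrable ρ) (hM : ∀ y, |ρ y| ≤ M) :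
    Continuous fun x : E => ∫ y, ρ y / ‖x - y‖ := by
  have e : (fun x : E => ∫ y, ρ y / ‖x - y‖) = fun x : E =>
      (∫ z, ρ (x - z) * O13_k ‖z‖) + ∫ y, ρ y * (1 / max ‖x - y‖ 1) := by
    funext x
    simp only [O13_split (ρ _)]
    rw [integral_add (O13_int1 hi (Eventually.of_forall hM) x) (O13_int2 hi x),
      ← integral_sub_left_eq_self (fun z : E => ρ (x - z) * O13_k ‖z‖) volume x]
    simp only [sub_sub_cancel]
  rw [e]
  refine Continuous.add ?_ ?_
  · refine continuous_of_dominated (bound := fun z => M * ‖O13_k ‖z‖‖) (fun x => ?_) (fun x => ?_)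
      (O13_k_int.norm.const_mul M) (Eventually.of_forall fun z => by fun_prop)
    · exact (hc.comp (continuous_const.sub continuous_id)).aestronglyMeasurable.mul O13_k_int.1
    · refine Eventually.of_forall fun z => ?_
      rw [norm_mul]
      exact mul_le_mul_of_nonneg_right (hM _) (norm_nonneg _)
  · refine continuous_of_dominated (bound := fun y => ‖ρ y‖) (fun x => (O13_int2 hi x).1)
      (fun x => Eventually.of_forall fun y => ?_) hi.norm (Eventually.of_forall fun y => ?_)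
    · rw [norm_mul, Real.norm_of_nonneg (O13_max _).1]
      exact mul_le_of_le_one_right (norm_nonneg _) (O13_max _).2
    · refine continuous_const.mul (continuous_const.div (by fun_prop) fun x => ?_)
      exact (zero_lt_one.trans_le (le_max_right _ _)).ne'

theorem O_Ucont {o : OD} (h : o.OK0) : Continuous o.U :=
  O_newton_cont (O13_rho h).1 (O13_rho h).2.1 (O13_rho h).2.2

theorem O_Uodd {o : OD} (h : o.OK0) (x : E) : o.U (R x) = -o.U x := by
  unfold OD.U Udip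
  rw [← S07.integral_R, ← integral_neg]
  refine integral_congr_ae (Eventually.of_forall fun y => ?_)
  beta_reduce
  rw [h.odu, h.evg, norm_R_sub]
  ring

/-- `O_integral_fold`; `1/s - 1/s' = (s'² - s²)/(s s' (s + s')) ≥ 2 x₂ y₂ / s'³` (`O_norm_sub_R`); keep only
`y ∈ ball (d e_z) 8` (`s' ≤ 2 jb x`, `y₂ ≥ 1`, `O_g_ball`, `BS.mass1`) -/
theorem O_Ulow : ∃ C1 : ℝ, ∀ o : OD, o.OK0 → C1 ≤ o.C0 →
    ∀ x ∈ Hp, 4 * o.d ≤ ‖x‖ → x 2 / (o.C0 * jb x ^ 3) ≤ o.U x := by
  obtain ⟨c, hc, hg⟩ := O_g_ball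
  obtain ⟨C, -, hC⟩ := O_newton_bd
  refine ⟨2080000 / c, fun o h hC1 x hx hxd => ?_⟩
  obtain ⟨-, r2, r3⟩ := O13_rho h
  have hd := h.d100
  have hx2 : 0 ≤ x 2 := hx
  have hj := O_jb_bd x
  have hj0 : 0 < jb x := by linarith [hj.1]
  have i1 := (hC _ 169 r2 (by norm_num) (Eventually.of_forall r3) x).1
  have i2 : Integrable (fun y => o.u0 (R y) * o.g0 (R y) / ‖x - R y‖) :=
    (mp_R.integrable_comp_emb S07.me_R).2 i1
  have hB : ball (o.d • ez) 8 ⊆ Hp := fun y hy => by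
    have := (O_ball_two hy).1
    change 0 ≤ y 2
    linarith
  have key : ∀ y ∈ Hp, y ≠ x → 0 < ‖x - R y‖ ∧
      o.u0 y * o.g0 y * (2 * (x 2 * y 2) / ‖x - R y‖ ^ 3) ≤
        o.u0 y * o.g0 y / ‖x - y‖ + o.u0 (R y) * o.g0 (R y) / ‖x - R y‖ := by
    intro y hy hne
    have hy2 : 0 ≤ y 2 := hy
    have := O13_diff (norm_pos_iff.2 (sub_ne_zero.2 hne.symm)) (mul_nonneg hx2 hy2)
      (norm_nonneg (x - R y)) (by rw [O_norm_sub_R]; ring)
    refine ⟨this.1, (mul_le_mul_of_nonneg_left this.2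
      (mul_nonneg (h.u_nn y hy) (h.g_nn y))).trans_eq ?_⟩
    rw [h.odu, h.evg]
    ring
  obtain ⟨m1, m2⟩ := h.bs_u.mass1 fun y hy => h.u_nn y (hB hy)
  have s1 : ∫ y in ball (o.d • ez) 8, c * x 2 / (4 * jb x ^ 3) * o.u0 y ≤
      ∫ y in ball (o.d • ez) 8,
        (o.u0 y * o.g0 y / ‖x - y‖ + o.u0 (R y) * o.g0 (R y) / ‖x - R y‖) := by
    refine setIntegral_mono_on (m1.const_mul _) (i1.add i2).integrableOn measurableSet_ball
      fun y hy => ?_
    obtain ⟨b1, b2⟩ := O_ball_two hy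
    rw [abs_of_nonneg (by linarith)] at b2
    have hne : y ≠ x := fun e => by
      rw [e] at b2
      linarith
    obtain ⟨k1, k2⟩ := key y (hB hy) hne
    refine le_trans ?_ k2
    have t1 : ‖x - R y‖ ≤ 2 * jb x := by
      have := norm_sub_le x (R y)
      rw [norm_R] at this
      linarith [hj.2.1]
    have t2 : x 2 / (4 * jb x ^ 3) ≤ 2 * (x 2 * y 2) / ‖x - R y‖ ^ 3 := by
      have e : x 2 / (4 * jb x ^ 3) = 2 * (x 2 * 1) / (2 * jb x) ^ 3 := by
        field_simp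
        ring
      rw [e]
      have : 1 ≤ y 2 := by linarith
      gcongr
    have t3 : c ≤ o.g0 y := hg o h y (Or.inl (by rw [← dist_eq_norm]; exact (mem_ball.1 hy).le))
    have t4 := h.u_nn y (hB hy)
    calc c * x 2 / (4 * jb x ^ 3) * o.u0 y = o.u0 y * c * (x 2 / (4 * jb x ^ 3)) := by ring
      _ ≤ _ := mul_le_mul (mul_le_mul_of_nonneg_left t3 t4) t2 (by positivity)
        (mul_nonneg t4 (h.g_nn y))
  have s2 : ∫ y in ball (o.d • ez) 8,
        (o.u0 y * o.g0 y / ‖x - y‖ + o.u0 (R y) * o.g0 (R y) / ‖x - R y‖) ≤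
      ∫ y in Hp, (o.u0 y * o.g0 y / ‖x - y‖ + o.u0 (R y) * o.g0 (R y) / ‖x - R y‖) := by
    refine setIntegral_mono_set (i1.add i2).integrableOn ?_ hB.eventuallyLE
    refine (ae_restrict_iff' S07.mHp).2 ?_
    have hae : ∀ᵐ y : E, y ≠ x := by
      rw [ae_iff]
      simp
    filter_upwards [hae] with y hne hy
    obtain ⟨k1, k2⟩ := key y hy hne
    have hy2 : 0 ≤ y 2 := hy
    refine le_trans ?_ k2
    exact mul_nonneg (mul_nonneg (h.u_nn y hy) (h.g_nn y)) (by positivity)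
  have s3 : o.U x =
      ∫ y in Hp, (o.u0 y * o.g0 y / ‖x - y‖ + o.u0 (R y) * o.g0 (R y) / ‖x - R y‖) :=
    O_integral_fold i1
  rw [s3]
  refine le_trans ?_ (s1.trans s2)
  rw [integral_const_mul]
  refine le_trans ?_ (mul_le_mul_of_nonneg_left m2 (by positivity))
  have e : c * x 2 / (4 * jb x ^ 3) * (1 / 520000) = x 2 / (2080000 / c * jb x ^ 3) := by
    field_simp
    ring
  rw [e]
  gcongr

end

end Crest.Agent.R335
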