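import Crest.Agent.R335.O1

set_option autoImplicit false
set_option linter.unusedVariables false

open MeasureTheory Set Filter Topology Metric
open scoped Gradient ContDiff RealInnerProductSpace ENNReal

namespace Crest.Agent.R335

noncomputable section

/-! Module O: the quadratic form. -/

theorem O1b_quad {a b : ℝ} (h : ∀ t : ℝ, 0 ≤ 2 * t * a + t ^ 2 * b) : a = 0 := by
  have h1 : discrim b (2 * a) 0 ≤ 0 := discrim_le_zero fun t => by nlinarith [h t]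
  unfold discrim at h1
  nlinarith [sq_nonneg a]

theorem O1b_l2 (d e : ℝ) {f : E → ℝ} (h : H1 f) : MemLp (fun x => (e - vx d x) * f x) 2 volume := by
  have h1 := (h.l2.const_mul e).sub (O_vx_op d h).1
  refine h1.ae_eq (Eventually.of_forall fun x => ?_)
  simp only [Pi.sub_apply]
  ring

theorem O1b_split (d e : ℝ) {f χ : E → ℝ} (h : H1 f) (hχ : H1 χ) :
    ∫ x, (e - vx d x) * f x * χ x = e * ip f χ - ∫ x, vx d x * f x * χ x := by
  unfold ip
  rw [← integral_const_mul, ← integral_sub ((S11_int_mul h.l2 hχ.l2).const_mul e)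
    (S11_int_mul (O_vx_op d h).1 hχ.l2)]
  exact integral_congr_ae (Eventually.of_forall fun x => by ring)

theorem O1b_iff (d e : ℝ) {f χ : E → ℝ} (h : H1 f) (hχ : H1 χ) :
    (∫ x, (1 / 2) * ⟪D f x, D χ x⟫ = ∫ x, (e - vx d x) * f x * χ x) ↔
      S11_B (vx d) f χ = e * ip f χ := by
  rw [O1b_split d e h hχ, integral_const_mul]
  unfold S11_B
  constructor <;> intro h <;> linarith

theorem O1b_inner_R (a b : E) : ⟪R a, R b⟫ = ⟪a, b⟫ := S07.Ri.inner_map_map a b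

theorem O1b_ae_R {p : E → Prop} (h : ∀ᵐ x, p x) : ∀ᵐ x, p (R x) := ae_iso S07.Ri h

theorem O_Q_R (d : ℝ) {u : E → ℝ} (h : H1 u) :
    H1 (fun x => u (R x)) ∧ nsq (fun x => u (R x)) = nsq u ∧ dir (fun x => u (R x)) = dir u ∧
      Q (vx d) (fun x => u (R x)) = Q (vx d) u := by
  obtain ⟨h1, h2, h3⟩ := h.iso S07.Ri
  have h4 := Q_iso S07.Ri (vx d) h
  simp only [S07.Ri_apply, vx_R] at h1 h2 h3 h4
  exact ⟨h1, h3, h2, h4⟩

theorem O_Q_abs (U : E → ℝ) {u : E → ℝ} (h : H1 u) :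
    nsq (fun x => |u x|) = nsq u ∧ Q U (fun x => |u x|) = Q U u := by
  unfold nsq Q
  rw [h.abs.2]
  simp only [sq_abs, and_self]

/-- Euler–Lagrange equation of a minimiser on a subspace (`S11_Q_lc`, `S11_nsq_lc`, `t → 0`) -/
theorem O_EL_of_min {d : ℝ} {P : (E → ℝ) → Prop} {ψ : E → ℝ} (hP : ∀ u, P u → H1 u)
    (hlin : ∀ u w (s t : ℝ), P u → P w → P fun x => s * u x + t * w x) (hψ : P ψ) (hn : nsq ψ = 1)
    (hmin : ∀ u, P u → Q (vx d) ψ * nsq u ≤ Q (vx d) u) {χ : E → ℝ} (hχ : P χ) :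
    ∫ x, (1 / 2) * ⟪D ψ x, D χ x⟫ = ∫ x, (Q (vx d) ψ - vx d x) * ψ x * χ x := by
  have h1 := hP ψ hψ
  have h2 := hP χ hχ
  rw [O1b_iff d _ h1 h2]
  have h3 : S11_B (vx d) ψ χ - Q (vx d) ψ * ip ψ χ = 0 := by
    refine O1b_quad (b := Q (vx d) χ - Q (vx d) ψ * nsq χ) fun t => ?_
    have h4 := hmin _ (hlin ψ χ 1 t hψ hχ)
    rw [S11_Q_lc h1 h2 (O_vx_op d h1).1 (O_vx_op d h2).1, S11_nsq_lc h1.l2 h2.l2, hn] at h4
    nlinarith [h4]
  linarith

theorem O_sol_of_min {d : ℝ} {ψ : E → ℝ} (hψ : H1 ψ) (hn : nsq ψ = 1)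
    (hmin : ∀ u, H1 u → Q (vx d) ψ * nsq u ≤ Q (vx d) u) :
    Sol ψ fun x => (Q (vx d) ψ - vx d x) * ψ x := by
  exact ⟨hψ, O1b_l2 d _ hψ, fun χ hχ => O_EL_of_min (P := H1) (fun u hu => hu)
    (fun u w s t hu hw => S11_h1_lc hu hw s t) hψ hn hmin hχ⟩

/-- split `χ` into even and odd part; for even `χ` both integrands are odd (`Ev.D`, `Od.D`) -/
theorem O_sol_of_min_od {d : ℝ} {ψ : E → ℝ} (hψ : H1 ψ) (ho : Od ψ) (hn : nsq ψ = 1)
    (hmin : ∀ u, H1 u → Od u → Q (vx d) ψ * nsq u ≤ Q (vx d) u) :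
    Sol ψ fun x => (Q (vx d) ψ - vx d x) * ψ x := by
  refine ⟨hψ, O1b_l2 d _ hψ, fun χ hχ => ?_⟩
  have hχR : H1 fun x => χ (R x) := (O_Q_R d hχ).1
  have hm : H1 fun x => 1 * χ x + (-1) * χ (R x) := S11_h1_lc hχ hχR 1 (-1)
  have hod : Od fun x => 1 * χ x + (-1) * χ (R x) :=
    Eventually.of_forall fun x => by simp only [R_R]; ring
  have h1 := O_EL_of_min (d := d) (P := fun u => H1 u ∧ Od u) (fun u hu => hu.1)
    (fun u w s t hu hw => ⟨S11_h1_lc hu.1 hw.1 s t, by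
      filter_upwards [hu.2, hw.2] with x h1 h2
      rw [h1, h2]; ring⟩) ⟨hψ, ho⟩ hn (fun u hu => hmin u hu.1 hu.2) ⟨hm, hod⟩
  -- left side
  have hA : ∫ x, ⟪D ψ x, D (fun x => χ (R x)) x⟫ = -∫ x, ⟪D ψ x, D χ x⟫ := by
    rw [← integral_neg, ← S07.integral_R fun x => -⟪D ψ x, D χ x⟫]
    refine integral_congr_ae ?_
    filter_upwards [hχ.hl.refl.2, Od.D hψ.hl ho] with x h1 h2
    rw [h1, h2, inner_neg_left, neg_neg, ← O1b_inner_R (D ψ x), R_R]
  have hL : ∫ x, (1 / 2) * ⟪D ψ x, D (fun x => 1 * χ x + (-1) * χ (R x)) x⟫ =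
      2 * ∫ x, (1 / 2) * ⟪D ψ x, D χ x⟫ := by
    have e1 : ∫ x, (1 / 2) * ⟪D ψ x, D (fun x => 1 * χ x + (-1) * χ (R x)) x⟫ =
        ∫ x, ((1 / 2) * ⟪D ψ x, D χ x⟫ - (1 / 2) * ⟪D ψ x, D (fun x => χ (R x)) x⟫) := by
      refine integral_congr_ae ?_
      filter_upwards [D_add (hχ.smul 1).hl (hχR.smul (-1)).hl, D_smul 1 hχ.hl,
        D_smul (-1) hχR.hl] with x h1 h2 h3
      rw [h1, h2, h3, inner_add_right, inner_smul_right, inner_smul_right]
      ring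
    rw [e1, integral_sub ((S11_int_inner hψ.dl2 hχ.dl2).const_mul _)
      ((S11_int_inner hψ.dl2 hχR.dl2).const_mul _), integral_const_mul, integral_const_mul, hA]
    ring
  have hl2 := O1b_l2 d (Q (vx d) ψ) hψ
  have hB : ∫ x, (Q (vx d) ψ - vx d x) * ψ x * χ (R x) =
      -∫ x, (Q (vx d) ψ - vx d x) * ψ x * χ x := by
    rw [← integral_neg, ← S07.integral_R fun x => -((Q (vx d) ψ - vx d x) * ψ x * χ x)]
    refine integral_congr_ae ?_
    filter_upwards [ho] with x h1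
    rw [h1, vx_R]
    ring
  have hR : ∫ x, (Q (vx d) ψ - vx d x) * ψ x * (1 * χ x + (-1) * χ (R x)) =
      2 * ∫ x, (Q (vx d) ψ - vx d x) * ψ x * χ x := by
    have e1 : ∫ x, (Q (vx d) ψ - vx d x) * ψ x * (1 * χ x + (-1) * χ (R x)) =
        ∫ x, ((Q (vx d) ψ - vx d x) * ψ x * χ x - (Q (vx d) ψ - vx d x) * ψ x * χ (R x)) :=
      integral_congr_ae (Eventually.of_forall fun x => by ring)
    rw [e1, integral_sub (S11_int_mul hl2 hχ.l2) (S11_int_mul hl2 hχR.l2), hB]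
    ring
  rw [hL, hR] at h1
  linarith

theorem Sol.O_B {d e : ℝ} {f χ : E → ℝ} (h : Sol f fun x => (e - vx d x) * f x) (hχ : H1 χ) :
    S11_B (vx d) f χ = e * ip f χ := by
  exact (O1b_iff d e h.h1 hχ).1 (h.eq χ hχ)

theorem Sol.O_Q {d e : ℝ} {f : E → ℝ} (h : Sol f fun x => (e - vx d x) * f x) :
    Q (vx d) f = e * nsq f := by
  have h1 := h.O_B h.h1
  rw [ip_self] at h1
  rw [← h1]
  unfold Q S11_B dir
  simp only [real_inner_self_eq_norm_sq]
  congr 1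
  exact integral_congr_ae (Eventually.of_forall fun x => by ring)

/-- `yukawa_eq` with `k² = -2e` -/
theorem Sol.O_rep {d e : ℝ} {f : E → ℝ} (h : Sol f fun x => (e - vx d x) * f x) (he : e < 0) :
    Continuous (YP (√(-2 * e)) fun y => -(vx d y * f y)) ∧
      ∀ᵐ x, f x = YP (√(-2 * e)) (fun y => -(vx d y * f y)) x := by
  have hk : 0 < √(-2 * e) := Real.sqrt_pos.2 (by linarith)
  have hk2 : √(-2 * e) ^ 2 = -2 * e := Real.sq_sqrt (by linarith)
  refine ⟨YP_continuous hk (O_vx_op d h.h1).1.neg, ?_⟩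
  have h1 := yukawa_eq hk h
  have e1 : (fun y => (e - vx d y) * f y + √(-2 * e) ^ 2 / 2 * f y) =
      fun y => -(vx d y * f y) := by
    funext y
    rw [hk2]
    ring
  rwa [e1] at h1

/-- the integrand is `≥ 0`, and `> 0` for a.e. `y` with `f y ≠ 0` -/
theorem O_YP_vx_pos {d k : ℝ} (hk : 0 < k) {f : E → ℝ} (hf : H1 f) (h0 : ∀ᵐ x, 0 ≤ f x)
    (hn : 0 < nsq f) (x : E) : 0 < YP k (fun y => -(vx d y * f y)) x := by
  have hS : MemLp (fun y => -(vx d y * f y)) 2 volume := (O_vx_op d hf).1.neg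
  have hi := (YP_integrable hk hS x).1
  have hnn : ∀ᵐ y, 0 ≤ Yk k (x - y) * -(vx d y * f y) := by
    filter_upwards [h0] with y hy
    exact mul_nonneg (Y1A.Yk_nonneg k _)
      (neg_nonneg.2 (mul_nonpos_of_nonpos_of_nonneg (O_vx_nonpos d y) hy))
  unfold YP
  refine lt_of_le_of_ne (integral_nonneg_of_ae hnn) fun h => ?_
  have h1 := (integral_eq_zero_iff_of_nonneg_ae hnn hi).1 h.symm
  have h2 : ∀ᵐ y : E, y ≠ x := by
    rw [ae_iff]
    simp
  have h3 : ∀ᵐ y : E, y ≠ d • ez := by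
    rw [ae_iff]
    simp
  have h4 : ∀ᵐ y, f y = 0 := by
    filter_upwards [h1, h2, h3] with y e1 e2 e3
    have p1 : 0 < ‖x - y‖ := norm_pos_iff.2 (sub_ne_zero.2 e2.symm)
    have p2 : 0 < ‖y - d • ez‖ := norm_pos_iff.2 (sub_ne_zero.2 e3)
    have p3 : 0 < Yk k (x - y) := by
      unfold Yk
      have := Real.pi_pos
      positivity
    have p4 : vx d y < 0 := by
      unfold vx
      have q1 : 0 < 1 / ‖y - d • ez‖ := by positivity
      have q2 : 0 ≤ 1 / ‖y + d • ez‖ := by positivity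
      linarith
    simp only [Pi.zero_apply, mul_eq_zero, neg_eq_zero] at e1
    rcases e1 with e1 | e1 | e1
    · exact absurd e1 p3.ne'
    · exact absurd e1 p4.ne
    · exact e1
  have h5 : nsq f = 0 := by
    unfold nsq
    rw [← integral_zero E ℝ (μ := volume)]
    refine integral_congr_ae ?_
    filter_upwards [h4] with y hy
    simp [hy]
  linarith

theorem O_ip_ev_od {g u : E → ℝ} (hg : Ev g) (hu : Od u) : ip g u = 0 := by
  refine Od.integral (u := fun x => g x * u x) ?_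
  filter_upwards [hg, hu] with x h1 h2
  rw [h1, h2]
  ring

end

end Crest.Agent.R335
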