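import Crest.Agent.R335.O1b

set_option autoImplicit false
set_option linter.unusedVariables false

open MeasureTheory Set Filter Topology Metric
open scoped Gradient ContDiff RealInnerProductSpace ENNReal

namespace Crest.Agent.R335

noncomputable section

/-! Module O: the hydrogen ground-state identity. -/

theorem O2a_dvg (c : E) {ε : ℝ} (hε : 0 < ε) (x : E) :
    dvg (fun x => (√(‖x - c‖ ^ 2 + ε))⁻¹ • (x - c)) x =
      3 / √(‖x - c‖ ^ 2 + ε) - ‖x - c‖ ^ 2 / √(‖x - c‖ ^ 2 + ε) ^ 3 := by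
  have h0 : ‖x - c‖ ^ 2 + ε ≠ 0 := by positivity
  have h0' : √(‖x - c‖ ^ 2 + ε) ≠ 0 := by positivity
  have h1 := (hasFDerivAt_id (𝕜 := ℝ) x).sub_const c
  have h2 := (((Real.hasDerivAt_sqrt h0).inv h0').comp_hasFDerivAt x
    (h1.norm_sq.add_const ε)).smul h1
  unfold dvg
  rw [show fderiv ℝ (fun x => (√(‖x - c‖ ^ 2 + ε))⁻¹ • (x - c)) x = _ from h2.fderiv]
  simp only [ContinuousLinearMap.toLinearMap_add, map_add, ContinuousLinearMap.toLinearMap_smul,
    map_smul, ContinuousLinearMap.coe_id, LinearMap.trace_id]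
  rw [show ∀ (f : E →L[ℝ] ℝ) (v : E), LinearMap.trace ℝ E (f.smulRight v : E →ₗ[ℝ] E) = f v from
    fun f v => LinearMap.trace_smulRight (f : E →ₗ[ℝ] ℝ) v]
  have h3 : ⟪x, x - c⟫ = ‖x - c‖ ^ 2 + ⟪c, x - c⟫ := by
    rw [← real_inner_self_eq_norm_sq, inner_sub_left, sub_add_cancel]
  simp [h3]
  field_simp
  ring

theorem O2a_norm_le (c : E) {ε : ℝ} (hε : 0 < ε) (x : E) :
    ‖(√(‖x - c‖ ^ 2 + ε))⁻¹ • (x - c)‖ ≤ 1 := by
  have h0 : 0 < √(‖x - c‖ ^ 2 + ε) := by positivity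
  rw [norm_smul, Real.norm_of_nonneg (by positivity), inv_mul_le_iff₀ h0, mul_one]
  exact Real.le_sqrt_of_sq_le (by linarith)

theorem O2a_dvg_le {r ρ : ℝ} (hr : 0 < r) (h : r ≤ ρ) : |3 / ρ - r ^ 2 / ρ ^ 3| ≤ 3 / r := by
  have hρ : 0 < ρ := hr.trans_le h
  have h1 : r ^ 2 / ρ ^ 3 ≤ 1 / ρ := by
    rw [div_le_div_iff₀ (by positivity) hρ]
    have : r ^ 2 ≤ ρ ^ 2 := by gcongr
    nlinarith
  have h2 : 0 ≤ r ^ 2 / ρ ^ 3 := by positivity
  have h3 : 3 / ρ ≤ 3 / r := by gcongr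
  have h4 : 1 / ρ ≤ 3 / ρ := by gcongr; norm_num
  rw [abs_of_nonneg (by linarith)]
  linarith

theorem O2a_unit_le (c x : E) : ‖‖x - c‖⁻¹ • (x - c)‖ ≤ 1 := by
  rw [norm_smul, norm_inv, norm_norm]
  exact inv_mul_le_one_of_le₀ le_rfl (norm_nonneg _)

theorem O2a_meas (c : E) : AEStronglyMeasurable (fun x : E => ‖x - c‖⁻¹ • (x - c)) volume :=
  (Measurable.smul (f := fun x : E => ‖x - c‖⁻¹) (g := fun x : E => x - c) (by fun_prop)
    (by fun_prop)).aestronglyMeasurable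

theorem O2a_int (c : E) {f : E → ℝ} (h : H1 f) :
    Integrable (fun x => f x * ⟪D f x, ‖x - c‖⁻¹ • (x - c)⟫) := by
  refine (S12_mul h.l2.norm h.dl2.norm).mono' (h.l2.1.mul (h.dl2.1.inner (O2a_meas c)))
    (.of_forall fun x => ?_)
  rw [norm_mul]
  refine mul_le_mul_of_nonneg_left ((norm_inner_le_norm _ _).trans ?_) (norm_nonneg _)
  exact mul_le_of_le_one_right (norm_nonneg _) (O2a_unit_le c x)

theorem O2a_int_hv (c : E) {f : E → ℝ} (h : H1 f) : Integrable (fun x => hv c x * f x ^ 2) := by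
  refine ((S12_mul (hardy h c).1 h.l2).neg).congr (.of_forall fun x => ?_)
  simp only [Pi.neg_apply, hv]
  ring

/-- `H1.ibp` for `f` and `f · X_ε^i` (`H1.mul_lip`), `X_ε = (x - c)/√(‖x - c‖² + ε)`,
`div X_ε = (2‖x-c‖² + 3ε)/(‖x-c‖² + ε)^{3/2} ≤ 3/‖x-c‖`, dominated convergence `ε → 0`
(or first for test functions with `ibp_field` and `φ²`, then density). -/
theorem hyd_ibp (c : E) {f : E → ℝ} (h : H1 f) :
    ∫ x, f x * ⟪D f x, ‖x - c‖⁻¹ • (x - c)⟫ = ∫ x, hv c x * f x ^ 2 := by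
  obtain ⟨w, hw, hw1, hw2, hw3, hw4, -, -⟩ := h.trunc
  have hε : ∀ n : ℕ, 0 < 1 / ((n : ℝ) + 1) := fun n => by positivity
  set ρ : ℕ → E → ℝ := fun n x => √(‖x - c‖ ^ 2 + 1 / ((n : ℝ) + 1)) with hρ
  set X : ℕ → E → E := fun n x => (ρ n x)⁻¹ • (x - c) with hXdef
  have hρ0 : ∀ n x, 0 < ρ n x := fun n x => by
    have := hε n
    simp only [hρ]
    positivity
  have hρc : ∀ n, ContDiff ℝ 1 (ρ n) := fun n =>
    (((contDiff_id.sub contDiff_const).norm_sq ℝ).add contDiff_const).sqrt fun x => by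
      have := hε n
      positivity
  have hX : ∀ n, ContDiff ℝ 1 (X n) := fun n =>
    ((hρc n).inv fun x => (hρ0 n x).ne').smul (contDiff_id.sub contDiff_const)
  have hX1 : ∀ n x, ‖X n x‖ ≤ 1 := fun n x => O2a_norm_le c (hε n) x
  have hd : ∀ n x, dvg (X n) x = 3 / ρ n x - ‖x - c‖ ^ 2 / ρ n x ^ 3 :=
    fun n x => O2a_dvg c (hε n) x
  have hρt : ∀ x, Tendsto (fun n => ρ n x) atTop (𝓝 ‖x - c‖) := fun x => by
    have := (tendsto_one_div_add_atTop_nhds_zero_nat.const_add (‖x - c‖ ^ 2)).sqrt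
    rwa [add_zero, Real.sqrt_sq (norm_nonneg _)] at this
  have hne : ∀ᵐ x : E, 0 < ‖x - c‖ := by
    filter_upwards [Measure.ae_ne volume c] with x hx
    exact norm_pos_iff.2 (sub_ne_zero.2 hx)
  have hXt : ∀ x, 0 < ‖x - c‖ → Tendsto (fun n => X n x) atTop (𝓝 (‖x - c‖⁻¹ • (x - c))) :=
    fun x hx => ((hρt x).inv₀ hx.ne').smul_const _
  have hdt : ∀ x, 0 < ‖x - c‖ → Tendsto (fun n => dvg (X n) x) atTop (𝓝 (2 / ‖x - c‖)) := by
    intro x hx
    simp only [hd]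
    have := (tendsto_const_nhds.div (hρt x) hx.ne').sub
      ((tendsto_const_nhds (x := ‖x - c‖ ^ 2)).div ((hρt x).pow 3) (by positivity))
      (f := fun n => (3 : ℝ) / ρ n x)
    have e : 2 / ‖x - c‖ = 3 / ‖x - c‖ - ‖x - c‖ ^ 2 / ‖x - c‖ ^ 3 := by
      field_simp
      ring
    rw [e]
    exact this
  have key : ∀ n, ∫ x, f x * ⟪X n x, D (w n) x⟫ =
      -∫ x, (f x * dvg (X n) x + ⟪D f x, X n x⟫) * w n x :=
    fun n => S12_ibp (hX n) h.hl (hw n)
  have t1 : Tendsto (fun n => ∫ x, f x * ⟪X n x, D (w n) x⟫) atTop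
      (𝓝 (∫ x, f x * ⟪D f x, ‖x - c‖⁻¹ • (x - c)⟫)) := by
    refine tendsto_integral_of_dominated_convergence (fun x => ‖f x‖ * (‖D f x‖ + ‖f x‖))
      (fun n => h.l2.1.mul ((hX n).continuous.aestronglyMeasurable.inner (hw n).h1.dl2.1))
      (S12_mul h.l2.norm (h.dl2.norm.add h.l2.norm)) (fun n => ?_) ?_
    · filter_upwards [hw3 n] with x hx
      rw [norm_mul]
      refine mul_le_mul_of_nonneg_left ((norm_inner_le_norm _ _).trans ?_) (norm_nonneg _)
      exact (mul_le_of_le_one_left (norm_nonneg _) (hX1 n x)).trans hx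
    · filter_upwards [hw4, hne] with x hx hx0
      rw [real_inner_comm]
      exact ((hXt x hx0).inner hx).const_mul _
  have t2 : Tendsto (fun n => ∫ x, (f x * dvg (X n) x + ⟪D f x, X n x⟫) * w n x) atTop
      (𝓝 (∫ x, (f x * (2 / ‖x - c‖) + ⟪D f x, ‖x - c‖⁻¹ • (x - c)⟫) * f x)) := by
    refine tendsto_integral_of_dominated_convergence
      (fun x => (3 * ‖f x / ‖x - c‖‖ + ‖D f x‖) * ‖f x‖) (fun n => ?_)
      (S12_mul (((hardy h c).1.norm.const_mul 3).add h.dl2.norm) h.l2.norm) (fun n => ?_) ?_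
    · have hc : Continuous (dvg (X n)) :=
        continuousOn_univ.1 (S12_dvg_cont isOpen_univ (hX n).contDiffOn)
      exact ((h.l2.1.mul hc.aestronglyMeasurable).add
        (h.dl2.1.inner (hX n).continuous.aestronglyMeasurable)).mul (hw n).h1.l2.1
    · filter_upwards [hne] with x hx
      rw [norm_mul]
      refine mul_le_mul ((norm_add_le _ _).trans (add_le_add ?_ ?_)) (hw1 n x).1 (norm_nonneg _)
        (by positivity)
      · have h1 : |dvg (X n) x| ≤ 3 / ‖x - c‖ := by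
          rw [hd]
          exact O2a_dvg_le hx (Real.le_sqrt_of_sq_le (by linarith [hε n]))
        rw [norm_mul, norm_div, norm_norm]
        refine (mul_le_mul_of_nonneg_left h1 (norm_nonneg _)).trans_eq ?_
        ring
      · exact (norm_inner_le_norm _ _).trans (mul_le_of_le_one_right (norm_nonneg _) (hX1 n x))
    · filter_upwards [hne] with x hx
      exact (((hdt x hx).const_mul _).add (tendsto_const_nhds.inner (hXt x hx))).mul (hw2 x)
  have e := tendsto_nhds_unique t1 (by simpa only [key] using t2.neg)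
  have e2 : ∫ x, (f x * (2 / ‖x - c‖) + ⟪D f x, ‖x - c‖⁻¹ • (x - c)⟫) * f x =
      ∫ x, (f x * ⟪D f x, ‖x - c‖⁻¹ • (x - c)⟫ - 2 * (hv c x * f x ^ 2)) := by
    refine integral_congr_ae (.of_forall fun x => ?_)
    simp only [hv]
    ring
  rw [e2, integral_sub (O2a_int c h) ((O2a_int_hv c h).const_mul 2), integral_const_mul] at e
  linarith

theorem hyd_id (c : E) {f : E → ℝ} (h : H1 f) :
    Integrable (fun x => ‖D f x + f x • ‖x - c‖⁻¹ • (x - c)‖ ^ 2) ∧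
      Q (hv c) f + (1 / 2) * nsq f = (1 / 2) * ∫ x, ‖D f x + f x • ‖x - c‖⁻¹ • (x - c)‖ ^ 2 := by
  have i1 := (memLp_two_iff_integrable_sq_norm h.dl2.1).1 h.dl2
  have i2 := (memLp_two_iff_integrable_sq h.l2.1).1 h.l2
  have i3 := (O2a_int c h).const_mul 2
  have e : ∀ᵐ x : E, ‖D f x‖ ^ 2 + 2 * (f x * ⟪D f x, ‖x - c‖⁻¹ • (x - c)⟫) + f x ^ 2 =
      ‖D f x + f x • ‖x - c‖⁻¹ • (x - c)‖ ^ 2 := by
    filter_upwards [Measure.ae_ne volume c] with x hx
    have h1 : 0 < ‖x - c‖ := norm_pos_iff.2 (sub_ne_zero.2 hx)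
    rw [norm_add_sq_real, inner_smul_right (D f x) _ (f x), norm_smul, norm_smul, norm_inv,
      norm_norm, inv_mul_cancel₀ h1.ne', mul_one, Real.norm_eq_abs, sq_abs]
  refine ⟨((i1.add i3).add i2).congr e, ?_⟩
  rw [← integral_congr_ae e, integral_add (i1.fun_add i3) i2, integral_add i1 i3,
    integral_const_mul, hyd_ibp c h]
  unfold Q dir nsq
  ring

theorem hyd_low (c : E) {f : E → ℝ} (h : H1 f) : -(1 / 2) * nsq f ≤ Q (hv c) f := by
  have h1 := (hyd_id c h).2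
  have h2 : 0 ≤ ∫ x, ‖D f x + f x • ‖x - c‖⁻¹ • (x - c)‖ ^ 2 :=
    integral_nonneg fun _ => by positivity
  linarith

end

end Crest.Agent.R335
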