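import Crest.Agent.R335.O2a

set_option autoImplicit false
set_option linter.unusedVariables false

open MeasureTheory Set Filter Topology Metric
open scoped Gradient ContDiff RealInnerProductSpace ENNReal

namespace Crest.Agent.R335

noncomputable section

/-! Module O: the spectral gap of hydrogen. `N f = 2 Q (hv c) f + nsq f`, `B = ball c 4`. -/

/-- `∫ f²/‖x-c‖ ≤ nsq f / 4 + ∫_B f²/‖x-c‖`, `2 ∫_B f²/‖x-c‖ ≤ dir f + 4 ∫_B f²` (`O_hv_op`) -/
theorem hyd_out (c : E) {f : E → ℝ} (h : H1 f) :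
    (1 / 2) * nsq f - 4 * ∫ x in ball c 4, f x ^ 2 ≤ 2 * Q (hv c) f + nsq f := by
  obtain ⟨m1, m2⟩ := O_hv_op c h
  have i1 := S11_int_U h m1
  have i2 := h.l2.integrable_sq
  have i3 := m1.integrable_sq
  have i4 : Integrable ((ball c 4).indicator fun x => f x ^ 2) := i2.indicator measurableSet_ball
  have key : ∫ x, -2 * (hv c x * f x ^ 2) ≤ ∫ x, (1 / 4 * (hv c x * f x) ^ 2 + 1 / 2 * f x ^ 2 +
      4 * (ball c 4).indicator (fun x => f x ^ 2) x) := by
    refine integral_mono (i1.const_mul _)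
      (((i3.const_mul _).add (i2.const_mul _)).add (i4.const_mul _)) fun x => ?_
    by_cases hx : x ∈ ball c 4
    · simp only [indicator_of_mem hx]
      nlinarith [sq_nonneg (hv c x * f x / 2 + 2 * f x), sq_nonneg (f x)]
    · simp only [indicator_of_notMem hx]
      rw [mem_ball, dist_eq_norm, not_lt] at hx
      have h1 : 1 / ‖x - c‖ ≤ 1 / 4 := by gcongr
      have h2 : -(1 / 4) ≤ hv c x := by rw [hv_def]; linarith
      nlinarith [sq_nonneg (hv c x * f x), sq_nonneg (f x)]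
  rw [S11_int3 i3 i2 i4, integral_const_mul, integral_indicator measurableSet_ball] at key
  unfold Q nsq at *
  linarith

theorem O2b_t (c : E) {f : E → ℝ} (h : H1 f) : Hl (fun x => Real.exp ‖x - c‖ * f x) ∧
    ∀ᵐ x, D (fun x => Real.exp ‖x - c‖ * f x) x =
      Real.exp ‖x - c‖ • (D f x + f x • ‖x - c‖⁻¹ • (x - c)) := by
  obtain ⟨n1, n2⟩ := norm_sub_bl c
  obtain ⟨a1, a2⟩ := n1.comp (Real.contDiff_exp (n := 1))
  have ca : Continuous fun x : E => Real.exp ‖x - c‖ := by fun_prop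
  have e : ∀ᵐ x, Real.exp ‖x - c‖ • D f x + f x • D (fun x => Real.exp ‖x - c‖) x =
      Real.exp ‖x - c‖ • (D f x + f x • ‖x - c‖⁻¹ • (x - c)) := by
    filter_upwards [n2, a2] with x e1 e2
    rw [e2, e1, Real.deriv_exp, smul_add, smul_comm (f x)]
  have m1 : MemLp (fun x => D f x + f x • ‖x - c‖⁻¹ • (x - c)) 2 volume := by
    refine h.dl2.add (h.l2.of_le_mul (c := 1) (h.l2.1.smul (by fun_prop)) (.of_forall fun x => ?_))
    rw [norm_smul, norm_smul, norm_inv, norm_norm, mul_comm]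
    exact mul_le_mul_of_nonneg_right (inv_mul_le_one_of_le₀ le_rfl (norm_nonneg _)) (norm_nonneg _)
  obtain ⟨p1, p2⟩ := a1.hl.mul h.hl (fun K hK => by
      obtain ⟨M, hM⟩ := hK.exists_bound_of_continuousOn ca.continuousOn
      refine (h.l2.restrict K).of_le_mul (c := M) (ca.aestronglyMeasurable.mul h.l2.1.restrict) ?_
      filter_upwards [ae_restrict_mem hK.measurableSet] with x hx
      rw [norm_mul]
      exact mul_le_mul_of_nonneg_right (hM x hx) (norm_nonneg _))
    (fun K hK => by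
      obtain ⟨M, hM⟩ := hK.exists_bound_of_continuousOn ca.continuousOn
      refine MemLp.ae_eq (ae_restrict_of_ae (e.mono fun x hx => hx.symm)) ?_
      refine (m1.restrict K).of_le_mul (c := M) (ca.aestronglyMeasurable.smul m1.1.restrict) ?_
      filter_upwards [ae_restrict_mem hK.measurableSet] with x hx
      rw [norm_smul]
      exact mul_le_mul_of_nonneg_right (hM x hx) (norm_nonneg _))
  refine ⟨p1, ?_⟩
  filter_upwards [p2, e] with x e1 e2 using e1.trans e2

/-- `t = exp (min ‖x-c‖ 4) f` (`H1.mul_lip`, `norm_sub_bl`, `D_eqOn`/`Bl.comp`) has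
`D t = exp ‖x-c‖ (D f + f (x-c)/‖x-c‖)` a.e. on `B`; `poincare_ball`, `hyd_id`;
`∫_B f² ≤ ∫_B t² ≤ 2 ∫_B (t - mean)² + 2 |B| mean²`; `b = 1_B exp ‖x-c‖`. -/
theorem hyd_in : ∃ A K : ℝ, 0 < A ∧ 0 ≤ K ∧ ∀ c : E, ∃ b : E → ℝ, MemLp b 2 volume ∧
    ∀ f, H1 f → ∫ x in ball c 4, f x ^ 2 ≤ A * (2 * Q (hv c) f + nsq f) + K * ip b f ^ 2 := by
  obtain ⟨C, C0, hC⟩ := poincare_ball
  set w : ℝ := volume.real (ball (0 : E) 4) with hw
  have w0 : 0 ≤ w := measureReal_nonneg
  refine ⟨2 * (C * 4 ^ 2 * Real.exp 4 ^ 2), 2 * w⁻¹, by positivity, by positivity, fun c => ?_⟩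
  have hB : IsFiniteMeasure (volume.restrict (ball c 4)) :=
    isFiniteMeasure_restrict.2 measure_ball_lt_top.ne
  have hwc : volume.real (ball c 4) = w := by
    rw [hw, measureReal_def, measureReal_def, Measure.addHaar_ball_center]
  have ca : Continuous fun x : E => Real.exp ‖x - c‖ := by fun_prop
  have ab : ∀ x ∈ ball c 4, Real.exp ‖x - c‖ ≤ Real.exp 4 := fun x hx => by
    rw [mem_ball, dist_eq_norm] at hx
    exact Real.exp_le_exp.2 hx.le
  refine ⟨(ball c 4).indicator fun x => Real.exp ‖x - c‖, ?_, fun f h => ?_⟩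
  · rw [memLp_indicator_iff_restrict measurableSet_ball]
    refine MemLp.of_bound ca.aestronglyMeasurable (Real.exp 4) ?_
    filter_upwards [ae_restrict_mem measurableSet_ball] with x hx
    rw [Real.norm_eq_abs, abs_of_pos (Real.exp_pos _)]
    exact ab x hx
  obtain ⟨t1, t2⟩ := O2b_t c h
  obtain ⟨d1, d2⟩ := hyd_id c h
  set t : E → ℝ := fun x => Real.exp ‖x - c‖ * f x with ht
  have hp := hC t c 4 (by norm_num) t1
  have sub : volume.restrict (ball c 4) ≤ volume.restrict (closedBall c 4) :=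
    Measure.restrict_mono ball_subset_closedBall le_rfl
  have tl : MemLp t 2 (volume.restrict (ball c 4)) :=
    (t1.l2 _ (isCompact_closedBall c 4)).mono_measure sub
  have tD : MemLp (D t) 2 (volume.restrict (ball c 4)) :=
    (t1.dl2 _ (isCompact_closedBall c 4)).mono_measure sub
  set m := ⨍ y in ball c 4, t y with hm
  have em : m = w⁻¹ * ip ((ball c 4).indicator fun x => Real.exp ‖x - c‖) f := by
    rw [hm, setAverage_eq, hwc, smul_eq_mul, ← integral_indicator measurableSet_ball]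
    congr 1
    refine integral_congr_ae (Eventually.of_forall fun x => ?_)
    simp only [ht, indicator_mul_left]
  have h1 : ∫ x in ball c 4, ‖D t x‖ ^ 2 ≤ Real.exp 4 ^ 2 * (2 * Q (hv c) f + nsq f) := by
    have e : 2 * Q (hv c) f + nsq f = ∫ x, ‖D f x + f x • ‖x - c‖⁻¹ • (x - c)‖ ^ 2 := by linarith
    rw [e]
    refine le_trans ?_ (mul_le_mul_of_nonneg_left
      (setIntegral_le_integral (s := ball c 4) d1 (.of_forall fun x => by positivity))
      (by positivity))
    rw [← integral_const_mul]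
    refine integral_mono_ae tD.norm.integrable_sq (d1.integrableOn.const_mul _) ?_
    filter_upwards [ae_restrict_mem measurableSet_ball, ae_restrict_of_ae t2] with x hx e
    rw [e, norm_smul, mul_pow, Real.norm_eq_abs, abs_of_pos (Real.exp_pos _)]
    have := ab x hx
    gcongr
  have i1 : Integrable (fun x => (t x - m) ^ 2) (volume.restrict (ball c 4)) :=
    (tl.sub (memLp_const m)).integrable_sq
  have h2 : ∫ x in ball c 4, f x ^ 2 ≤ ∫ x in ball c 4, (2 * (t x - m) ^ 2 + 2 * m ^ 2) := by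
    refine integral_mono h.l2.integrable_sq.integrableOn
      ((i1.const_mul 2).add (integrable_const _)) fun x => ?_
    have a1 : 1 ≤ Real.exp ‖x - c‖ := Real.one_le_exp (norm_nonneg _)
    have a2 : f x ^ 2 ≤ t x ^ 2 := by
      simp only [ht, mul_pow]
      exact le_mul_of_one_le_left (sq_nonneg _) (one_le_pow₀ a1)
    simp only
    nlinarith [sq_nonneg (t x - 2 * m)]
  rw [integral_add (i1.const_mul 2) (integrable_const _), integral_const_mul, setIntegral_const, hwc,
    smul_eq_mul] at h2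
  have h3 : w * (2 * m ^ 2) = 2 * w⁻¹ * ip ((ball c 4).indicator fun x => Real.exp ‖x - c‖) f ^ 2 := by
    rw [em]
    by_cases h0 : w = 0
    · simp [h0]
    · field_simp
  have h4 := mul_le_mul_of_nonneg_left h1 (show 0 ≤ C * 4 ^ 2 by positivity)
  linarith

theorem hyd_gap : ∃ γ K : ℝ, 0 < γ ∧ γ ≤ 1 / 100 ∧ 0 ≤ K ∧ ∀ c : E, ∃ b : E → ℝ, MemLp b 2 volume ∧
    ∀ f, H1 f → (-(1 / 2) + 2 * γ) * nsq f - K * ip b f ^ 2 ≤ Q (hv c) f := by
  obtain ⟨A, K, A0, K0, h⟩ := hyd_in
  refine ⟨min (1 / 100) (1 / (8 * (1 + 4 * A))), 2 * K, by positivity, min_le_left _ _,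
    by positivity, fun c => ?_⟩
  obtain ⟨b, hb, h⟩ := h c
  refine ⟨b, hb, fun f hf => ?_⟩
  have h1 := h f hf
  have h2 := hyd_out c hf
  have h3 := hyd_low c hf
  have n0 := S11_nsq_nonneg f
  set γ := min (1 / 100) (1 / (8 * (1 + 4 * A))) with hγ
  have g0 : 0 < γ := by positivity
  have g1 : γ * (8 * (1 + 4 * A)) ≤ 1 := by
    rw [← le_div_iff₀ (by positivity)]
    exact min_le_right _ _
  have g2 : γ ≤ 1 / 100 := min_le_left _ _
  set N := 2 * Q (hv c) f + nsq f with hN
  have N0 : 0 ≤ N := by linarith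
  have p0 : 0 ≤ K * ip b f ^ 2 := by positivity
  have h4 : nsq f ≤ 2 * (1 + 4 * A) * N + 8 * (K * ip b f ^ 2) := by linarith
  have h5 := mul_le_mul_of_nonneg_left h4 g0.le
  have h6 := mul_le_mul_of_nonneg_right g1 N0
  have h7 := mul_le_mul_of_nonneg_right g2 p0
  nlinarith

end

end Crest.Agent.R335
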