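import Crest.Agent.R335.O2a

set_option autoImplicit false
set_option linter.unusedVariables false

open MeasureTheory Set Filter Topology Metric
open scoped Gradient ContDiff RealInnerProductSpace ENNReal

namespace Crest.Agent.R335

noncomputable section

/-! Module O: trial functions. -/

theorem O2c_int : Integrable fun x : E => Real.exp (-‖x‖) ^ 2 := by
  refine Y1A.rad_integrable (f := fun y => Real.exp (-y) ^ 2) ?_
  have h := ((Y1A.int_exp (a := 1) one_pos).1.const_mul 2)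
  refine Integrable.mono' h (by fun_prop) ?_
  refine (ae_restrict_iff' measurableSet_Ioi).2 (ae_of_all _ fun y hy => ?_)
  have hy0 : (0 : ℝ) ≤ y := le_of_lt hy
  have h1 := Real.quadratic_le_exp_of_nonneg hy0
  have h2 : Real.exp y * Real.exp (-y) = 1 := by rw [← Real.exp_add]; simp
  have h3 := Real.exp_pos (-y)
  rw [Real.norm_eq_abs, abs_of_nonneg (by positivity), neg_one_mul]
  have h4 : y ^ 2 * Real.exp (-y) ≤ 2 := by nlinarith
  nlinarith

theorem O2c_exp (c : E) : Bl (fun x : E => Real.exp (-‖x - c‖)) ∧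
    ∀ᵐ x : E, D (fun x : E => Real.exp (-‖x - c‖)) x
      = (-Real.exp (-‖x - c‖)) • ‖x - c‖⁻¹ • (x - c) := by
  obtain ⟨h1, h2⟩ := norm_sub_bl c
  obtain ⟨h3, h4⟩ := h1.comp (β := fun t => Real.exp (-t)) (by fun_prop)
  refine ⟨h3, ?_⟩
  filter_upwards [h2, h4] with x e1 e2
  have hd : deriv (fun t => Real.exp (-t)) ‖x - c‖ = -Real.exp (-‖x - c‖) := by
    have := ((hasDerivAt_id ‖x - c‖).neg.exp).deriv
    simpa using this
  rw [e2, e1, hd]

/-- `ψ = j exp (-‖x-c‖)`, `j` from `exists_cutoff c (r := 1) (s large)`;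
`D ψ + ψ (x-c)/‖x-c‖ = exp (-‖x-c‖) ∇ j`, `hyd_id`; the constants `∫ exp (-2‖x-c‖)` and
`∫_{ball c 1} exp (-2‖x-c‖) > 0` do not depend on `c` (translation invariance). -/
theorem hyd_trial {γ : ℝ} (hγ : 0 < γ) : ∃ ρ : ℝ, 0 < ρ ∧ ∀ c : E, ∃ ψ : E → ℝ, H1 ψ ∧
    (∀ x, ρ ≤ ‖x - c‖ → ψ x = 0) ∧ 0 < nsq ψ ∧ Q (hv c) ψ ≤ (-(1 / 2) + γ) * nsq ψ := by
  set A : ℝ := ∫ x : E, Real.exp (-‖x‖) ^ 2 with hA
  have hA0 : 0 ≤ A := integral_nonneg fun x => by positivity
  set w : E → ℝ := (closedBall (0 : E) 1).indicator fun _ => Real.exp (-1) ^ 2 with hw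
  have hwi : Integrable w :=
    (integrable_indicator_iff measurableSet_closedBall).2
      (integrableOn_const (measure_closedBall_lt_top).ne)
  set B : ℝ := ∫ x, w x with hB
  have hB0 : 0 < B := by
    rw [hB, hw, integral_indicator measurableSet_closedBall, setIntegral_const, smul_eq_mul]
    refine mul_pos ?_ (by positivity)
    exact ENNReal.toReal_pos (measure_closedBall_pos volume _ one_pos).ne'
      measure_closedBall_lt_top.ne
  set s : ℝ := 1 + 8 * A / (γ * B) with hs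
  have hq : 0 ≤ 8 * A / (γ * B) := by positivity
  have hs1 : 1 ≤ s := by linarith
  have hs0 : 0 < s := by linarith
  have hsA : 8 * A ≤ γ * B * s ^ 2 := by
    have h1 : 8 * A / (γ * B) ≤ s ^ 2 := by nlinarith
    rw [div_le_iff₀ (by positivity)] at h1
    linarith
  refine ⟨1 + s, by linarith, fun c => ?_⟩
  obtain ⟨j, hj1, hj2, hj3, hj4, hj5, hj6, -⟩ := exists_cutoff c (r := 1) zero_le_one hs0
  have hjt : Tst j := S06_tst hj1 hj2
  obtain ⟨he1, he2⟩ := O2c_exp c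
  have hψ : H1 fun x => j x * Real.exp (-‖x - c‖) := he1.hl.mul_tst hjt
  have hD := D_mul_c1 he1.hl hjt.1
  have hn : B ≤ nsq fun x => j x * Real.exp (-‖x - c‖) := by
    rw [hB, ← integral_sub_right_eq_self w c]
    refine integral_mono (hwi.comp_sub_right c) (hψ.l2.integrable_sq) fun x => ?_
    by_cases hx : x - c ∈ closedBall (0 : E) 1
    · simp only [hw, indicator_of_mem hx]
      rw [mem_closedBall_zero_iff] at hx
      rw [hj4 x hx, one_mul]
      exact pow_le_pow_left₀ (Real.exp_pos _).le (Real.exp_le_exp.2 (by linarith)) 2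
    · simp only [hw, indicator_of_notMem hx]
      positivity
  obtain ⟨hi, hid⟩ := hyd_id c hψ
  have hle : ∫ x, ‖D (fun x => j x * Real.exp (-‖x - c‖)) x
      + (j x * Real.exp (-‖x - c‖)) • ‖x - c‖⁻¹ • (x - c)‖ ^ 2 ≤ 16 / s ^ 2 * A := by
    rw [hA, ← integral_sub_right_eq_self (fun x : E => Real.exp (-‖x‖) ^ 2) c, ← integral_const_mul]
    refine integral_mono_ae hi ((O2c_int.comp_sub_right c).const_mul _) ?_
    filter_upwards [hD, he2] with x e1 e2
    have e3 : D (fun x => j x * Real.exp (-‖x - c‖)) x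
        + (j x * Real.exp (-‖x - c‖)) • ‖x - c‖⁻¹ • (x - c) = Real.exp (-‖x - c‖) • ∇ j x := by
      rw [e1, e2, neg_smul, smul_neg, mul_smul]
      abel
    rw [e3, norm_smul, mul_pow, Real.norm_eq_abs, sq_abs, mul_comm]
    refine mul_le_mul_of_nonneg_right ?_ (by positivity)
    calc ‖∇ j x‖ ^ 2 ≤ (4 / s) ^ 2 := pow_le_pow_left₀ (norm_nonneg _) (hj6 x) 2
      _ = 16 / s ^ 2 := by rw [div_pow]; norm_num
  refine ⟨_, hψ, fun x hx => by rw [hj5 x hx, zero_mul], hB0.trans_le hn, ?_⟩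
  have h1 : 16 / s ^ 2 * A ≤ 2 * (γ * B) := by
    rw [div_mul_eq_mul_div, div_le_iff₀ (by positivity)]
    linarith
  have h2 := mul_le_mul_of_nonneg_left hn hγ.le
  linarith

/-- `f = ψ - ψ ∘ R` with `c = d e_z`, `d ≥ ρ`: the supports are disjoint (`CS.D_zero`, `S11_Q_lc`,
`O_Q_R`), and `vx ≤ hv c`. -/
theorem two_trial {γ : ℝ} (hγ : 0 < γ) : ∃ d1 : ℝ, ∀ d, d1 ≤ d → ∃ f : E → ℝ, H1 f ∧ Od f ∧
    0 < nsq f ∧ Q (vx d) f ≤ (-(1 / 2) + γ) * nsq f := by
  obtain ⟨ρ, hρ, H⟩ := hyd_trial hγ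
  refine ⟨ρ, fun d hd => ?_⟩
  obtain ⟨ψ, h1, h2, h3, h4⟩ := H (d • ez)
  obtain ⟨r1, r2, r3, r4⟩ := O_Q_R d h1
  have hz : ∀ x : E, x 2 ≤ 0 → ψ x = 0 := by
    intro x hx
    refine h2 x ?_
    have e1 := O1_abs_two (x - d • ez)
    have e2 : (x - d • ez) 2 = x 2 - d := by rw [PiLp.sub_apply, O1_two]
    rw [e2] at e1
    have e3 := neg_abs_le (x 2 - d)
    linarith
  have hor : ∀ x : E, ψ x = 0 ∨ ψ (R x) = 0 := by
    intro x
    rcases le_total (x 2) 0 with hx | hx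
    · exact Or.inl (hz x hx)
    · exact Or.inr (hz _ (by rw [R_two]; linarith))
  have hip : ip ψ (fun x => ψ (R x)) = 0 := by
    have : (fun x => ψ x * ψ (R x)) = fun _ => 0 := funext fun x => mul_eq_zero.2 (hor x)
    rw [ip, this, integral_zero]
  have hB : S11_B (vx d) ψ (fun x => ψ (R x)) = 0 := by
    have e1 : (fun x => vx d x * ψ x * ψ (R x)) = fun _ => 0 := funext fun x => by
      rw [mul_assoc, mul_eq_zero.2 (hor x), mul_zero]
    have e2 : ∫ x, ⟪D ψ x, D (fun x => ψ (R x)) x⟫ = 0 := by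
      refine integral_eq_zero_of_ae ?_
      filter_upwards [h1.hl.D_level 0, r1.hl.D_level 0] with x a1 a2
      rcases hor x with h | h
      · rw [a1 h, inner_zero_left]; rfl
      · rw [a2 h, inner_zero_right]; rfl
    rw [S11_B, e1, e2, integral_zero]
    ring
  have hn := S11_nsq_lc h1.l2 r1.l2 1 (-1)
  have hQ := S11_Q_lc h1 r1 (O_vx_op d h1).1 (O_vx_op d r1).1 1 (-1)
  rw [hip, r2] at hn
  rw [hB, r4] at hQ
  have hle : Q (vx d) ψ ≤ Q (hv (d • ez)) ψ := by
    have : ∫ x, vx d x * ψ x ^ 2 ≤ ∫ x, hv (d • ez) x * ψ x ^ 2 := by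
      refine integral_mono (S11_int_U h1 (O_vx_op d h1).1) (S11_int_U h1 (O_hv_op _ h1).1)
        fun x => ?_
      refine mul_le_mul_of_nonneg_right ?_ (sq_nonneg _)
      have e : hv (-(d • ez)) x ≤ 0 := by
        rw [hv_def, neg_nonpos]; positivity
      rw [O_vx_eq]
      linarith
    simp only [Q]
    linarith
  refine ⟨_, S11_h1_lc h1 r1 1 (-1), ae_of_all _ fun x => ?_, ?_, ?_⟩
  · simp only [R_R]
    ring
  · rw [hn]; linarith
  · rw [hn, hQ]; linarith

end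

end Crest.Agent.R335
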