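import Crest.Agent.R335.O2b

set_option autoImplicit false
set_option linter.unusedVariables false

open MeasureTheory Set Filter Topology Metric
open scoped Gradient ContDiff RealInnerProductSpace ENNReal

namespace Crest.Agent.R335

noncomputable section

/-! Module O: two centres. -/

theorem O3_abs_two (x : E) : |x 2| ≤ ‖x‖ := by
  have := PiLp.norm_apply_le x 2
  rwa [Real.norm_eq_abs] at this

theorem O3_ez_two (d : ℝ) : (d • ez) 2 = d := by
  change d * (EuclideanSpace.single (2 : Fin 3) (1 : ℝ)) 2 = d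
  simp

theorem O3_hv {d : ℝ} (hd : 0 < d) {c x : E} (h : d / 2 ≤ ‖x - c‖) : -(2 / d) ≤ hv c x := by
  rw [hv_def, neg_le_neg_iff, div_le_div_iff₀ (by linarith) hd]
  linarith

/-- `exists_ims` for `x ↦ x 2`, `r = -d/2`, `s = d`; `ims`; on `{b ≠ 0}`, `‖x + d e_z‖ ≥ d/2`. -/
theorem two_ims {d : ℝ} (hd : 1 ≤ d) : ∃ a b : E → ℝ, AEStronglyMeasurable a volume ∧
    AEStronglyMeasurable b volume ∧ (∀ x, |a x| ≤ 1 ∧ |b x| ≤ 1) ∧ ∀ f, H1 f →
      H1 (fun x => a x * f x) ∧ H1 (fun x => b x * f x) ∧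
      nsq (fun x => a x * f x) + nsq (fun x => b x * f x) = nsq f ∧
      Q (hv (d • ez)) (fun x => b x * f x) + Q (hv (-(d • ez))) (fun x => a x * f x) -
        4 / d * nsq f ≤ Q (vx d) f := by
  have hd0 : 0 < d := by linarith
  obtain ⟨a, b, α, -, ha, hb, hab0, hb0, ha0, hab, hD⟩ :=
    exists_ims (V := E) (d := fun x => x 2) (r := -(d / 2)) (s := d) (fun x y => by
      have := O3_abs_two (x - y)
      simpa using this) hd0
  have hbd : ∀ x, |a x| ≤ 1 ∧ |b x| ≤ 1 := fun x =>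
    ⟨abs_le.2 ⟨by linarith [(hab0 x).1], (hab0 x).2.1⟩,
      abs_le.2 ⟨by linarith [(hab0 x).2.2.1], (hab0 x).2.2.2⟩⟩
  have hd2 : 3 / d ^ 2 ≤ 4 / d := by
    rw [div_le_div_iff₀ (by positivity) hd0]
    nlinarith
  have hd3 : 4 / d ≤ 4 := by
    rw [div_le_iff₀ hd0]; linarith
  have ha1 : Bd a := ⟨1, Eventually.of_forall fun x => (hbd x).1⟩
  have hb1 : Bd b := ⟨1, Eventually.of_forall fun x => (hbd x).2⟩
  have ha2 : Bd fun x => ‖D a x‖ := ⟨2, hD.mono fun x hx => by
    rw [abs_norm]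
    nlinarith [norm_nonneg (D a x), sq_nonneg ‖D b x‖]⟩
  have hb2 : Bd fun x => ‖D b x‖ := ⟨2, hD.mono fun x hx => by
    rw [abs_norm]
    nlinarith [norm_nonneg (D b x), sq_nonneg ‖D a x‖]⟩
  refine ⟨a, b, ha.hl.aesm, hb.hl.aesm, hbd, fun f hf => ?_⟩
  have haf := (hf.mul_lip ha.hl ha1 ha2).1
  have hbf := (hf.mul_lip hb.hl hb1 hb2).1
  have hi : Integrable (fun x => f x ^ 2) volume := hf.l2.integrable_sq
  refine ⟨haf, hbf, ?_, ?_⟩
  · change (∫ x, (a x * f x) ^ 2) + ∫ x, (b x * f x) ^ 2 = ∫ x, f x ^ 2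
    rw [← integral_add haf.l2.integrable_sq hbf.l2.integrable_sq]
    refine integral_congr_ae (Eventually.of_forall fun x => ?_)
    have := hab x
    simp only
    linear_combination f x ^ 2 * this
  · have h1 := ims hf ha.hl ha1 ha2 hb.hl hb1 hb2 (Eventually.of_forall hab)
    have h2 : ∫ x, (‖D a x‖ ^ 2 + ‖D b x‖ ^ 2) * f x ^ 2 ≤ 4 / d * nsq f := by
      change _ ≤ 4 / d * ∫ x, f x ^ 2
      rw [← integral_const_mul]
      refine integral_mono_of_nonneg (Eventually.of_forall fun x => by positivity)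
        (hi.const_mul _) (hD.mono fun x hx => ?_)
      exact mul_le_mul_of_nonneg_right (hx.trans hd2) (sq_nonneg _)
    have i1 := S11_int_U hbf (O_hv_op (d • ez) hbf).1
    have i2 := S11_int_U haf (O_hv_op (-(d • ez)) haf).1
    have i3 := S11_int_U hf (O_vx_op d hf).1
    have h3 : (∫ x, hv (d • ez) x * (b x * f x) ^ 2) +
        (∫ x, hv (-(d • ez)) x * (a x * f x) ^ 2) - 2 / d * nsq f ≤ ∫ x, vx d x * f x ^ 2 := by
      change _ - 2 / d * ∫ x, f x ^ 2 ≤ _
      have i4 : Integrable (fun x => hv (d • ez) x * (b x * f x) ^ 2 +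
          hv (-(d • ez)) x * (a x * f x) ^ 2) volume := i1.add i2
      rw [← integral_const_mul, ← integral_add i1 i2, ← integral_sub i4 (hi.const_mul _)]
      refine integral_mono (i4.sub (hi.const_mul _)) i3 fun x => ?_
      have e1 : -(2 / d) * a x ^ 2 ≤ hv (d • ez) x * a x ^ 2 := by
        by_cases h0 : a x = 0
        · simp [h0]
        · have h4 : x 2 < d / 2 := by
            by_contra h4
            exact h0 (ha0 x (by linarith))
          refine mul_le_mul_of_nonneg_right (O3_hv hd0 ?_) (sq_nonneg _)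
          have := O3_abs_two (x - d • ez)
          rw [PiLp.sub_apply, O3_ez_two] at this
          linarith [neg_abs_le (x 2 - d)]
      have e2 : -(2 / d) * b x ^ 2 ≤ hv (-(d • ez)) x * b x ^ 2 := by
        by_cases h0 : b x = 0
        · simp [h0]
        · have h4 : -(d / 2) < x 2 := by
            by_contra h4
            exact h0 (hb0 x (by linarith))
          refine mul_le_mul_of_nonneg_right (O3_hv hd0 ?_) (sq_nonneg _)
          have := O3_abs_two (x - -(d • ez))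
          rw [PiLp.sub_apply, PiLp.neg_apply, O3_ez_two] at this
          linarith [le_abs_self (x 2 - -d)]
      have e3 := mul_le_mul_of_nonneg_right (add_le_add e1 e2) (sq_nonneg (f x))
      have e4 := hab x
      simp only [O_vx_eq]
      have e5 : (hv (d • ez) x + hv (-(d • ez)) x) * f x ^ 2 =
          (hv (d • ez) x + hv (-(d • ez)) x) * (a x ^ 2 + b x ^ 2) * f x ^ 2 := by
        rw [e4, mul_one]
      have e6 : 2 / d * f x ^ 2 = 2 / d * (a x ^ 2 + b x ^ 2) * f x ^ 2 := by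
        rw [e4, mul_one]
      rw [e5, e6]
      linarith
    change (1 / 2) * dir _ + (∫ x, hv (d • ez) x * (b x * f x) ^ 2) +
      ((1 / 2) * dir _ + ∫ x, hv (-(d • ez)) x * (a x * f x) ^ 2) - 4 / d * nsq f ≤
      (1 / 2) * dir f + ∫ x, vx d x * f x ^ 2
    have e7 : 4 / d * nsq f = 2 * (2 / d * nsq f) := by ring
    linarith

theorem two_low {d : ℝ} (hd : 100 ≤ d) {f : E → ℝ} (h : H1 f) :
    -(11 / 20) * nsq f ≤ Q (vx d) f := by
  obtain ⟨a, b, -, -, -, hf⟩ := two_ims (d := d) (by linarith)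
  obtain ⟨ha, hb, h1, h2⟩ := hf f h
  have h3 := hyd_low (d • ez) hb
  have h4 := hyd_low (-(d • ez)) ha
  have h5 : 4 / d ≤ 1 / 20 := by
    rw [div_le_iff₀ (by linarith)]; linarith
  have h6 := mul_le_mul_of_nonneg_right h5 (S11_nsq_nonneg f)
  linarith

theorem two_gap : ∃ γ K d1 : ℝ, 0 < γ ∧ γ ≤ 1 / 100 ∧ 0 ≤ K ∧ ∀ d, d1 ≤ d →
    ∃ b : Fin 2 → E → ℝ, (∀ i, MemLp (b i) 2 volume) ∧
      ∀ f, H1 f → (-(1 / 2) + γ) * nsq f - K * ∑ i, ip (b i) f ^ 2 ≤ Q (vx d) f := by
  obtain ⟨γ, K, hγ, hγ', hK, H⟩ := hyd_gap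
  refine ⟨γ, K, 1 + 4 / γ, hγ, hγ', hK, fun d hd => ?_⟩
  have h4 : 0 < 4 / γ := by positivity
  obtain ⟨a, b, ma, mb, hbd, hf⟩ := two_ims (d := d) (by linarith)
  obtain ⟨β, hβ, Hβ⟩ := H (d • ez)
  obtain ⟨β', hβ', Hβ'⟩ := H (-(d • ez))
  have hm : ∀ (c g : E → ℝ), AEStronglyMeasurable c volume → (∀ x, |c x| ≤ 1) →
      MemLp g 2 volume → MemLp (fun x => g x * c x) 2 volume := by
    intro c g mc hc hg
    refine hg.of_le (hg.1.mul mc) (Eventually.of_forall fun x => ?_)
    rw [norm_mul]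
    exact mul_le_of_le_one_right (norm_nonneg _) (hc x)
  refine ⟨![fun x => β x * b x, fun x => β' x * a x], fun i => ?_, fun f h => ?_⟩
  · fin_cases i
    · exact hm b β mb (fun x => (hbd x).2) hβ
    · exact hm a β' ma (fun x => (hbd x).1) hβ'
  · obtain ⟨ha, hb, h1, h2⟩ := hf f h
    have h3 := Hβ _ hb
    have h5 := Hβ' _ ha
    have h6 : 4 / d ≤ γ := by
      rw [div_le_iff₀ (by linarith)]
      have : 4 / γ * γ = 4 := by field_simp
      nlinarith
    have h7 := mul_le_mul_of_nonneg_right h6 (S11_nsq_nonneg f)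
    have e1 : ip (fun x => β x * b x) f = ip β (fun x => b x * f x) :=
      integral_congr_ae (Eventually.of_forall fun x => mul_assoc _ _ _)
    have e2 : ip (fun x => β' x * a x) f = ip β' (fun x => a x * f x) :=
      integral_congr_ae (Eventually.of_forall fun x => mul_assoc _ _ _)
    rw [Fin.sum_univ_two]
    simp only [Matrix.cons_val_zero, Matrix.cons_val_one]
    rw [e1, e2, ← h1] at *
    linarith

end

end Crest.Agent.R335
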