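import Crest.Agent.R335.O1b

set_option autoImplicit false
set_option linter.unusedVariables false

open MeasureTheory Set Filter Topology Metric
open scoped Gradient ContDiff RealInnerProductSpace ENNReal

namespace Crest.Agent.R335

noncomputable section

/-! Module O: the two minimisers. -/

theorem O4a_smul (U : E → ℝ) {u : E → ℝ} (h : H1 u) (c : ℝ) :
    nsq (fun x => c * u x) = c ^ 2 * nsq u ∧ Q U (fun x => c * u x) = c ^ 2 * Q U u := by
  have e1 : dir (fun x => c * u x) = c ^ 2 * dir u := by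
    unfold dir
    rw [← integral_const_mul]
    refine integral_congr_ae ?_
    filter_upwards [D_smul c h.hl] with x hx
    rw [hx, norm_smul, mul_pow, Real.norm_eq_abs, sq_abs]
  have e2 : ∫ x, U x * (c * u x) ^ 2 = c ^ 2 * ∫ x, U x * u x ^ 2 := by
    rw [← integral_const_mul]
    refine integral_congr_ae (ae_of_all _ fun x => ?_)
    ring
  refine ⟨?_, ?_⟩
  · unfold nsq
    rw [← integral_const_mul]
    refine integral_congr_ae (ae_of_all _ fun x => ?_)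
    ring
  · unfold Q
    rw [e1, e2]
    ring

theorem O4a_hyp (d : ℝ) {u w : E → ℝ} (a : H1 u) (b : H1 w) :
    nsq (fun x => √(u x ^ 2 + w x ^ 2)) = nsq u + nsq w ∧
      Q (vx d) (fun x => √(u x ^ 2 + w x ^ 2)) ≤ Q (vx d) u + Q (vx d) w := by
  obtain ⟨h1, -, h3⟩ := a.hyp b
  have e0 : ∀ x, √(u x ^ 2 + w x ^ 2) ^ 2 = u x ^ 2 + w x ^ 2 := fun x =>
    Real.sq_sqrt (by positivity)
  have e1 : dir (fun x => √(u x ^ 2 + w x ^ 2)) ≤ dir u + dir w := by
    unfold dir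
    rw [← integral_add (S11_int_normsq a.dl2) (S11_int_normsq b.dl2)]
    exact integral_mono_ae (S11_int_normsq h1.dl2)
      ((S11_int_normsq a.dl2).add (S11_int_normsq b.dl2)) h3
  have e2 : ∫ x, vx d x * √(u x ^ 2 + w x ^ 2) ^ 2 =
      (∫ x, vx d x * u x ^ 2) + ∫ x, vx d x * w x ^ 2 := by
    rw [← integral_add (S11_int_U a (O_vx_op d a).1) (S11_int_U b (O_vx_op d b).1)]
    refine integral_congr_ae (ae_of_all _ fun x => ?_)
    simp only [e0]
    ring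
  refine ⟨?_, ?_⟩
  · unfold nsq
    rw [← integral_add a.l2.integrable_sq b.l2.integrable_sq]
    refine integral_congr_ae (ae_of_all _ fun x => ?_)
    simp only [e0]
  · unfold Q
    rw [e2]
    linarith

/-- `exists_min` with `P = H1`; replace `ψ` by `√((ψ/√2)² + (ψ∘R/√2)²)` (`H1.hyp`, `O_Q_R`). -/
theorem O_min_ev {d m K : ℝ} {b : Fin 2 → E → ℝ} (hb : ∀ i, MemLp (b i) 2 volume) (hK : 0 ≤ K)
    (h1 : ∀ f, H1 f → m * nsq f - K * ∑ i, ip (b i) f ^ 2 ≤ Q (vx d) f)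
    (h0 : ∃ f, H1 f ∧ Q (vx d) f < m * nsq f) :
    ∃ g : E → ℝ, H1 g ∧ nsq g = 1 ∧ (∀ x, g (R x) = g x) ∧ (∀ x, 0 ≤ g x) ∧
      ∀ u, H1 u → Q (vx d) g * nsq u ≤ Q (vx d) u := by
  obtain ⟨ψ, hψ, hn, -, hmin, -⟩ := exists_min (P := H1) (U := vx d) (C := 16) (fun u h => h)
    (fun u w s t hu hw => S11_h1_lc hu hw s t)
    (fun u w hu _ _ => ⟨u, hu, ae_of_all _ fun _ => rfl⟩) (O_vx_op' d) hb hK (by norm_num) h1 h0
  obtain ⟨r1, r2, -, r4⟩ := O_Q_R d hψ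
  have hc : √(1 / 2 : ℝ) ^ 2 = 1 / 2 := Real.sq_sqrt (by norm_num)
  set c : ℝ := √(1 / 2 : ℝ) with hcdef
  obtain ⟨a1, a2⟩ := O4a_smul (vx d) hψ c
  obtain ⟨b1, b2⟩ := O4a_smul (vx d) r1 c
  obtain ⟨g1, g2⟩ := O4a_hyp d (hψ.smul c) (r1.smul c)
  refine ⟨fun x => √((c * ψ x) ^ 2 + (c * ψ (R x)) ^ 2), ((hψ.smul c).hyp (r1.smul c)).1, ?_,
    fun x => ?_, fun x => Real.sqrt_nonneg _, fun u hu => ?_⟩
  · rw [g1, a1, b1, r2, hn, hc]
    norm_num
  · simp only [R_R]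
    rw [add_comm]
  · rw [a2, b2, r4, hc] at g2
    refine le_trans ?_ (hmin u hu)
    exact mul_le_mul_of_nonneg_right (by linarith) (S11_nsq_nonneg u)

theorem O4a_ae_R {p : E → Prop} (h : ∀ᵐ x, p x) : ∀ᵐ x, p (R x) :=
  mp_R.quasiMeasurePreserving.ae h

theorem O4a_closed {u : E → ℝ} {w : ℕ → E → ℝ} (hu : H1 u) (hw : ∀ n, H1 (w n) ∧ Od (w n))
    (h : Tendsto (fun n => nsq fun x => u x - w n x) atTop (𝓝 0)) : Od u := by
  have hR : MemLp (fun x => u (R x)) 2 volume := hu.l2.comp_measurePreserving mp_R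
  have key : ∀ n, nsq (fun x => u x + u (R x)) ≤ 4 * nsq fun x => u x - w n x := by
    intro n
    have m1 : MemLp (fun x => u x - w n x) 2 volume := hu.l2.sub (hw n).1.l2
    have m2 : MemLp (fun x => u (R x) - w n (R x)) 2 volume := m1.comp_measurePreserving mp_R
    have e1 := S11_nsq_lc m1 m2 1 1
    have e2 := S11_nsq_lc m1 m2 1 (-1)
    have e3 := S11_nsq_nonneg fun x => 1 * (u x - w n x) + (-1) * (u (R x) - w n (R x))
    have e4 : nsq (fun x => u (R x) - w n (R x)) = nsq fun x => u x - w n x :=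
      S07.integral_R fun x => (u x - w n x) ^ 2
    have e5 : nsq (fun x => u x + u (R x)) =
        nsq fun x => 1 * (u x - w n x) + 1 * (u (R x) - w n (R x)) := by
      refine S11_nsq_congr ?_
      filter_upwards [(hw n).2] with x hx
      rw [hx]
      ring
    linarith
  have h4 : Tendsto (fun n => 4 * nsq fun x => u x - w n x) atTop (𝓝 (4 * 0)) := h.const_mul 4
  rw [mul_zero] at h4
  have h5 : nsq (fun x => u x + u (R x)) ≤ 0 := ge_of_tendsto' h4 key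
  filter_upwards [ae_zero_of_nsq (hu.l2.add hR) h5] with x hx
  have hx' : u x + u (R x) = 0 := hx
  linarith

theorem O4a_sign (t : ℝ) (v : E) : ‖Real.sign t • v‖ ≤ ‖v‖ := by
  rw [norm_smul]
  refine mul_le_of_le_one_left (norm_nonneg _) ?_
  rcases Real.sign_apply_eq t with h | h | h <;> rw [h] <;> simp

theorem O4a_fold (U : E → ℝ) {ψ : E → ℝ} (hψ : H1 ψ) (ho : Od ψ) :
    ∃ u : E → ℝ, H1 u ∧ nsq u = nsq ψ ∧ Od u ∧ (∀ᵐ x, x ∈ Hp → 0 ≤ u x) ∧ Q U u ≤ Q U ψ := by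
  have q1 : H1 (Hp.indicator ψ) := hψ.half ho
  have q2 := (hψ.hl.half ho).2
  have p1 : H1 fun x => |Hp.indicator ψ x| := q1.abs.1
  have p2 := q1.hl.abs.2
  set p : E → ℝ := fun x => |Hp.indicator ψ x| with hp
  have r1 : H1 fun x => p (R x) := (p1.iso S07.Ri).1
  have r2 := p1.hl.refl.2
  have u1 : H1 fun x => p x - p (R x) := p1.sub r1
  have u2 := D_sub p1.hl r1.hl
  have hin : ∀ x : E, 0 < x 2 → x ∈ Hp ∧ R x ∉ Hp := fun x hx =>
    ⟨hx.le, fun h => by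
      have h' : 0 ≤ R x 2 := h
      rw [R_two] at h'
      linarith⟩
  have hout : ∀ x : E, x 2 < 0 → x ∉ Hp ∧ R x ∈ Hp := fun x hx =>
    ⟨fun h => by
      have h' : 0 ≤ x 2 := h
      linarith, by
      show 0 ≤ R x 2
      rw [R_two]
      linarith⟩
  have hsq : ∀ᵐ x, (p x - p (R x)) ^ 2 = ψ x ^ 2 := by
    filter_upwards [ho, ae_two_ne] with x hx h2
    rcases lt_or_gt_of_ne h2 with h | h
    · obtain ⟨a, b⟩ := hout x h
      simp only [hp, indicator_of_notMem a, indicator_of_mem b, hx, abs_zero, zero_sub, neg_sq,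
        sq_abs]
    · obtain ⟨a, b⟩ := hin x h
      simp only [hp, indicator_of_mem a, indicator_of_notMem b, abs_zero, sub_zero, sq_abs]
  have hD : ∀ᵐ x, ‖D (fun x => p x - p (R x)) x‖ ^ 2 ≤ ‖D ψ x‖ ^ 2 := by
    filter_upwards [u2, r2, p2, O4a_ae_R p2, q2, O4a_ae_R q2, Od.D hψ.hl ho, ae_two_ne] with
      x e1 e2 e3 e4 e5 e6 e7 h2
    refine pow_le_pow_left₀ (norm_nonneg _) ?_ 2
    rw [e1, e2, e3, e4, e5, e6]
    rcases lt_or_gt_of_ne h2 with h | h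
    · obtain ⟨a, b⟩ := hout x h
      rw [indicator_of_notMem a (D ψ), indicator_of_mem b (D ψ), smul_zero, zero_sub, norm_neg,
        norm_R]
      refine (O4a_sign _ _).trans ?_
      rw [e7, norm_neg, norm_R]
    · obtain ⟨a, b⟩ := hin x h
      have h0 : R 0 = 0 := map_zero S07.Rl
      rw [indicator_of_mem a (D ψ), indicator_of_notMem b (D ψ), smul_zero, h0, sub_zero]
      exact O4a_sign _ _
  refine ⟨fun x => p x - p (R x), u1, integral_congr_ae hsq, ae_of_all _ fun x => ?_, ?_, ?_⟩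
  · simp only [R_R]
    ring
  · filter_upwards [ae_two_ne] with x h2 hx
    have h : 0 < x 2 := lt_of_le_of_ne hx h2.symm
    obtain ⟨a, b⟩ := hin x h
    simp only [hp, indicator_of_notMem b, abs_zero, sub_zero, abs_nonneg]
  · have e1 : dir (fun x => p x - p (R x)) ≤ dir ψ :=
      integral_mono_ae (S11_int_normsq u1.dl2) (S11_int_normsq hψ.dl2) hD
    have e2 : ∫ x, U x * (p x - p (R x)) ^ 2 = ∫ x, U x * ψ x ^ 2 := by
      refine integral_congr_ae ?_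
      filter_upwards [hsq] with x hx
      rw [hx]
    unfold Q
    rw [e2]
    linarith

/-- `exists_min` with `P u = H1 u ∧ Od u` (closed: `u + u∘R` has `nsq = 0`); replace `ψ` by
`p - p∘R`, `p = |Hp.indicator ψ|` (`H1.half`, `H1.abs`, `Hl.half`, `Od.D`, `Ev.integral`). -/
theorem O_min_od {d m K : ℝ} {b : Fin 2 → E → ℝ} (hb : ∀ i, MemLp (b i) 2 volume) (hK : 0 ≤ K)
    (h1 : ∀ f, H1 f → m * nsq f - K * ∑ i, ip (b i) f ^ 2 ≤ Q (vx d) f)
    (h0 : ∃ f, H1 f ∧ Od f ∧ Q (vx d) f < m * nsq f) :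
    ∃ u : E → ℝ, H1 u ∧ nsq u = 1 ∧ Od u ∧ (∀ᵐ x, x ∈ Hp → 0 ≤ u x) ∧
      ∀ w, H1 w → Od w → Q (vx d) u * nsq w ≤ Q (vx d) w := by
  obtain ⟨f, f1, f2, f3⟩ := h0
  obtain ⟨ψ, hψ, hn, -, hmin, -⟩ := exists_min (P := fun u => H1 u ∧ Od u) (U := vx d) (C := 16)
    (fun u h => h.1)
    (fun u w s t hu hw => ⟨S11_h1_lc hu.1 hw.1 s t, by
      filter_upwards [hu.2, hw.2] with x a b
      rw [a, b]
      ring⟩)
    (fun u w hu hw h => ⟨u, ⟨hu, O4a_closed hu hw h⟩, ae_of_all _ fun _ => rfl⟩) (O_vx_op' d) hb hK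
    (by norm_num) (fun u hu => h1 u hu.1) ⟨f, ⟨f1, f2⟩, f3⟩
  obtain ⟨u, u1, u2, u3, u4, u5⟩ := O4a_fold (vx d) hψ.1 hψ.2
  refine ⟨u, u1, u2.trans hn, u3, u4, fun w hw ho => le_trans ?_ (hmin w ⟨hw, ho⟩)⟩
  exact mul_le_mul_of_nonneg_right u5 (S11_nsq_nonneg w)

end

end Crest.Agent.R335
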