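import Crest.Agent.R335.O4a
import Crest.Agent.R335.O3
import Crest.Agent.R335.O2c

set_option autoImplicit false
set_option linter.unusedVariables false

open MeasureTheory Set Filter Topology Metric
open scoped Gradient ContDiff RealInnerProductSpace ENNReal

namespace Crest.Agent.R335

noncomputable section

/-! Module O: the spectral part. -/

/-- two homogeneous linear equations in three unknowns -/
theorem O4b_ker (p q r : Fin 2 → ℝ) :
    ∃ α β γ : ℝ, (α ≠ 0 ∨ β ≠ 0 ∨ γ ≠ 0) ∧ ∀ i, β * q i + 1 * (γ * r i + α * p i) = 0 := by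
  let M : Matrix (Fin 2) (Fin 3) ℝ := Matrix.of fun i => ![p i, q i, r i]
  have h : LinearMap.ker M.mulVecLin ≠ ⊥ := LinearMap.ker_ne_bot_of_finrank_lt (by simp)
  obtain ⟨v, hv, hv0⟩ := Submodule.exists_mem_ne_zero_of_ne_bot h
  refine ⟨v 0, v 1, v 2, ?_, fun i => ?_⟩
  · by_contra hh
    push Not at hh
    apply hv0
    funext j
    fin_cases j
    · exact hh.1
    · exact hh.2.1
    · exact hh.2.2
  · have h1 := congrFun (LinearMap.mem_ker.1 hv) i
    simp [M, Matrix.mulVec, dotProduct, Fin.sum_univ_three] at h1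
    linarith

theorem O4b_nn {F : E → ℝ} (hF : Continuous F) (h : ∀ᵐ x, 0 ≤ F x) (x : E) : 0 ≤ F x := by
  have h1 : (fun x => max (F x) 0) =ᵐ[volume] F := h.mono fun x hx => max_eq_left hx
  have h2 := congrFun ((Continuous.ae_eq_iff_eq volume (hF.max continuous_const) hF).1 h1) x
  exact h2 ▸ le_max_right _ _

theorem O4b_sym {f F : E → ℝ} (hF : Continuous F) (h : ∀ᵐ x, f x = F x) (s : ℝ)
    (hs : ∀ᵐ x, f (R x) = s * f x) (x : E) : F (R x) = s * F x := by
  have h1 : (fun x => F (R x)) =ᵐ[volume] fun x => s * F x := by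
    filter_upwards [h, hs, mp_R.quasiMeasurePreserving.ae h] with x h1 h2 h3
    rw [← h3, h2, h1]
  exact congrFun ((Continuous.ae_eq_iff_eq volume (hF.comp S07.cont_R)
    (continuous_const.mul hF)).1 h1) x

/-- continuous representative -/
theorem O4b_rep {d e : ℝ} {f : E → ℝ} (h : Sol f fun x => (e - vx d x) * f x) (he : e < 0) :
    ∃ F : E → ℝ, Continuous F ∧ (∀ᵐ x, f x = F x) ∧ Sol F fun x => (e - vx d x) * F x := by
  obtain ⟨h1, h2⟩ := h.O_rep he
  refine ⟨_, h1, h2, h.congr (h2.mono fun x hx => hx.symm) (h2.mono fun x hx => ?_)⟩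
  rw [← hx]

/-- rank count. For `f ⊥ g, u` some nonzero combination `w = α f + β g + γ u` is orthogonal to
`b 0, b 1` (3 unknowns, 2 equations), so `m nsq w ≤ Q w = α² Q f + β² eg + γ² eu` (`Sol.O_B`); `α ≠ 0`
because `eg, eu < m`. For general `f` apply this to `f - ip g f • g - ip u f • u`. -/
theorem O_gap_count {d m K eg eu : ℝ} {b : Fin 2 → E → ℝ} {g u : E → ℝ}
    (hb : ∀ i, MemLp (b i) 2 volume)
    (h1 : ∀ f, H1 f → m * nsq f - K * ∑ i, ip (b i) f ^ 2 ≤ Q (vx d) f)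
    (sg : Sol g fun x => (eg - vx d x) * g x) (su : Sol u fun x => (eu - vx d x) * u x)
    (ng : nsq g = 1) (nu : nsq u = 1) (hgu : ip g u = 0) (hg : eg < m) (hu : eu < m)
    {f : E → ℝ} (hf : H1 f) :
    m * nsq f - (m - eg) * ip g f ^ 2 - (m - eu) * ip u f ^ 2 ≤ Q (vx d) f := by
  obtain ⟨α, β, γ, hne, hz⟩ :=
    O4b_ker (fun i => ip (b i) f) (fun i => ip (b i) g) (fun i => ip (b i) u)
  have hp : H1 fun x => γ * u x + α * f x := S11_h1_lc su.h1 hf γ α
  have hw : H1 fun x => β * g x + 1 * (γ * u x + α * f x) := S11_h1_lc sg.h1 hp β 1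
  have e0 : ∀ i, ip (b i) (fun x => β * g x + 1 * (γ * u x + α * f x)) = 0 := fun i => by
    rw [S11_ip_lc (hb i) sg.h1.l2 hp.l2, S11_ip_lc (hb i) su.h1.l2 hf.l2]
    exact hz i
  have e1 := h1 _ hw
  simp only [e0, ne_eq, OfNat.ofNat_ne_zero, not_false_eq_true, zero_pow, Finset.sum_const_zero,
    mul_zero, sub_zero] at e1
  rw [S11_nsq_lc sg.h1.l2 hp.l2, S11_nsq_lc su.h1.l2 hf.l2,
    S11_Q_lc sg.h1 hp (O_vx_op d sg.h1).1 (O_vx_op d hp).1,
    S11_Q_lc su.h1 hf (O_vx_op d su.h1).1 (O_vx_op d hf).1, sg.O_B hp, su.O_B hf, sg.O_Q, su.O_Q,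
    S11_ip_lc sg.h1.l2 su.h1.l2 hf.l2, ng, nu, hgu] at e1
  generalize ip g f = a at *
  generalize ip u f = c at *
  generalize nsq f = N at *
  generalize Q (vx d) f = q at *
  have key : α ^ 2 * (m * N - (m - eg) * a ^ 2 - (m - eu) * c ^ 2 - q) +
      (β + α * a) ^ 2 * (m - eg) + (γ + α * c) ^ 2 * (m - eu) ≤ 0 := by
    linarith
  have p1 := mul_nonneg (sq_nonneg (β + α * a)) (sub_nonneg.2 hg.le)
  have p2 := mul_nonneg (sq_nonneg (γ + α * c)) (sub_nonneg.2 hu.le)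
  by_cases hα : α = 0
  · exfalso
    subst hα
    rcases hne with h | h | h
    · exact h rfl
    · have := mul_pos (pow_pos (abs_pos.2 h) 2) (sub_pos.2 hg)
      rw [sq_abs] at this
      linarith
    · have := mul_pos (pow_pos (abs_pos.2 h) 2) (sub_pos.2 hu)
      rw [sq_abs] at this
      linarith
  · by_contra hh
    have h2 := mul_pos (pow_pos (abs_pos.2 hα) 2) (sub_pos.2 (not_le.1 hh))
    rw [sq_abs] at h2
    linarith

/-- `two_gap`, `two_trial (γ/2)`, `O_min_ev`, `O_min_od`, `O_sol_of_min`, `O_sol_of_min_od`; the continuous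
representatives are given by `Sol.O_rep` (`Sol.congr`, `Continuous.ae_eq_iff_eq`); `two_low`;
`eg ≤ eu` by minimality of `g`; `O_gap_count`, `O_ip_ev_od`. -/
theorem O_ok0 : ∃ C1 : ℝ, ∀ C0, C1 ≤ C0 → ∀ d, C0 ≤ d → ∃ o : OD, o.d = d ∧ o.C0 = C0 ∧ o.OK0 := by
  obtain ⟨γ, K, d1, hγ, hγ1, hK, hgap⟩ := two_gap
  obtain ⟨d2, htr⟩ := two_trial (half_pos hγ)
  refine ⟨max (max 100 (1 / γ)) (max d1 d2), fun C0 hC d hd => ?_⟩
  simp only [max_le_iff] at hC
  obtain ⟨⟨c1, c2⟩, c3, c4⟩ := hC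
  obtain ⟨b, hb, h1⟩ := hgap d (c3.trans hd)
  obtain ⟨f, hf, fo, fn, fq⟩ := htr d (c4.trans hd)
  have flt : Q (vx d) f < (-(1 / 2) + γ) * nsq f :=
    fq.trans_lt (mul_lt_mul_of_pos_right (by linarith) fn)
  obtain ⟨g, gh, gn, gev, gnn, gmin⟩ := O_min_ev hb hK h1 ⟨f, hf, flt⟩
  obtain ⟨u, uh, un, uod, unn, umin⟩ := O_min_od hb hK h1 ⟨f, hf, fo, flt⟩
  have e1 : -(11 / 20) ≤ Q (vx d) g := by
    have := two_low (c1.trans hd) gh
    rwa [gn, mul_one] at this
  have e2 : Q (vx d) g ≤ Q (vx d) u := by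
    have := gmin u uh
    rwa [un, mul_one] at this
  have e3 : Q (vx d) u ≤ -(1 / 2) + γ / 2 :=
    le_of_mul_le_mul_right ((umin f hf fo).trans fq) fn
  obtain ⟨G, Gc, Ge, Gs⟩ := O4b_rep (O_sol_of_min gh gn gmin) (by linarith)
  obtain ⟨U, Uc, Ue, Us⟩ := O4b_rep (O_sol_of_min_od uh uod un umin) (by linarith)
  have Gn : nsq G = 1 := by rw [← S11_nsq_congr Ge, gn]
  have Un : nsq U = 1 := by rw [← S11_nsq_congr Ue, un]
  have Gev : ∀ x, G (R x) = G x := fun x => by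
    have := O4b_sym Gc Ge 1 (ae_of_all _ fun x => by rw [gev, one_mul]) x
    rwa [one_mul] at this
  have Uod : ∀ x, U (R x) = -U x := fun x => by
    have := O4b_sym Uc Ue (-1) (uod.mono fun x hx => by rw [hx, neg_one_mul]) x
    rwa [neg_one_mul] at this
  have Gnn : ∀ x, 0 ≤ G x := O4b_nn Gc (Ge.mono fun x hx => hx ▸ gnn x)
  have Unn : ∀ x ∈ Hp, 0 ≤ U x := by
    intro x hx
    have h2 : 0 ≤ max (x 2) 0 * U x := by
      refine O4b_nn (F := fun x => max (x 2) 0 * U x)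
        ((S07.cont_two.max continuous_const).mul Uc) ?_ x
      filter_upwards [Ue, unn] with y hy hy'
      rcases le_total 0 (y 2) with h | h
      · exact mul_nonneg (le_max_right _ _) (hy ▸ hy' h)
      · rw [max_eq_right h, zero_mul]
    rcases (show 0 ≤ x 2 from hx).eq_or_lt with h | h
    · have h3 : R x = x := by rw [R, ← h, mul_zero, zero_smul, sub_zero]
      have h4 := Uod x
      rw [h3] at h4
      linarith
    · rw [max_eq_left h.le] at h2
      exact nonneg_of_mul_nonneg_right h2 h |> fun h5 => h5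
  have hGU : ip G U = 0 := O_ip_ev_od (ae_of_all _ Gev) (ae_of_all _ Uod)
  refine ⟨⟨d, γ, C0, Q (vx d) g, Q (vx d) u, G, U⟩, rfl, rfl,
    ⟨⟨hγ, hγ1⟩, ⟨c1, c2, hd⟩, Gc, Uc, Gs, Us, Gn, Un, Gev, Uod, Gnn, Unn, ⟨e1, e2, e3⟩,
      fun φ hφ => ?_⟩⟩
  exact O_gap_count hb h1 Gs Us Gn Un hGU (by linarith) (by linarith) hφ

end

end Crest.Agent.R335
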