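import Crest.Agent.R335.O1b

set_option autoImplicit false
set_option linter.unusedVariables false

open MeasureTheory Set Filter Topology Metric
open scoped Gradient ContDiff RealInnerProductSpace ENNReal

namespace Crest.Agent.R335

noncomputable section

/-! Module O: bound states, basic bounds. -/

variable {d e : ℝ} {f : E → ℝ}

theorem O5_nsq (d : ℝ) (f : E → ℝ) :
    nsq (fun y => -(vx d y * f y)) = nsq (fun y => vx d y * f y) := by
  simp only [nsq, neg_sq]

theorem O5_energy (h : BS d e f) :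
    (1 / 2) * dir f = e + ip (fun y => -(vx d y * f y)) f := by
  have h1 := h.s.eq f h.s.h1
  have h2 := (O_vx_op d h.s.h1).1.neg
  have e1 : ∫ x, (1 / 2) * ⟪D f x, D f x⟫ = (1 / 2) * dir f := by
    rw [integral_const_mul]
    simp only [real_inner_self_eq_norm_sq]
    rfl
  have i1 : Integrable fun x => e * f x ^ 2 := h.s.h1.l2.integrable_sq.const_mul e
  have i2 : Integrable fun x => -(vx d x * f x) * f x := S11_int_mul h2 h.s.h1.l2
  have e2 : ∫ x, (e - vx d x) * f x * f x = e * nsq f + ip (fun y => -(vx d y * f y)) f := by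
    rw [nsq, ip, ← integral_const_mul, ← integral_add i1 i2]
    refine integral_congr_ae (Eventually.of_forall fun x => ?_)
    beta_reduce
    ring
  rw [e1, e2, h.n, mul_one] at h1
  exact h1

/-- `½ dir f = e - ∫ v f² ≤ √(nsq (v f)) ≤ 4 √(dir f)` -/
theorem BS.dir_le (h : BS d e f) : dir f ≤ 64 := by
  have h1 := O5_energy h
  have h2 := S11_cs (O_vx_op d h.s.h1).1.neg h.s.h1.l2
  have h3 := (O_vx_op d h.s.h1).2
  have h4 : ip (fun y => -(vx d y * f y)) f ^ 2 ≤ 16 * dir f := by
    have h5 : ip (fun y => -(vx d y * f y)) f ^ 2 ≤ nsq (fun y => -(vx d y * f y)) * nsq f := h2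
    rw [h.n, mul_one, O5_nsq] at h5
    exact h5.trans h3
  have h6 := S11_dir_nonneg f
  have h7 := h.en.2
  by_contra hlt
  have h8 : 64 < dir f := not_le.1 hlt
  have h9 : (1 / 2) * dir f ≤ ip (fun y => -(vx d y * f y)) f := by linarith
  have h10 := pow_le_pow_left₀ (by linarith) h9 2
  nlinarith

theorem BS.vf (h : BS d e f) :
    MemLp (fun y => -(vx d y * f y)) 2 volume ∧ nsq (fun y => -(vx d y * f y)) ≤ 1024 := by
  refine ⟨(O_vx_op d h.s.h1).1.neg, ?_⟩
  rw [O5_nsq]
  linarith [(O_vx_op d h.s.h1).2, h.dir_le]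

theorem BS.rep (h : BS d e f) (x : E) : f x = YP (√(-2 * e)) (fun y => -(vx d y * f y)) x := by
  have hk : 0 < √(-2 * e) := lt_of_lt_of_le (by norm_num) h.k_bd.1
  have h1 := yukawa_eq hk h.s
  have e1 : (fun y => (e - vx d y) * f y + √(-2 * e) ^ 2 / 2 * f y) =
      fun y => -(vx d y * f y) := by
    funext y
    rw [h.k_bd.2.2]
    ring
  rw [e1] at h1
  have h2 : f = YP (√(-2 * e)) (fun y => -(vx d y * f y)) :=
    (Continuous.ae_eq_iff_eq volume h.c (YP_continuous hk h.vf.1)).1 h1
  exact congrFun h2 x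

/-- `YP_integrable` -/
theorem BS.abs_le (h : BS d e f) (x : E) : |f x| ≤ 13 := by
  have hk : 0 < √(-2 * e) := lt_of_lt_of_le (by norm_num) h.k_bd.1
  have h1 := (YP_integrable hk h.vf.1 x).2
  rw [← h.rep x] at h1
  have hpi := Real.pi_gt_d2
  have h2 : (6.2 : ℝ) ≤ 2 * Real.pi * √(-2 * e) := by nlinarith [h.k_bd.1]
  have h3 : nsq (fun y => -(vx d y * f y)) / (2 * Real.pi * √(-2 * e)) ≤ 13 ^ 2 := by
    rw [div_le_iff₀ (by linarith)]
    linarith [h.vf.2]
  exact abs_le_of_sq_le_sq' (h1.trans h3) (by norm_num) |> _root_.abs_le.2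

/-- `∫ |v| f² ≥ -e ≥ 0.495`, `|v| ≤ 1/4` outside the two balls, Cauchy–Schwarz with `BS.vf`,
the two balls carry the same mass (`BS.sym`, `O_R_sub_ez`). -/
theorem BS.mass (h : BS d e f) : 1 / 40000 ≤ ∫ y in ball (d • ez) 8, f y ^ 2 := by
  have hf := h.s.h1.l2
  have hB : MeasurableSet {x : E | dn d x < 8} :=
    (isOpen_lt (O_dn_cont d) continuous_const).measurableSet
  have hg : MemLp ({x : E | dn d x < 8}.indicator f) 2 volume := hf.indicator hB
  have h1 := O5_energy h
  have h2 : ip (fun y => -(vx d y * f y)) f ≤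
      ip (fun y => -(vx d y * f y)) ({x : E | dn d x < 8}.indicator f) + (1 / 4) * nsq f := by
    rw [ip, ip, nsq, ← integral_const_mul,
      ← integral_add (S11_int_mul h.vf.1 hg) (hf.integrable_sq.const_mul _)]
    refine integral_mono (S11_int_mul h.vf.1 hf)
      ((S11_int_mul h.vf.1 hg).add (hf.integrable_sq.const_mul _)) fun x => ?_
    beta_reduce
    by_cases hx : x ∈ {x : E | dn d x < 8}
    · rw [indicator_of_mem hx]
      nlinarith [sq_nonneg (f x)]
    · rw [indicator_of_notMem hx]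
      have h3 := O_vx_far (t := 8) (by norm_num) (not_lt.1 hx)
      have h4 := (_root_.abs_le.1 h3).1
      nlinarith [mul_le_mul_of_nonneg_right h4 (sq_nonneg (f x))]
  have h3 := S11_cs h.vf.1 hg
  have i1 : Integrable ((ball (d • ez) 8).indicator fun y => f y ^ 2) :=
    hf.integrable_sq.indicator measurableSet_ball
  obtain ⟨L, hL, -⟩ := exists_Riso
  have i2 : Integrable fun x => ((ball (d • ez) 8).indicator fun y => f y ^ 2) (L x) :=
    (L.measurePreserving.integrable_comp_of_integrable i1)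
  have h4 : nsq ({x : E | dn d x < 8}.indicator f) ≤ 2 * ∫ y in ball (d • ez) 8, f y ^ 2 := by
    rw [two_mul, ← integral_indicator measurableSet_ball]
    nth_rewrite 2 [← integral_iso L]
    rw [← integral_add i1 i2, nsq]
    refine integral_mono hg.integrable_sq (i1.add i2) fun x => ?_
    beta_reduce
    have n1 : ∀ z, 0 ≤ ((ball (d • ez) 8).indicator fun y => f y ^ 2) z := fun z =>
      indicator_nonneg (fun y _ => sq_nonneg _) z
    by_cases hx : x ∈ {x : E | dn d x < 8}
    · rw [indicator_of_mem hx]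
      rcases min_lt_iff.1 (show min ‖x - d • ez‖ ‖x + d • ez‖ < 8 from hx) with h5 | h5
      · rw [indicator_of_mem (show x ∈ ball (d • ez) 8 from mem_ball_iff_norm.2 h5)]
        linarith [n1 (L x)]
      · have h6 : L x ∈ ball (d • ez) 8 := by
          rw [mem_ball_iff_norm, hL, (O_R_sub_ez d x).1]
          exact h5
        rw [indicator_of_mem h6, hL, h.sym]
        linarith [n1 x]
    · rw [indicator_of_notMem hx]
      have := add_nonneg (n1 x) (n1 (L x))
      simpa using this
  rw [h.n] at h2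
  have h5 : (49 / 200 : ℝ) ≤ ip (fun y => -(vx d y * f y)) ({x : E | dn d x < 8}.indicator f) := by
    linarith [h.en.2, S11_dir_nonneg f]
  have h6 := pow_le_pow_left₀ (by norm_num) h5 2
  have h7 := mul_le_mul_of_nonneg_right h.vf.2 (S11_nsq_nonneg ({x : E | dn d x < 8}.indicator f))
  linarith

theorem BS.mass1 (h : BS d e f) (h0 : ∀ y ∈ ball (d • ez) 8, 0 ≤ f y) :
    IntegrableOn f (ball (d • ez) 8) volume ∧ 1 / 520000 ≤ ∫ y in ball (d • ez) 8, f y := by
  have i1 : IntegrableOn f (ball (d • ez) 8) volume :=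
    (h.c.continuousOn.integrableOn_compact (isCompact_closedBall (d • ez) 8)).mono_set
      ball_subset_closedBall
  refine ⟨i1, ?_⟩
  have h1 : ∫ y in ball (d • ez) 8, f y ^ 2 ≤ ∫ y in ball (d • ez) 8, 13 * f y := by
    refine setIntegral_mono_on h.s.h1.l2.integrable_sq.integrableOn (i1.const_mul 13)
      measurableSet_ball fun y hy => ?_
    have := mul_le_mul_of_nonneg_right (_root_.abs_le.1 (h.abs_le y)).2 (h0 y hy)
    nlinarith
  rw [integral_const_mul] at h1
  linarith [h.mass]

end

end Crest.Agent.R335
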