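import Crest.Agent.R335.O5

set_option autoImplicit false
set_option linter.unusedVariables false

open MeasureTheory Set Filter Topology Metric
open scoped Gradient ContDiff RealInnerProductSpace ENNReal

namespace Crest.Agent.R335

noncomputable section

/-! Module O: Agmon estimate. -/

theorem O6_fatou {F : ℕ → E → ℝ} {G : E → ℝ} {C : ℝ} (hF : ∀ n, Integrable (F n))
    (h0 : ∀ n x, 0 ≤ F n x) (hC : ∀ n, ∫ x, F n x ≤ C)
    (hl : ∀ x, Tendsto (fun n => F n x) atTop (𝓝 (G x))) : Integrable G ∧ ∫ x, G x ≤ C := by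
  have hG0 : ∀ x, 0 ≤ G x := fun x => ge_of_tendsto' (hl x) fun n => h0 n x
  have hm : AEStronglyMeasurable G volume :=
    aestronglyMeasurable_of_tendsto_ae atTop (fun n => (hF n).aestronglyMeasurable) (ae_of_all _ hl)
  have hC0 : 0 ≤ C := (integral_nonneg (h0 0)).trans (hC 0)
  have h1 : ∫⁻ x, ENNReal.ofReal (G x) ≤ ENNReal.ofReal C := by
    have e : ∀ x, ENNReal.ofReal (G x) = liminf (fun n => ENNReal.ofReal (F n x)) atTop := fun x =>
      (ENNReal.tendsto_ofReal (hl x)).liminf_eq.symm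
    simp only [e]
    refine (lintegral_liminf_le' fun n =>
      (hF n).aestronglyMeasurable.aemeasurable.ennreal_ofReal).trans ?_
    refine liminf_le_of_frequently_le' (Frequently.of_forall fun n => ?_)
    rw [← ofReal_integral_eq_lintegral_ofReal (hF n) (ae_of_all _ (h0 n))]
    exact ENNReal.ofReal_le_ofReal (hC n)
  have hi : Integrable G := by
    refine ⟨hm, ?_⟩
    rw [hasFiniteIntegral_iff_ofReal (ae_of_all _ hG0)]
    exact h1.trans_lt ENNReal.ofReal_lt_top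
  refine ⟨hi, ?_⟩
  rw [← ofReal_integral_eq_lintegral_ofReal hi (ae_of_all _ hG0)] at h1
  exact (ENNReal.ofReal_le_ofReal_iff hC0).1 h1

/-- the truncated weight -/
theorem O6_weight (d n : ℝ) : Bl (fun x : E => Real.exp (min (max (dn d x - 8) 0) n / 2)) ∧
    ∀ᵐ x : E, ‖D (fun x : E => Real.exp (min (max (dn d x - 8) 0) n / 2)) x‖ ≤
      Real.exp (min (max (dn d x - 8) 0) n / 2) / 2 := by
  have hl : ∀ x y : E, |min (max (dn d x - 8) 0) n - min (max (dn d y - 8) 0) n| ≤ 1 * ‖x - y‖ := by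
    intro x y
    have h1 := O_dn_lip d x y
    refine (abs_min_sub_min_le_max _ _ _ _).trans (max_le ?_ (by simp))
    refine (abs_max_sub_max_le_max _ _ _ _).trans (max_le ?_ (by simp))
    rw [sub_sub_sub_cancel_right, one_mul]
    exact h1
  obtain ⟨h1, h2⟩ := lip_D_le' zero_le_one hl
  have hβ : ContDiff ℝ 1 fun t : ℝ => Real.exp (t / 2) := by fun_prop
  obtain ⟨h3, h4⟩ := h1.comp hβ
  refine ⟨h3, ?_⟩
  filter_upwards [h2, h4] with x e1 e2
  have hd : ∀ t : ℝ, deriv (fun t : ℝ => Real.exp (t / 2)) t = Real.exp (t / 2) / 2 := fun t => by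
    have := ((hasDerivAt_id t).div_const 2).exp
    rw [show Real.exp (t / 2) / 2 = Real.exp (id t / 2) * (1 / 2) by simp [div_eq_mul_inv]]
    exact this.deriv
  rw [e2, hd, norm_smul, Real.norm_eq_abs, abs_of_pos (by positivity)]
  exact mul_le_of_le_one_right (by positivity) e1

theorem O6_step {d e : ℝ} {f : E → ℝ} (h : BS d e f) (n : ℕ) :
    Integrable (fun x => Real.exp (min (max (dn d x - 8) 0) n) * (f x ^ 2 + ‖D f x‖ ^ 2)) ∧
      ∫ x, Real.exp (min (max (dn d x - 8) 0) n) * (f x ^ 2 + ‖D f x‖ ^ 2) ≤ 10000 := by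
  obtain ⟨w1, w2⟩ := O6_weight d n
  set a : E → ℝ := fun x => Real.exp (min (max (dn d x - 8) 0) n / 2) with ha
  have a0 : ∀ x, 0 < a x := fun x => Real.exp_pos _
  have ab : ∀ x, a x ≤ Real.exp (n / 2) := fun x =>
    Real.exp_le_exp.2 (by linarith [min_le_right (max (dn d x - 8) 0) (n : ℝ)])
  have a2 : ∀ x, Real.exp (min (max (dn d x - 8) 0) n) = a x ^ 2 := fun x => by
    simp only [ha]
    rw [← Real.exp_nat_mul]
    congr 1
    push_cast
    ring
  have hb : Bd a := ⟨_, ae_of_all _ fun x => by rw [abs_of_pos (a0 x)]; exact ab x⟩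
  have hg : Bd fun x => ‖D a x‖ := ⟨Real.exp (n / 2), w2.mono fun x hx => by
    rw [abs_of_nonneg (norm_nonneg _)]
    linarith [ab x, a0 x]⟩
  obtain ⟨l1, l2⟩ := h.s.loc w1.hl hb hg
  obtain ⟨-, l3⟩ := h.s.h1.mul_lip w1.hl hb hg
  obtain ⟨-, l4⟩ := l1.mul_lip w1.hl hb hg
  have l5 := (l1.mul_lip w1.hl hb hg).1
  obtain ⟨v1, v2⟩ := h.vf
  have i1 : Integrable fun x => (a x * f x) ^ 2 := l1.l2.integrable_sq
  have i2 : Integrable fun x => ‖D (fun x => a x * f x) x‖ ^ 2 := S11_int_normsq l1.dl2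
  have i3 : Integrable fun x => ‖D a x‖ ^ 2 * f x ^ 2 := S11_int_bd w1.hl hg h.s.h1.l2
  have i4 : Integrable fun x => (e - vx d x) * f x * a x ^ 2 * f x :=
    (S11_int_mul h.s.l2 l5.l2).congr (ae_of_all _ fun x => by ring)
  have i5 : Integrable fun x => (-(vx d x * f x)) ^ 2 := v1.integrable_sq
  have i6 : Integrable fun x => f x ^ 2 := h.s.h1.l2.integrable_sq
  have k1 : (∫ x, (e - vx d x) * f x * a x ^ 2 * f x) + (1 / 2) * ∫ x, ‖D a x‖ ^ 2 * f x ^ 2 ≤
      -(3 / 25) * (∫ x, (a x * f x) ^ 2) + (1 / 2) * (∫ x, (-(vx d x * f x)) ^ 2) +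
        (1 / 2) * ∫ x, f x ^ 2 := by
    rw [← S11_int3 i1 i5 i6, ← integral_const_mul, ← integral_add i4 (i3.const_mul _)]
    refine integral_mono_ae (i4.add (i3.const_mul _))
      (((i1.const_mul _).add (i5.const_mul _)).add (i6.const_mul _)) ?_
    filter_upwards [w2] with x hx
    have b1 : ‖D a x‖ ^ 2 ≤ (a x / 2) ^ 2 := pow_le_pow_left₀ (norm_nonneg _) hx 2
    have b2 : ‖D a x‖ ^ 2 * f x ^ 2 ≤ (a x / 2) ^ 2 * f x ^ 2 :=
      mul_le_mul_of_nonneg_right b1 (sq_nonneg _)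
    have b3 := h.en.2
    have b4 : 0 ≤ (a x * f x) ^ 2 := sq_nonneg _
    have b5 : (e + 99 / 200) * (a x * f x) ^ 2 ≤ 0 := mul_nonpos_of_nonpos_of_nonneg (by linarith) b4
    rcases le_total (dn d x) 8 with c | c
    · have c1 : a x = 1 := by
        simp only [ha]
        rw [max_eq_right (by linarith), min_eq_left (Nat.cast_nonneg n)]
        simp
      rw [c1] at b2 b4 b5 ⊢
      nlinarith [sq_nonneg (vx d x * f x + f x), sq_nonneg (f x)]
    · have c1 := (abs_le.1 (O_vx_far (by norm_num) c)).1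
      have c2 : (-vx d x - 1 / 4) * (a x * f x) ^ 2 ≤ 0 :=
        mul_nonpos_of_nonpos_of_nonneg (by linarith) b4
      nlinarith [sq_nonneg (vx d x * f x), sq_nonneg (f x)]
  have n1 : ∫ x, f x ^ 2 = 1 := h.n
  have n2 : ∫ x, (-(vx d x * f x)) ^ 2 ≤ 1024 := v2
  have n3 : 0 ≤ ∫ x, (a x * f x) ^ 2 := integral_nonneg fun x => sq_nonneg _
  have n4 : 0 ≤ dir fun x => a x * f x := S11_dir_nonneg _
  have pw : ∀ᵐ x, a x ^ 2 * (f x ^ 2 + ‖D f x‖ ^ 2) ≤
      3 / 2 * (a x * f x) ^ 2 + 2 * ‖D (fun x => a x * f x) x‖ ^ 2 := by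
    filter_upwards [w2, l3] with x hx e1
    have b1 : a x • D f x = D (fun x => a x * f x) x - f x • D a x := by rw [e1]; abel
    have b2 : a x * ‖D f x‖ ≤ ‖D (fun x => a x * f x) x‖ + |f x| * (a x / 2) := by
      have := norm_sub_le (D (fun x => a x * f x) x) (f x • D a x)
      rw [← b1, norm_smul, norm_smul, Real.norm_eq_abs, Real.norm_eq_abs, abs_of_pos (a0 x)] at this
      exact this.trans (by gcongr)
    have b3 := pow_le_pow_left₀ (mul_nonneg (a0 x).le (norm_nonneg _)) b2 2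
    have b4 : |f x| ^ 2 = f x ^ 2 := sq_abs _
    have b5 : (|f x| * (a x / 2)) ^ 2 = (a x * f x) ^ 2 / 4 := by rw [mul_pow, b4]; ring
    nlinarith [sq_nonneg (‖D (fun x => a x * f x) x‖ - |f x| * (a x / 2))]
  have i7 : Integrable fun x => 3 / 2 * (a x * f x) ^ 2 + 2 * ‖D (fun x => a x * f x) x‖ ^ 2 :=
    (i1.const_mul _).add (i2.const_mul _)
  have i8 : Integrable fun x => a x ^ 2 * (f x ^ 2 + ‖D f x‖ ^ 2) := by
    refine i7.mono' ?_ (pw.mono fun x hx => ?_)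
    · exact (w1.hl.aesm.pow 2).mul (i6.add (S11_int_normsq h.s.h1.dl2)).aestronglyMeasurable
    · rw [Real.norm_eq_abs, abs_of_nonneg (by positivity)]
      exact hx
  simp only [a2]
  refine ⟨i8, (integral_mono_ae i8 i7 pw).trans ?_⟩
  rw [integral_add (i1.const_mul _) (i2.const_mul _), integral_const_mul, integral_const_mul]
  have n5 : (dir fun x => a x * f x) = ∫ x, ‖D (fun x => a x * f x) x‖ ^ 2 := rfl
  rw [← n5]
  linarith

/-- `Sol.loc` with `a = exp (min (max (dn - 8) 0) n / 2)` (bounded, Lipschitz: `lip_D_le`, `Bl.comp`;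
`‖D a‖ ≤ a/2`, `D a = 0` a.e. on `{a = 1}` by `Hl.D_level`). On `dn > 8`:
`v - e - 1/8 ≥ 0.495 - 0.25 - 0.125 = 0.12`; on `dn ≤ 8`: `∫ (e - v) f² ≤ ∫ |v| f² ≤ 32`.
`a² ‖D f‖² ≤ 2 ‖D (a f)‖² + 2 ‖D a‖² f²`. Monotone convergence `n → ∞`. -/
theorem BS.agmon : ∃ C : ℝ, 0 < C ∧ ∀ (d e : ℝ) (f : E → ℝ), BS d e f →
    Integrable (fun x => Real.exp (max (dn d x - 8) 0) * (f x ^ 2 + ‖D f x‖ ^ 2)) ∧
      ∫ x, Real.exp (max (dn d x - 8) 0) * (f x ^ 2 + ‖D f x‖ ^ 2) ≤ C := by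
  refine ⟨10000, by norm_num, fun d e f h => ?_⟩
  refine O6_fatou (fun n => (O6_step h n).1) (fun n x => by positivity) (fun n => (O6_step h n).2)
    fun x => tendsto_const_nhds.congr' ?_
  filter_upwards [tendsto_natCast_atTop_atTop.eventually_ge_atTop (max (dn d x - 8) 0)] with n hn
  rw [min_eq_left hn]

/-- tails -/
theorem BS.tail : ∃ C : ℝ, 0 < C ∧ ∀ (d e : ℝ) (f : E → ℝ), BS d e f → ∀ (A : Set E) (t : ℝ),
    MeasurableSet A → (∀ x ∈ A, t ≤ dn d x) → ∫ x in A, f x ^ 2 ≤ C * Real.exp (-t) := by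
  obtain ⟨C, hC, h⟩ := BS.agmon
  refine ⟨C * Real.exp 8, by positivity, fun d e f hf A t hA ht => ?_⟩
  obtain ⟨h1, h2⟩ := h d e f hf
  have i6 : Integrable fun x => f x ^ 2 := hf.s.h1.l2.integrable_sq
  have h3 := h1.const_mul (Real.exp (8 - t))
  calc ∫ x in A, f x ^ 2
      ≤ ∫ x in A, Real.exp (8 - t) * (Real.exp (max (dn d x - 8) 0) * (f x ^ 2 + ‖D f x‖ ^ 2)) := by
        refine setIntegral_mono_on i6.integrableOn h3.integrableOn hA fun x hx => ?_
        rw [← mul_assoc, ← Real.exp_add]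
        have b1 : 1 ≤ Real.exp (8 - t + max (dn d x - 8) 0) :=
          Real.one_le_exp (by linarith [ht x hx, le_max_left (dn d x - 8) 0])
        have b2 : 0 ≤ f x ^ 2 + ‖D f x‖ ^ 2 := by positivity
        nlinarith [sq_nonneg ‖D f x‖]
    _ ≤ ∫ x, Real.exp (8 - t) * (Real.exp (max (dn d x - 8) 0) * (f x ^ 2 + ‖D f x‖ ^ 2)) :=
        setIntegral_le_integral h3 (ae_of_all _ fun x => by positivity)
    _ ≤ Real.exp (8 - t) * C := by
        rw [integral_const_mul]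
        gcongr
    _ = _ := by
        rw [sub_eq_add_neg, Real.exp_add]
        ring

/-- `max (‖x‖ - 2d) 0 ≤ max (dn - 8) 0` (`O_dn_ge`) -/
theorem O_decay : ∃ C1 : ℝ, ∀ o : OD, o.OK0 → C1 ≤ o.C0 → ∀ f, f = o.g0 ∨ f = o.u0 →
    Integrable (fun x => Real.exp (max (‖x‖ - 2 * o.d) 0) * (f x ^ 2 + ‖D f x‖ ^ 2)) ∧
    ∫ x, Real.exp (max (‖x‖ - 2 * o.d) 0) * (f x ^ 2 + ‖D f x‖ ^ 2) ≤ o.C0 := by
  obtain ⟨C, hC, h⟩ := BS.agmon
  refine ⟨C, fun o ho hc f hf => ?_⟩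
  obtain ⟨e, hb⟩ : ∃ e, BS o.d e f := by
    rcases hf with rfl | rfl
    exacts [⟨_, ho.bs_g⟩, ⟨_, ho.bs_u⟩]
  obtain ⟨h1, h2⟩ := h _ _ _ hb
  have hd := hb.d100
  have pw : ∀ x, Real.exp (max (‖x‖ - 2 * o.d) 0) * (f x ^ 2 + ‖D f x‖ ^ 2) ≤
      Real.exp (max (dn o.d x - 8) 0) * (f x ^ 2 + ‖D f x‖ ^ 2) := fun x => by
    have := (O_dn_ge (d := o.d) (by linarith) x).1
    exact mul_le_mul_of_nonneg_right (Real.exp_le_exp.2 (max_le_max (by linarith) le_rfl))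
      (by positivity)
  have i1 : Integrable fun x => Real.exp (max (‖x‖ - 2 * o.d) 0) * (f x ^ 2 + ‖D f x‖ ^ 2) := by
    refine h1.mono' ?_ (ae_of_all _ fun x => ?_)
    · have : Continuous fun x : E => Real.exp (max (‖x‖ - 2 * o.d) 0) := by fun_prop
      exact this.aestronglyMeasurable.mul
        (hb.s.h1.l2.integrable_sq.add (S11_int_normsq hb.s.h1.dl2)).aestronglyMeasurable
    · rw [Real.norm_eq_abs, abs_of_nonneg (by positivity)]
      exact pw x
  exact ⟨i1, ((integral_mono i1 h1 pw).trans h2).trans hc⟩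

end

end Crest.Agent.R335
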