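import Crest.Agent.R335.O5

set_option autoImplicit false
set_option linter.unusedVariables false

open MeasureTheory Set Filter Topology Metric
open scoped Gradient ContDiff RealInnerProductSpace ENNReal

namespace Crest.Agent.R335

noncomputable section

/-! Module O: pointwise lower bounds. -/

theorem O8_low {F f : E → ℝ} {A B : Set E} (hB : MeasurableSet B) (hBA : B ⊆ A)
    (hF : IntegrableOn F A volume) (h0 : ∀ᵐ y ∂(volume.restrict A), 0 ≤ F y)
    (hf : IntegrableOn f B volume) {m c : ℝ} (hm : 0 ≤ m) (hc : c ≤ ∫ y in B, f y)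
    (h : ∀ᵐ y, y ∈ B → m * f y ≤ F y) : m * c ≤ ∫ y in A, F y :=
  calc m * c ≤ m * ∫ y in B, f y := mul_le_mul_of_nonneg_left hc hm
    _ = ∫ y in B, m * f y := (integral_const_mul _ _).symm
    _ ≤ ∫ y in B, F y := setIntegral_mono_on_ae (hf.const_mul m) (hF.mono_set hBA) hB h
    _ ≤ _ := setIntegral_mono_set hF h0 hBA.eventuallyLE

theorem O8_dec {k s ρ : ℝ} (hk : 0 ≤ k) (hs : 0 < s) (h : s ≤ ρ) (n : ℕ) :
    Real.exp (-(k * ρ)) / ρ ^ n ≤ Real.exp (-(k * s)) / s ^ n :=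
  div_le_div₀ (Real.exp_pos _).le
    (Real.exp_le_exp.2 (neg_le_neg (mul_le_mul_of_nonneg_left h hk))) (by positivity)
    (pow_le_pow_left₀ hs.le h n)

/-- `BS.rep`, keep only `y ∈ ball (d e_z) 8` (`O_vx_ball`, `BS.mass1`) -/
theorem O_g_low : ∃ c : ℝ, 0 < c ∧ ∀ o : OD, o.OK0 → ∀ x,
    c * Real.exp (-(√(-2 * o.eg) * (‖x - o.d • ez‖ + 8))) / (‖x - o.d • ez‖ + 8) ≤ o.g0 x := by
  refine ⟨1 / (16 * Real.pi) * (1 / 520000), by positivity, fun o h x => ?_⟩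
  have hb := h.bs_g
  have hk : 0 < √(-2 * o.eg) := by linarith [hb.k_bd.1]
  set k := √(-2 * o.eg)
  set ρ := ‖x - o.d • ez‖ + 8 with hρ
  have hρ0 : 0 < ρ := by positivity
  obtain ⟨m1, m2⟩ := hb.mass1 fun y _ => h.g_nn y
  have key := O8_low (F := fun y => Yk k (x - y) * -(vx o.d y * o.g0 y)) (A := univ)
    measurableSet_ball (subset_univ _) (YP_integrable hk hb.vf.1 x).1.integrableOn
    (ae_of_all _ fun y => mul_nonneg (Y1A.Yk_nonneg _ _)
      (neg_nonneg.2 (mul_nonpos_of_nonpos_of_nonneg (O_vx_nonpos _ _) (h.g_nn y)))) m1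
    (m := Real.exp (-(k * ρ)) / ρ ^ 1 / (2 * Real.pi) * (1 / 8)) (by positivity) m2 (by
      filter_upwards [O_vx_ball o.d, Measure.ae_ne volume x] with y h1 h2 hy
      have h3 : 0 < ‖x - y‖ := norm_pos_iff.2 (sub_ne_zero.2 h2.symm)
      have h4 : ‖x - y‖ ≤ ρ := by
        have := norm_sub_le_norm_sub_add_norm_sub x (o.d • ez) y
        have h5 : ‖o.d • ez - y‖ < 8 := by rw [norm_sub_rev]; exact mem_ball_iff_norm.1 hy
        linarith
      have h5 : Real.exp (-(k * ρ)) / ρ ^ 1 / (2 * Real.pi) ≤ Yk k (x - y) := by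
        refine (div_le_div_of_nonneg_right (O8_dec hk.le h3 h4 1) (by positivity)).trans_eq ?_
        unfold Yk
        rw [div_div, pow_one, mul_comm ‖x - y‖]
      have h6 : 1 / 8 * o.g0 y ≤ -(vx o.d y * o.g0 y) := by nlinarith [h1 hy, h.g_nn y]
      rw [mul_assoc]
      exact mul_le_mul h5 h6 (by linarith [h.g_nn y]) (Y1A.Yk_nonneg _ _))
  rw [Measure.restrict_univ] at key
  rw [hb.rep x]
  refine le_trans (le_of_eq ?_) key
  field_simp
  ring

theorem O_gpos {o : OD} (h : o.OK0) (x : E) : 0 < o.g0 x := by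
  obtain ⟨c, hc, H⟩ := O_g_low
  exact lt_of_lt_of_le (by positivity) (H o h x)

theorem O_g_ball : ∃ c : ℝ, 0 < c ∧ ∀ o : OD, o.OK0 → ∀ x,
    ‖x - o.d • ez‖ ≤ 8 ∨ ‖x + o.d • ez‖ ≤ 8 → c ≤ o.g0 x := by
  obtain ⟨c, hc, H⟩ := O_g_low
  refine ⟨c * (Real.exp (-(21 / 20 * 16)) / 16 ^ 1), by positivity, fun o h => ?_⟩
  have key : ∀ x, ‖x - o.d • ez‖ ≤ 8 → c * (Real.exp (-(21 / 20 * 16)) / 16 ^ 1) ≤ o.g0 x := by
    intro x hx
    refine le_trans ?_ (H o h x)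
    have hb := h.bs_g.k_bd
    have h1 := O8_dec (k := √(-2 * o.eg)) (s := ‖x - o.d • ez‖ + 8) (ρ := 16) (Real.sqrt_nonneg _)
      (by positivity) (by linarith) 1
    have h2 : Real.exp (-(21 / 20 * 16)) / 16 ^ 1 ≤ Real.exp (-(√(-2 * o.eg) * 16)) / 16 ^ 1 :=
      div_le_div_of_nonneg_right (Real.exp_le_exp.2 (by linarith [hb.2.1])) (by positivity)
    rw [pow_one (‖x - o.d • ez‖ + 8)] at h1
    rw [mul_div_assoc]
    exact mul_le_mul_of_nonneg_left (h2.trans h1) hc.le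
  rintro x (hx | hx)
  · exact key x hx
  · rw [← h.evg]
    exact key _ (by rwa [(O_R_sub_ez o.d x).1])

theorem O_near : ∃ C1 : ℝ, ∀ o : OD, o.OK0 → C1 ≤ o.C0 →
    ∀ x, ‖x - o.d • ez‖ ≤ 1 ∨ ‖x + o.d • ez‖ ≤ 1 → 1 / o.C0 ≤ o.g0 x := by
  obtain ⟨c, hc, H⟩ := O_g_ball
  refine ⟨1 / c, fun o h hC x hx => le_trans ?_ (H o h x (hx.imp (fun h => by linarith)
    fun h => by linarith))⟩
  exact (one_div_le (by linarith [h.C0.1]) hc).2 hC

/-- with `s = ‖x - y‖ ≤ s' = ‖x - R y‖` (`O_norm_sub_R`):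
`e^{-ks}/s - e^{-ks'}/s' ≥ e^{-ks'} (s'² - s²)/(2 s'³)` -/
theorem O_Yk_diff {k : ℝ} (hk : 0 < k) {x y : E} (hx : x ∈ Hp) (hy : y ∈ Hp) (hxy : x ≠ y) :
    x 2 * y 2 * Real.exp (-(k * ‖x - R y‖)) / (Real.pi * ‖x - R y‖ ^ 3) ≤
      Yk k (x - y) - Yk k (x - R y) := by
  have hs : 0 < ‖x - y‖ := norm_pos_iff.2 (sub_ne_zero.2 hxy)
  have hx' : 0 ≤ x 2 := hx
  have hy' : 0 ≤ y 2 := hy
  have h1 := O_norm_sub_R x y
  have hp : 0 ≤ x 2 * y 2 := mul_nonneg hx' hy'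
  unfold Yk
  set s := ‖x - y‖
  set t := ‖x - R y‖
  have ht0 : 0 ≤ t := norm_nonneg _
  have hst : s ≤ t := by
    by_contra h
    nlinarith [not_le.1 h]
  have ht : 0 < t := hs.trans_le hst
  have h2 : Real.exp (-(k * t)) ≤ Real.exp (-(k * s)) :=
    Real.exp_le_exp.2 (neg_le_neg (mul_le_mul_of_nonneg_left hst hk.le))
  have h3 : Real.exp (-(k * t)) / (2 * Real.pi * s) ≤ Real.exp (-(k * s)) / (2 * Real.pi * s) :=
    div_le_div_of_nonneg_right h2 (by positivity)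
  have h4 : 2 * (x 2 * y 2) / t ^ 3 ≤ 1 / s - 1 / t := by
    rw [div_sub_div _ _ hs.ne' ht.ne', div_le_div_iff₀ (by positivity) (by positivity)]
    have e : 2 * (x 2 * y 2) = (t - s) * (t + s) / 2 := by nlinarith
    rw [e]
    have h5 : (t + s) / 2 * (s * t) ≤ t ^ 3 := by
      have : (t + s) / 2 * (s * t) ≤ t * (t * t) :=
        mul_le_mul (by linarith) (mul_le_mul_of_nonneg_right hst ht0) (by positivity) ht0
      linarith
    nlinarith [mul_le_mul_of_nonneg_left h5 (sub_nonneg.2 hst)]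
  have h5 := mul_le_mul_of_nonneg_left h4
    (show 0 ≤ Real.exp (-(k * t)) / (2 * Real.pi) by positivity)
  have e1 : Real.exp (-(k * t)) / (2 * Real.pi) * (2 * (x 2 * y 2) / t ^ 3) =
      x 2 * y 2 * Real.exp (-(k * t)) / (Real.pi * t ^ 3) := by field_simp
  have e2 : Real.exp (-(k * t)) / (2 * Real.pi) * (1 / s - 1 / t) =
      Real.exp (-(k * t)) / (2 * Real.pi * s) - Real.exp (-(k * t)) / (2 * Real.pi * t) := by
    field_simp
  linarith

/-- `BS.rep`, `O_integral_fold` (the source is odd), `O_Yk_diff`, keep only `y ∈ ball (d e_z) 8` -/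
theorem O_u_low : ∃ c : ℝ, 0 < c ∧ ∀ o : OD, o.OK0 → ∀ x ∈ Hp,
    c * x 2 * Real.exp (-(√(-2 * o.eu) * (‖x‖ + o.d + 8))) / (‖x‖ + o.d + 8) ^ 3 ≤ o.u0 x := by
  refine ⟨1 / (8 * Real.pi) * (1 / 520000), by positivity, fun o h x hx => ?_⟩
  have hb := h.bs_u
  have hd := h.d100
  have hx' : 0 ≤ x 2 := hx
  have hk : 0 < √(-2 * o.eu) := by linarith [hb.k_bd.1]
  set k := √(-2 * o.eu)
  set ρ := ‖x‖ + o.d + 8 with hρ
  have hρ0 : 0 < ρ := by positivity
  have hBA : ball (o.d • ez) 8 ⊆ Hp := fun y hy => by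
    show 0 ≤ y 2
    linarith [(O_ball_two hy).1]
  obtain ⟨m1, m2⟩ := hb.mass1 fun y hy => h.u_nn y (hBA hy)
  have i1 := (YP_integrable hk hb.vf.1 x).1
  have i2 : Integrable fun y => Yk k (x - R y) * -(vx o.d (R y) * o.u0 (R y)) :=
    (mp_R.integrable_comp i1.1).2 i1
  have e : ∀ y, Yk k (x - y) * -(vx o.d y * o.u0 y) + Yk k (x - R y) * -(vx o.d (R y) * o.u0 (R y)) =
      (Yk k (x - y) - Yk k (x - R y)) * -(vx o.d y * o.u0 y) := by
    intro y
    rw [vx_R, h.odu]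
    ring
  have hdiff : ∀ y ∈ Hp, y ≠ x → 0 ≤ Yk k (x - y) - Yk k (x - R y) := by
    intro y hy hne
    have hy' : 0 ≤ y 2 := hy
    exact le_trans (by positivity) (O_Yk_diff hk hx hy hne.symm)
  have key := O8_low (F := fun y => Yk k (x - y) * -(vx o.d y * o.u0 y) +
      Yk k (x - R y) * -(vx o.d (R y) * o.u0 (R y))) (A := Hp)
    measurableSet_ball hBA (i1.add i2).integrableOn
    ((ae_restrict_iff' S07.mHp).2 (by
      filter_upwards [Measure.ae_ne volume x] with y h2 hy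
      rw [e]
      exact mul_nonneg (hdiff y hy h2)
        (neg_nonneg.2 (mul_nonpos_of_nonpos_of_nonneg (O_vx_nonpos _ _) (h.u_nn y hy))))) m1
    (m := x 2 * (Real.exp (-(k * ρ)) / ρ ^ 3) / Real.pi * (1 / 8)) (by positivity) m2 (by
      filter_upwards [O_vx_ball o.d, Measure.ae_ne volume x] with y h1 h2 hy
      obtain ⟨b1, b2⟩ := O_ball_two hy
      have h3 : 0 < ‖x - R y‖ := by
        refine norm_pos_iff.2 (sub_ne_zero.2 fun h4 => ?_)
        rw [h4, R_two] at hx'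
        linarith
      have h4 : ‖x - R y‖ ≤ ρ := by
        have := norm_sub_le x (R y)
        rw [norm_R] at this
        rw [abs_of_nonneg (by linarith)] at b2
        linarith
      have h5 : x 2 * (Real.exp (-(k * ρ)) / ρ ^ 3) / Real.pi ≤ Yk k (x - y) - Yk k (x - R y) := by
        refine le_trans ?_ (O_Yk_diff hk hx (hBA hy) h2.symm)
        have h6 : x 2 * (Real.exp (-(k * ρ)) / ρ ^ 3) ≤
            x 2 * y 2 * (Real.exp (-(k * ‖x - R y‖)) / ‖x - R y‖ ^ 3) :=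
          mul_le_mul (le_mul_of_one_le_right hx' (by linarith)) (O8_dec hk.le h3 h4 3)
            (by positivity) (mul_nonneg hx' (by linarith))
        refine (div_le_div_of_nonneg_right h6 Real.pi_pos.le).trans_eq ?_
        field_simp
      have h7 := h.u_nn y (hBA hy)
      have h6 : 1 / 8 * o.u0 y ≤ -(vx o.d y * o.u0 y) := by nlinarith [h1 hy]
      rw [e, mul_assoc]
      exact mul_le_mul h5 h6 (by linarith) (hdiff y (hBA hy) h2))
  rw [← O_integral_fold i1] at key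
  rw [hb.rep x]
  refine le_trans (le_of_eq ?_) key
  field_simp

theorem O_ulow {o : OD} (h : o.OK0) (r : ℝ) :
    ∃ c, 0 < c ∧ ∀ x ∈ Hp, ‖x‖ ≤ r → c * x 2 ≤ o.u0 x := by
  obtain ⟨c, hc, H⟩ := O_u_low
  have hd := h.d100
  refine ⟨c * (Real.exp (-(√(-2 * o.eu) * (|r| + o.d + 8))) / (|r| + o.d + 8) ^ 3), by positivity,
    fun x hx hr => le_trans ?_ (H o h x hx)⟩
  have hx' : 0 ≤ x 2 := hx
  have h1 := O8_dec (k := √(-2 * o.eu)) (s := ‖x‖ + o.d + 8) (ρ := |r| + o.d + 8) (Real.sqrt_nonneg _)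
    (by positivity) (by linarith [le_abs_self r]) 3
  have h2 := mul_le_mul_of_nonneg_left h1 (mul_nonneg hc.le hx')
  rw [mul_div_assoc (c * x 2)]
  linarith

end

end Crest.Agent.R335
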