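import Crest.Agent.R335.MA0
import Crest.Agent.R335.S12
import Crest.Agent.R335.S11
import Crest.Agent.R335.S10
import Crest.Agent.R335.S09
import Crest.Agent.R335.S07
import Crest.Agent.R335.Y1
import Crest.Agent.R335.Y2

set_option autoImplicit false
set_option linter.unusedVariables false

open MeasureTheory Set Filter Topology Metric
open scoped Gradient ContDiff RealInnerProductSpace ENNReal

namespace Crest.Agent.R335

noncomputable section

/-! Module O (one-body data): definitions. Do not edit (owner helper65). -/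

/-- hydrogen potential centred at `c` -/
def hv (c x : E) : ℝ := -(1 / ‖x - c‖)

theorem hv_def (c x : E) : hv c x = -(1 / ‖x - c‖) := rfl

/-- distance to the nearest nucleus -/
def dn (d : ℝ) (x : E) : ℝ := min ‖x - d • ez‖ ‖x + d • ez‖

theorem dn_def (d : ℝ) (x : E) : dn d x = min ‖x - d • ez‖ ‖x + d • ez‖ := rfl

/-- a normalised bound state of the two-centre operator, with `f²` even -/
structure BS (d e : ℝ) (f : E → ℝ) : Prop where
  d100 : 100 ≤ d
  en : -(11 / 20) ≤ e ∧ e ≤ -(99 / 200)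
  c : Continuous f
  s : Sol f fun x => (e - vx d x) * f x
  n : nsq f = 1
  sym : ∀ x, f (R x) ^ 2 = f x ^ 2

theorem OD.OK0.d100 {o : OD} (h : o.OK0) : 100 ≤ o.d := h.C0.1.trans h.C0.2.2

theorem OD.OK0.bs_g {o : OD} (h : o.OK0) : BS o.d o.eg o.g0 :=
  ⟨h.d100, ⟨h.en.1, by linarith [h.en.2.1, h.en.2.2, h.γ0.2]⟩, h.cg, h.sg, h.ng,
    fun x => by rw [h.evg]⟩

theorem OD.OK0.bs_u {o : OD} (h : o.OK0) : BS o.d o.eu o.u0 :=
  ⟨h.d100, ⟨h.en.1.trans h.en.2.1, by linarith [h.en.2.2, h.γ0.2]⟩, h.cu, h.su, h.nu,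
    fun x => by rw [h.odu, neg_sq]⟩

theorem BS.k_bd {d e : ℝ} {f : E → ℝ} (h : BS d e f) :
    99 / 100 ≤ √(-2 * e) ∧ √(-2 * e) ≤ 21 / 20 ∧ √(-2 * e) ^ 2 = -2 * e := by
  have h1 := h.en.1
  have h2 := h.en.2
  refine ⟨Real.le_sqrt_of_sq_le (by linarith), Real.sqrt_le_iff.2 ⟨by norm_num, by linarith⟩,
    Real.sq_sqrt (by linarith)⟩

end

end Crest.Agent.R335
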