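import Crest.Agent.R335.Defs

set_option autoImplicit false
set_option linter.unusedSectionVars false

open MeasureTheory Set Filter Topology Metric
open scoped Gradient ContDiff RealInnerProductSpace ENNReal

namespace Crest.Agent.R335

noncomputable section

variable {V : Type*} [NormedAddCommGroup V] [InnerProductSpace ℝ V] [FiniteDimensional ℝ V]
  [MeasurableSpace V] [BorelSpace V]

/-! auxiliary facts -/
theorem s01_cont_grad {φ : V → ℝ} (h : ContDiff ℝ 1 φ) : Continuous (∇ φ) := by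
  have h1 : Continuous (fderiv ℝ φ) := h.continuous_fderiv one_ne_zero
  exact (InnerProductSpace.toDual ℝ V).symm.continuous.comp h1

theorem s01_grad_zero {φ : V → ℝ} {x : V} (hx : x ∉ tsupport φ) : ∇ φ x = 0 := by
  have : fderiv ℝ φ x = 0 := by
    by_contra hne
    exact hx (support_fderiv_subset ℝ (f := φ) hne)
  simp [gradient, this]

theorem s01_supp_grad {φ : V → ℝ} (h : HasCompactSupport φ) : HasCompactSupport (∇ φ) :=
  HasCompactSupport.intro h fun _ hx => s01_grad_zero hx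

theorem s01_cont_ig {φ : V → ℝ} (h : ContDiff ℝ 1 φ) (v : V) :
    Continuous fun x => ⟪∇ φ x, v⟫ :=
  (s01_cont_grad h).inner continuous_const

theorem s01_supp_ig {φ : V → ℝ} (h : HasCompactSupport φ) (v : V) :
    HasCompactSupport fun x => ⟪∇ φ x, v⟫ :=
  HasCompactSupport.intro h fun _ hx => by simp [s01_grad_zero hx]

theorem s01_li_inner {g : V → V} (hg : LocallyIntegrable g volume) (v : V) :
    LocallyIntegrable (fun x => ⟪g x, v⟫) volume := by
  rw [locallyIntegrable_iff] at hg ⊢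
  intro k hk
  exact Integrable.inner_const (hg k hk) v

theorem s01_int1 {u φ : V → ℝ} (hu : LocallyIntegrable u volume) (h : Tst φ) (v : V) :
    Integrable (fun x => u x * ⟪∇ φ x, v⟫) volume :=
  hu.integrable_smul_right_of_hasCompactSupport (s01_cont_ig h.1 v) (s01_supp_ig h.2 v)

theorem s01_int2 {φ : V → ℝ} {g : V → V} (hg : LocallyIntegrable g volume) (h : Tst φ) (v : V) :
    Integrable (fun x => ⟪g x, v⟫ * φ x) volume :=
  (s01_li_inner hg v).integrable_smul_right_of_hasCompactSupport h.1.continuous h.2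

theorem s01_inner_int {φ : V → ℝ} {g : V → V} (hg : LocallyIntegrable g volume) (h : Tst φ)
    (v : V) : ⟪∫ x, φ x • g x, v⟫ = ∫ x, ⟪g x, v⟫ * φ x := by
  have hi := hg.integrable_smul_left_of_hasCompactSupport h.1.continuous h.2
  rw [real_inner_comm, ← integral_inner hi v]
  refine integral_congr_ae (Eventually.of_forall fun x => ?_)
  simp only [inner_smul_right, real_inner_comm, mul_comm]

theorem s01_tst_of_smooth {φ : V → ℝ} (h : ContDiff ℝ ∞ φ) (hc : HasCompactSupport φ) : Tst φ :=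
  ⟨h.of_le (by exact_mod_cast le_top), hc⟩

theorem s01_grad_mul {φ ψ : V → ℝ} (h : ContDiff ℝ 1 φ) (h' : ContDiff ℝ 1 ψ) (x v : V) :
    ⟪∇ (fun y => φ y * ψ y) x, v⟫ = φ x * ⟪∇ ψ x, v⟫ + ψ x * ⟪∇ φ x, v⟫ := by
  have d1 := (h.differentiable one_ne_zero) x
  have d2 := (h'.differentiable one_ne_zero) x
  simp only [inner_gradient_left]
  rw [fderiv_fun_mul d1 d2]
  simp

/-- continuous functions are bounded on compact sets -/
theorem s01_bd_cpt {F : Type*} [NormedAddCommGroup F] {f : V → F} (hf : Continuous f) {K : Set V}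
    (hK : IsCompact K) : ∃ M : ℝ, ∀ x ∈ K, ‖f x‖ ≤ M :=
  hK.exists_bound_of_continuousOn hf.continuousOn

theorem s01_memLp_top {F : Type*} [NormedAddCommGroup F] {f : V → F} (hf : Continuous f)
    {K : Set V} (hK : IsCompact K) [SecondCountableTopologyEither V F] :
    MemLp f ∞ (volume.restrict K) := by
  obtain ⟨M, hM⟩ := s01_bd_cpt hf hK
  refine memLp_top_of_bound hf.aestronglyMeasurable M ?_
  exact (ae_restrict_iff' hK.measurableSet).2 (Eventually.of_forall hM)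

theorem s01_memLp_two {F : Type*} [NormedAddCommGroup F] {f : V → F} (hf : Continuous f)
    {K : Set V} (hK : IsCompact K) [SecondCountableTopologyEither V F] :
    MemLp f 2 (volume.restrict K) := by
  have : Fact (volume K < ⊤) := ⟨hK.measure_lt_top⟩
  exact (s01_memLp_top hf hK).mono_exponent le_top

theorem s01_memLp_of_supp {F : Type*} [NormedAddCommGroup F] {f : V → F} {K : Set V}
    (hK : IsCompact K) (h : MemLp f 2 (volume.restrict K)) (h0 : ∀ x, x ∉ K → f x = 0) :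
    MemLp f 2 volume := by
  have : f = K.indicator f := by
    ext x
    by_cases hx : x ∈ K
    · simp [hx]
    · simp [hx, h0 x hx]
  rw [this]
  exact (memLp_indicator_iff_restrict hK.measurableSet).2 h

/-! basic calculus of weak gradients -/
theorem IsW.unique {u : V → ℝ} {g h : V → V} (hg : IsW u g) (hh : IsW u h) : ∀ᵐ x, g x = h x := by
  refine ae_eq_of_integral_contDiff_smul_eq hg.lg hh.lg fun φ hφ hc => ?_
  have ht := s01_tst_of_smooth hφ hc
  refine ext_inner_right ℝ fun v => ?_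
  rw [s01_inner_int hg.lg ht, s01_inner_int hh.lg ht]
  have e1 := hg.ibp φ ht v
  have e2 := hh.ibp φ ht v
  linarith

theorem IsW.D_eq {u : V → ℝ} {g : V → V} (hg : IsW u g) : ∀ᵐ x, D u x = g x := by
  have h : ∃ g, IsW u g := ⟨g, hg⟩
  have : D u = h.choose := by simp only [D, dif_pos h]
  rw [this]
  exact h.choose_spec.unique hg

theorem IsW.isW_D {u : V → ℝ} {g : V → V} (hg : IsW u g) : IsW u (D u) := by
  have h : ∃ g, IsW u g := ⟨g, hg⟩
  have : D u = h.choose := by simp only [D, dif_pos h]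
  rw [this]
  exact h.choose_spec

theorem IsW.congr {u w : V → ℝ} {g h : V → V} (hg : IsW u g) (h1 : ∀ᵐ x, w x = u x)
    (h2 : ∀ᵐ x, h x = g x) : IsW w h := by
  refine ⟨hg.lu.congr (h1.mono fun _ e => e.symm), hg.lg.congr (h2.mono fun _ e => e.symm),
    fun φ hφ v => ?_⟩
  have e1 : ∫ x, w x * ⟪∇ φ x, v⟫ = ∫ x, u x * ⟪∇ φ x, v⟫ :=
    integral_congr_ae (h1.mono fun x e => by simp only [e])
  have e2 : ∫ x, ⟪h x, v⟫ * φ x = ∫ x, ⟪g x, v⟫ * φ x :=
    integral_congr_ae (h2.mono fun x e => by simp only [e])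
  rw [e1, e2]
  exact hg.ibp φ hφ v

theorem D_congr {u w : V → ℝ} (h : ∀ᵐ x, u x = w x) : ∀ᵐ x, D u x = D w x := by
  by_cases hu : ∃ g, IsW u g
  · obtain ⟨g, hg⟩ := hu
    have hw : IsW w g := hg.congr (h.mono fun _ e => e.symm) (Eventually.of_forall fun _ => rfl)
    filter_upwards [hg.D_eq, hw.D_eq] with x e1 e2
    rw [e1, e2]
  · have hw : ¬ ∃ g, IsW w g := fun ⟨g, hg⟩ =>
      hu ⟨g, hg.congr h (Eventually.of_forall fun _ => rfl)⟩
    refine Eventually.of_forall fun x => ?_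
    simp only [D, dif_neg hu, dif_neg hw]

theorem IsW.h1 {u : V → ℝ} {g : V → V} (hg : IsW u g) (h1 : MemLp u 2 volume)
    (h2 : MemLp g 2 volume) : H1 u :=
  ⟨hg.isW_D, h1, h2.ae_eq (hg.D_eq.mono fun _ e => e.symm)⟩

theorem IsW.hl {u : V → ℝ} {g : V → V} (hg : IsW u g)
    (h1 : ∀ K, IsCompact K → MemLp u 2 (volume.restrict K))
    (h2 : ∀ K, IsCompact K → MemLp g 2 (volume.restrict K)) : Hl u :=
  ⟨hg.isW_D, h1, fun K hK =>
    (h2 K hK).ae_eq (ae_restrict_of_ae (hg.D_eq.mono fun _ e => e.symm))⟩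

theorem H1.hl {u : V → ℝ} (h : H1 u) : Hl u :=
  ⟨h.isW, fun K _ => h.l2.restrict K, fun K _ => h.dl2.restrict K⟩

theorem Hl.h1 {u : V → ℝ} (h : Hl u) (h1 : MemLp u 2 volume) (h2 : MemLp (D u) 2 volume) : H1 u :=
  ⟨h.isW, h1, h2⟩

theorem Hl.aesm {u : V → ℝ} (h : Hl u) : AEStronglyMeasurable u volume :=
  h.isW.lu.aestronglyMeasurable

theorem Hl.aesm_D {u : V → ℝ} (h : Hl u) : AEStronglyMeasurable (D u) volume :=
  h.isW.lg.aestronglyMeasurable

theorem H1.congr {u w : V → ℝ} (h : H1 u) (e : ∀ᵐ x, w x = u x) : H1 w :=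
  (h.isW.congr e (Eventually.of_forall fun _ => rfl)).h1
    (h.l2.ae_eq (e.mono fun _ e => e.symm)) h.dl2

theorem Hl.congr {u w : V → ℝ} (h : Hl u) (e : ∀ᵐ x, w x = u x) : Hl w :=
  (h.isW.congr e (Eventually.of_forall fun _ => rfl)).hl
    (fun K hK => (h.l2 K hK).ae_eq (ae_restrict_of_ae (e.mono fun _ e => e.symm))) h.dl2

theorem Bl.congr {u w : V → ℝ} (h : Bl u) (e : ∀ᵐ x, w x = u x) : Bl w := by
  refine ⟨h.hl.congr e, fun K hK => ?_⟩
  obtain ⟨M, hM⟩ := h.lb K hK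
  refine ⟨M, ?_⟩
  filter_upwards [hM, e] with x h1 h2 hx
  rw [h2]
  exact h1 hx

theorem IsW.add {u w : V → ℝ} {g h : V → V} (a : IsW u g) (b : IsW w h) :
    IsW (fun x => u x + w x) (fun x => g x + h x) := by
  refine ⟨a.lu.add b.lu, a.lg.add b.lg, fun φ hφ v => ?_⟩
  simp only [add_mul, inner_add_left]
  rw [integral_add (s01_int1 a.lu hφ v) (s01_int1 b.lu hφ v),
    integral_add (s01_int2 a.lg hφ v) (s01_int2 b.lg hφ v), a.ibp φ hφ v, b.ibp φ hφ v]
  ring

theorem IsW.smul {u : V → ℝ} {g : V → V} (c : ℝ) (a : IsW u g) :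
    IsW (fun x => c * u x) (fun x => c • g x) := by
  refine ⟨a.lu.smul c, a.lg.smul c, fun φ hφ v => ?_⟩
  simp only [real_inner_smul_left, mul_assoc]
  rw [integral_const_mul, integral_const_mul, a.ibp φ hφ v]
  ring

theorem Hl.add {u w : V → ℝ} (a : Hl u) (b : Hl w) : Hl fun x => u x + w x :=
  (a.isW.add b.isW).hl (fun K hK => (a.l2 K hK).add (b.l2 K hK))
    (fun K hK => (a.dl2 K hK).add (b.dl2 K hK))

theorem Hl.sub {u w : V → ℝ} (a : Hl u) (b : Hl w) : Hl fun x => u x - w x := by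
  have h := (a.isW.add (b.isW.smul (-1))).congr (w := fun x => u x - w x)
    (h := fun x => D u x - D w x) (Eventually.of_forall fun x => by ring)
    (Eventually.of_forall fun x => by simp [sub_eq_add_neg])
  exact h.hl (fun K hK => (a.l2 K hK).sub (b.l2 K hK))
    (fun K hK => (a.dl2 K hK).sub (b.dl2 K hK))

theorem Hl.smul {u : V → ℝ} (c : ℝ) (a : Hl u) : Hl fun x => c * u x :=
  (a.isW.smul c).hl (fun K hK => (a.l2 K hK).const_mul c)
    (fun K hK => (a.dl2 K hK).const_smul c)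

theorem H1.add {u w : V → ℝ} (a : H1 u) (b : H1 w) : H1 fun x => u x + w x :=
  (a.isW.add b.isW).h1 (a.l2.add b.l2) (a.dl2.add b.dl2)

theorem H1.sub {u w : V → ℝ} (a : H1 u) (b : H1 w) : H1 fun x => u x - w x := by
  have h := (a.isW.add (b.isW.smul (-1))).congr (w := fun x => u x - w x)
    (h := fun x => D u x - D w x) (Eventually.of_forall fun x => by ring)
    (Eventually.of_forall fun x => by simp [sub_eq_add_neg])
  exact h.h1 (a.l2.sub b.l2) (a.dl2.sub b.dl2)

theorem H1.smul {u : V → ℝ} (c : ℝ) (a : H1 u) : H1 fun x => c * u x :=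
  (a.isW.smul c).h1 (a.l2.const_mul c) (a.dl2.const_smul c)

theorem Bl.add {u w : V → ℝ} (a : Bl u) (b : Bl w) : Bl fun x => u x + w x := by
  refine ⟨a.hl.add b.hl, fun K hK => ?_⟩
  obtain ⟨M, hM⟩ := a.lb K hK
  obtain ⟨N, hN⟩ := b.lb K hK
  refine ⟨M + N, ?_⟩
  filter_upwards [hM, hN] with x h1 h2 hx
  exact (abs_add_le _ _).trans (add_le_add (h1 hx) (h2 hx))

theorem Bl.sub {u w : V → ℝ} (a : Bl u) (b : Bl w) : Bl fun x => u x - w x := by
  refine ⟨a.hl.sub b.hl, fun K hK => ?_⟩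
  obtain ⟨M, hM⟩ := a.lb K hK
  obtain ⟨N, hN⟩ := b.lb K hK
  refine ⟨M + N, ?_⟩
  filter_upwards [hM, hN] with x h1 h2 hx
  exact (abs_sub _ _).trans (add_le_add (h1 hx) (h2 hx))

theorem Bl.smul {u : V → ℝ} (c : ℝ) (a : Bl u) : Bl fun x => c * u x := by
  refine ⟨a.hl.smul c, fun K hK => ?_⟩
  obtain ⟨M, hM⟩ := a.lb K hK
  refine ⟨|c| * M, ?_⟩
  filter_upwards [hM] with x h1 hx
  rw [abs_mul]
  exact mul_le_mul_of_nonneg_left (h1 hx) (abs_nonneg c)

theorem D_add {u w : V → ℝ} (a : Hl u) (b : Hl w) :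
    ∀ᵐ x, D (fun x => u x + w x) x = D u x + D w x :=
  (a.isW.add b.isW).D_eq

theorem D_sub {u w : V → ℝ} (a : Hl u) (b : Hl w) :
    ∀ᵐ x, D (fun x => u x - w x) x = D u x - D w x := by
  have h := (a.isW.add (b.isW.smul (-1))).congr (w := fun x => u x - w x)
    (h := fun x => D u x - D w x) (Eventually.of_forall fun x => by ring)
    (Eventually.of_forall fun x => by simp [sub_eq_add_neg])
  exact h.D_eq

theorem D_smul {u : V → ℝ} (c : ℝ) (a : Hl u) : ∀ᵐ x, D (fun x => c * u x) x = c • D u x :=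
  (a.isW.smul c).D_eq

theorem isW_c1 {φ : V → ℝ} (h : ContDiff ℝ 1 φ) : IsW φ (∇ φ) := by
  have l1 := h.continuous.locallyIntegrable (μ := volume)
  have l2 := (s01_cont_grad h).locallyIntegrable (μ := volume)
  refine ⟨l1, l2, fun ψ hψ v => ?_⟩
  have i1 := s01_int1 l1 hψ v
  have i2 := s01_int2 l2 hψ v
  simp only [inner_gradient_left] at i1 i2 ⊢
  refine integral_mul_fderiv_eq_neg_fderiv_mul_of_integrable i2 i1 ?_
    (fun x _ => h.differentiable one_ne_zero x) (fun x _ => hψ.1.differentiable one_ne_zero x)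
  exact l1.integrable_smul_right_of_hasCompactSupport hψ.1.continuous hψ.2

theorem bl_c1 {φ : V → ℝ} (h : ContDiff ℝ 1 φ) : Bl φ := by
  refine ⟨(isW_c1 h).hl (fun K hK => s01_memLp_two h.continuous hK)
    (fun K hK => s01_memLp_two (s01_cont_grad h) hK), fun K hK => ?_⟩
  obtain ⟨M, hM⟩ := s01_bd_cpt h.continuous hK
  exact ⟨M, Eventually.of_forall hM⟩

theorem D_c1 {φ : V → ℝ} (h : ContDiff ℝ 1 φ) : ∀ᵐ x, D φ x = ∇ φ x :=
  (isW_c1 h).D_eq

theorem D_const (c : ℝ) : ∀ᵐ x, D (fun _ : V => c) x = 0 := by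
  filter_upwards [D_c1 (V := V) (φ := fun _ => c) contDiff_const] with x hx
  rw [hx]
  simp [gradient]

theorem Tst.h1 {φ : V → ℝ} (h : Tst φ) : H1 φ :=
  (isW_c1 h.1).h1 (h.1.continuous.memLp_of_hasCompactSupport h.2)
    ((s01_cont_grad h.1).memLp_of_hasCompactSupport (s01_supp_grad h.2))

theorem Tst.tf {φ : V → ℝ} {S : Set V} (h : Tst φ) (hs : tsupport φ ⊆ S) : TF S φ := by
  refine ⟨h.h1, ?_, ⟨tsupport φ, h.2, hs, Eventually.of_forall fun x hx =>
    image_eq_zero_of_notMem_tsupport hx⟩⟩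
  obtain ⟨M, hM⟩ := h.1.continuous.bounded_above_of_compact_support h.2
  exact ⟨M, Eventually.of_forall hM⟩

theorem IsW.mul_c1 {u φ : V → ℝ} {g : V → V} (a : IsW u g) (h : ContDiff ℝ 1 φ) :
    IsW (fun x => φ x * u x) (fun x => φ x • g x + u x • ∇ φ x) := by
  refine ⟨LocallyIntegrable.continuous_mul h.continuous a.lu,
    (LocallyIntegrable.continuous_smul h.continuous a.lg).add
      (LocallyIntegrable.smul_continuous (s01_cont_grad h) a.lu), fun ψ hψ v => ?_⟩
  have ht : Tst fun x => φ x * ψ x := ⟨h.mul hψ.1, hψ.2.mul_left⟩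
  have e := a.ibp _ ht v
  have i1 := s01_int1 (LocallyIntegrable.continuous_mul h.continuous a.lu) hψ v
  have i2 := s01_int2 (LocallyIntegrable.continuous_smul h.continuous a.lg) hψ v
  have i3 := s01_int2 (LocallyIntegrable.smul_continuous (s01_cont_grad h) a.lu) hψ v
  have e1 : ∫ x, u x * ⟪∇ (fun x => φ x * ψ x) x, v⟫ =
      (∫ x, φ x * u x * ⟪∇ ψ x, v⟫) + ∫ x, ⟪u x • ∇ φ x, v⟫ * ψ x := by
    rw [← integral_add i1 i3]
    refine integral_congr_ae (Eventually.of_forall fun x => ?_)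
    simp only [s01_grad_mul h hψ.1, real_inner_smul_left]
    ring
  have e2 : ∫ x, ⟪g x, v⟫ * (φ x * ψ x) = ∫ x, ⟪φ x • g x, v⟫ * ψ x := by
    refine integral_congr_ae (Eventually.of_forall fun x => ?_)
    simp only [real_inner_smul_left]
    ring
  simp only [inner_add_left, add_mul]
  rw [integral_add i2 i3]
  rw [e1, e2] at e
  linarith

theorem Hl.mul_c1 {u φ : V → ℝ} (a : Hl u) (h : ContDiff ℝ 1 φ) : Hl fun x => φ x * u x := by
  refine (a.isW.mul_c1 h).hl (fun K hK => ?_) (fun K hK => ?_)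
  · exact MemLp.smul (r := 2) (a.l2 K hK) (s01_memLp_top h.continuous hK)
  · refine MemLp.add (MemLp.smul (r := 2) (a.dl2 K hK) (s01_memLp_top h.continuous hK)) ?_
    exact MemLp.smul (r := 2) (s01_memLp_top (s01_cont_grad h) hK) (a.l2 K hK)

theorem Hl.mul_tst {u φ : V → ℝ} (a : Hl u) (h : Tst φ) : H1 fun x => φ x * u x := by
  refine (a.isW.mul_c1 h.1).h1 ?_ ?_
  · refine s01_memLp_of_supp h.2 ((a.mul_c1 h.1).l2 _ h.2) fun x hx => ?_
    simp [image_eq_zero_of_notMem_tsupport hx]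
  · refine s01_memLp_of_supp h.2 (((a.mul_c1 h.1).dl2 _ h.2).ae_eq
      (ae_restrict_of_ae (a.isW.mul_c1 h.1).D_eq)) fun x hx => ?_
    simp [image_eq_zero_of_notMem_tsupport hx, s01_grad_zero hx]

theorem D_mul_c1 {u φ : V → ℝ} (a : Hl u) (h : ContDiff ℝ 1 φ) :
    ∀ᵐ x, D (fun x => φ x * u x) x = φ x • D u x + u x • ∇ φ x :=
  (a.isW.mul_c1 h).D_eq

/-- locality: `u` is `H¹_loc` as soon as all its localisations are -/
theorem isW_of_local {u : V → ℝ} {g : V → V} (hu : LocallyIntegrable u volume)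
    (hg : LocallyIntegrable g volume)
    (h : ∀ φ, Tst φ → IsW (fun x => φ x * u x) (fun x => φ x • g x + u x • ∇ φ x)) : IsW u g := by
  refine ⟨hu, hg, fun ψ hψ v => ?_⟩
  obtain ⟨r, hr0, hr⟩ := hψ.2.isCompact.isBounded.subset_ball_lt 0 (0 : V)
  let b : ContDiffBump (0 : V) := ⟨r, r + 1, hr0, by linarith⟩
  have hb : Tst (b : V → ℝ) := ⟨b.contDiff, b.hasCompactSupport⟩
  have e := (h b hb).ibp ψ hψ v
  have hone : ∀ x ∈ tsupport ψ, b x = 1 := fun x hx =>
    b.one_of_mem_closedBall (ball_subset_closedBall (hr hx))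
  have hz : ∀ x ∈ tsupport ψ, ∇ (b : V → ℝ) x = 0 := by
    intro x hx
    have : (b : V → ℝ) =ᶠ[𝓝 x] fun _ => 1 := by
      filter_upwards [isOpen_ball.mem_nhds (hr hx)] with y hy
      exact b.one_of_mem_closedBall (ball_subset_closedBall hy)
    simp [gradient, this.fderiv_eq]
  have e1 : ∫ x, u x * ⟪∇ ψ x, v⟫ = ∫ x, b x * u x * ⟪∇ ψ x, v⟫ := by
    refine integral_congr_ae (Eventually.of_forall fun x => ?_)
    by_cases hx : x ∈ tsupport ψ
    · simp [hone x hx]
    · simp [s01_grad_zero hx]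
  have e2 : ∫ x, ⟪g x, v⟫ * ψ x = ∫ x, ⟪b x • g x + u x • ∇ (b : V → ℝ) x, v⟫ * ψ x := by
    refine integral_congr_ae (Eventually.of_forall fun x => ?_)
    by_cases hx : x ∈ tsupport ψ
    · simp [hone x hx, hz x hx]
    · simp [image_eq_zero_of_notMem_tsupport hx]
  rw [e1, e2]
  exact e

/-- functions that agree on an open set have the same weak gradient there -/
theorem D_eqOn {u w : V → ℝ} {U : Set V} (a : Hl u) (b : Hl w) (hU : IsOpen U)
    (h : ∀ᵐ x, x ∈ U → u x = w x) : ∀ᵐ x, x ∈ U → D u x = D w x := by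
  have key := hU.ae_eq_zero_of_integral_contDiff_smul_eq_zero (μ := volume)
    (f := fun x => D u x - D w x) ((a.isW.lg.sub b.isW.lg).locallyIntegrableOn U) ?_
  · filter_upwards [key] with x hx hxU
    exact sub_eq_zero.1 (hx hxU)
  intro φ hφ hc hs
  have ht := s01_tst_of_smooth hφ hc
  refine ext_inner_right ℝ fun v => ?_
  rw [s01_inner_int (g := fun x => D u x - D w x) (a.isW.lg.sub b.isW.lg) ht, inner_zero_left]
  simp only [inner_sub_left, sub_mul]
  rw [integral_sub (s01_int2 a.isW.lg ht v) (s01_int2 b.isW.lg ht v)]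
  have e1 := a.isW.ibp φ ht v
  have e2 := b.isW.ibp φ ht v
  have e3 : ∫ x, u x * ⟪∇ φ x, v⟫ = ∫ x, w x * ⟪∇ φ x, v⟫ := by
    refine integral_congr_ae ?_
    filter_upwards [h] with x hx
    by_cases hx' : x ∈ tsupport φ
    · rw [hx (hs hx')]
    · simp [s01_grad_zero hx']
  linarith

theorem Bd.lb {u : V → ℝ} (h : Bd u) : LB u := by
  obtain ⟨M, hM⟩ := h
  exact fun K _ => ⟨M, hM.mono fun x hx _ => hx⟩

theorem TF.bl {S : Set V} {χ : V → ℝ} (h : TF S χ) : Bl χ :=
  ⟨h.h1.hl, h.bd.lb⟩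

theorem TF.mono {S T : Set V} {χ : V → ℝ} (h : TF S χ) (hst : S ⊆ T) : TF T χ := by
  obtain ⟨K, hK, hKS, h0⟩ := h.cs
  exact ⟨h.h1, h.bd, K, hK, hKS.trans hst, h0⟩

theorem Continuous.lb' {u : V → ℝ} (h : Continuous u) : LB u := by
  intro K hK
  obtain ⟨M, hM⟩ := s01_bd_cpt h hK
  exact ⟨M, Eventually.of_forall hM⟩

theorem Continuous.lp' {u : V → ℝ} (h : Continuous u) (hp : ∀ x, 0 < u x) : LP u := by
  intro K hK
  rcases K.eq_empty_or_nonempty with rfl | hne
  · exact ⟨1, one_pos, Eventually.of_forall fun x hx => absurd hx (notMem_empty x)⟩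
  · obtain ⟨x₀, _, hmin⟩ := hK.exists_isMinOn hne h.continuousOn
    exact ⟨u x₀, hp x₀, Eventually.of_forall fun x hx => hmin hx⟩


end

end Crest.Agent.R335
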