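import Crest.Agent.R335.S03Aux1

set_option autoImplicit false

open MeasureTheory Set Filter Topology Metric
open scoped Gradient ContDiff RealInnerProductSpace ENNReal

namespace Crest.Agent.R335

noncomputable section

variable {V : Type*} [NormedAddCommGroup V] [InnerProductSpace ℝ V] [FiniteDimensional ℝ V]
  [MeasurableSpace V] [BorelSpace V]

/-! chain rules -/
theorem Hl.comp {u : V → ℝ} {β : ℝ → ℝ} {L : ℝ} (a : Hl u) (hβ : ContDiff ℝ 1 β)
    (hL : ∀ t, |deriv β t| ≤ L) :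
    Hl (fun x => β (u x)) ∧ ∀ᵐ x, D (fun x => β (u x)) x = deriv β (u x) • D u x := by
  refine S03Aux.hl_of_ball fun r hr => ?_
  obtain ⟨v, hv, e⟩ := S03Aux.exists_h1 a hr
  have hW := S03Aux.chain1 hv hβ hL
  refine ⟨fun x => β (v x), hW.hl (fun K hK => ?_) fun K hK => ?_, ?_⟩
  · have : IsFiniteMeasure ((volume : Measure V).restrict K) :=
      isFiniteMeasure_restrict.2 hK.measure_lt_top.ne
    refine MemLp.mono' ((memLp_const |β 0|).add ((hv.hl.l2 K hK).norm.const_mul L))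
      hW.lu.aestronglyMeasurable.restrict (ae_of_all _ fun x => ?_)
    exact S03Aux.lip_bound hβ hL _
  · refine MemLp.mono' ((hv.hl.dl2 K hK).norm.const_mul L)
      hW.lg.aestronglyMeasurable.restrict (ae_of_all _ fun x => ?_)
    rw [norm_smul]
    exact mul_le_mul_of_nonneg_right (hL _) (norm_nonneg _)
  · filter_upwards [e, hW.D_eq] with x h1 h2 hx
    rw [h2, (h1 hx).1, (h1 hx).2]
    exact ⟨rfl, rfl⟩
theorem H1.comp {u : V → ℝ} {β : ℝ → ℝ} {L : ℝ} (a : H1 u) (hβ : ContDiff ℝ 1 β)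
    (hL : ∀ t, |deriv β t| ≤ L) (h0 : β 0 = 0) : H1 fun x => β (u x) := by
  have hW := S03Aux.chain1 a hβ hL
  refine hW.h1 (MemLp.mono' (a.l2.norm.const_mul L) hW.lu.aestronglyMeasurable
    (ae_of_all _ fun x => ?_)) (MemLp.mono' (a.dl2.norm.const_mul L) hW.lg.aestronglyMeasurable
    (ae_of_all _ fun x => ?_))
  · simpa [h0] using S03Aux.lip_bound hβ hL (u x)
  · rw [norm_smul]
    exact mul_le_mul_of_nonneg_right (hL _) (norm_nonneg _)
theorem s03_comp {u : V → ℝ} {β : ℝ → ℝ} (a : Hl u)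
    (h : ∀ K : Set V, IsCompact K → ∃ m r1 r2 : ℝ, 0 < r1 ∧ r1 < r2 ∧
      (∀ t ∈ closedBall m r2, ContDiffAt ℝ 1 β t) ∧ ∀ᵐ x, x ∈ K → u x ∈ ball m r1) :
    Bl (fun x => β (u x)) ∧ ∀ᵐ x, D (fun x => β (u x)) x = deriv β (u x) • D u x := by
  have key := S03Aux.hl_of_ball (f := fun x => β (u x)) (g := fun x => deriv β (u x) • D u x)
    fun r hr => by
      obtain ⟨m, r1, r2, h1, h2, h3, h4⟩ := h _ (isCompact_closedBall 0 r)
      obtain ⟨γ, L, g1, g2, g3⟩ := S03Aux.exists_trunc h1 h2 h3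
      refine ⟨_, (a.comp g1 g2).1, ?_⟩
      filter_upwards [h4, (a.comp g1 g2).2] with x hx hx2 hxr
      have := g3 _ (hx (ball_subset_closedBall hxr))
      rw [hx2, this.1, this.2]
      exact ⟨rfl, rfl⟩
  refine ⟨⟨key.1, fun K hK => ?_⟩, key.2⟩
  obtain ⟨m, r1, r2, h1, h2, h3, h4⟩ := h K hK
  obtain ⟨M, hM⟩ := (isCompact_closedBall m r2).exists_bound_of_continuousOn
    (f := β) fun t ht => (h3 t ht).continuousAt.continuousWithinAt
  refine ⟨M, h4.mono fun x hx hxK => hM _ ?_⟩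
  exact ball_subset_closedBall (ball_subset_ball h2.le (hx hxK))
theorem Bl.comp {u : V → ℝ} {β : ℝ → ℝ} (a : Bl u) (hβ : ContDiff ℝ 1 β) :
    Bl (fun x => β (u x)) ∧ ∀ᵐ x, D (fun x => β (u x)) x = deriv β (u x) • D u x := by
  refine s03_comp a.hl fun K hK => ?_
  obtain ⟨M, hM⟩ := a.lb K hK
  refine ⟨0, |M| + 1, |M| + 2, by positivity, by linarith, fun t _ => hβ.contDiffAt,
    hM.mono fun x hx hxK => ?_⟩
  rw [mem_ball_zero_iff, Real.norm_eq_abs]
  linarith [hx hxK, le_abs_self M]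
theorem Bl.comp_pos {u : V → ℝ} {β : ℝ → ℝ} (a : Bl u) (hp : LP u) (hβ : ContDiffOn ℝ 1 β (Ioi 0)) :
    Bl (fun x => β (u x)) ∧ ∀ᵐ x, D (fun x => β (u x)) x = deriv β (u x) • D u x := by
  refine s03_comp a.hl fun K hK => ?_
  obtain ⟨M, hM⟩ := a.lb K hK
  obtain ⟨c, hc, hc'⟩ := hp K hK
  have := abs_nonneg M
  refine ⟨|M| + c, |M| + c / 4, |M| + c / 2, by positivity, by linarith, fun t ht => ?_, ?_⟩
  · rw [mem_closedBall, Real.dist_eq, abs_le] at ht
    exact hβ.contDiffAt (Ioi_mem_nhds (by linarith [ht.1]))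
  · filter_upwards [hM, hc'] with x h1 h2 hx
    rw [mem_ball, Real.dist_eq, abs_lt]
    have := le_abs_self M
    have := (abs_le.1 (h1 hx)).2
    have := h2 hx
    constructor <;> linarith
theorem s03_abs {u : V → ℝ} (a : Hl u) :
    IsW (fun x => |u x|) fun x => Real.sign (u x) • D u x := by
  have e : ∀ n : ℕ, (0 : ℝ) < 1 / ((n : ℝ) + 1) := fun n => by positivity
  have d : ∀ n : ℕ, deriv (fun t : ℝ => √(t ^ 2 + 1 / ((n : ℝ) + 1))) =
      fun t => t / √(t ^ 2 + 1 / ((n : ℝ) + 1)) := fun n =>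
    funext fun t => (S03Aux.hasDerivAt_sq _ (e n) t).deriv
  have b : ∀ (n : ℕ) (t : ℝ), |t / √(t ^ 2 + 1 / ((n : ℝ) + 1))| ≤ 1 := fun n t =>
    S03Aux.abs_div_sqrt_le (by linarith [e n])
  refine S03Aux.of_dom (f := fun n x => √(u x ^ 2 + 1 / ((n : ℝ) + 1)))
    (G := fun n x => (u x / √(u x ^ 2 + 1 / ((n : ℝ) + 1))) • D u x)
    (a := fun x => ‖u x‖ + 1) (b := fun x => ‖D u x‖) (fun n => ?_)
    (LocallyIntegrable.add (fun x => (a.isW.lu x).norm) (locallyIntegrable_const 1))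
    (fun x => (a.isW.lg x).norm) (fun n => ae_of_all _ fun x => ?_)
    (fun n => ae_of_all _ fun x => ?_) (ae_of_all _ fun x => ?_) (ae_of_all _ fun x => ?_)
  · have h := a.comp (β := fun t : ℝ => √(t ^ 2 + 1 / ((n : ℝ) + 1))) (L := 1)
      (ContDiff.sqrt (by fun_prop) fun t => by positivity) (by rw [d]; exact b n)
    rw [d] at h
    exact h.1.isW.congr (ae_of_all _ fun _ => rfl) (h.2.mono fun x hx => hx.symm)
  · rw [abs_of_nonneg (Real.sqrt_nonneg _), Real.norm_eq_abs]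
    refine Real.sqrt_le_iff.2 ⟨by positivity, ?_⟩
    nlinarith [S03Aux.eps_le n, sq_abs (u x), abs_nonneg (u x)]
  · rw [norm_smul]
    exact mul_le_of_le_one_left (norm_nonneg _) (b n _)
  · have := (S03Aux.eps_tendsto.const_add (u x ^ 2)).sqrt
    rwa [add_zero, Real.sqrt_sq_eq_abs] at this
  · refine Tendsto.smul_const ?_ _
    have := S03Aux.tendsto_div_sqrt (t := u x) le_rfl
    rw [Real.sqrt_sq_eq_abs] at this
    convert this using 2
    rcases lt_trichotomy (u x) 0 with h | h | h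
    · rw [Real.sign_of_neg h, abs_of_neg h, div_neg, div_self h.ne]
    · simp [h]
    · rw [Real.sign_of_pos h, abs_of_pos h, div_self h.ne']
theorem s03_sign_le (t : ℝ) : |Real.sign t| ≤ 1 := by
  rcases Real.sign_apply_eq t with h | h | h <;> simp [h]
theorem s03_const (c : ℝ) : Hl fun _ : V => c := (bl_c1 contDiff_const).hl
theorem s03_shift {u : V → ℝ} (a : Hl u) (c : ℝ) :
    Hl (fun x => u x - c) ∧ ∀ᵐ x, D (fun x => u x - c) x = D u x := by
  refine ⟨a.sub (s03_const c), ?_⟩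
  filter_upwards [D_sub a (s03_const c), D_const (V := V) c] with x h1 h2
  rw [h1, h2, sub_zero]
theorem s03_level {u : V → ℝ} (a : Hl u) : ∀ᵐ x, u x = 0 → D u x = 0 := by
  have h1 : IsW (fun x => |u x|) fun x => (if 0 < u x then (1 : ℝ) else -1) • D u x := by
    refine S03Aux.of_dom (f := fun n x => |u x - 1 / ((n : ℝ) + 1)|)
      (G := fun n x => Real.sign (u x - 1 / ((n : ℝ) + 1)) • D u x)
      (a := fun x => ‖u x‖ + 1) (b := fun x => ‖D u x‖) (fun n => ?_)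
      (LocallyIntegrable.add (fun x => (a.isW.lu x).norm) (locallyIntegrable_const 1))
      (fun x => (a.isW.lg x).norm) (fun n => ae_of_all _ fun x => ?_)
      (fun n => ae_of_all _ fun x => ?_) (ae_of_all _ fun x => ?_) (ae_of_all _ fun x => ?_)
    · refine (s03_abs (s03_shift a _).1).congr (ae_of_all _ fun _ => rfl) ?_
      filter_upwards [(s03_shift a (1 / ((n : ℝ) + 1))).2] with x hx
      rw [hx]
    · have h1 := abs_sub (u x) (1 / ((n : ℝ) + 1))
      rw [abs_of_pos (show (0 : ℝ) < 1 / ((n : ℝ) + 1) by positivity)] at h1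
      rw [abs_abs, Real.norm_eq_abs]
      linarith [S03Aux.eps_le n]
    · rw [norm_smul]
      exact mul_le_of_le_one_left (norm_nonneg _) (s03_sign_le _)
    · simpa using (S03Aux.eps_tendsto.const_sub (u x)).abs
    · refine Tendsto.smul_const (tendsto_const_nhds.congr' ?_) _
      split_ifs with h
      · filter_upwards [S03Aux.eps_tendsto.eventually_lt_const h] with n hn
        rw [Real.sign_of_pos (by linarith)]
      · refine Eventually.of_forall fun n => ?_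
        have : (0 : ℝ) < 1 / ((n : ℝ) + 1) := by positivity
        simp only
        rw [Real.sign_of_neg (by linarith [not_lt.1 h])]
  filter_upwards [h1.unique (s03_abs a)] with x hx h0
  simpa [h0] using hx
theorem s03_habs {u : V → ℝ} (a : Hl u) :
    Hl (fun x => |u x|) ∧ ∀ᵐ x, D (fun x => |u x|) x = Real.sign (u x) • D u x := by
  have hW := s03_abs a
  refine ⟨hW.hl (fun K hK => (a.l2 K hK).norm) fun K hK => ?_, hW.D_eq⟩
  refine MemLp.mono' (a.dl2 K hK).norm hW.lg.aestronglyMeasurable.restrict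
    (ae_of_all _ fun x => ?_)
  rw [norm_smul]
  exact mul_le_of_le_one_left (norm_nonneg _) (s03_sign_le _)
theorem s03_max (t : ℝ) : max t 0 = 1 / 2 * (t + |t|) := by
  rcases le_total t 0 with h | h
  · rw [max_eq_right h, abs_of_nonpos h]; ring
  · rw [max_eq_left h, abs_of_nonneg h]; ring
theorem Hl.pos {u : V → ℝ} (a : Hl u) :
    Hl (fun x => max (u x) 0) ∧
      ∀ᵐ x, D (fun x => max (u x) 0) x = if 0 < u x then D u x else 0 := by
  have h := s03_habs a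
  simp only [s03_max]
  refine ⟨(a.add h.1).smul _, ?_⟩
  filter_upwards [D_smul (1 / 2) (a.add h.1), D_add a h.1, h.2, s03_level a] with x h1 h2 h3 h4
  rw [h1, h2, h3]
  rcases lt_trichotomy (u x) 0 with h | h | h
  · rw [Real.sign_of_neg h, if_neg (by linarith)]; simp
  · rw [h4 h]; simp
  · rw [Real.sign_of_pos h, if_pos h]; module
theorem Hl.D_level {u : V → ℝ} (a : Hl u) (c : ℝ) : ∀ᵐ x, u x = c → D u x = 0 := by
  filter_upwards [s03_level (s03_shift a c).1, (s03_shift a c).2] with x h1 h2 h3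
  rw [← h2, h1 (by rw [h3, sub_self])]
theorem Hl.abs {u : V → ℝ} (a : Hl u) :
    Hl (fun x => |u x|) ∧ ∀ᵐ x, D (fun x => |u x|) x = Real.sign (u x) • D u x := s03_habs a
theorem s03_h1abs {u : V → ℝ} (a : H1 u) :
    H1 (fun x => |u x|) ∧ dir (fun x => |u x|) = dir u := by
  have h := a.hl.abs
  have e : ∀ᵐ x, ‖D (fun x => |u x|) x‖ = ‖D u x‖ := by
    filter_upwards [h.2, a.hl.D_level 0] with x h1 h2
    rw [h1, norm_smul]
    rcases lt_trichotomy (u x) 0 with h | h | h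
    · simp [Real.sign_of_neg h]
    · simp [h2 h]
    · simp [Real.sign_of_pos h]
  refine ⟨h.1.h1 a.l2.norm (MemLp.mono' a.dl2.norm h.1.aesm_D (e.mono fun x hx => hx.le)), ?_⟩
  exact integral_congr_ae (e.mono fun x hx => by simp only [hx])
theorem H1.pos {u : V → ℝ} (a : H1 u) : H1 fun x => max (u x) 0 := by
  simp only [s03_max]
  exact (a.add (s03_h1abs a).1).smul _
theorem H1.abs {u : V → ℝ} (a : H1 u) : H1 (fun x => |u x|) ∧ dir (fun x => |u x|) = dir u :=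
  s03_h1abs a
theorem Hl.max {u w : V → ℝ} (a : Hl u) (b : Hl w) : Hl (fun x => max (u x) (w x)) ∧
    ∀ᵐ x, D (fun x => max (u x) (w x)) x = if w x < u x then D u x else D w x := by
  have h := (a.sub b).pos
  have e : (fun x => Max.max (u x) (w x)) = fun x => w x + Max.max (u x - w x) 0 := by
    funext x
    rcases le_total (u x) (w x) with h | h
    · rw [max_eq_right h, max_eq_right (by linarith), add_zero]
    · rw [max_eq_left h, max_eq_left (by linarith)]; ring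
  rw [e]
  refine ⟨b.add h.1, ?_⟩
  filter_upwards [D_add b h.1, h.2, D_sub a b] with x h1 h2 h3
  rw [h1, h2, h3]
  simp only [sub_pos]
  split_ifs <;> simp
theorem Hl.min {u w : V → ℝ} (a : Hl u) (b : Hl w) : Hl (fun x => min (u x) (w x)) ∧
    ∀ᵐ x, D (fun x => min (u x) (w x)) x = if u x < w x then D u x else D w x := by
  have h := (b.sub a).pos
  have e : (fun x => Min.min (u x) (w x)) = fun x => w x - Max.max (w x - u x) 0 := by
    funext x
    rcases le_total (u x) (w x) with h | h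
    · rw [min_eq_left h, max_eq_left (by linarith)]; ring
    · rw [min_eq_right h, max_eq_right (by linarith), sub_zero]
  rw [e]
  refine ⟨b.sub h.1, ?_⟩
  filter_upwards [D_sub b h.1, h.2, D_sub b a] with x h1 h2 h3
  rw [h1, h2, h3]
  simp only [sub_pos]
  split_ifs <;> simp
theorem Bl.pos {u : V → ℝ} (a : Bl u) : Bl fun x => max (u x) 0 := by
  refine ⟨a.hl.pos.1, fun K hK => ?_⟩
  obtain ⟨M, hM⟩ := a.lb K hK
  refine ⟨M, hM.mono fun x hx hxK => le_trans ?_ (hx hxK)⟩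
  rw [abs_of_nonneg (le_max_right _ _)]
  exact max_le (le_abs_self _) (abs_nonneg _)
theorem Bl.abs {u : V → ℝ} (a : Bl u) : Bl fun x => |u x| := by
  refine ⟨a.hl.abs.1, fun K hK => ?_⟩
  obtain ⟨M, hM⟩ := a.lb K hK
  exact ⟨M, hM.mono fun x hx hxK => by rw [abs_abs]; exact hx hxK⟩
theorem D_eq_of_eq {u w : V → ℝ} (a : Hl u) (b : Hl w) : ∀ᵐ x, u x = w x → D u x = D w x := by
  filter_upwards [(a.sub b).D_level 0, D_sub a b] with x h1 h2 h3
  rw [← sub_eq_zero, ← h2, h1 (by rw [h3, sub_self])]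
omit [FiniteDimensional ℝ V] [MeasurableSpace V] [BorelSpace V] in
theorem s03_hyp_le (p q : ℝ) (x y : V) :
    ‖(√(p ^ 2 + q ^ 2))⁻¹ • (p • x + q • y)‖ ^ 2 ≤ ‖x‖ ^ 2 + ‖y‖ ^ 2 := by
  rcases eq_or_lt_of_le (show 0 ≤ p ^ 2 + q ^ 2 by positivity) with h | h
  · rw [← h]; simp; positivity
  rw [norm_smul, mul_pow, norm_inv, inv_pow, Real.norm_eq_abs, sq_abs, Real.sq_sqrt h.le,
    inv_mul_le_iff₀ h]
  have h1 : ‖p • x + q • y‖ ≤ |p| * ‖x‖ + |q| * ‖y‖ := by
    simpa [norm_smul] using norm_add_le (p • x) (q • y)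
  have h2 := pow_le_pow_left₀ (norm_nonneg _) h1 2
  nlinarith [sq_nonneg (|p| * ‖y‖ - |q| * ‖x‖), sq_abs p, sq_abs q]
theorem s03_hyp {u w : V → ℝ} (a : H1 u) (b : H1 w) : IsW (fun x => √(u x ^ 2 + w x ^ 2))
    fun x => (√(u x ^ 2 + w x ^ 2))⁻¹ • (u x • D u x + w x • D w x) := by
  have e : ∀ n : ℕ, (0 : ℝ) < 1 / ((n : ℝ) + 1) := fun n => by positivity
  have b1 : ∀ (n : ℕ) (p : ℝ × ℝ), |p.1 / √(p.1 ^ 2 + p.2 ^ 2 + 1 / ((n : ℝ) + 1))| ≤ 1 :=
    fun n p => S03Aux.abs_div_sqrt_le (by nlinarith [e n])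
  have b2 : ∀ (n : ℕ) (p : ℝ × ℝ), |p.2 / √(p.1 ^ 2 + p.2 ^ 2 + 1 / ((n : ℝ) + 1))| ≤ 1 :=
    fun n p => S03Aux.abs_div_sqrt_le (by nlinarith [e n])
  have b0 : ∀ (n : ℕ) (p : ℝ × ℝ),
      |√(p.1 ^ 2 + p.2 ^ 2 + 1 / ((n : ℝ) + 1))| ≤ 1 + 1 * (|p.1| + |p.2|) := fun n p => by
    rw [abs_of_nonneg (Real.sqrt_nonneg _)]
    refine Real.sqrt_le_iff.2 ⟨by positivity, ?_⟩
    nlinarith [S03Aux.eps_le n, sq_abs p.1, abs_nonneg p.1, sq_abs p.2, abs_nonneg p.2,
      mul_nonneg (abs_nonneg p.1) (abs_nonneg p.2)]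
  refine S03Aux.of_dom (f := fun n x => √(u x ^ 2 + w x ^ 2 + 1 / ((n : ℝ) + 1)))
    (G := fun n x => (u x / √(u x ^ 2 + w x ^ 2 + 1 / ((n : ℝ) + 1))) • D u x +
      (w x / √(u x ^ 2 + w x ^ 2 + 1 / ((n : ℝ) + 1))) • D w x)
    (a := fun x => 1 + (‖u x‖ + ‖w x‖)) (b := fun x => ‖D u x‖ + ‖D w x‖) (fun n => ?_)
    ((locallyIntegrable_const 1).add
      (LocallyIntegrable.add (fun x => (a.isW.lu x).norm) fun x => (b.isW.lu x).norm))
    (LocallyIntegrable.add (fun x => (a.isW.lg x).norm) fun x => (b.isW.lg x).norm)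
    (fun n => ae_of_all _ fun x => ?_)
    (fun n => ae_of_all _ fun x => ?_) (ae_of_all _ fun x => ?_) (ae_of_all _ fun x => ?_)
  · have hp : ∀ p : ℝ × ℝ, p.1 ^ 2 + p.2 ^ 2 + 1 / ((n : ℝ) + 1) ≠ 0 := fun p => by positivity
    have hs : ∀ p : ℝ × ℝ, √(p.1 ^ 2 + p.2 ^ 2 + 1 / ((n : ℝ) + 1)) ≠ 0 := fun p => by positivity
    refine S03Aux.chain2 a b (F := fun p => √(p.1 ^ 2 + p.2 ^ 2 + 1 / ((n : ℝ) + 1)))
      (F1 := fun p => p.1 / √(p.1 ^ 2 + p.2 ^ 2 + 1 / ((n : ℝ) + 1)))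
      (F2 := fun p => p.2 / √(p.1 ^ 2 + p.2 ^ 2 + 1 / ((n : ℝ) + 1))) (L := 1) (C := 1)
      (ContDiff.sqrt (by fun_prop) hp) (continuous_fst.div (by fun_prop) hs)
      (continuous_snd.div (by fun_prop) hs) (fun p => ?_) (b1 n) (b2 n) (b0 n)
    have := ((((hasFDerivAt_fst (𝕜 := ℝ) (p := p)).pow 2).add
      ((hasFDerivAt_snd (𝕜 := ℝ) (p := p)).pow 2)).add_const (1 / ((n : ℝ) + 1))).sqrt (hp p)
    refine HasFDerivAt.congr_fderiv this ?_
    have := hs p
    ext <;> simp <;> field_simp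
  · simpa using b0 n (u x, w x)
  · refine (norm_add_le _ _).trans ?_
    rw [norm_smul, norm_smul]
    exact add_le_add (mul_le_of_le_one_left (norm_nonneg _) (b1 n (u x, w x)))
      (mul_le_of_le_one_left (norm_nonneg _) (b2 n (u x, w x)))
  · simpa using (S03Aux.eps_tendsto.const_add (u x ^ 2 + w x ^ 2)).sqrt
  · have t1 := S03Aux.tendsto_div_sqrt (t := u x) (s := u x ^ 2 + w x ^ 2) (by nlinarith)
    have t2 := S03Aux.tendsto_div_sqrt (t := w x) (s := u x ^ 2 + w x ^ 2) (by nlinarith)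
    convert (t1.smul_const (D u x)).add (t2.smul_const (D w x)) using 2
    rw [smul_add, smul_smul, smul_smul, div_eq_inv_mul, div_eq_inv_mul]
/-- Euclidean norm of a pair -/
theorem H1.hyp {u w : V → ℝ} (a : H1 u) (b : H1 w) :
    H1 (fun x => √(u x ^ 2 + w x ^ 2)) ∧
      (∀ᵐ x, D (fun x => √(u x ^ 2 + w x ^ 2)) x =
        (√(u x ^ 2 + w x ^ 2))⁻¹ • (u x • D u x + w x • D w x)) ∧
      ∀ᵐ x, ‖D (fun x => √(u x ^ 2 + w x ^ 2)) x‖ ^ 2 ≤ ‖D u x‖ ^ 2 + ‖D w x‖ ^ 2 := by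
  have hW := s03_hyp a b
  refine ⟨hW.h1 (MemLp.mono' (a.l2.norm.add b.l2.norm) hW.lu.aestronglyMeasurable
    (ae_of_all _ fun x => ?_)) (MemLp.mono' (a.dl2.norm.add b.dl2.norm)
    hW.lg.aestronglyMeasurable (ae_of_all _ fun x => ?_)), hW.D_eq, ?_⟩
  · rw [Real.norm_of_nonneg (Real.sqrt_nonneg _), Pi.add_apply, Real.norm_eq_abs, Real.norm_eq_abs]
    refine Real.sqrt_le_iff.2 ⟨by positivity, ?_⟩
    nlinarith [sq_abs (u x), sq_abs (w x), mul_nonneg (abs_nonneg (u x)) (abs_nonneg (w x))]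
  · refine abs_le_of_sq_le_sq' ((s03_hyp_le _ _ _ _).trans ?_)
      (add_nonneg (norm_nonneg _) (norm_nonneg _)) |>.2
    nlinarith [mul_nonneg (norm_nonneg (D u x)) (norm_nonneg (D w x))]
  · filter_upwards [hW.D_eq] with x hx
    rw [hx]
    exact s03_hyp_le _ _ _ _

end

end Crest.Agent.R335
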