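import Crest.Agent.R335.S02

/-! Row 335 (helper81): tools for the chain rules. -/

set_option autoImplicit false

open MeasureTheory Set Filter Topology Metric
open scoped Gradient ContDiff RealInnerProductSpace ENNReal

namespace Crest.Agent.R335.S03Aux

noncomputable section

variable {V : Type*} [NormedAddCommGroup V] [InnerProductSpace ℝ V] [FiniteDimensional ℝ V]
  [MeasurableSpace V] [BorelSpace V]

theorem li_of_lim {F : Type*} [NormedAddCommGroup F] {f : ℕ → V → F} {u : V → F} {a : V → ℝ}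
    (h : ∀ n, LocallyIntegrable (f n) volume) (ha : LocallyIntegrable a volume)
    (hfa : ∀ n, ∀ᵐ x, ‖f n x‖ ≤ a x) (hf : ∀ᵐ x, Tendsto (fun n => f n x) atTop (𝓝 (u x))) :
    LocallyIntegrable u volume := by
  refine ha.mono (aestronglyMeasurable_of_tendsto_ae atTop
    (fun n => (h n).aestronglyMeasurable) hf) ?_
  filter_upwards [ae_all_iff.2 hfa, hf] with x h1 h2
  exact (le_of_tendsto' h2.norm h1).trans (le_abs_self _)

theorem of_dom {f : ℕ → V → ℝ} {G : ℕ → V → V} {u : V → ℝ} {g : V → V}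
    (h : ∀ n, IsW (f n) (G n)) {a b : V → ℝ} (ha : LocallyIntegrable a volume)
    (hb : LocallyIntegrable b volume) (hfa : ∀ n, ∀ᵐ x, |f n x| ≤ a x)
    (hGb : ∀ n, ∀ᵐ x, ‖G n x‖ ≤ b x) (hf : ∀ᵐ x, Tendsto (fun n => f n x) atTop (𝓝 (u x)))
    (hG : ∀ᵐ x, Tendsto (fun n => G n x) atTop (𝓝 (g x))) : IsW u g := by
  refine ⟨li_of_lim (fun n => (h n).lu) ha hfa hf, li_of_lim (fun n => (h n).lg) hb hGb hG,
    fun φ hφ v => ?_⟩
  have t1 : Tendsto (fun n => ∫ x, f n x * ⟪∇ φ x, v⟫) atTop (𝓝 (∫ x, u x * ⟪∇ φ x, v⟫)) := by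
    refine tendsto_integral_of_dominated_convergence (fun x => ‖a x * ⟪∇ φ x, v⟫‖)
      (fun n => (s01_int1 (h n).lu hφ v).aestronglyMeasurable) (s01_int1 ha hφ v).norm
      (fun n => ?_) ?_
    · filter_upwards [hfa n] with x hx
      rw [norm_mul, norm_mul]
      exact mul_le_mul_of_nonneg_right (hx.trans (le_abs_self _)) (norm_nonneg _)
    · filter_upwards [hf] with x hx using hx.mul_const _
  have t2 : Tendsto (fun n => ∫ x, ⟪G n x, v⟫ * φ x) atTop (𝓝 (∫ x, ⟪g x, v⟫ * φ x)) := by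
    have hi : Integrable (fun x => b x * φ x) volume := by
      simpa only [smul_eq_mul] using
        hb.integrable_smul_right_of_hasCompactSupport hφ.1.continuous hφ.2
    refine tendsto_integral_of_dominated_convergence (fun x => ‖v‖ * ‖b x * φ x‖)
      (fun n => (s01_int2 (h n).lg hφ v).aestronglyMeasurable) (hi.norm.const_mul _)
      (fun n => ?_) ?_
    · filter_upwards [hGb n] with x hx
      rw [norm_mul, norm_mul, ← mul_assoc]
      refine mul_le_mul_of_nonneg_right ((norm_inner_le_norm _ _).trans ?_) (norm_nonneg _)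
      rw [mul_comm]
      exact mul_le_mul_of_nonneg_left (hx.trans (le_abs_self _)) (norm_nonneg _)
    · filter_upwards [hG] with x hx using (hx.inner tendsto_const_nhds).mul_const _
  refine tendsto_nhds_unique t1 ?_
  simpa only [(h _).ibp φ hφ v] using t2.neg

theorem exists_dom {F : Type*} [NormedAddCommGroup F] {h : ℕ → V → F}
    (hm : ∀ n, MemLp (h n) 2 volume) (hle : ∀ n, ∫ x, ‖h n x‖ ^ 2 ≤ (1 / 4) ^ n) :
    ∃ b : V → ℝ, LocallyIntegrable b volume ∧ ∀ n, ∀ᵐ x, ‖h n x‖ ≤ b x := by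
  have hi : ∀ n, Integrable (fun x => ‖h n x‖ ^ 2) volume := fun n =>
    (memLp_two_iff_integrable_sq_norm (hm n).1).1 (hm n)
  have hme : ∀ n, AEMeasurable (fun x => ENNReal.ofReal (‖h n x‖ ^ 2)) volume := fun n =>
    (hi n).aemeasurable.ennreal_ofReal
  have hS : ∫⁻ x, ∑' n, ENNReal.ofReal (‖h n x‖ ^ 2) ≠ ⊤ := by
    rw [lintegral_tsum hme]
    refine ne_top_of_le_ne_top (b := ∑' n : ℕ, ENNReal.ofReal ((1 / 4) ^ n)) ?_
      (ENNReal.tsum_le_tsum fun n => ?_)
    · rw [← ENNReal.ofReal_tsum_of_nonneg (fun n => by positivity)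
        (summable_geometric_of_lt_one (by norm_num) (by norm_num))]
      exact ENNReal.ofReal_ne_top
    · rw [← ofReal_integral_eq_lintegral_ofReal (hi n) (ae_of_all _ fun x => by positivity)]
      exact ENNReal.ofReal_le_ofReal (hle n)
  have hSm : AEMeasurable (fun x => ∑' n, ENNReal.ofReal (‖h n x‖ ^ 2)) volume :=
    AEMeasurable.tsum hme
  refine ⟨fun x => 1 + (∑' n, ENNReal.ofReal (‖h n x‖ ^ 2)).toReal,
    (locallyIntegrable_const 1).add (integrable_toReal_of_lintegral_ne_top hSm hS).locallyIntegrable,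
    fun n => ?_⟩
  filter_upwards [ae_lt_top' hSm hS] with x hx
  have h1 := ENNReal.toReal_mono hx.ne
    (ENNReal.le_tsum (f := fun n => ENNReal.ofReal (‖h n x‖ ^ 2)) n)
  rw [ENNReal.toReal_ofReal (by positivity)] at h1
  nlinarith [sq_nonneg (‖h n x‖ - 1)]

theorem approx_dom {u : V → ℝ} (h : H1 u) :
    ∃ (φ : ℕ → V → ℝ) (a b : V → ℝ), (∀ n, ContDiff ℝ 1 (φ n)) ∧ LocallyIntegrable a volume ∧
      LocallyIntegrable b volume ∧ (∀ n, ∀ᵐ x, |φ n x| ≤ a x) ∧ (∀ n, ∀ᵐ x, ‖∇ (φ n) x‖ ≤ b x) ∧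
      (∀ᵐ x, Tendsto (fun n => φ n x) atTop (𝓝 (u x))) ∧
      ∀ᵐ x, Tendsto (fun n => ∇ (φ n) x) atTop (𝓝 (D u x)) := by
  obtain ⟨φ, h1, h2, h3, h4, h5⟩ := h.approx_seq
  have t : ∀ n, Tst (φ n) := fun n => s01_tst_of_smooth (h1 n).1 (h1 n).2
  obtain ⟨a, ha, ha'⟩ := exists_dom (h := fun n x => u x - φ n x)
    (fun n => h.l2.sub (t n).h1.l2) fun n => by simpa only [Real.norm_eq_abs, sq_abs] using h2 n
  obtain ⟨b, hb, hb'⟩ := exists_dom (h := fun n x => D u x - ∇ (φ n) x)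
    (fun n => h.dl2.sub ((t n).h1.dl2.ae_eq (D_c1 (t n).1))) h3
  refine ⟨φ, fun x => ‖u x‖ + a x, fun x => ‖D u x‖ + b x, fun n => (t n).1,
    LocallyIntegrable.add (fun x => (h.isW.lu x).norm) ha,
    LocallyIntegrable.add (fun x => (h.isW.lg x).norm) hb, fun n => ?_, fun n => ?_, h4, h5⟩
  · filter_upwards [ha' n] with x hx
    have := norm_sub_le (u x) (u x - φ n x)
    rw [sub_sub_cancel] at this
    exact this.trans (by linarith)
  · filter_upwards [hb' n] with x hx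
    have := norm_sub_le (D u x) (D u x - ∇ (φ n) x)
    rw [sub_sub_cancel] at this
    exact this.trans (by linarith)

/-- chain rule in two variables -/
theorem chain2 {u w : V → ℝ} (hu : H1 u) (hw : H1 w) {F F1 F2 : ℝ × ℝ → ℝ} {L C : ℝ}
    (hF : ContDiff ℝ 1 F) (c1 : Continuous F1) (c2 : Continuous F2)
    (hd : ∀ p, HasFDerivAt F (F1 p • ContinuousLinearMap.fst ℝ ℝ ℝ +
      F2 p • ContinuousLinearMap.snd ℝ ℝ ℝ) p)
    (b1 : ∀ p, |F1 p| ≤ L) (b2 : ∀ p, |F2 p| ≤ L) (b0 : ∀ p, |F p| ≤ C + L * (|p.1| + |p.2|)) :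
    IsW (fun x => F (u x, w x)) fun x => F1 (u x, w x) • D u x + F2 (u x, w x) • D w x := by
  obtain ⟨φ, a, b, p1, p2, p3, p4, p5, p6, p7⟩ := approx_dom hu
  obtain ⟨ψ, a', b', q1, q2, q3, q4, q5, q6, q7⟩ := approx_dom hw
  have hL : 0 ≤ L := (abs_nonneg _).trans (b1 0)
  refine of_dom (f := fun n x => F (φ n x, ψ n x))
    (G := fun n x => F1 (φ n x, ψ n x) • ∇ (φ n) x + F2 (φ n x, ψ n x) • ∇ (ψ n) x)
    (a := fun x => C + L * (a x + a' x)) (b := fun x => L * (b x + b' x)) (fun n => ?_)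
    ((locallyIntegrable_const C).add ((p2.add q2).smul L)) ((p3.add q3).smul L)
    (fun n => ?_) (fun n => ?_) ?_ ?_
  · refine (isW_c1 (hF.comp ((p1 n).prodMk (q1 n)))).congr (ae_of_all _ fun _ => rfl)
      (ae_of_all _ fun x => ?_)
    have d1 := ((p1 n).differentiable one_ne_zero x).hasFDerivAt
    have d2 := ((q1 n).differentiable one_ne_zero x).hasFDerivAt
    have d3 := (hd (φ n x, ψ n x)).comp x (d1.prodMk d2)
    rw [gradient, gradient, gradient, d3.fderiv]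
    simp [ContinuousLinearMap.add_comp, ContinuousLinearMap.smul_comp]
  · filter_upwards [p4 n, q4 n] with x h1 h2
    exact (b0 _).trans (by gcongr)
  · filter_upwards [p5 n, q5 n] with x h1 h2
    refine (norm_add_le _ _).trans ?_
    rw [norm_smul, norm_smul, mul_add]
    exact add_le_add (mul_le_mul (b1 _) h1 (norm_nonneg _) hL)
      (mul_le_mul (b2 _) h2 (norm_nonneg _) hL)
  · filter_upwards [p6, q6] with x h1 h2
    exact (hF.continuous.tendsto _).comp (h1.prodMk_nhds h2)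
  · filter_upwards [p6, q6, p7, q7] with x h1 h2 h3 h4
    exact (((c1.tendsto _).comp (h1.prodMk_nhds h2)).smul h3).add
      (((c2.tendsto _).comp (h1.prodMk_nhds h2)).smul h4)

theorem lip_bound {β : ℝ → ℝ} {L : ℝ} (hβ : ContDiff ℝ 1 β) (hL : ∀ t, |deriv β t| ≤ L) (t : ℝ) :
    |β t| ≤ |β 0| + L * |t| := by
  have := convex_univ.norm_image_sub_le_of_norm_deriv_le (f := β) (C := L)
    (fun x _ => hβ.differentiable one_ne_zero x) (fun x _ => hL x) (mem_univ 0) (mem_univ t)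
  simp only [Real.norm_eq_abs, sub_zero] at this
  have h2 := abs_sub_abs_le_abs_sub (β t) (β 0)
  linarith

theorem chain1 {u : V → ℝ} (hu : H1 u) {β : ℝ → ℝ} {L : ℝ} (hβ : ContDiff ℝ 1 β)
    (hL : ∀ t, |deriv β t| ≤ L) : IsW (fun x => β (u x)) fun x => deriv β (u x) • D u x := by
  have hL0 : 0 ≤ L := (abs_nonneg _).trans (hL 0)
  have := chain2 hu hu (F := fun p => β p.1) (F1 := fun p => deriv β p.1) (F2 := fun _ => 0)
    (L := L) (C := |β 0|) (hβ.comp contDiff_fst)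
    ((hβ.continuous_deriv le_rfl).comp continuous_fst) continuous_const (fun p => by
      have := (hβ.differentiable one_ne_zero p.1).hasDerivAt.comp_hasFDerivAt p
        (hasFDerivAt_fst (𝕜 := ℝ))
      rw [zero_smul, add_zero]
      exact this) (fun p => hL _) (fun p => by simpa using hL0) fun p =>
      (lip_bound hβ hL p.1).trans (by have := abs_nonneg p.2; gcongr; linarith)
  simpa using this

theorem hl_of_ball {f : V → ℝ} {g : V → V}
    (h : ∀ r > 0, ∃ f', Hl f' ∧ ∀ᵐ x, x ∈ ball (0 : V) r → f' x = f x ∧ D f' x = g x) :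
    Hl f ∧ ∀ᵐ x, D f x = g x := by
  have key : ∀ K : Set V, IsCompact K → ∃ f', Hl f' ∧ f' =ᵐ[volume.restrict K] f ∧
      D f' =ᵐ[volume.restrict K] g := by
    intro K hK
    obtain ⟨r, hr0, hr⟩ := hK.isBounded.subset_ball_lt 0 (0 : V)
    obtain ⟨f', h1, h2⟩ := h r hr0
    exact ⟨f', h1, (ae_restrict_iff' hK.measurableSet).2 (h2.mono fun x hx hxK => (hx (hr hxK)).1),
      (ae_restrict_iff' hK.measurableSet).2 (h2.mono fun x hx hxK => (hx (hr hxK)).2)⟩
  have hW : IsW f g := by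
    refine ⟨locallyIntegrable_iff.2 fun K hK => ?_, locallyIntegrable_iff.2 fun K hK => ?_,
      fun φ hφ v => ?_⟩
    · obtain ⟨f', h1, h2, -⟩ := key K hK
      exact (h1.isW.lu.integrableOn_isCompact hK).congr h2
    · obtain ⟨f', h1, -, h2⟩ := key K hK
      exact (h1.isW.lg.integrableOn_isCompact hK).congr h2
    · obtain ⟨f', h1, h2, h3⟩ := key _ hφ.2.isCompact
      rw [EventuallyEq, ae_restrict_iff' hφ.2.isCompact.measurableSet] at h2 h3
      have e := h1.isW.ibp φ hφ v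
      have e1 : ∫ x, f x * ⟪∇ φ x, v⟫ = ∫ x, f' x * ⟪∇ φ x, v⟫ := by
        refine integral_congr_ae (h2.mono fun x hx => ?_)
        by_cases hxK : x ∈ tsupport φ
        · simp [hx hxK]
        · simp [s01_grad_zero hxK]
      have e2 : ∫ x, ⟪g x, v⟫ * φ x = ∫ x, ⟪D f' x, v⟫ * φ x := by
        refine integral_congr_ae (h3.mono fun x hx => ?_)
        by_cases hxK : x ∈ tsupport φ
        · simp [hx hxK]
        · simp [image_eq_zero_of_notMem_tsupport hxK]
      rw [e1, e2, e]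
  refine ⟨hW.hl (fun K hK => ?_) fun K hK => ?_, hW.D_eq⟩
  · obtain ⟨f', h1, h2, -⟩ := key K hK
    exact (h1.l2 K hK).ae_eq h2
  · obtain ⟨f', h1, -, h2⟩ := key K hK
    exact (h1.dl2 K hK).ae_eq h2

theorem exists_h1 {u : V → ℝ} (a : Hl u) {r : ℝ} (hr : 0 < r) :
    ∃ v, H1 v ∧ ∀ᵐ x, x ∈ ball (0 : V) r → v x = u x ∧ D v x = D u x := by
  let b : ContDiffBump (0 : V) := ⟨r, r + 1, hr, by linarith⟩
  have hb : Tst (b : V → ℝ) := ⟨b.contDiff, b.hasCompactSupport⟩
  have h1 := a.mul_tst hb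
  have e : ∀ x ∈ ball (0 : V) r, b x * u x = u x := fun x hx => by
    rw [b.one_of_mem_closedBall (ball_subset_closedBall hx), one_mul]
  refine ⟨_, h1, ?_⟩
  filter_upwards [D_eqOn h1.hl a isOpen_ball (ae_of_all _ e)] with x hx hxr
  exact ⟨e x hxr, hx hxr⟩

theorem exists_trunc {β : ℝ → ℝ} {m r1 r2 : ℝ} (h1 : 0 < r1) (h2 : r1 < r2)
    (hβ : ∀ t ∈ closedBall m r2, ContDiffAt ℝ 1 β t) :
    ∃ (γ : ℝ → ℝ) (L : ℝ), ContDiff ℝ 1 γ ∧ (∀ t, |deriv γ t| ≤ L) ∧
      ∀ t ∈ ball m r1, γ t = β t ∧ deriv γ t = deriv β t := by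
  let b : ContDiffBump m := ⟨r1, r2, h1, h2⟩
  have hc : ContDiff ℝ 1 fun t => b t * β t := by
    refine contDiff_iff_contDiffAt.2 fun t => ?_
    by_cases ht : t ∈ closedBall m r2
    · exact b.contDiff.contDiffAt.mul (hβ t ht)
    · refine (contDiffAt_const (c := (0 : ℝ))).congr_of_eventuallyEq ?_
      filter_upwards [isClosed_closedBall.isOpen_compl.mem_nhds ht] with s hs
      rw [b.zero_of_le_dist (not_le.1 (show ¬dist s m ≤ r2 from hs)).le, zero_mul]
  have hs : HasCompactSupport fun t => b t * β t := b.hasCompactSupport.mul_right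
  obtain ⟨L, hL⟩ := (hc.continuous_deriv le_rfl).bounded_above_of_compact_support hs.deriv
  refine ⟨_, L, hc, hL, fun t ht => ?_⟩
  have : (fun t => b t * β t) =ᶠ[𝓝 t] β := by
    filter_upwards [isOpen_ball.mem_nhds ht] with s hs
    rw [b.one_of_mem_closedBall (ball_subset_closedBall hs), one_mul]
  exact ⟨this.eq_of_nhds, this.deriv_eq⟩

theorem hasDerivAt_sq (ε : ℝ) (hε : 0 < ε) (t : ℝ) :
    HasDerivAt (fun t : ℝ => √(t ^ 2 + ε)) (t / √(t ^ 2 + ε)) t := by
  have h : 0 < t ^ 2 + ε := by positivity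
  have := ((hasDerivAt_pow 2 t).add_const ε).sqrt h.ne'
  convert this using 1
  norm_num
  field_simp

theorem abs_div_sqrt_le {t s : ℝ} (h : t ^ 2 ≤ s) : |t / √s| ≤ 1 := by
  rw [abs_div, abs_of_nonneg (Real.sqrt_nonneg s)]
  exact div_le_one_of_le₀ (Real.abs_le_sqrt h) (Real.sqrt_nonneg _)

theorem eps_tendsto : Tendsto (fun n : ℕ => 1 / ((n : ℝ) + 1)) atTop (𝓝 0) :=
  tendsto_one_div_add_atTop_nhds_zero_nat

theorem eps_le (n : ℕ) : 1 / ((n : ℝ) + 1) ≤ 1 := by
  rw [div_le_one (by positivity)]; linarith [Nat.cast_nonneg (α := ℝ) n]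

theorem tendsto_div_sqrt {t s : ℝ} (h : t ^ 2 ≤ s) :
    Tendsto (fun n : ℕ => t / √(s + 1 / ((n : ℝ) + 1))) atTop (𝓝 (t / √s)) := by
  rcases eq_or_ne t 0 with rfl | ht
  · simp
  have hs : 0 < s := lt_of_lt_of_le (by positivity) h
  refine tendsto_const_nhds.div ?_ (Real.sqrt_pos.2 hs).ne'
  simpa using (eps_tendsto.const_add s).sqrt

end

end Crest.Agent.R335.S03Aux
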