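import Crest.Agent.R335.S05

/-! Row 335: affine changes of variables for weak gradients. -/

set_option autoImplicit false

open MeasureTheory Set Filter Topology Metric
open scoped Gradient ContDiff RealInnerProductSpace ENNReal

namespace Crest.Agent.R335.S07

noncomputable section

variable {V : Type*} [NormedAddCommGroup V] [InnerProductSpace ℝ V] [FiniteDimensional ℝ V]
  [MeasurableSpace V] [BorelSpace V]

variable {W : Type*} [NormedAddCommGroup W] [InnerProductSpace ℝ W] [FiniteDimensional ℝ W]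
  [MeasurableSpace W] [BorelSpace W]

/-- data of an affine change of variables -/
structure Chg (T : V ≃ₜ W) (A : V →L[ℝ] W) (B : W →L[ℝ] V) (c : ℝ≥0∞) : Prop where
  hc : c ≠ ⊤
  map : Measure.map T volume = c • (volume : Measure W)
  der : ∀ x, HasFDerivAt T A x
  inv : ContDiff ℝ 1 T.symm
  adj : ∀ w v, ⟪B w, v⟫ = ⟪w, A v⟫

variable {T : V ≃ₜ W} {A : V →L[ℝ] W} {B : W →L[ℝ] V} {c : ℝ≥0∞}

theorem Chg.integral (h : Chg T A B c) (F : W → ℝ) : ∫ x, F (T x) = c.toReal * ∫ y, F y := by
  rw [← T.measurableEmbedding.integral_map, h.map, integral_smul_measure, smul_eq_mul]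

theorem Chg.ae (h : Chg T A B c) {P : W → Prop} (hP : ∀ᵐ y, P y) : ∀ᵐ x, P (T x) := by
  refine ae_of_ae_map T.measurable.aemeasurable ?_
  rw [h.map]
  exact Measure.ae_smul_measure hP c

theorem Chg.memLp (h : Chg T A B c) {G : Type*} [NormedAddCommGroup G] {F : W → G} {p : ℝ≥0∞}
    (hF : MemLp F p volume) : MemLp (fun x => F (T x)) p volume := by
  have : MemLp F p (Measure.map T volume) := by
    rw [h.map]; exact hF.smul_measure h.hc
  exact T.measurableEmbedding.memLp_map_measure_iff.1 this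

theorem Chg.memLp_loc (h : Chg T A B c) {G : Type*} [NormedAddCommGroup G] {F : W → G} {p : ℝ≥0∞}
    (hF : ∀ K, IsCompact K → MemLp F p (volume.restrict K)) (K : Set V) (hK : IsCompact K) :
    MemLp (fun x => F (T x)) p (volume.restrict K) := by
  have h1 : MemLp F p ((Measure.map T volume).restrict (T '' K)) := by
    rw [h.map, Measure.restrict_smul]
    exact (hF _ (hK.image T.continuous)).smul_measure h.hc
  rw [T.measurableEmbedding.restrict_map, T.injective.preimage_image] at h1
  exact T.measurableEmbedding.memLp_map_measure_iff.1 h1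

theorem Chg.locInt (h : Chg T A B c) {G : Type*} [NormedAddCommGroup G] {F : W → G}
    (hF : LocallyIntegrable F volume) : LocallyIntegrable (fun x => F (T x)) volume := by
  rw [locallyIntegrable_iff] at hF ⊢
  intro K hK
  exact memLp_one_iff_integrable.1
    (h.memLp_loc (fun K hK => memLp_one_iff_integrable.2 (hF K hK)) K hK)

theorem Chg.isW (h : Chg T A B c) {u : W → ℝ} {g : W → W} (a : IsW u g) :
    IsW (fun x => u (T x)) (fun x => B (g (T x))) := by
  refine ⟨h.locInt a.lu, ?_, fun φ hφ v => ?_⟩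
  · have h1 := h.locInt a.lg
    rw [locallyIntegrable_iff] at h1 ⊢
    exact fun K hK => B.integrable_comp (h1 K hK)
  · have hψ : Tst (fun y => φ (T.symm y)) :=
      ⟨hφ.1.comp h.inv, hφ.2.comp_homeomorph T.symm⟩
    have h1 := a.ibp _ hψ (A v)
    have h2 : ∀ x, ⟪∇ φ x, v⟫ = ⟪∇ (fun y => φ (T.symm y)) (T x), A v⟫ := by
      intro x
      rw [inner_gradient_left, inner_gradient_left]
      have h3 : HasFDerivAt (fun y => φ (T.symm y)) (fderiv ℝ (fun y => φ (T.symm y)) (T x)) (T x) :=
        ((hψ.1.differentiable one_ne_zero) _).hasFDerivAt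
      have h4 := h3.comp x (h.der x)
      have h5 : ((fun y => φ (T.symm y)) ∘ T) = φ := by
        ext y; simp
      rw [h5] at h4
      rw [h4.fderiv]
      rfl
    have h3 := h.integral fun y => u y * ⟪∇ (fun y => φ (T.symm y)) y, A v⟫
    have h4 := h.integral fun y => ⟪g y, A v⟫ * φ (T.symm y)
    simp only [Homeomorph.symm_apply_apply] at h4
    simp only [h2, h.adj]
    rw [h3, h4, h1]
    ring

theorem Chg.hl (h : Chg T A B c) {u : W → ℝ} (a : Hl u) :
    Hl (fun x => u (T x)) ∧ ∀ᵐ x, D (fun x => u (T x)) x = B (D u (T x)) := by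
  have h1 := h.isW a.isW
  exact ⟨h1.hl (h.memLp_loc a.l2) fun K hK => B.comp_memLp' (h.memLp_loc a.dl2 K hK), h1.D_eq⟩

theorem Chg.h1 (h : Chg T A B c) {u : W → ℝ} (a : H1 u) : H1 (fun x => u (T x)) :=
  (h.isW a.isW).h1 (h.memLp a.l2) (B.comp_memLp' (h.memLp a.dl2))

theorem Chg.lb (h : Chg T A B c) {u : W → ℝ} (a : LB u) : LB (fun x => u (T x)) := by
  intro K hK
  obtain ⟨M, hM⟩ := a _ (hK.image T.continuous)
  refine ⟨M, ?_⟩
  filter_upwards [h.ae hM] with x hx hxK
  exact hx (mem_image_of_mem _ hxK)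

theorem chg_iso (L : V ≃ₗᵢ[ℝ] W) :
    Chg L.toHomeomorph (L.toContinuousLinearEquiv : V →L[ℝ] W)
      (L.symm.toContinuousLinearEquiv : W →L[ℝ] V) 1 where
  hc := ENNReal.one_ne_top
  map := by
    rw [one_smul]
    exact L.measurePreserving.map_eq
  der x := (L.toContinuousLinearEquiv : V →L[ℝ] W).hasFDerivAt
  inv := L.symm.contDiff
  adj w v := by
    show ⟪L.symm w, v⟫ = ⟪w, L v⟫
    rw [← L.inner_map_map, L.apply_symm_apply]

theorem chg_shift (v : V) :
    Chg (Homeomorph.addRight v) (ContinuousLinearMap.id ℝ V) (ContinuousLinearMap.id ℝ V) 1 where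
  hc := ENNReal.one_ne_top
  map := by
    rw [one_smul]
    exact (measurePreserving_add_right volume v).map_eq
  der x := (hasFDerivAt_id x).add_const v
  inv := contDiff_id.add contDiff_const
  adj _ _ := rfl

theorem chg_dil {t : ℝ} (ht : 0 < t) :
    Chg (Homeomorph.smulOfNeZero t ht.ne' : V ≃ₜ V) (t • ContinuousLinearMap.id ℝ V)
      (t • ContinuousLinearMap.id ℝ V) (ENNReal.ofReal |(t ^ Module.finrank ℝ V)⁻¹|) where
  hc := ENNReal.ofReal_ne_top
  map := Measure.map_addHaar_smul volume ht.ne'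
  der x := (t • ContinuousLinearMap.id ℝ V).hasFDerivAt
  inv := by
    have : ((Homeomorph.smulOfNeZero t ht.ne' : V ≃ₜ V).symm : V → V) = fun x => t⁻¹ • x := rfl
    rw [this]
    exact contDiff_id.const_smul _
  adj w v := by
    show ⟪t • w, v⟫ = ⟪w, t • v⟫
    rw [real_inner_smul_left, real_inner_smul_right]

end

end Crest.Agent.R335.S07
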