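import Crest.Agent.R335.S07Aux1

/-! Row 335: the reflection `R` and the slab inequality. -/

set_option autoImplicit false

open MeasureTheory Set Filter Topology Metric
open scoped Gradient ContDiff RealInnerProductSpace ENNReal Interval

namespace Crest.Agent.R335.S07

noncomputable section

theorem ez_two : ez 2 = 1 := by simp [ez]
theorem ez_zero : ez 0 = 0 := by simp [ez]
theorem ez_one : ez 1 = 0 := by simp [ez]

theorem norm_ez : ‖ez‖ = 1 := by simp [ez]

theorem inner_ez (v : E) : ⟪ez, v⟫ = v 2 := by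
  simp [ez, EuclideanSpace.inner_single_left]

theorem R_two' (x : E) : R x 2 = -x 2 := by
  simp only [R, PiLp.sub_apply, PiLp.smul_apply, ez_two, smul_eq_mul]; ring
theorem R_zero' (x : E) : R x 0 = x 0 := by
  simp only [R, PiLp.sub_apply, PiLp.smul_apply, ez_zero, smul_eq_mul]; ring
theorem R_one' (x : E) : R x 1 = x 1 := by
  simp only [R, PiLp.sub_apply, PiLp.smul_apply, ez_one, smul_eq_mul]; ring

theorem R_R' (x : E) : R (R x) = x := by
  have h : R (R x) = R x - (2 * R x 2) • ez := rfl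
  rw [h, R_two']
  unfold R
  module

theorem norm_R' (x : E) : ‖R x‖ = ‖x‖ := by
  rw [EuclideanSpace.norm_eq, EuclideanSpace.norm_eq]
  simp only [Fin.sum_univ_three, R_two', R_zero', R_one', norm_neg]

/-- the reflection as a linear map -/
def Rl : E →ₗ[ℝ] E where
  toFun := R
  map_add' x y := by
    unfold R
    simp only [PiLp.add_apply]
    module
  map_smul' c x := by
    unfold R
    simp only [PiLp.smul_apply, smul_eq_mul, RingHom.id_apply]
    module

/-- the reflection as a linear isometry -/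
def Ri : E ≃ₗᵢ[ℝ] E where
  toLinearEquiv := LinearEquiv.ofInvolutive Rl R_R'
  norm_map' := norm_R'

theorem Ri_apply (x : E) : Ri x = R x := rfl
theorem Ri_symm_apply (x : E) : Ri.symm x = R x := rfl

theorem R_neg (x : E) : R (-x) = -R x := map_neg Rl x

theorem mp_R' : MeasurePreserving R volume volume := Ri.measurePreserving

theorem me_R : MeasurableEmbedding R := Ri.toHomeomorph.measurableEmbedding

theorem cont_R : Continuous R := Ri.continuous

theorem integral_R (F : E → ℝ) : ∫ x, F (R x) = ∫ x, F x := mp_R'.integral_comp me_R F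

theorem cont_two : Continuous fun x : E => x 2 := by fun_prop

theorem ae_two_ne' : ∀ᵐ x : E, x 2 ≠ 0 := by
  have h := Measure.addHaar_submodule (volume : Measure E)
    (LinearMap.ker (EuclideanSpace.proj (𝕜 := ℝ) (2 : Fin 3) : E →L[ℝ] ℝ).toLinearMap) (by
      intro h
      have : ez ∈ LinearMap.ker (EuclideanSpace.proj (𝕜 := ℝ) (2 : Fin 3) : E →L[ℝ] ℝ).toLinearMap := by
        rw [h]; trivial
      simp [ez] at this)
  rw [ae_iff]
  convert h using 2
  ext x
  simp

theorem mHp : MeasurableSet Hp := (isClosed_le continuous_const cont_two).measurableSet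

theorem mSlab (s : ℝ) : MeasurableSet {x : E | |x 2| ≤ s} :=
  (isClosed_le cont_two.abs continuous_const).measurableSet

theorem hasGrad_two (x : E) : HasGradientAt (fun x : E => x 2) ez x := by
  rw [hasGradientAt_iff_hasFDerivAt]
  have : (InnerProductSpace.toDual ℝ E) ez = (EuclideanSpace.proj (𝕜 := ℝ) (2 : Fin 3) : E →L[ℝ] ℝ) := by
    ext v
    simp [inner_ez]
  rw [this]
  exact (EuclideanSpace.proj (𝕜 := ℝ) (2 : Fin 3) : E →L[ℝ] ℝ).hasFDerivAt

theorem contDiff_two {n : WithTop ℕ∞} : ContDiff ℝ n fun x : E => x 2 :=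
  (EuclideanSpace.proj (𝕜 := ℝ) (2 : Fin 3) : E →L[ℝ] ℝ).contDiff

theorem cont_grad {φ : E → ℝ} (h : ContDiff ℝ 1 φ) : Continuous (∇ φ) :=
  (InnerProductSpace.toDual ℝ E).symm.continuous.comp (h.continuous_fderiv one_ne_zero)

/-- Cauchy–Schwarz on an interval -/
theorem cs_int {f : ℝ → ℝ} (hf : Continuous f) (a b L : ℝ) (hL : 0 < L) (hab : |b - a| ≤ L) :
    (∫ t in Ι a b, f t) ^ 2 ≤ L * ∫ t in Ι a b, f t ^ 2 := by
  have hi : ∀ g : ℝ → ℝ, Continuous g → IntegrableOn g (Ι a b) := fun g hg =>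
    (hg.intervalIntegrable a b).def'
  set I := ∫ t in Ι a b, f t with hI
  have h0 : 0 ≤ ∫ t in Ι a b, (f t - I / L) ^ 2 := integral_nonneg fun t => sq_nonneg _
  have h1 : ∫ t in Ι a b, (f t - I / L) ^ 2 =
      (∫ t in Ι a b, f t ^ 2) - 2 * (I / L) * I + |b - a| * (I / L) ^ 2 := by
    have e : ∀ t, (f t - I / L) ^ 2 = (f t ^ 2 - 2 * (I / L) * f t) + (I / L) ^ 2 := fun t => by ring
    simp only [e]
    rw [integral_add ((hi _ (by fun_prop))) (hi _ continuous_const),
      integral_sub (hi _ (by fun_prop)) (hi _ (by fun_prop)), integral_const_mul, setIntegral_const,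
      Measure.real, Real.volume_uIoc, ENNReal.toReal_ofReal (abs_nonneg _), smul_eq_mul]
  rw [h1] at h0
  have h2 : |b - a| * (I / L) ^ 2 ≤ L * (I / L) ^ 2 := mul_le_mul_of_nonneg_right hab (sq_nonneg _)
  have h3 : L * (I / L) ^ 2 = I / L * I := by field_simp
  have h4 : I / L * I ≤ ∫ t in Ι a b, f t ^ 2 := by linarith
  calc I ^ 2 = L * (I / L * I) := by field_simp
    _ ≤ _ := mul_le_mul_of_nonneg_left h4 hL.le

theorem pt_bound {φ : E → ℝ} (h : ContDiff ℝ 1 φ) {s : ℝ} (hs : 0 < s) {x : E} (hx : |x 2| ≤ s) :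
    ENNReal.ofReal ((φ x - φ (R x)) ^ 2) ≤
      ENNReal.ofReal (2 * s) * ∫⁻ t : ℝ, ENNReal.ofReal (‖∇ φ (x + t • ez)‖ ^ 2) := by
  have hg := cont_grad h
  have hd : ∀ t : ℝ, HasDerivAt (fun t : ℝ => φ (x + t • ez)) ⟪∇ φ (x + t • ez), ez⟫ t := by
    intro t
    have h1 : HasDerivAt (fun t : ℝ => x + t • ez) ez t := by
      simpa using ((hasDerivAt_id t).smul_const ez).const_add x
    have h2 := ((h.differentiable one_ne_zero) (x + t • ez)).hasFDerivAt.comp_hasDerivAt t h1
    rw [inner_gradient_left]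
    exact h2
  have hc : Continuous fun t : ℝ => ⟪∇ φ (x + t • ez), ez⟫ := by fun_prop
  have hn : Continuous fun t : ℝ => ‖∇ φ (x + t • ez)‖ := by fun_prop
  have h1 := intervalIntegral.integral_eq_sub_of_hasDerivAt (a := -(2 * x 2)) (b := 0)
    (fun t _ => hd t) (hc.intervalIntegrable _ _)
  have h2 : x + (-(2 * x 2)) • ez = R x := by unfold R; module
  simp only [zero_smul, add_zero, h2] at h1
  have h3 : |φ x - φ (R x)| ≤ ∫ t in Ι (-(2 * x 2)) 0, ‖∇ φ (x + t • ez)‖ := by
    rw [← h1, ← Real.norm_eq_abs]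
    refine intervalIntegral.norm_integral_le_integral_norm_uIoc.trans ?_
    refine integral_mono (hc.norm.intervalIntegrable _ _).def' (hn.intervalIntegrable _ _).def'
      fun t => ?_
    have := norm_inner_le_norm (𝕜 := ℝ) (∇ φ (x + t • ez)) ez
    simpa [norm_ez] using this
  have h4 := cs_int hn (-(2 * x 2)) 0 (2 * s) (by linarith) (by
    rw [zero_sub, neg_neg, abs_mul, abs_two]; linarith)
  have h5 : (φ x - φ (R x)) ^ 2 ≤ 2 * s * ∫ t in Ι (-(2 * x 2)) 0, ‖∇ φ (x + t • ez)‖ ^ 2 := by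
    refine le_trans ?_ h4
    rw [← sq_abs]
    exact pow_le_pow_left₀ (abs_nonneg _) h3 2
  refine (ENNReal.ofReal_le_ofReal h5).trans ?_
  rw [ENNReal.ofReal_mul (by linarith)]
  refine mul_le_mul_right ?_ _
  have hn2 : Continuous fun t : ℝ => ‖∇ φ (x + t • ez)‖ ^ 2 := by fun_prop
  exact (ofReal_integral_eq_lintegral_ofReal (hn2.intervalIntegrable _ _).def'
    (ae_of_all _ fun t => sq_nonneg _)).le.trans (setLIntegral_le_lintegral _ _)

theorem tonelli {g : E → ℝ≥0∞} (hg : Measurable g) (s : ℝ) :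
    ∫⁻ x in {x : E | |x 2| ≤ s}, ∫⁻ t : ℝ, g (x + t • ez) = ENNReal.ofReal (2 * s) * ∫⁻ y, g y := by
  set S := {x : E | |x 2| ≤ s} with hS
  have hSm : MeasurableSet S := mSlab s
  have hi : Measurable (S.indicator (1 : E → ℝ≥0∞)) := measurable_one.indicator hSm
  have m1 : Measurable fun p : E × ℝ => p.1 + p.2 • ez := by fun_prop
  have m2 : Measurable fun p : ℝ × E => p.2 - p.1 • ez := by fun_prop
  calc ∫⁻ x in S, ∫⁻ t : ℝ, g (x + t • ez)
      = ∫⁻ x, ∫⁻ t : ℝ, S.indicator 1 x * g (x + t • ez) := by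
        rw [← lintegral_indicator hSm]
        refine lintegral_congr fun x => ?_
        by_cases hx : x ∈ S
        · simp only [indicator_of_mem hx, Pi.one_apply, one_mul]
        · simp only [indicator_of_notMem hx, zero_mul, lintegral_zero]
    _ = ∫⁻ t : ℝ, ∫⁻ x, S.indicator 1 x * g (x + t • ez) :=
        lintegral_lintegral_swap ((hi.comp measurable_fst).mul (hg.comp m1)).aemeasurable
    _ = ∫⁻ t : ℝ, ∫⁻ y, S.indicator 1 (y - t • ez) * g y := by
        refine lintegral_congr fun t => ?_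
        rw [← lintegral_add_right_eq_self (fun y => S.indicator 1 (y - t • ez) * g y) (t • ez)]
        simp only [add_sub_cancel_right]
    _ = ∫⁻ y, ∫⁻ t : ℝ, S.indicator 1 (y - t • ez) * g y :=
        lintegral_lintegral_swap ((hi.comp m2).mul (hg.comp measurable_snd)).aemeasurable
    _ = ∫⁻ y, ENNReal.ofReal (2 * s) * g y := by
        refine lintegral_congr fun y => ?_
        have e : ∀ t : ℝ, S.indicator (1 : E → ℝ≥0∞) (y - t • ez) =
            (Icc (y 2 - s) (y 2 + s)).indicator 1 t := by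
          intro t
          have : (y - t • ez ∈ S) ↔ t ∈ Icc (y 2 - s) (y 2 + s) := by
            simp only [hS, mem_ofPred_eq, PiLp.sub_apply, PiLp.smul_apply, ez_two, smul_eq_mul,
              mul_one, abs_le, mem_Icc]
            constructor <;> rintro ⟨h1, h2⟩ <;> constructor <;> linarith
          by_cases ht : t ∈ Icc (y 2 - s) (y 2 + s)
          · simp [indicator_of_mem ht, indicator_of_mem (this.2 ht)]
          · simp [indicator_of_notMem ht, indicator_of_notMem (mt this.1 ht)]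
        simp only [e]
        rw [lintegral_mul_const _ (measurable_one.indicator measurableSet_Icc),
          lintegral_indicator_one measurableSet_Icc, Real.volume_Icc]
        congr 2
        ring
    _ = _ := lintegral_const_mul _ hg

theorem slab_smooth {φ : E → ℝ} (h : Tst φ) {s : ℝ} (hs : 0 < s) :
    ∫ x in {x : E | |x 2| ≤ s}, (φ x - φ (R x)) ^ 2 ≤ 4 * s ^ 2 * ∫ x, ‖∇ φ x‖ ^ 2 := by
  have hg := cont_grad h.1
  have hcs : HasCompactSupport (∇ φ) :=
    (h.2.fderiv ℝ).comp_left (g := (InnerProductSpace.toDual ℝ E).symm) (map_zero _)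
  have hg2 : Continuous fun x => ‖∇ φ x‖ ^ 2 := by fun_prop
  have i1 : Integrable fun x => ‖∇ φ x‖ ^ 2 :=
    hg2.integrable_of_hasCompactSupport (hcs.comp_left (g := fun v : E => ‖v‖ ^ 2) (by simp))
  have hc := h.1.continuous
  have hR := cont_R
  have h1 : ∫⁻ x in {x : E | |x 2| ≤ s}, ENNReal.ofReal ((φ x - φ (R x)) ^ 2) ≤
      ENNReal.ofReal (4 * s ^ 2 * ∫ x, ‖∇ φ x‖ ^ 2) := by
    have hm : Measurable fun y => ENNReal.ofReal (‖∇ φ y‖ ^ 2) :=
      hg2.measurable.ennreal_ofReal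
    calc _ ≤ ∫⁻ x in {x : E | |x 2| ≤ s},
          ENNReal.ofReal (2 * s) * ∫⁻ t : ℝ, ENNReal.ofReal (‖∇ φ (x + t • ez)‖ ^ 2) :=
          setLIntegral_mono' (mSlab s) fun x hx => pt_bound h.1 hs hx
      _ = ENNReal.ofReal (2 * s) * (ENNReal.ofReal (2 * s) * ∫⁻ y, ENNReal.ofReal (‖∇ φ y‖ ^ 2)) := by
          rw [lintegral_const_mul' _ _ ENNReal.ofReal_ne_top, tonelli hm s]
      _ = _ := by
          rw [← ofReal_integral_eq_lintegral_ofReal i1 (ae_of_all _ fun t => sq_nonneg _),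
            ← ENNReal.ofReal_mul (by linarith), ← ENNReal.ofReal_mul (by linarith)]
          congr 1
          ring
  rw [integral_eq_lintegral_of_nonneg_ae (ae_of_all _ fun t => sq_nonneg _)
    (Continuous.aestronglyMeasurable (by fun_prop))]
  exact ENNReal.toReal_le_of_le_ofReal
    (mul_nonneg (by positivity) (integral_nonneg fun x => sq_nonneg _)) h1

theorem sq_add_le {a b δ : ℝ} (hδ : 0 < δ) : (a + b) ^ 2 ≤ (1 + δ) * a ^ 2 + (1 + 1 / δ) * b ^ 2 := by
  have h : (1 + δ) * a ^ 2 + (1 + 1 / δ) * b ^ 2 - (a + b) ^ 2 = (δ * a - b) ^ 2 / δ := by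
    field_simp
    ring
  have : 0 ≤ (δ * a - b) ^ 2 / δ := by positivity
  linarith

theorem odd_slab' {u : E → ℝ} (a : H1 u) (h : Od u) {s : ℝ} (hs : 0 < s) :
    ∫ x in {x : E | |x 2| ≤ s}, u x ^ 2 ≤ s ^ 2 * dir u := by
  have key : ∀ δ : ℝ, 0 < δ → 4 * ∫ x in {x : E | |x 2| ≤ s}, u x ^ 2 ≤
      (1 + δ) * (4 * s ^ 2 * ((1 + δ) * dir u + (δ ^ 2 + δ))) + 4 * (δ ^ 2 + δ) := by
    intro δ hδ
    obtain ⟨φ, h1, h2, h3, h4⟩ := a.approx (δ ^ 2) (by positivity)
    have ht : Tst φ := ⟨h1.of_le (by norm_cast), h2⟩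
    have hφ := ht.h1
    have hD : ∀ᵐ x, D φ x = ∇ φ x := D_c1 ht.1
    have gl2 : MemLp (∇ φ) 2 volume := hφ.dl2.ae_eq hD
    have l1 : MemLp (fun x => u x - φ x) 2 volume := a.l2.sub hφ.l2
    have l2 : MemLp (fun x => u (R x) - φ (R x)) 2 volume := l1.comp_measurePreserving mp_R'
    have l3 : MemLp (fun x => φ x - φ (R x)) 2 volume :=
      hφ.l2.sub (hφ.l2.comp_measurePreserving mp_R')
    have l4 : MemLp (fun x => D u x - ∇ φ x) 2 volume := a.dl2.sub gl2
    have hδ' : 0 < 1 + 1 / δ := by positivity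
    have e1 : (1 + 1 / δ) * δ ^ 2 = δ ^ 2 + δ := by field_simp
    -- gradient bound
    have b1 : ∫ x, ‖∇ φ x‖ ^ 2 ≤ (1 + δ) * dir u + (δ ^ 2 + δ) := by
      have i1 := a.dl2.norm.integrable_sq
      have i2 := l4.norm.integrable_sq
      calc ∫ x, ‖∇ φ x‖ ^ 2 ≤
          ∫ x, ((1 + δ) * ‖D u x‖ ^ 2 + (1 + 1 / δ) * ‖D u x - ∇ φ x‖ ^ 2) := by
            refine integral_mono gl2.norm.integrable_sq ((i1.const_mul _).add (i2.const_mul _))
              fun x => ?_
            have h5 : ‖∇ φ x‖ ≤ ‖D u x‖ + ‖D u x - ∇ φ x‖ := by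
              have := norm_sub_le (D u x) (D u x - ∇ φ x)
              simpa using this
            exact (pow_le_pow_left₀ (norm_nonneg _) h5 2).trans (sq_add_le hδ)
        _ = (1 + δ) * dir u + (1 + 1 / δ) * ∫ x, ‖D u x - ∇ φ x‖ ^ 2 := by
            rw [integral_add (i1.const_mul _) (i2.const_mul _), integral_const_mul,
              integral_const_mul]
            rfl
        _ ≤ _ := by
            have := mul_le_mul_of_nonneg_left h4 hδ'.le
            linarith
    have b2 := slab_smooth ht hs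
    have i1 := l1.integrable_sq
    have i2 := l2.integrable_sq
    have i3 := l3.integrable_sq
    have b3 : ∫ x in {x : E | |x 2| ≤ s}, (u x - φ x) ^ 2 ≤ δ ^ 2 :=
      (setIntegral_le_integral i1 (ae_of_all _ fun x => sq_nonneg _)).trans h3
    have b4 : ∫ x in {x : E | |x 2| ≤ s}, (u (R x) - φ (R x)) ^ 2 ≤ δ ^ 2 := by
      refine (setIntegral_le_integral i2 (ae_of_all _ fun x => sq_nonneg _)).trans ?_
      rw [integral_R fun x => (u x - φ x) ^ 2]
      exact h3
    have b5 : 4 * ∫ x in {x : E | |x 2| ≤ s}, u x ^ 2 ≤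
        (1 + δ) * (∫ x in {x : E | |x 2| ≤ s}, (φ x - φ (R x)) ^ 2) +
          (1 + 1 / δ) * (2 * (∫ x in {x : E | |x 2| ≤ s}, (u x - φ x) ^ 2) +
            2 * ∫ x in {x : E | |x 2| ≤ s}, (u (R x) - φ (R x)) ^ 2) := by
      have j1 := (i1.integrableOn (s := {x : E | |x 2| ≤ s})).const_mul 2
      have j2 := (i2.integrableOn (s := {x : E | |x 2| ≤ s})).const_mul 2
      have j3 := (i3.integrableOn (s := {x : E | |x 2| ≤ s})).const_mul (1 + δ)
      have j4 : Integrable (fun x => 2 * (u x - φ x) ^ 2 + 2 * (u (R x) - φ (R x)) ^ 2)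
        (volume.restrict {x : E | |x 2| ≤ s}) := j1.add j2
      rw [← integral_const_mul, ← integral_const_mul, ← integral_const_mul, ← integral_const_mul,
        ← integral_add j1 j2, ← integral_const_mul, ← integral_add j3 (j4.const_mul _)]
      refine integral_mono_ae (a.l2.integrable_sq.integrableOn.const_mul 4)
        (j3.add (j4.const_mul _)) (ae_restrict_of_ae ?_)
      filter_upwards [h] with x hx
      have e2 : 4 * u x ^ 2 = ((φ x - φ (R x)) + ((u x - φ x) - (u (R x) - φ (R x)))) ^ 2 := by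
        rw [hx]; ring
      have e3 : ((u x - φ x) - (u (R x) - φ (R x))) ^ 2 ≤
          2 * (u x - φ x) ^ 2 + 2 * (u (R x) - φ (R x)) ^ 2 := by
        nlinarith [sq_nonneg ((u x - φ x) + (u (R x) - φ (R x)))]
      have e4 := mul_le_mul_of_nonneg_left e3 hδ'.le
      have e5 := sq_add_le (a := φ x - φ (R x)) (b := (u x - φ x) - (u (R x) - φ (R x))) hδ
      show 4 * u x ^ 2 ≤ _
      rw [e2]
      exact e5.trans (by linarith)
    have c1 : (1 + δ) * (∫ x in {x : E | |x 2| ≤ s}, (φ x - φ (R x)) ^ 2) ≤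
        (1 + δ) * (4 * s ^ 2 * ((1 + δ) * dir u + (δ ^ 2 + δ))) :=
      mul_le_mul_of_nonneg_left (b2.trans (mul_le_mul_of_nonneg_left b1 (by positivity)))
        (by linarith)
    have c2 : (1 + 1 / δ) * (2 * (∫ x in {x : E | |x 2| ≤ s}, (u x - φ x) ^ 2) +
            2 * ∫ x in {x : E | |x 2| ≤ s}, (u (R x) - φ (R x)) ^ 2) ≤ (1 + 1 / δ) * (4 * δ ^ 2) :=
      mul_le_mul_of_nonneg_left (by linarith) hδ'.le
    nlinarith
  have hc : Continuous fun δ : ℝ =>
      (1 + δ) * (4 * s ^ 2 * ((1 + δ) * dir u + (δ ^ 2 + δ))) + 4 * (δ ^ 2 + δ) := by fun_prop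
  have h1 := ge_of_tendsto ((hc.tendsto 0).mono_left (nhdsWithin_le_nhds (s := Ioi 0)))
    (eventually_nhdsWithin_of_forall fun δ hδ => key δ hδ)
  simp only [add_zero, one_mul, ne_eq, OfNat.ofNat_ne_zero, not_false_eq_true, zero_pow,
    mul_zero] at h1
  linarith

end

end Crest.Agent.R335.S07
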