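import Crest.Agent.R335.S07Aux2

/-! Row 335: cutting an odd function to the half space. -/

set_option autoImplicit false

open MeasureTheory Set Filter Topology Metric
open scoped Gradient ContDiff RealInnerProductSpace ENNReal Interval

namespace Crest.Agent.R335.S07

noncomputable section

theorem st_c1 : ContDiff ℝ 1 Real.smoothTransition := Real.smoothTransition.contDiff

theorem st_zero {t : ℝ} (ht : 1 < |t|) : deriv Real.smoothTransition t = 0 := by
  rcases lt_abs.1 ht with h | h
  · have : Real.smoothTransition =ᶠ[𝓝 t] fun _ => 1 := by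
      filter_upwards [lt_mem_nhds h] with y hy using Real.smoothTransition.one_of_one_le hy.le
    rw [this.deriv_eq, deriv_const]
  · have : Real.smoothTransition =ᶠ[𝓝 t] fun _ => 0 := by
      filter_upwards [gt_mem_nhds (show t < 0 by linarith)] with y hy using
        Real.smoothTransition.zero_of_nonpos hy.le
    rw [this.deriv_eq, deriv_const]

theorem st_bd : ∃ C : ℝ, 0 ≤ C ∧ ∀ t, |deriv Real.smoothTransition t| ≤ C := by
  obtain ⟨C, hC⟩ := (isCompact_Icc (a := (-1 : ℝ)) (b := 1)).exists_bound_of_continuousOn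
    (st_c1.continuous_deriv le_rfl).continuousOn
  refine ⟨max C 0, le_max_right _ _, fun t => ?_⟩
  rcases le_or_gt |t| 1 with h | h
  · exact (hC t (abs_le.1 h)).trans (le_max_left _ _)
  · rw [st_zero h, abs_zero]
    exact le_max_right _ _

theorem cutlim {F : E → ℝ} (hF : Integrable F) :
    Tendsto (fun n : ℕ => ∫ x, Real.smoothTransition (((n : ℝ) + 1) * x 2) * F x) atTop
      (𝓝 (∫ x, Hp.indicator F x)) := by
  have hc := st_c1.continuous
  have h2 := cont_two
  refine tendsto_integral_of_dominated_convergence (fun x => ‖F x‖) (fun n => ?_) hF.norm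
    (fun n => ae_of_all _ fun x => ?_) ?_
  · exact (Continuous.aestronglyMeasurable (by fun_prop)).mul hF.1
  · rw [norm_mul, Real.norm_of_nonneg (Real.smoothTransition.nonneg _)]
    exact mul_le_of_le_one_left (norm_nonneg _) (Real.smoothTransition.le_one _)
  · filter_upwards [ae_two_ne'] with x hx
    rcases lt_or_gt_of_ne hx with h | h
    · have : x ∉ Hp := fun h' => absurd h (not_lt.2 h')
      rw [indicator_of_notMem this]
      refine tendsto_const_nhds.congr fun n => ?_
      rw [Real.smoothTransition.zero_of_nonpos (mul_nonpos_of_nonneg_of_nonpos (by positivity) h.le),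
        zero_mul]
    · have : x ∈ Hp := h.le
      rw [indicator_of_mem this]
      refine tendsto_const_nhds.congr' ?_
      obtain ⟨N, hN⟩ := exists_nat_ge (1 / x 2)
      filter_upwards [eventually_ge_atTop N] with n hn
      have h3 : (N : ℝ) ≤ n := by exact_mod_cast hn
      have h4 : 1 ≤ ((n : ℝ) + 1) * x 2 := by
        rw [div_le_iff₀ h] at hN
        nlinarith
      rw [Real.smoothTransition.one_of_one_le h4, one_mul]

theorem slablim {F : E → ℝ} (hF : Integrable F) :
    Tendsto (fun n : ℕ => ∫ x in {x : E | |x 2| ≤ 1 / ((n : ℝ) + 1)}, F x) atTop (𝓝 0) := by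
  have h := tendsto_integral_of_dominated_convergence (μ := (volume : Measure E))
    (F := fun (n : ℕ) x => {x : E | |x 2| ≤ 1 / ((n : ℝ) + 1)}.indicator F x) (f := fun _ => 0)
    (fun x => ‖F x‖) (fun n => hF.1.indicator (mSlab _)) hF.norm
    (fun n => ae_of_all _ fun x => norm_indicator_le_norm_self _ _) (by
      filter_upwards [ae_two_ne'] with x hx
      refine tendsto_const_nhds.congr' ?_
      have h1 : 0 < |x 2| := abs_pos.2 hx
      filter_upwards [tendsto_one_div_add_atTop_nhds_zero_nat.eventually (gt_mem_nhds h1)] with n hn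
      rw [indicator_of_notMem]
      exact not_le.2 hn)
  simpa only [integral_indicator (mSlab _), integral_zero] using h

theorem errlim {u φ : E → ℝ} (a : Hl u) (h : Od u) (hφ : Tst φ) :
    Tendsto (fun n : ℕ => ((n : ℝ) + 1) * ∫ x in {x : E | |x 2| ≤ 1 / ((n : ℝ) + 1)}, |u x * φ x|)
      atTop (𝓝 0) := by
  obtain ⟨ρ, hρ0, hρ⟩ := hφ.2.isCompact.isBounded.subset_closedBall_lt 0 (0 : E)
  obtain ⟨j, hj1, hj2, -, hj3, -, -, hj4⟩ := exists_cutoff (0 : E) hρ0.le one_pos
  have hw : H1 fun x => j x * u x := a.mul_tst ⟨hj1.of_le (by norm_cast), hj2⟩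
  have hwo : Od fun x => j x * u x := by
    filter_upwards [h] with x hx
    have : j (R x) = j x := hj4 Ri (map_zero _) x
    rw [hx, this]; ring
  have e : ∀ x, |u x * φ x| = |j x * u x| * |φ x| := by
    intro x
    by_cases hx : φ x = 0
    · simp [hx]
    · have h1 := hρ (subset_tsupport _ hx)
      rw [hj3 x (by simpa using h1), one_mul, abs_mul]
  have i1 := hw.l2.integrable_sq
  have i2 := hφ.h1.l2.integrable_sq
  have hd : 0 ≤ dir fun x => j x * u x := integral_nonneg fun x => sq_nonneg _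
  set d := dir fun x => j x * u x with hdd
  have key : ∀ δ : ℝ, 0 < δ → ∀ n : ℕ,
      ((n : ℝ) + 1) * ∫ x in {x : E | |x 2| ≤ 1 / ((n : ℝ) + 1)}, |u x * φ x| ≤
        δ * d + 1 / δ * ∫ x in {x : E | |x 2| ≤ 1 / ((n : ℝ) + 1)}, φ x ^ 2 := by
    intro δ hδ n
    have hn : (0 : ℝ) < n + 1 := by positivity
    have h1 := odd_slab' hw hwo (one_div_pos.2 hn)
    have j1 := (i1.integrableOn (s := {x : E | |x 2| ≤ 1 / ((n : ℝ) + 1)})).const_mul
      (δ * ((n : ℝ) + 1) ^ 2)
    have j2 := (i2.integrableOn (s := {x : E | |x 2| ≤ 1 / ((n : ℝ) + 1)})).const_mul (1 / δ)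
    have h2 : ((n : ℝ) + 1) * ∫ x in {x : E | |x 2| ≤ 1 / ((n : ℝ) + 1)}, |u x * φ x| ≤
        δ * ((n : ℝ) + 1) ^ 2 * (∫ x in {x : E | |x 2| ≤ 1 / ((n : ℝ) + 1)}, (j x * u x) ^ 2) +
          1 / δ * ∫ x in {x : E | |x 2| ≤ 1 / ((n : ℝ) + 1)}, φ x ^ 2 := by
      rw [← integral_const_mul, ← integral_const_mul, ← integral_const_mul, ← integral_add j1 j2]
      refine integral_mono_of_nonneg (ae_of_all _ fun x => by positivity) (j1.add j2)
        (ae_of_all _ fun x => ?_)
      show ((n : ℝ) + 1) * |u x * φ x| ≤ δ * ((n : ℝ) + 1) ^ 2 * (j x * u x) ^ 2 + 1 / δ * φ x ^ 2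
      rw [e, ← sq_abs (j x * u x), ← sq_abs (φ x)]
      set A := |j x * u x|
      set B := |φ x|
      have h3 : δ * ((n : ℝ) + 1) ^ 2 * A ^ 2 + 1 / δ * B ^ 2 - 2 * (((n : ℝ) + 1) * (A * B)) =
          (δ * ((n : ℝ) + 1) * A - B) ^ 2 / δ := by
        field_simp
        ring
      have h4 : 0 ≤ (δ * ((n : ℝ) + 1) * A - B) ^ 2 / δ := by positivity
      have h5 : 0 ≤ ((n : ℝ) + 1) * (A * B) := by positivity
      linarith
    have h3 := mul_le_mul_of_nonneg_left h1 (show 0 ≤ δ * ((n : ℝ) + 1) ^ 2 by positivity)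
    have h4 : δ * ((n : ℝ) + 1) ^ 2 * ((1 / ((n : ℝ) + 1)) ^ 2 * d) = δ * d := by field_simp
    linarith
  refine tendsto_order.2 ⟨fun ε hε => Eventually.of_forall fun n => ?_, fun ε hε => ?_⟩
  · exact hε.trans_le (mul_nonneg (by positivity) (integral_nonneg fun x => abs_nonneg _))
  · set δ := ε / (2 * (d + 1)) with hδ
    have hδ0 : 0 < δ := by positivity
    have h1 : δ * d < ε / 2 := by
      have : δ * (d + 1) = ε / 2 := by rw [hδ]; field_simp
      nlinarith
    filter_upwards [(slablim i2).eventually (gt_mem_nhds (show 0 < δ * (ε / 2) by positivity))]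
      with n hn
    have h2 : 1 / δ * ∫ x in {x : E | |x 2| ≤ 1 / ((n : ℝ) + 1)}, φ x ^ 2 < ε / 2 := by
      rw [one_div, inv_mul_lt_iff₀ hδ0]
      exact hn
    linarith [key δ hδ0 n]

theorem isW_half {u : E → ℝ} (a : Hl u) (h : Od u) :
    IsW (Hp.indicator u) (Hp.indicator (D u)) := by
  refine ⟨a.isW.lu.indicator mHp, a.isW.lg.indicator mHp, fun φ hφ v => ?_⟩
  obtain ⟨C, hC0, hC⟩ := st_bd
  have hg := cont_grad hφ.1
  have hc := hφ.1.continuous
  have h2 := cont_two
  have hsc := st_c1.continuous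
  have hsd := st_c1.continuous_deriv le_rfl
  have hcs : HasCompactSupport (∇ φ) :=
    (hφ.2.fderiv ℝ).comp_left (g := (InnerProductSpace.toDual ℝ E).symm) (map_zero _)
  have i1 : Integrable fun x => u x * ⟪∇ φ x, v⟫ :=
    a.isW.lu.integrable_smul_right_of_hasCompactSupport (g := fun x => ⟪∇ φ x, v⟫) (by fun_prop)
      (hcs.comp_left (g := fun w : E => ⟪w, v⟫) (by simp))
  have lDv : LocallyIntegrable (fun x => ⟪D u x, v⟫) volume := by
    have h1 := a.isW.lg
    rw [locallyIntegrable_iff] at h1 ⊢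
    exact fun K hK => (h1 K hK).inner_const v
  have i2 : Integrable fun x => ⟪D u x, v⟫ * φ x :=
    lDv.integrable_smul_right_of_hasCompactSupport hc hφ.2
  have i3 : Integrable fun x => u x * φ x :=
    a.isW.lu.integrable_smul_right_of_hasCompactSupport hc hφ.2
  -- the error term
  set Er : ℕ → ℝ := fun n =>
    ∫ x, (deriv Real.smoothTransition (((n : ℝ) + 1) * x 2) * (((n : ℝ) + 1) * v 2)) * (u x * φ x)
    with hEr
  have i4 : ∀ n : ℕ, Integrable fun x : E =>
      (deriv Real.smoothTransition (((n : ℝ) + 1) * x 2) * (((n : ℝ) + 1) * v 2)) * (u x * φ x) := by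
    intro n
    refine i3.bdd_mul (c := C * |((n : ℝ) + 1) * v 2|)
      (Continuous.aestronglyMeasurable (by fun_prop)) (ae_of_all _ fun x => ?_)
    rw [Real.norm_eq_abs, abs_mul]
    exact mul_le_mul_of_nonneg_right (hC _) (abs_nonneg _)
  have i5 : ∀ n : ℕ, Integrable fun x : E =>
      Real.smoothTransition (((n : ℝ) + 1) * x 2) * (u x * ⟪∇ φ x, v⟫) := by
    intro n
    refine i1.bdd_mul (c := 1)
      (Continuous.aestronglyMeasurable (by fun_prop)) (ae_of_all _ fun x => ?_)
    rw [Real.norm_of_nonneg (Real.smoothTransition.nonneg _)]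
    exact Real.smoothTransition.le_one _
  have hE : Tendsto Er atTop (𝓝 0) := by
    have h1 := (errlim a h hφ).const_mul (C * |v 2|)
    rw [mul_zero] at h1
    refine squeeze_zero_norm (fun n => ?_) h1
    have hn : (0 : ℝ) < n + 1 := by positivity
    refine (norm_integral_le_integral_norm _).trans ?_
    rw [← integral_indicator (mSlab _), ← integral_const_mul, ← integral_const_mul]
    refine integral_mono (i4 n).norm
      (((i3.abs.indicator (mSlab _)).const_mul _).const_mul _) fun x => ?_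
    show ‖_‖ ≤ C * |v 2| * (((n : ℝ) + 1) *
      {x : E | |x 2| ≤ 1 / ((n : ℝ) + 1)}.indicator (fun x => |u x * φ x|) x)
    by_cases hx : x ∈ {x : E | |x 2| ≤ 1 / ((n : ℝ) + 1)}
    · rw [indicator_of_mem hx, Real.norm_eq_abs, abs_mul, abs_mul, abs_mul, abs_of_pos hn]
      have := mul_le_mul_of_nonneg_right (hC (((n : ℝ) + 1) * x 2))
        (show 0 ≤ ((n : ℝ) + 1) * |v 2| * |u x * φ x| by positivity)
      linarith
    · have h3 : 1 < |((n : ℝ) + 1) * x 2| := by
        have : 1 / ((n : ℝ) + 1) < |x 2| := not_le.1 hx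
        rw [abs_mul, abs_of_pos hn]
        rwa [div_lt_iff₀' hn] at this
      rw [indicator_of_notMem hx, st_zero h3]
      simp
  have hid : ∀ n : ℕ, (∫ x, Real.smoothTransition (((n : ℝ) + 1) * x 2) * (u x * ⟪∇ φ x, v⟫)) + Er n =
      -∫ x, Real.smoothTransition (((n : ℝ) + 1) * x 2) * (⟪D u x, v⟫ * φ x) := by
    intro n
    have hη : ContDiff ℝ 1 fun x : E => Real.smoothTransition (((n : ℝ) + 1) * x 2) :=
      st_c1.comp (contDiff_const.mul contDiff_two)
    have h1 := a.isW.ibp (fun x => Real.smoothTransition (((n : ℝ) + 1) * x 2) * φ x)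
      ⟨hη.mul hφ.1, hφ.2.mul_left⟩ v
    have h3 : ∀ x : E, ⟪∇ (fun x : E => Real.smoothTransition (((n : ℝ) + 1) * x 2) * φ x) x, v⟫ =
        Real.smoothTransition (((n : ℝ) + 1) * x 2) * ⟪∇ φ x, v⟫ +
          φ x * (deriv Real.smoothTransition (((n : ℝ) + 1) * x 2) * (((n : ℝ) + 1) * v 2)) := by
      intro x
      have d1 : HasFDerivAt (fun x : E => ((n : ℝ) + 1) * x 2)
          (((n : ℝ) + 1) • (EuclideanSpace.proj (𝕜 := ℝ) (2 : Fin 3) : E →L[ℝ] ℝ)) x :=
        (EuclideanSpace.proj (𝕜 := ℝ) (2 : Fin 3) : E →L[ℝ] ℝ).hasFDerivAt.const_mul _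
      have d2 := ((st_c1.differentiable one_ne_zero) (((n : ℝ) + 1) * x 2)).hasDerivAt.comp_hasFDerivAt
        x d1
      have d3 := ((hφ.1.differentiable one_ne_zero) x).hasFDerivAt
      have d4 : HasFDerivAt (fun x : E => Real.smoothTransition (((n : ℝ) + 1) * x 2) * φ x) _ x :=
        d2.mul d3
      rw [inner_gradient_left, inner_gradient_left, d4.fderiv]
      simp
    simp only [h3] at h1
    simp only [hEr]
    rw [← integral_add (i5 n) (i4 n)]
    refine Eq.trans (integral_congr_ae (ae_of_all _ fun x => ?_)) (h1.trans ?_)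
    · ring
    · congr 1
      exact integral_congr_ae (ae_of_all _ fun x => by ring)
  have l1 := (cutlim i1).add hE
  have l2 := (cutlim i2).neg
  rw [add_zero] at l1
  have l3 := tendsto_nhds_unique (l1.congr hid) l2
  have e1 : ∀ x, Hp.indicator u x * ⟪∇ φ x, v⟫ = Hp.indicator (fun x => u x * ⟪∇ φ x, v⟫) x := by
    intro x
    by_cases hx : x ∈ Hp <;> simp [hx]
  have e2 : ∀ x, ⟪Hp.indicator (D u) x, v⟫ * φ x = Hp.indicator (fun x => ⟪D u x, v⟫ * φ x) x := by
    intro x
    by_cases hx : x ∈ Hp <;> simp [hx]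
  simp only [e1, e2]
  exact l3

end

end Crest.Agent.R335.S07
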