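import Crest.Agent.R335.S06

set_option autoImplicit false
set_option linter.unusedSectionVars false

open MeasureTheory Set Filter Topology Metric
open scoped Gradient ContDiff RealInnerProductSpace ENNReal

namespace Crest.Agent.R335

noncomputable section

variable {V : Type*} [NormedAddCommGroup V] [InnerProductSpace ℝ V] [FiniteDimensional ℝ V]
  [MeasurableSpace V] [BorelSpace V]

/-! integrability helpers for `S12` -/

theorem S12_inner {f g : V → V} {μ : Measure V} (hf : MemLp f 2 μ) (hg : MemLp g 2 μ) :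
    Integrable (fun x => ⟪f x, g x⟫) μ :=
  Integrable.mono' (hf.norm.integrable_mul hg.norm) (hf.1.inner hg.1)
    (Eventually.of_forall fun x => norm_inner_le_norm (𝕜 := ℝ) (f x) (g x))

theorem S12_mul {f g : V → ℝ} {μ : Measure V} (hf : MemLp f 2 μ) (hg : MemLp g 2 μ) :
    Integrable (fun x => f x * g x) μ := hf.integrable_mul hg

theorem S12_fin {K : Set V} (hK : IsCompact K) : IsFiniteMeasure ((volume : Measure V).restrict K) :=
  isFiniteMeasure_restrict.2 hK.measure_lt_top.ne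

theorem S12_intOn {F : Type*} [NormedAddCommGroup F] {f : V → F} {K : Set V} (hK : IsCompact K)
    (hf : MemLp f 2 (volume.restrict K)) : IntegrableOn f K volume := by
  have := S12_fin hK
  exact hf.integrable one_le_two

theorem S12_cont_memLp {F : Type*} [NormedAddCommGroup F] {X : V → F} {K : Set V}
    (hX : Continuous X) (hK : IsCompact K) : MemLp X 2 (volume.restrict K) := by
  have := S12_fin hK
  obtain ⟨M, hM⟩ := hK.exists_bound_of_continuousOn hX.continuousOn
  exact MemLp.of_bound hX.aestronglyMeasurable M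
    ((ae_restrict_iff' hK.measurableSet).2 (Eventually.of_forall hM))

theorem S12_lb_mul {w F : V → ℝ} {K : Set V} (hw : AEStronglyMeasurable w volume) (hw1 : LB w)
    (hK : IsCompact K) (hF : IntegrableOn F K volume) :
    IntegrableOn (fun x => w x * F x) K volume := by
  obtain ⟨M, hM⟩ := hw1 K hK
  exact Integrable.bdd_mul (c := M) hF hw.restrict ((ae_restrict_iff' hK.measurableSet).2 hM)

theorem S12_cont_mul {w F : V → ℝ} {K : Set V} (hw : Continuous w)
    (hK : IsCompact K) (hF : IntegrableOn F K volume) :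
    IntegrableOn (fun x => w x * F x) K volume :=
  S12_lb_mul hw.aestronglyMeasurable (Continuous.lb' hw) hK hF

theorem S12_memLp_smul {p : V → ℝ} {X : V → V} {K : Set V} (hX : Continuous X) (hK : IsCompact K)
    (hp : MemLp p 2 (volume.restrict K)) : MemLp (fun x => p x • X x) 2 (volume.restrict K) := by
  obtain ⟨M, hM⟩ := hK.exists_bound_of_continuousOn hX.continuousOn
  refine MemLp.of_le_mul (c := M) hp (hp.1.smul hX.aestronglyMeasurable)
    ((ae_restrict_iff' hK.measurableSet).2 (Eventually.of_forall fun x hx => ?_))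
  rw [norm_smul, mul_comm]
  exact mul_le_mul_of_nonneg_right (hM x hx) (norm_nonneg _)

theorem S12_lb_one : LB (fun _ : V => (1 : ℝ)) := Continuous.lb' continuous_const

theorem S12_lb_mul_lb {u w : V → ℝ} (hu : LB u) (hw : LB w) : LB fun x => u x * w x := by
  intro K hK
  obtain ⟨M, hM⟩ := hu K hK
  obtain ⟨N, hN⟩ := hw K hK
  refine ⟨M * N, ?_⟩
  filter_upwards [hM, hN] with x h1 h2 hx
  rw [abs_mul]
  exact mul_le_mul (h1 hx) (h2 hx) (abs_nonneg _) ((abs_nonneg _).trans (h1 hx))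

/-- the support of a test function and of its gradient -/
theorem S12_supp {Ω : Set V} {χ : V → ℝ} (h : TF Ω χ) :
    ∃ K, IsCompact K ∧ K ⊆ Ω ∧ (∀ᵐ x, x ∉ K → χ x = 0) ∧ ∀ᵐ x, x ∉ K → D χ x = 0 := by
  obtain ⟨K, hK, hKΩ, h0⟩ := h.cs
  exact ⟨K, hK, hKΩ, h0, CS.D_zero h.h1.hl h0⟩

theorem S12_int_vec {w χ : V → ℝ} {g : V → V} {Ω : Set V} (hw : AEStronglyMeasurable w volume)
    (hw1 : LB w) (hg : ∀ K, IsCompact K → MemLp g 2 (volume.restrict K)) (h : TF Ω χ) :
    Integrable (fun x => w x * ⟪g x, D χ x⟫) := by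
  obtain ⟨K, hK, -, -, h1⟩ := S12_supp h
  refine (S12_lb_mul hw hw1 hK (S12_inner (hg K hK) (h.h1.dl2.restrict K))).integrable_of_ae_notMem_eq_zero ?_
  filter_upwards [h1] with x h1 hx
  rw [h1 hx, inner_zero_right, mul_zero]

theorem S12_int_vec' {χ : V → ℝ} {g : V → V} {Ω : Set V}
    (hg : ∀ K, IsCompact K → MemLp g 2 (volume.restrict K)) (h : TF Ω χ) :
    Integrable (fun x => ⟪g x, D χ x⟫) := by
  have := S12_int_vec aestronglyMeasurable_const S12_lb_one hg h
  simpa only [one_mul] using this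

theorem S12_int_lhs {w p χ : V → ℝ} {Ω : Set V} (hw : AEStronglyMeasurable w volume)
    (hw1 : LB w) (hp : Hl p) (h : TF Ω χ) :
    Integrable (fun x => (1 / 2) * w x * ⟪D p x, D χ x⟫) := by
  have := (S12_int_vec hw hw1 hp.dl2 h).const_mul (1 / 2)
  simpa only [mul_assoc] using this

theorem S12_int_rhs {S χ : V → ℝ} {Ω : Set V}
    (hS : ∀ K, IsCompact K → K ⊆ Ω → IntegrableOn S K volume) (h : TF Ω χ) :
    Integrable (fun x => S x * χ x) := by
  obtain ⟨K, hK, hKΩ, h0, -⟩ := S12_supp h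
  have h1 := S12_lb_mul h.h1.hl.aesm h.bd.lb hK (hS K hK hKΩ)
  have h2 : IntegrableOn (fun x => S x * χ x) K volume := by
    simpa only [mul_comm] using h1
  refine h2.integrable_of_ae_notMem_eq_zero ?_
  filter_upwards [h0] with x h0 hx
  rw [h0 hx, mul_zero]

/-- a factor that vanishes outside a closed set shrinks the support -/
theorem S12_tf_mul {S C : Set V} {χ u : V → ℝ} (h : TF S χ) (a : Bl u) (hC : IsClosed C)
    (h0 : ∀ᵐ x, x ∉ C → u x = 0) : TF (C ∩ S) fun x => u x * χ x := by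
  have h1 := h.mul a
  obtain ⟨K, hK, hKS, hz⟩ := h.cs
  refine ⟨h1.h1, h1.bd, C ∩ K, hK.inter_left hC, inter_subset_inter_right _ hKS, ?_⟩
  filter_upwards [h0, hz] with x h0 hz hx
  by_cases hc : x ∈ C
  · rw [hz fun hk => hx ⟨hc, hk⟩, mul_zero]
  · rw [h0 hc, zero_mul]

theorem S12_lp_pos {w : V → ℝ} (h : LP w) : ∀ᵐ x, 0 < w x := by
  have h1 : ∀ n : ℕ, ∀ᵐ x, x ∈ closedBall (0 : V) n → 0 < w x := fun n => by
    obtain ⟨c, hc, h2⟩ := h _ (isCompact_closedBall (0 : V) n)
    filter_upwards [h2] with x h2 hx using hc.trans_le (h2 hx)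
  filter_upwards [ae_all_iff.2 h1] with x hx
  obtain ⟨n, hn⟩ := exists_nat_ge ‖x‖
  exact hx n (mem_closedBall_zero_iff.2 hn)

theorem S12_grad_c1 {q : V → ℝ} {U : Set V} (hU : IsOpen U) (h : ContDiffOn ℝ 2 q U) :
    ContDiffOn ℝ 1 (∇ q) U := by
  have h1 : ContDiffOn ℝ 1 (fderiv ℝ q) U := h.fderiv_of_isOpen hU (by norm_num)
  exact (InnerProductSpace.toDual ℝ V).symm.toContinuousLinearEquiv.contDiff.comp_contDiffOn h1

theorem S12_dvg_cont {X : V → V} {U : Set V} (hU : IsOpen U) (h : ContDiffOn ℝ 1 X U) :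
    ContinuousOn (dvg X) U := by
  have h1 : ContinuousOn (fderiv ℝ X) U := h.continuousOn_fderiv_of_isOpen hU le_rfl
  have h2 : Continuous fun A : V →L[ℝ] V => LinearMap.trace ℝ V (A : V →ₗ[ℝ] V) :=
    LinearMap.continuous_of_finiteDimensional
      ((LinearMap.trace ℝ V).comp (ContinuousLinearMap.coeLM ℝ))
  exact h2.comp_continuousOn h1

theorem S12_lap_cont {q : V → ℝ} {U : Set V} (hU : IsOpen U) (h : ContDiffOn ℝ 2 q U) :
    ContinuousOn (lap q) U := S12_dvg_cont hU (S12_grad_c1 hU h)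

theorem S12_D_neg {u : V → ℝ} (a : Hl u) :
    Hl (fun x => -u x) ∧ ∀ᵐ x, D (fun x => -u x) x = -D u x := by
  have e : (fun x => -u x) = fun x => (-1 : ℝ) * u x := funext fun x => by ring
  rw [e]
  refine ⟨a.smul _, ?_⟩
  filter_upwards [D_smul (-1) a] with x hx
  rw [hx, neg_one_smul]

/-- bounded truncations of an `H¹_loc` function -/
theorem S12_trunc {p : V → ℝ} (a : Hl p) :
    ∃ w : ℕ → V → ℝ, (∀ n, Bl (w n)) ∧ (∀ n x, |w n x| ≤ |p x|) ∧
      (∀ x, ∀ᶠ n in atTop, w n x = p x) ∧ (∀ n, ∀ᵐ x, ‖D (w n) x‖ ≤ ‖D p x‖) ∧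
      ∀ᵐ x, ∀ᶠ n in atTop, D (w n) x = D p x := by
  have hc : ∀ c : ℝ, Hl (fun _ : V => c) := fun c => (bl_c1 contDiff_const).hl
  have h1 := fun n : ℕ => a.min (hc (n : ℝ))
  have h2 := fun n : ℕ => (h1 n).1.max (hc (-(n : ℝ)))
  have hD : ∀ n : ℕ, ∀ᵐ x, D (fun x => max (min (p x) (n : ℝ)) (-(n : ℝ))) x =
      if -(n : ℝ) < min (p x) n ∧ p x < n then D p x else 0 := fun n => by
    filter_upwards [(h1 n).2, (h2 n).2, D_const (V := V) (n : ℝ), D_const (V := V) (-(n : ℝ))]
      with x e1 e2 e3 e4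
    rw [e2, e1, e3, e4]
    by_cases b1 : -(n : ℝ) < min (p x) n
    · by_cases b2 : p x < n
      · rw [if_pos b1, if_pos b2, if_pos ⟨b1, b2⟩]
      · rw [if_pos b1, if_neg b2, if_neg fun h => b2 h.2]
    · rw [if_neg b1, if_neg fun h => b1 h.1]
  have hev : ∀ x, ∀ᶠ n : ℕ in atTop, |p x| < n := fun x =>
    tendsto_natCast_atTop_atTop.eventually_gt_atTop _
  refine ⟨fun n x => max (min (p x) (n : ℝ)) (-(n : ℝ)), fun n => ⟨(h2 n).1, fun K _ => ⟨n, ?_⟩⟩,
    fun n x => ?_, fun x => ?_, fun n => ?_, ?_⟩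
  · refine Eventually.of_forall fun x _ => abs_le.2 ⟨le_max_right _ _, max_le (min_le_right _ _) ?_⟩
    have : (0 : ℝ) ≤ n := n.cast_nonneg
    linarith
  · have : (0 : ℝ) ≤ n := n.cast_nonneg
    refine abs_le.2 ⟨le_max_of_le_left (le_min (neg_abs_le _) ?_),
      max_le ((min_le_left _ _).trans (le_abs_self _)) ?_⟩
    · linarith [abs_nonneg (p x)]
    · linarith [abs_nonneg (p x)]
  · filter_upwards [hev x] with n hn
    have := abs_lt.1 hn
    rw [min_eq_left this.2.le, max_eq_left this.1.le]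
  · filter_upwards [hD n] with x hx
    rw [hx]
    split_ifs
    · exact le_rfl
    · rw [norm_zero]
      exact norm_nonneg _
  · filter_upwards [ae_all_iff.2 hD] with x hx
    filter_upwards [hev x] with n hn
    have := abs_lt.1 hn
    rw [hx n, if_pos ⟨by rw [min_eq_left this.2.le]; exact this.1, this.2⟩]

/-- `div (p X)` tested, for `p ∈ H¹_loc` -/
theorem S12_ibp {χ p : V → ℝ} {X : V → V} (hX : ContDiff ℝ 1 X) (a : Hl p) (h : TF univ χ) :
    ∫ x, p x * ⟪X x, D χ x⟫ = -∫ x, (p x * dvg X x + ⟪D p x, X x⟫) * χ x := by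
  obtain ⟨w, hw, h1, h2, h3, h4⟩ := S12_trunc a
  have hXc : Continuous X := hX.continuous
  have hdc : Continuous (dvg X) :=
    continuousOn_univ.1 (S12_dvg_cont isOpen_univ hX.contDiffOn)
  have e := fun n => ibp_mul_field isOpen_univ hX.contDiffOn (hw n) h
  have i1 : Integrable fun x => p x * ⟪X x, D χ x⟫ := by
    have := S12_int_vec' (fun K hK => S12_memLp_smul hXc hK (a.l2 K hK)) h
    simpa only [real_inner_smul_left] using this
  have i2 : Integrable fun x => (|p x * dvg X x| + ‖D p x‖ * ‖X x‖) * χ x := by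
    refine S12_int_rhs (fun K hK _ => ?_) h
    exact (S12_mul (a.l2 K hK) (S12_cont_memLp hdc hK)).abs.add
      (S12_mul (a.dl2 K hK).norm (S12_cont_memLp hXc hK).norm)
  have m1 : AEStronglyMeasurable (fun x => ⟪X x, D χ x⟫) volume :=
    hXc.aestronglyMeasurable.inner h.h1.hl.aesm_D
  have t1 : Tendsto (fun n => ∫ x, w n x * ⟪X x, D χ x⟫) atTop (𝓝 (∫ x, p x * ⟪X x, D χ x⟫)) := by
    refine tendsto_integral_of_dominated_convergence _ (fun n => (hw n).hl.aesm.mul m1) i1.norm
      (fun n => Eventually.of_forall fun x => ?_) (Eventually.of_forall fun x => ?_)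
    · rw [norm_mul, norm_mul]
      exact mul_le_mul_of_nonneg_right (h1 n x) (norm_nonneg _)
    · refine tendsto_const_nhds.congr' ?_
      filter_upwards [h2 x] with n hn
      rw [hn]
  have t2 : Tendsto (fun n => ∫ x, (w n x * dvg X x + ⟪D (w n) x, X x⟫) * χ x) atTop
      (𝓝 (∫ x, (p x * dvg X x + ⟪D p x, X x⟫) * χ x)) := by
    refine tendsto_integral_of_dominated_convergence _ (fun n =>
      (((hw n).hl.aesm.mul hdc.aestronglyMeasurable).add
        ((hw n).hl.aesm_D.inner hXc.aestronglyMeasurable)).mul h.h1.hl.aesm) i2.norm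
      (fun n => ?_) ?_
    · filter_upwards [h3 n] with x hx
      rw [norm_mul, norm_mul]
      refine mul_le_mul_of_nonneg_right ?_ (norm_nonneg _)
      refine le_trans ?_ (le_abs_self _)
      refine (norm_add_le _ _).trans (add_le_add ?_ ?_)
      · rw [Real.norm_eq_abs, abs_mul, abs_mul]
        exact mul_le_mul_of_nonneg_right (h1 n x) (abs_nonneg _)
      · exact (norm_inner_le_norm (𝕜 := ℝ) _ _).trans
          (mul_le_mul_of_nonneg_right hx (norm_nonneg _))
    · filter_upwards [h4] with x hx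
      refine tendsto_const_nhds.congr' ?_
      filter_upwards [h2 x, hx] with n hn hn'
      rw [hn, hn']
  exact tendsto_nhds_unique t1 (t2.neg.congr fun n => (e n).symm)

theorem S12_step_bound : ∃ L : ℝ, ∀ t, |deriv Real.smoothTransition t| ≤ L := by
  have hc : Continuous (deriv Real.smoothTransition) :=
    (Real.smoothTransition.contDiff (n := 1)).continuous_deriv le_rfl
  obtain ⟨L, hL⟩ := (isCompact_Icc (a := (0 : ℝ)) (b := 1)).exists_bound_of_continuousOn
    hc.continuousOn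
  have hL0 : 0 ≤ L := (norm_nonneg _).trans (hL 0 ⟨le_rfl, zero_le_one⟩)
  refine ⟨L, fun t => ?_⟩
  rcases lt_or_ge t 0 with h | h
  · have : Real.smoothTransition =ᶠ[𝓝 t] fun _ => 0 := by
      filter_upwards [gt_mem_nhds h] with s hs using Real.smoothTransition.zero_of_nonpos hs.le
    rw [this.deriv_eq, deriv_const, abs_zero]
    exact hL0
  · rcases le_or_gt t 1 with h' | h'
    · exact hL t ⟨h, h'⟩
    · have : Real.smoothTransition =ᶠ[𝓝 t] fun _ => 1 := by
        filter_upwards [lt_mem_nhds h'] with s hs using Real.smoothTransition.one_of_one_le hs.le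
      rw [this.deriv_eq, deriv_const, abs_zero]
      exact hL0

/-- smooth monotone approximations of the Heaviside function -/
theorem S12_steps : ∃ β : ℕ → ℝ → ℝ, (∀ n, ContDiff ℝ 1 (β n)) ∧
    (∀ n, ∃ L, ∀ t, |deriv (β n) t| ≤ L) ∧ (∀ n t, 0 ≤ deriv (β n) t) ∧
    (∀ n t, 0 ≤ β n t ∧ β n t ≤ 1) ∧ (∀ n t, t ≤ 0 → β n t = 0) ∧
    ∀ t, 0 < t → ∀ᶠ n in atTop, β n t = 1 := by
  obtain ⟨L, hL⟩ := S12_step_bound
  refine ⟨fun n t => Real.smoothTransition (n * t), fun n => ?_, fun n => ⟨n * L, fun t => ?_⟩,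
    fun n t => ?_, fun n t => ⟨Real.smoothTransition.nonneg _, Real.smoothTransition.le_one _⟩,
    fun n t ht => ?_, fun t ht => ?_⟩
  · exact (Real.smoothTransition.contDiff (n := 1)).comp (contDiff_const.mul contDiff_id)
  · rw [deriv_comp_mul_left, smul_eq_mul, abs_mul, abs_of_nonneg n.cast_nonneg]
    exact mul_le_mul_of_nonneg_left (hL _) n.cast_nonneg
  · rw [deriv_comp_mul_left, smul_eq_mul]
    exact mul_nonneg n.cast_nonneg Real.smoothTransition.monotone.deriv_nonneg
  · exact Real.smoothTransition.zero_of_nonpos (mul_nonpos_of_nonneg_of_nonpos n.cast_nonneg ht)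
  · filter_upwards [tendsto_natCast_atTop_atTop.eventually_ge_atTop (1 / t)] with n hn
    exact Real.smoothTransition.one_of_one_le ((div_le_iff₀ ht).1 hn)

end

end Crest.Agent.R335
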