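import Crest.Agent.R335.S08

set_option autoImplicit false
set_option linter.unusedSectionVars false

open MeasureTheory Set Filter Topology Metric
open scoped Gradient ContDiff RealInnerProductSpace ENNReal

namespace Crest.Agent.R335

noncomputable section

variable {V : Type*} [NormedAddCommGroup V] [InnerProductSpace ℝ V] [FiniteDimensional ℝ V]
  [MeasurableSpace V] [BorelSpace V]

variable {W : Type*} [NormedAddCommGroup W] [InnerProductSpace ℝ W] [FiniteDimensional ℝ W]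
  [MeasurableSpace W] [BorelSpace W]

/-! auxiliary facts for the slice norm -/

theorem s13_intg {X : Type*} [NormedAddCommGroup X] [NormedSpace ℝ X] {F : WithLp 2 (V × W) → X}
    (h : Integrable F) :
    (∀ᵐ x, Integrable fun y => F (pt x y)) ∧ Integrable fun x => ∫ y, F (pt x y) := by
  have h1 : Integrable (F ∘ WithLp.toLp 2) (volume : Measure (V × W)) :=
    (WithLp.volume_preserving_toLp V W).integrable_comp_of_integrable h
  rw [Measure.volume_eq_prod] at h1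
  exact ⟨h1.prod_right_ae, h1.integral_prod_left⟩

theorem s13_grad_cont {φ : V → ℝ} (h : ContDiff ℝ 1 φ) : Continuous (∇ φ) := by
  have h1 : Continuous (fderiv ℝ φ) := h.continuous_fderiv (by norm_num)
  exact (InnerProductSpace.toDual ℝ V).symm.continuous.comp h1

theorem s13_grad_cs {φ : V → ℝ} (h : HasCompactSupport φ) : HasCompactSupport (∇ φ) := by
  have h1 : HasCompactSupport (fderiv ℝ φ) := h.fderiv ℝ
  exact h1.comp_left (g := (InnerProductSpace.toDual ℝ V).symm) (map_zero _)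

theorem s13_fst2 {g : WithLp 2 (V × W) → WithLp 2 (V × W)} (h : MemLp g 2 volume) :
    MemLp (fun p => (g p).fst) 2 volume := by
  refine h.of_le ((WithLp.continuous_fst 2 V W).comp_aestronglyMeasurable h.1) ?_
  exact Eventually.of_forall fun p => WithLp.norm_fst_le _ _

theorem s13_snd2 {g : WithLp 2 (V × W) → WithLp 2 (V × W)} (h : MemLp g 2 volume) :
    MemLp (fun p => (g p).snd) 2 volume := by
  refine h.of_le ((WithLp.continuous_snd 2 V W).comp_aestronglyMeasurable h.1) ?_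
  exact Eventually.of_forall fun p => WithLp.norm_snd_le _ _

theorem s13_smul_int {α X : Type*} [MeasurableSpace α] {μ : Measure α} [NormedAddCommGroup X]
    [NormedSpace ℝ X] {a : α → ℝ} {g : α → X} (ha : MemLp a 2 μ) (hg : MemLp g 2 μ) :
    Integrable (fun p => a p • g p) μ := by
  have : MemLp (a • g) 1 μ := hg.smul ha
  exact memLp_one_iff_integrable.1 this

theorem s13_inner_int {α X : Type*} [MeasurableSpace α] {μ : Measure α} [NormedAddCommGroup X]
    [InnerProductSpace ℝ X] {f g : α → X} (hf : MemLp f 2 μ) (hg : MemLp g 2 μ) :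
    Integrable (fun p => ⟪f p, g p⟫) μ := by
  refine Integrable.mono' (s13_smul_int hf.norm hg.norm) (hf.1.inner hg.1) ?_
  exact Eventually.of_forall fun p => norm_inner_le_norm _ _

theorem s13_sqn_int {α X : Type*} [MeasurableSpace α] {μ : Measure α} [NormedAddCommGroup X]
    {g : α → X} (hg : MemLp g 2 μ) : Integrable (fun p => ‖g p‖ ^ 2) μ :=
  (memLp_two_iff_integrable_sq_norm hg.1).1 hg

theorem s13_cs {ι : Type} [Fintype ι] {a : ι → W → ℝ} {g : ι → W → V}
    (ha : ∀ i, Integrable fun y => a i y ^ 2) (hg : ∀ i, Integrable fun y => ‖g i y‖ ^ 2)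
    (hag : ∀ i, Integrable fun y => a i y • g i y) :
    ‖∑ i, ∫ y, a i y • g i y‖ ^ 2 ≤ (∑ i, ∫ y, a i y ^ 2) * ∑ i, ∫ y, ‖g i y‖ ^ 2 := by
  have h1 : ‖∑ i, ∫ y, a i y • g i y‖ ≤ ∑ i, ∫ y, ‖a i y • g i y‖ :=
    (norm_sum_le _ _).trans (Finset.sum_le_sum fun i _ => norm_integral_le_integral_norm _)
  have h2 : ∀ t : ℝ, 0 ≤ (∑ i, ∫ y, a i y ^ 2) * (t * t) + (-2 * ∑ i, ∫ y, ‖a i y • g i y‖) * t +
      ∑ i, ∫ y, ‖g i y‖ ^ 2 := by
    intro t
    have h3 : ∀ i, (∫ y, a i y ^ 2) * (t * t) + (-2 * ∫ y, ‖a i y • g i y‖) * t +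
        ∫ y, ‖g i y‖ ^ 2 = ∫ y, (t * |a i y| - ‖g i y‖) ^ 2 := by
      intro i
      have e : ∀ y, (t * |a i y| - ‖g i y‖) ^ 2 =
          (a i y ^ 2 * (t * t) + (-2 * t) * ‖a i y • g i y‖) + ‖g i y‖ ^ 2 := by
        intro y
        rw [norm_smul, Real.norm_eq_abs, ← sq_abs (a i y)]
        ring
      simp_rw [e]
      have hi : Integrable fun y => a i y ^ 2 * (t * t) + (-2 * t) * ‖a i y • g i y‖ :=
        ((ha i).mul_const _).add ((hag i).norm.const_mul _)
      rw [integral_add hi (hg i),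
        integral_add ((ha i).mul_const _) ((hag i).norm.const_mul _), integral_mul_const,
        integral_const_mul]
      ring
    have h4 : (∑ i, ∫ y, a i y ^ 2) * (t * t) + (-2 * ∑ i, ∫ y, ‖a i y • g i y‖) * t +
        ∑ i, ∫ y, ‖g i y‖ ^ 2 = ∑ i, ∫ y, (t * |a i y| - ‖g i y‖) ^ 2 := by
      rw [Finset.sum_mul, Finset.mul_sum, Finset.sum_mul, ← Finset.sum_add_distrib,
        ← Finset.sum_add_distrib]
      exact Finset.sum_congr rfl fun i _ => h3 i
    rw [h4]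
    exact Finset.sum_nonneg fun i _ => integral_nonneg fun y => sq_nonneg _
  have h5 := discrim_le_zero h2
  rw [discrim] at h5
  have h6 : ‖∑ i, ∫ y, a i y • g i y‖ ^ 2 ≤ (∑ i, ∫ y, ‖a i y • g i y‖) ^ 2 :=
    pow_le_pow_left₀ (norm_nonneg _) h1 2
  nlinarith

theorem s13_isW_lim {u : V → ℝ} {g : V → V} {w : ℕ → V → ℝ} {h : ℕ → V → V} {U G : V → ℝ}
    (hw : ∀ n, IsW (w n) (h n)) (hU : LocallyIntegrable U volume) (hG : LocallyIntegrable G volume)
    (b1 : ∀ n, ∀ᵐ x, |w n x| ≤ U x) (b2 : ∀ n, ∀ᵐ x, ‖h n x‖ ≤ G x)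
    (t1 : ∀ᵐ x, Tendsto (fun n => w n x) atTop (𝓝 (u x)))
    (t2 : ∀ᵐ x, Tendsto (fun n => h n x) atTop (𝓝 (g x))) : IsW u g := by
  have m1 : AEStronglyMeasurable u volume :=
    aestronglyMeasurable_of_tendsto_ae atTop (fun n => (hw n).lu.aestronglyMeasurable) t1
  have m2 : AEStronglyMeasurable g volume :=
    aestronglyMeasurable_of_tendsto_ae atTop (fun n => (hw n).lg.aestronglyMeasurable) t2
  refine ⟨hU.mono m1 ?_, hG.mono m2 ?_, fun φ hφ v => ?_⟩
  · filter_upwards [ae_all_iff.2 b1, t1] with x hx ht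
    exact (le_of_tendsto' ht.norm hx).trans (le_abs_self _)
  · filter_upwards [ae_all_iff.2 b2, t2] with x hx ht
    exact (le_of_tendsto' ht.norm hx).trans (le_abs_self _)
  have c1 : Continuous fun x => ⟪∇ φ x, v⟫ := (s13_grad_cont hφ.1).inner continuous_const
  have s1 : HasCompactSupport fun x => |⟪∇ φ x, v⟫| :=
    (s13_grad_cs hφ.2).comp_left (g := fun z : V => |⟪z, v⟫|) (by simp)
  have s2 : HasCompactSupport fun x => ‖v‖ * |φ x| :=
    hφ.2.comp_left (g := fun z : ℝ => ‖v‖ * |z|) (by simp)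
  have l1 : Tendsto (fun n => ∫ x, w n x * ⟪∇ φ x, v⟫) atTop (𝓝 (∫ x, u x * ⟪∇ φ x, v⟫)) := by
    refine tendsto_integral_of_dominated_convergence (fun x => U x • |⟪∇ φ x, v⟫|)
      (fun n => (hw n).lu.aestronglyMeasurable.mul c1.aestronglyMeasurable)
      (hU.integrable_smul_right_of_hasCompactSupport c1.abs s1) (fun n => ?_) ?_
    · filter_upwards [b1 n] with x hx
      rw [Real.norm_eq_abs, abs_mul, smul_eq_mul]
      exact mul_le_mul_of_nonneg_right hx (abs_nonneg _)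
    · filter_upwards [t1] with x hx
      exact hx.mul_const _
  have l2 : Tendsto (fun n => ∫ x, ⟪h n x, v⟫ * φ x) atTop (𝓝 (∫ x, ⟪g x, v⟫ * φ x)) := by
    refine tendsto_integral_of_dominated_convergence (fun x => G x • (‖v‖ * |φ x|))
      (fun n => ((hw n).lg.aestronglyMeasurable.inner aestronglyMeasurable_const).mul
        hφ.1.continuous.aestronglyMeasurable)
      (hG.integrable_smul_right_of_hasCompactSupport
        (continuous_const.mul hφ.1.continuous.abs) s2) (fun n => ?_) ?_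
    · filter_upwards [b2 n] with x hx
      rw [Real.norm_eq_abs, abs_mul, smul_eq_mul, ← mul_assoc]
      refine mul_le_mul_of_nonneg_right ?_ (abs_nonneg _)
      exact (abs_real_inner_le_norm _ _).trans (mul_le_mul_of_nonneg_right hx (norm_nonneg _))
    · filter_upwards [t2] with x hx
      exact (hx.inner tendsto_const_nhds).mul_const _
  have e : (fun n => ∫ x, w n x * ⟪∇ φ x, v⟫) = fun n => -∫ x, ⟪h n x, v⟫ * φ x :=
    funext fun n => (hw n).ibp φ hφ v
  rw [e] at l1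
  exact tendsto_nhds_unique l1 l2.neg

theorem s13_isW_one {P : WithLp 2 (V × W) → ℝ} (h : H1 P) :
    IsW (fun x => ∫ y, P (pt x y) ^ 2)
      (fun x => (2 : ℝ) • ∫ y, P (pt x y) • (D P (pt x y)).fst) := by
  have i1 : Integrable fun p => P p ^ 2 := h.l2.integrable_sq
  have i2 : Integrable fun p => P p • (D P p).fst := s13_smul_int h.l2 (s13_fst2 h.dl2)
  refine ⟨(s13_intg i1).2.locallyIntegrable, ((s13_intg i2).2.smul (2 : ℝ)).locallyIntegrable,
    fun φ hφ v => ?_⟩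
  obtain ⟨hla, hDa⟩ := Hl.lift_fst (W := W) (bl_c1 hφ.1).hl
  obtain ⟨M1, hM1⟩ := hφ.1.continuous.bounded_above_of_compact_support hφ.2
  obtain ⟨M2, hM2⟩ := (s13_grad_cont hφ.1).bounded_above_of_compact_support (s13_grad_cs hφ.2)
  have hDa' : ∀ᵐ p : WithLp 2 (V × W),
      D (fun p : WithLp 2 (V × W) => φ p.fst) p = pt (∇ φ p.fst) 0 := by
    filter_upwards [hDa, ae_fst (W := W) (D_c1 hφ.1)] with p h1 h2
    rw [h1, h2]
  have hb1 : Bd fun p : WithLp 2 (V × W) => φ p.fst :=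
    ⟨M1, Eventually.of_forall fun p => hM1 _⟩
  have hb2 : Bd fun p : WithLp 2 (V × W) => ‖D (fun p : WithLp 2 (V × W) => φ p.fst) p‖ := by
    refine ⟨M2, ?_⟩
    filter_upwards [hDa'] with p hp
    rw [hp, abs_norm]
    have : ‖(pt (∇ φ p.fst) 0 : WithLp 2 (V × W))‖ = ‖∇ φ p.fst‖ := by
      simp
    rw [this]
    exact hM2 _
  obtain ⟨h1, hD⟩ := h.mul_lip hla hb1 hb2
  have key := h.ibp h1 (pt v 0)
  have cφ : AEStronglyMeasurable (fun p : WithLp 2 (V × W) => φ p.fst) volume := hla.aesm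
  have cg : AEStronglyMeasurable (fun p : WithLp 2 (V × W) => ⟪∇ φ p.fst, v⟫) volume :=
    (((s13_grad_cont hφ.1).comp (WithLp.continuous_fst 2 V W)).inner
      continuous_const).aestronglyMeasurable
  have j1 : Integrable fun p : WithLp 2 (V × W) => P p ^ 2 * ⟪∇ φ p.fst, v⟫ := by
    refine i1.mul_bdd (c := M2 * ‖v‖) cg (Eventually.of_forall fun p => ?_)
    exact (norm_inner_le_norm _ _).trans (mul_le_mul_of_nonneg_right (hM2 _) (norm_nonneg _))
  have j2 : Integrable fun p : WithLp 2 (V × W) => ⟪P p • (D P p).fst, v⟫ * φ p.fst :=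
    (i2.inner_const v).mul_bdd (c := M1) cφ (Eventually.of_forall fun p => hM1 _)
  have e1 : ∫ p, P p * ⟪D (fun p : WithLp 2 (V × W) => φ p.fst * P p) p, pt v 0⟫ =
      (∫ p : WithLp 2 (V × W), ⟪P p • (D P p).fst, v⟫ * φ p.fst) +
        ∫ p : WithLp 2 (V × W), P p ^ 2 * ⟪∇ φ p.fst, v⟫ := by
    rw [← integral_add j2 j1]
    refine integral_congr_ae ?_
    filter_upwards [hD, hDa'] with p hp hq
    rw [hp, hq, inner_add_left, real_inner_smul_left, real_inner_smul_left, real_inner_smul_left,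
      WithLp.prod_inner_apply, WithLp.prod_inner_apply]
    simp only [inner_zero_right, add_zero]
    show P p * (φ p.fst * ⟪(D P p).fst, v⟫ + P p * ⟪∇ φ p.fst, v⟫) = _
    ring
  have e2 : ∫ p, ⟪D P p, pt v 0⟫ * (φ p.fst * P p) =
      ∫ p : WithLp 2 (V × W), ⟪P p • (D P p).fst, v⟫ * φ p.fst := by
    refine integral_congr_ae (Eventually.of_forall fun p => ?_)
    show ⟪D P p, pt v 0⟫ * (φ p.fst * P p) = ⟪P p • (D P p).fst, v⟫ * φ p.fst
    rw [real_inner_smul_left, WithLp.prod_inner_apply]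
    simp only [inner_zero_right, add_zero]
    show ⟪(D P p).fst, v⟫ * (φ p.fst * P p) = _
    ring
  have e3 : ∫ p : WithLp 2 (V × W), P p ^ 2 * ⟪∇ φ p.fst, v⟫ =
      ∫ x, (∫ y, P (pt x y) ^ 2) * ⟪∇ φ x, v⟫ := by
    rw [integral_pt j1]
    refine integral_congr_ae (Eventually.of_forall fun x => ?_)
    show ∫ y, P (pt x y) ^ 2 * ⟪∇ φ x, v⟫ = _
    rw [integral_mul_const]
  have e4 : ∫ x, ⟪(2 : ℝ) • ∫ y, P (pt x y) • (D P (pt x y)).fst, v⟫ * φ x =
      2 * ∫ p : WithLp 2 (V × W), ⟪P p • (D P p).fst, v⟫ * φ p.fst := by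
    rw [integral_pt j2, ← integral_const_mul]
    refine integral_congr_ae ?_
    filter_upwards [(s13_intg i2).1] with x hx
    show _ = 2 * ∫ y, ⟪P (pt x y) • (D P (pt x y)).fst, v⟫ * φ x
    rw [integral_mul_const, real_inner_smul_left, real_inner_comm, ← integral_inner hx, mul_assoc]
    simp_rw [real_inner_comm v]
  rw [e1, e2] at key
  rw [← e3, e4]
  linarith

theorem s13_int_of_slices {F : WithLp 2 (V × W) → ℝ} (hm : AEStronglyMeasurable F volume)
    (h1 : ∀ᵐ x, Integrable fun y => F (pt x y)) (h2 : Integrable fun x => ∫ y, ‖F (pt x y)‖) :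
    Integrable F := by
  have mp := WithLp.volume_preserving_toLp V W
  rw [← mp.integrable_comp hm]
  have hm' : AEStronglyMeasurable (F ∘ WithLp.toLp 2) (volume : Measure (V × W)) :=
    hm.comp_measurePreserving mp
  rw [Measure.volume_eq_prod] at hm' ⊢
  exact (integrable_prod_iff hm').2 ⟨h1, h2⟩

theorem s13_int_cs {f g : V → ℝ} {K : Set V} (hK : IsCompact K) (hf : IntegrableOn f K volume)
    (hg : AEStronglyMeasurable g volume) (hb : Bd g) (h0 : ∀ᵐ x, x ∉ K → g x = 0) :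
    Integrable fun x => f x * g x := by
  obtain ⟨M, hM⟩ := hb
  have h1 : Integrable (K.indicator f) := (integrable_indicator_iff hK.measurableSet).2 hf
  refine (h1.mul_bdd (c := M) hg hM).congr ?_
  filter_upwards [h0] with x hx
  by_cases h : x ∈ K
  · simp [h]
  · simp [h, hx h]

theorem s13_inner_cs {g : V → V} {χ : V → ℝ} {S : Set V}
    (hg : ∀ K, IsCompact K → MemLp g 2 (volume.restrict K)) (h : H1 χ) (hs : CS χ S) :
    Integrable fun x => ⟪g x, D χ x⟫ := by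
  obtain ⟨K, hK, -, h0⟩ := hs
  have h1 : MemLp (K.indicator g) 2 volume :=
    (memLp_indicator_iff_restrict hK.measurableSet).2 (hg K hK)
  refine (s13_inner_int h1 h.dl2).congr ?_
  filter_upwards [CS.D_zero h.hl h0] with x hx
  by_cases h : x ∈ K
  · simp [h]
  · simp [h, hx h]

theorem s13_lap_cont {τ : V → ℝ} (h : ContDiff ℝ 2 τ) : Continuous (lap τ) := by
  have h1 : ContDiff ℝ 1 (fderiv ℝ τ) := h.fderiv_right (by norm_num)
  have h2 : ContDiff ℝ 1 (∇ τ) := (InnerProductSpace.toDual ℝ V).symm.contDiff.comp h1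
  have h3 : Continuous (fderiv ℝ (∇ τ)) := h2.continuous_fderiv (by norm_num)
  have h4 : Continuous ((LinearMap.trace ℝ V).comp (ContinuousLinearMap.coeLM ℝ :
      (V →L[ℝ] V) →ₗ[ℝ] V →ₗ[ℝ] V)) := LinearMap.continuous_of_finiteDimensional _
  exact h4.comp h3

theorem s13_lap_const (c : ℝ) (x : V) : lap (fun _ : V => c) x = 0 := by
  have : ∇ (fun _ : V => c) = fun _ => 0 := funext fun y => gradient_fun_const y c
  simp [lap, dvg, this]

theorem s13_sqrt_le {s : ℝ} (hs : 0 ≤ s) : √s ≤ 1 + s := by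
  nlinarith [Real.sq_sqrt hs, Real.sqrt_nonneg s, sq_nonneg (√s - 1)]

theorem s13_le_of_sq {a s : ℝ} (h : a ^ 2 ≤ s) : a ≤ 1 + s := by
  nlinarith [sq_nonneg (a - 1), sq_nonneg a]

theorem s13_alg {N H τ : ℝ} {G t : V} (hN : 0 ≤ N) (hH : 0 ≤ H) (h : ‖G‖ ^ 2 ≤ N * H) :
    ‖(√(N + τ ^ 2))⁻¹ • (G + τ • t)‖ ^ 2 ≤ H + ‖t‖ ^ 2 := by
  have h0 : 0 ≤ N + τ ^ 2 := by positivity
  rcases h0.eq_or_lt with h1 | h1
  · rw [← h1]
    simp only [Real.sqrt_zero, inv_zero, zero_smul, norm_zero]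
    nlinarith [sq_nonneg ‖t‖]
  rw [norm_smul, mul_pow, Real.norm_eq_abs, sq_abs, inv_pow, Real.sq_sqrt h0,
    inv_mul_le_iff₀ h1]
  have h2 : ‖G + τ • t‖ ≤ ‖G‖ + |τ| * ‖t‖ := by
    rw [← Real.norm_eq_abs, ← norm_smul]
    exact norm_add_le _ _
  have h3 : ‖G + τ • t‖ ^ 2 ≤ (‖G‖ + |τ| * ‖t‖) ^ 2 := pow_le_pow_left₀ (norm_nonneg _) h2 2
  have h4 : ‖G‖ ≤ √N * √H := by
    rw [← Real.sqrt_mul hN]
    exact Real.le_sqrt_of_sq_le h
  have h5 : (‖G‖ + |τ| * ‖t‖) ^ 2 ≤ (√N * √H + |τ| * ‖t‖) ^ 2 :=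
    pow_le_pow_left₀ (by positivity) (by linarith) 2
  have h6 : (√N * √H + |τ| * ‖t‖) ^ 2 ≤ (√N ^ 2 + |τ| ^ 2) * (√H ^ 2 + ‖t‖ ^ 2) := by
    nlinarith [sq_nonneg (√N * ‖t‖ - |τ| * √H)]
  rw [Real.sq_sqrt hN, Real.sq_sqrt hH, sq_abs] at h6
  linarith

theorem s13_inv {u τ : V → ℝ} (a : Hl u) (hτ : Continuous τ) (h0 : ∀ x, 0 < τ x)
    (hle : ∀ x, τ x ≤ u x) :
    Bl (fun x => (u x)⁻¹) ∧ ∀ᵐ x, D (fun x => (u x)⁻¹) x = -((u x ^ 2)⁻¹) • D u x := by
  have c1 : Continuous fun x => min (τ x) 1 := hτ.min continuous_const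
  have p1 : ∀ x, 0 < min (τ x) 1 := fun x => lt_min (h0 x) one_pos
  have c2 : Continuous fun x => (min (τ x) 1)⁻¹ := c1.inv₀ fun x => (p1 x).ne'
  have l1 : ∀ (n : ℕ) x, min (τ x) 1 ≤ S04.T (n + 1) (u x) := by
    intro n x
    refine le_max_of_le_left (min_le_min (hle x) ?_)
    push_cast
    linarith [(Nat.cast_nonneg n : (0 : ℝ) ≤ n)]
  have lp : ∀ n : ℕ, LP fun x => S04.T (n + 1) (u x) := by
    intro n K hK
    obtain ⟨c, hc, h⟩ := Continuous.lp' c1 p1 K hK
    exact ⟨c, hc, h.mono fun x hx hxK => (hx hxK).trans (l1 n x)⟩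
  have hw : ∀ n : ℕ, IsW (fun x => (S04.T (n + 1) (u x))⁻¹)
      (fun x => -((S04.T (n + 1) (u x) ^ 2)⁻¹) • S04.TD (n + 1) u x) := by
    intro n
    obtain ⟨b1, b2⟩ := S04.T_bl a (n + 1)
    obtain ⟨b3, b4⟩ := b1.inv (lp n)
    refine b3.hl.isW.congr (Eventually.of_forall fun x => rfl) ?_
    filter_upwards [b2, b4] with x h2 h4
    rw [h4, h2]
  have b1 : ∀ {t : ℝ} {x : V}, min (τ x) 1 ≤ t → |t⁻¹| ≤ (min (τ x) 1)⁻¹ := by
    intro t x ht
    rw [abs_of_pos (inv_pos.2 ((p1 x).trans_le ht))]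
    exact inv_anti₀ (p1 x) ht
  have b2 : ∀ {t : ℝ} {x : V} {g : V}, min (τ x) 1 ≤ t → ‖g‖ ≤ ‖D u x‖ →
      ‖-((t ^ 2)⁻¹) • g‖ ≤ (min (τ x) 1)⁻¹ ^ 2 * ‖D u x‖ := by
    intro t x g ht hg
    rw [norm_smul, norm_neg, ← inv_pow, norm_pow, Real.norm_eq_abs]
    exact mul_le_mul (pow_le_pow_left₀ (abs_nonneg _) (b1 ht) 2) hg (norm_nonneg _)
      (sq_nonneg _)
  have li : LocallyIntegrable (fun x => (min (τ x) 1)⁻¹ ^ 2 * ‖D u x‖) volume :=
    LocallyIntegrable.continuous_mul (c2.pow 2) fun x => (a.isW.lg x).norm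
  have key : IsW (fun x => (u x)⁻¹) (fun x => -((u x ^ 2)⁻¹) • D u x) := by
    refine s13_isW_lim hw c2.locallyIntegrable li
      (fun n => Eventually.of_forall fun x => b1 (l1 n x))
      (fun n => Eventually.of_forall fun x => b2 (l1 n x) (S04.TD_norm _ _ _))
      (Eventually.of_forall fun x => ?_) (Eventually.of_forall fun x => ?_)
    · refine tendsto_const_nhds.congr' ?_
      filter_upwards [(tendsto_add_atTop_nat 1).eventually (S04.T_ev (u x))] with n hn
      rw [hn]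
    · refine tendsto_const_nhds.congr' ?_
      filter_upwards [(tendsto_add_atTop_nat 1).eventually (S04.T_ev (u x)),
        (tendsto_add_atTop_nat 1).eventually (S04.TD_ev u x)] with n hn hn'
      rw [hn, hn']
  have l2 : ∀ x, min (τ x) 1 ≤ u x := fun x => (min_le_left _ _).trans (hle x)
  refine ⟨⟨key.hl (fun K hK => ?_) (fun K hK => ?_), fun K hK => ?_⟩, key.D_eq⟩
  · refine (s01_memLp_two c2 hK).of_le key.lu.aestronglyMeasurable.restrict
      (Eventually.of_forall fun x => (b1 (l2 x)).trans (le_abs_self _))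
  · obtain ⟨M, hM⟩ := s01_bd_cpt (c2.pow 2) hK
    refine ((a.dl2 K hK).norm.const_mul M).of_le key.lg.aestronglyMeasurable.restrict ?_
    filter_upwards [ae_restrict_mem hK.measurableSet] with x hx
    refine (b2 (l2 x) le_rfl).trans (le_trans ?_ (le_abs_self _))
    exact mul_le_mul_of_nonneg_right ((le_abs_self _).trans (hM x hx)) (norm_nonneg _)
  · obtain ⟨M, hM⟩ := s01_bd_cpt c2 hK
    exact ⟨M, Eventually.of_forall fun x hx =>
      (b1 (l2 x)).trans ((le_abs_self _).trans (hM x hx))⟩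

end

end Crest.Agent.R335
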