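import Crest.Agent.R335.T1Aux1

/-! Row 335: size of the barrier `θT` (auxiliary file for `T1c`). -/

set_option autoImplicit false

open MeasureTheory Set Filter Topology Metric
open scoped Gradient ContDiff RealInnerProductSpace ENNReal

namespace Crest.Agent.R335

noncomputable section

theorem T1B_y {s : ℝ} (h : 0 ≤ s) : βT s = Real.pi / 2 * (s ^ 2 / (1 + s) ^ 2) ∧
    0 ≤ s ^ 2 / (1 + s) ^ 2 ∧ s ^ 2 / (1 + s) ^ 2 < 1 ∧
      1 - s ^ 2 / (1 + s) ^ 2 = (1 + 2 * s) / (1 + s) ^ 2 := by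
  refine ⟨by rw [βT, abs_of_nonneg h, sq s], by positivity, ?_, ?_⟩
  · rw [div_lt_one (by positivity)]
    nlinarith
  · field_simp
    ring

theorem T1B_trig {y : ℝ} (h0 : 0 ≤ y) (h1 : y ≤ 1) :
    y ≤ Real.sin (Real.pi / 2 * y) ∧ 1 - y ≤ Real.cos (Real.pi / 2 * y) := by
  have hπ := Real.pi_pos
  have a0 : 0 ≤ Real.pi / 2 * y := by positivity
  have a1 : Real.pi / 2 * y ≤ Real.pi / 2 := by nlinarith
  have e : 2 / Real.pi * (Real.pi / 2 * y) = y := by field_simp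
  have h2 := Real.mul_le_sin a0 a1
  have h3 := Real.one_sub_mul_le_cos a0 a1
  rw [e] at h2 h3
  exact ⟨h2, h3⟩

theorem T1B_β {s : ℝ} (h : 0 ≤ s) : 0 ≤ βT s ∧ βT s < Real.pi / 2 ∧ (0 < s → 0 < βT s) ∧
    s ^ 2 / (1 + s) ^ 3 ≤ Real.sin (βT s) * Real.cos (βT s) ∧ βT s ≤ 2 * s ^ 2 ∧
    (1 + s)⁻¹ ≤ Real.cos (βT s) ∧ Real.pi / 2 - Real.pi / (1 + s) ≤ βT s := by
  obtain ⟨e, y0, y1, y2⟩ := T1B_y h
  obtain ⟨t1, t2⟩ := T1B_trig y0 y1.le
  have hπ := Real.pi_pos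
  have hc : (1 + s)⁻¹ ≤ 1 - s ^ 2 / (1 + s) ^ 2 := by
    rw [y2, inv_eq_one_div, div_le_div_iff₀ (by positivity) (by positivity)]
    nlinarith
  rw [e]
  refine ⟨by positivity, by nlinarith, fun hs => by positivity, ?_, ?_, hc.trans t2, ?_⟩
  · calc s ^ 2 / (1 + s) ^ 3 = s ^ 2 / (1 + s) ^ 2 * (1 + s)⁻¹ := by field_simp
      _ ≤ _ := mul_le_mul t1 (hc.trans t2) (by positivity) (y0.trans t1)
  · have h1 : s ^ 2 / (1 + s) ^ 2 ≤ s ^ 2 := div_le_self (sq_nonneg s) (by nlinarith)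
    have := Real.pi_le_four
    nlinarith
  · have h1 : 1 - s ^ 2 / (1 + s) ^ 2 ≤ 2 / (1 + s) := by
      rw [y2, div_le_div_iff₀ (by positivity) (by positivity)]
      nlinarith
    have h2 : Real.pi / (1 + s) = Real.pi / 2 * (2 / (1 + s)) := by field_simp
    rw [h2]
    nlinarith

theorem T1B_der (s : ℝ) : 0 ≤ deriv βT s ∧ deriv βT s ≤ 4 ∧
    deriv βT s * |Real.tan (βT s)| ≤ 4 := by
  have hπ := Real.pi_pos
  have h4 := Real.pi_le_four
  have h0 := abs_nonneg s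
  have ht : |Real.tan (βT s)| ≤ 1 + |s| := by
    have e : |Real.tan (βT s)| = |Real.tan (βT |s|)| := by
      rcases abs_cases s with h | h
      · rw [h.1]
      · rw [h.1, T1A_β_neg, Real.tan_neg, abs_neg]
    have hc := (T1B_β h0).2.2.2.2.2.1
    have hc0 : 0 < Real.cos (βT |s|) := lt_of_lt_of_le (by positivity) hc
    rw [e, Real.tan_eq_sin_div_cos, abs_div, abs_of_pos hc0, div_le_iff₀ hc0]
    calc |Real.sin (βT |s|)| ≤ 1 := Real.abs_sin_le_one _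
      _ = (1 + |s|) * (1 + |s|)⁻¹ := by field_simp
      _ ≤ _ := by gcongr
  have h1 : Real.pi * |s| / (1 + |s|) ^ 3 * (1 + |s|) ≤ 4 := by
    rw [div_mul_eq_mul_div, div_le_iff₀ (by positivity)]
    have : Real.pi * |s| * (1 + |s|) ≤ 4 * |s| * (1 + |s|) := by gcongr
    nlinarith [mul_nonneg h0 h0, mul_nonneg (mul_nonneg h0 h0) h0]
  have h2 : 0 ≤ Real.pi * |s| / (1 + |s|) ^ 3 := by positivity
  rw [T1A_β_deriv]
  refine ⟨h2, by nlinarith, (mul_le_mul_of_nonneg_left ht h2).trans h1⟩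

theorem T1B_q (m : MD) (x : E) : m.Dm x = √(jb x) * m.qT x := by
  have h := (radb_facts ((2 - 2 * m.l) / m.κ - 2) m.κ 0 x).2.2.2.2.2 (-(1 / 2))
  have hj := f0b_jb_pos x
  have e : m.qT x = jb x ^ (-(1 / 2) : ℝ) * m.Dm x := h
  rw [e, Real.sqrt_eq_rpow, ← mul_assoc, ← Real.rpow_add hj]
  simp

theorem T1B_sqrt (x : E) : 1 ≤ √(jb x) ∧ √(jb x) ≤ jb x := by
  have h := f0b_jb_one x
  refine ⟨Real.one_le_sqrt.2 h, ?_⟩
  rw [Real.sqrt_le_left (by linarith)]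
  nlinarith

theorem T1B_z (x : E) : |x 2| ≤ jb x := by
  have h : |x 2| ≤ ‖x‖ := by simpa using PiLp.norm_apply_le x 2
  exact h.trans (f0b_norm_le x)

theorem T1B_grad (m : MD) : ∃ C : ℝ, 0 ≤ C ∧ ∀ x, ‖∇ m.qT x‖ ≤ C * m.qT x := by
  obtain ⟨a, ha⟩ : ∃ a, a = (2 - 2 * m.l) / m.κ - 2 + -(1 / 2) := ⟨_, rfl⟩
  refine ⟨|a| + |m.κ|, by positivity, fun x => ?_⟩
  have e : m.qT = radb a m.κ 0 := by rw [ha]; rfl
  have hj := f0b_jb_one x
  have hq := (radb_facts a m.κ 0 x).1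
  rw [e, (radb_facts a m.κ 0 x).2.2.1, norm_smul, Real.norm_eq_abs, abs_div, abs_mul,
    abs_of_pos hq, abs_of_pos (f0b_jb_pos x)]
  have h1 : |ell a m.κ 0 x| ≤ |a| + |m.κ| := by
    rw [ell, zero_div, sub_zero]
    refine (abs_sub _ _).trans ?_
    rw [abs_div, abs_of_pos (f0b_jb_pos x)]
    have := div_le_self (abs_nonneg a) hj
    linarith
  calc radb a m.κ 0 x * |ell a m.κ 0 x| / jb x * ‖x‖
      ≤ radb a m.κ 0 x * (|a| + |m.κ|) / jb x * jb x := by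
        gcongr
        exact f0b_norm_le x
    _ = _ := by field_simp

variable {o : OD} {m : MD} {c Γ K : ℝ}

theorem T1B_X (hF : FD o m Γ) (hK : 1 ≤ K) {x : E} (hx : x ∈ Hp) :
    x 2 * √(jb x) / (Γ * K) ≤ m.xT K x ∧ m.xT K x ≤ Γ * jb x ^ 2 / K := by
  have hq := (T1A_q m).2.1 x
  have hΓ := hF.Γ1
  obtain ⟨h1, h2⟩ := hF.f_bd x hx
  have hz : 0 ≤ x 2 := hx
  have hz' : x 2 ≤ jb x := (le_abs_self _).trans (T1B_z x)
  obtain ⟨s1, s2⟩ := T1B_sqrt x
  have hj := f0b_jb_pos x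
  rw [T1B_q] at h1 h2
  constructor
  · calc x 2 * √(jb x) / (Γ * K) = x 2 * (√(jb x) * m.qT x) / Γ / (K * m.qT x) := by field_simp
      _ ≤ m.f x / (K * m.qT x) := by gcongr
  · calc m.f x / (K * m.qT x) ≤ Γ * (x 2 * (√(jb x) * m.qT x)) / (K * m.qT x) := by gcongr
      _ ≤ Γ * (jb x * (jb x * m.qT x)) / (K * m.qT x) := by gcongr
      _ = Γ * jb x ^ 2 / K := by field_simp

theorem T1B_f (hm : m.OK o c) (hF : FD o m Γ) (x : E) : |m.f x| ≤ Γ * (|x 2| * m.Dm x) := by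
  refine F7cA_even (P := fun x => |m.f x| ≤ Γ * (|x 2| * m.Dm x)) (fun x hx => ?_)
    (fun x h => ?_) x
  · obtain ⟨h1, h2⟩ := hF.f_bd x hx
    have hz : 0 ≤ x 2 := hx
    have hΓ := hF.Γ1
    have := F7cA_Dm_pos m x
    rwa [abs_of_nonneg hz, abs_of_nonneg (le_trans (by positivity) h1)]
  · have e : m.Dm (R x) = m.Dm x := (radb_facts _ _ _ x).2.1
    rwa [hm.cf.2.2, R_two, abs_neg, abs_neg, e] at h

theorem T1B_int (hm : m.OK o c) (hF : FD o m Γ) (hK : 1 ≤ K) (hκ : 0 < m.κ) :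
    Integrable fun x => m.r x ^ 2 * ‖D (m.xT K) x‖ ^ 2 := by
  have hK0 : 0 < K := by linarith
  have hΓ := hF.Γ1
  obtain ⟨bX, -, -, dX⟩ := T1A_X hm hK0
  obtain ⟨C, hC, hg⟩ := T1B_grad m
  have mr : AEStronglyMeasurable (fun x => m.r x ^ 2) volume := hm.h1.1.l2.1.pow 2
  have mX : AEStronglyMeasurable (fun x => ‖D (m.xT K) x‖ ^ 2) volume :=
    bX.hl.aesm_D.norm.pow 2
  have lr : LB fun x => m.r x ^ 2 := by
    refine Bd.lb ⟨c ^ 2, ?_⟩
    filter_upwards [hm.bd] with x hx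
    rw [abs_of_nonneg (sq_nonneg _)]
    exact pow_le_pow_left₀ (hm.nn x).1 hx.1 2
  have hB : IsCompact (closedBall (0 : E) (|o.d| + 1)) := isCompact_closedBall _ _
  have i1 : IntegrableOn (fun x => m.r x ^ 2 * ‖D (m.xT K) x‖ ^ 2)
      (closedBall (0 : E) (|o.d| + 1)) volume :=
    S12_lb_mul mr lr hB (bX.hl.dl2 _ hB).norm.integrable_sq
  have i2 : IntegrableOn (fun x => m.r x ^ 2 * ‖D (m.xT K) x‖ ^ 2)
      (closedBall (0 : E) (|o.d| + 1))ᶜ volume := by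
    have hI := ((radb_memLp ((2 - 2 * m.l) / m.κ - 2 + (3 : ℕ)) 0 hκ).1.integrable_sq.const_mul
      ((Γ * (Γ * (2 + C))) ^ 2)).integrableOn (s := (closedBall (0 : E) (|o.d| + 1))ᶜ)
    refine hI.mono' (mr.mul mX).restrict ?_
    filter_upwards [ae_restrict_mem hB.measurableSet.compl, ae_restrict_of_ae dX,
      ae_restrict_of_ae hF.df, ae_restrict_of_ae hF.g_bd, ae_restrict_of_ae hm.pyth]
      with x hx e1 e2 e3 e4
    have hx' : |o.d| + 1 < ‖x‖ := by simpa using hx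
    have hn : ‖o.d • ez‖ = |o.d| := F0d.norm_smul_ez _
    have ha : x ∈ o.away := by
      constructor
      · have := norm_sub_norm_le x (o.d • ez)
        linarith
      · have := norm_sub_norm_le x (-(o.d • ez))
        rw [sub_neg_eq_add, norm_neg] at this
        linarith
    have hq := (T1A_q m).2.1 x
    have hj := f0b_jb_one x
    have hD := F7cA_Dm_pos m x
    have hz := T1B_z x
    obtain ⟨s1, s2⟩ := T1B_sqrt x
    have hf := T1B_f hm hF x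
    have hDq : m.Dm x ≤ jb x * m.qT x := by
      rw [T1B_q]
      gcongr
    have b1 : ‖D (m.xT K) x‖ ≤ Γ * (2 + C) * jb x ^ 2 := by
      have c1 : ‖(K * m.qT x)⁻¹ • D m.f x‖ ≤ Γ * 2 * jb x ^ 2 := by
        rw [norm_smul, Real.norm_of_nonneg (by positivity)]
        calc (K * m.qT x)⁻¹ * ‖D m.f x‖
            ≤ (1 * m.qT x)⁻¹ * (Γ * ((jb x + jb x) * (jb x * m.qT x))) := by
              refine mul_le_mul (by gcongr) ((e2 ha).1.trans ?_) (norm_nonneg _) (by positivity)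
              gcongr
          _ = _ := by
              field_simp
              ring
      have c2 : ‖(m.f x / (K * m.qT x ^ 2)) • ∇ m.qT x‖ ≤ Γ * C * jb x ^ 2 := by
        rw [norm_smul, Real.norm_eq_abs, abs_div, abs_of_pos (by positivity : 0 < K * m.qT x ^ 2)]
        calc |m.f x| / (K * m.qT x ^ 2) * ‖∇ m.qT x‖
            ≤ Γ * (jb x * (jb x * m.qT x)) / (1 * m.qT x ^ 2) * (C * m.qT x) := by
              refine mul_le_mul ?_ (hg x) (norm_nonneg _) (by positivity)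
              gcongr
              refine hf.trans ?_
              gcongr
          _ = _ := by field_simp
      rw [e1]
      refine (norm_sub_le _ _).trans ?_
      linarith
    have b2 : m.r x ^ 2 ≤ (Γ * (jb x * m.Dm x)) ^ 2 := by
      have c1 : m.f x ^ 2 ≤ (Γ * (|x 2| * m.Dm x)) ^ 2 := by
        rw [← sq_abs (m.f x)]
        exact pow_le_pow_left₀ (abs_nonneg _) hf 2
      have c2 : m.g x ^ 2 ≤ (Γ * m.Dm x) ^ 2 :=
        pow_le_pow_left₀ (hm.nn x).2.2.2.1 (e3.trans (div_le_self (by positivity) hj)) 2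
      have c3 := mul_le_mul_of_nonneg_right (F7cA_z_sq x) (sq_nonneg (Γ * m.Dm x))
      rw [mul_pow, mul_pow, sq_abs] at c1
      rw [e4.2.1]
      nlinarith
    have e5 : radb ((2 - 2 * m.l) / m.κ - 2 + (3 : ℕ)) m.κ 0 x = jb x ^ 3 * m.Dm x := by
      rw [(radb_facts _ _ _ x).2.2.2.2.2, Real.rpow_natCast]
      rfl
    rw [Real.norm_of_nonneg (by positivity), e5]
    calc m.r x ^ 2 * ‖D (m.xT K) x‖ ^ 2
        ≤ (Γ * (jb x * m.Dm x)) ^ 2 * (Γ * (2 + C) * jb x ^ 2) ^ 2 := by gcongr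
      _ = _ := by ring
  have := i1.union i2
  rwa [union_compl_self, integrableOn_univ] at this

theorem T1B_c (hm : m.OK o c) (hκ : 0 < m.κ) (hF : FD o m Γ) (hK : 1 ≤ K) :
    Integrable (fun x => m.r x ^ 2 * ‖D (m.θT K) x‖ ^ 2) ∧
    Integrable (fun x => m.r x ^ 2 * ‖D (m.θT K) x‖ * |Real.tan (m.θT K x)|) ∧
    (∀ x ∈ Hp, 0 ≤ m.θT K x ∧ m.θT K x < Real.pi / 2 ∧ (0 < x 2 → 0 < m.xT K x ∧ 0 < m.θT K x) ∧
      m.xT K x ^ 2 / (1 + m.xT K x) ^ 3 ≤ Real.sin (m.θT K x) * Real.cos (m.θT K x) ∧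
      m.θT K x ≤ 2 * (Γ * jb x ^ 2 / K) ^ 2) ∧
    ∀ s ε : ℝ, 0 < s → 0 < ε → ∃ ρ : ℝ, ∀ x, ρ ≤ ‖x‖ → s ≤ x 2 → Real.pi / 2 - ε ≤ m.θT K x := by
  have hK0 : 0 < K := by linarith
  have hΓ := hF.Γ1
  obtain ⟨bX, cX, -, -⟩ := T1A_X hm hK0
  obtain ⟨bθ, dθ⟩ : Bl (m.θT K) ∧ ∀ᵐ x, D (m.θT K) x = deriv βT (m.xT K x) • D (m.xT K) x :=
    bX.comp T1A_β_c1
  have cθ : Continuous (m.θT K) := T1A_β_c1.continuous.comp cX
  have hI := T1B_int hm hF hK hκ
  have mr : AEStronglyMeasurable (fun x => m.r x ^ 2) volume := hm.h1.1.l2.1.pow 2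
  have pX : ∀ x ∈ Hp, 0 ≤ m.xT K x := fun x hx => by
    have hz : 0 ≤ x 2 := hx
    exact le_trans (by positivity) (T1B_X hF hK hx).1
  refine ⟨?_, ?_, fun x hx => ?_, fun s ε hs hε => ?_⟩
  · refine (hI.const_mul 16).mono' (mr.mul (bθ.hl.aesm_D.norm.pow 2)) ?_
    filter_upwards [dθ] with x hx
    obtain ⟨a1, a2, -⟩ := T1B_der (m.xT K x)
    rw [Real.norm_of_nonneg (by positivity), hx, norm_smul, Real.norm_of_nonneg a1]
    calc m.r x ^ 2 * (deriv βT (m.xT K x) * ‖D (m.xT K) x‖) ^ 2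
        ≤ m.r x ^ 2 * (4 * ‖D (m.xT K) x‖) ^ 2 := by gcongr
      _ = _ := by ring
  · have mt : AEStronglyMeasurable (fun x => |Real.tan (m.θT K x)|) volume := by
      simp only [Real.tan_eq_sin_div_cos]
      exact ((Real.continuous_sin.comp cθ).measurable.div
        (Real.continuous_cos.comp cθ).measurable).aestronglyMeasurable.norm
    refine ((hI.add hm.h1.1.l2.integrable_sq).const_mul 2).mono'
      ((mr.mul bθ.hl.aesm_D.norm).mul mt) ?_
    filter_upwards [dθ] with x hx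
    obtain ⟨a1, -, a3⟩ := T1B_der (m.xT K x)
    rw [Real.norm_of_nonneg (by positivity), hx, norm_smul, Real.norm_of_nonneg a1]
    calc m.r x ^ 2 * (deriv βT (m.xT K x) * ‖D (m.xT K) x‖) * |Real.tan (m.θT K x)|
        = m.r x ^ 2 * ‖D (m.xT K) x‖ * (deriv βT (m.xT K x) * |Real.tan (βT (m.xT K x))|) := by
          simp only [MD.θT]
          ring
      _ ≤ m.r x ^ 2 * ‖D (m.xT K) x‖ * 4 := by gcongr
      _ ≤ _ := by
          simp only [Pi.add_apply]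
          nlinarith [mul_nonneg (sq_nonneg (m.r x)) (sq_nonneg (‖D (m.xT K) x‖ - 1))]
  · obtain ⟨a1, a2, a3, a4, a5, -, -⟩ := T1B_β (pX x hx)
    obtain ⟨x1, x2⟩ := T1B_X hF hK hx
    refine ⟨a1, a2, fun hz => ?_, a4, a5.trans ?_⟩
    · have := (T1B_sqrt x).1
      have h : 0 < m.xT K x := lt_of_lt_of_le (by positivity) x1
      exact ⟨h, a3 h⟩
    · have := pX x hx
      gcongr
  · refine ⟨(Real.pi / ε * (Γ * K) / s) ^ 2, fun x h1 h2 => ?_⟩
    have hx : x ∈ Hp := hs.le.trans h2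
    have hπ := Real.pi_pos
    have a1 : Real.pi / ε * (Γ * K) / s ≤ √(jb x) :=
      Real.le_sqrt_of_sq_le (h1.trans (f0b_norm_le x))
    have a2 : Real.pi / ε ≤ m.xT K x := by
      refine le_trans ?_ (T1B_X hF hK hx).1
      calc Real.pi / ε = s * (Real.pi / ε * (Γ * K) / s) / (Γ * K) := by field_simp
        _ ≤ _ := by gcongr
    have a3 : Real.pi / (1 + m.xT K x) ≤ ε := by
      have := pX x hx
      rw [div_le_iff₀ (by positivity)]
      rw [div_le_iff₀ hε] at a2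
      nlinarith
    have := (T1B_β (pX x hx)).2.2.2.2.2.2
    simp only [MD.θT]
    linarith

end

end Crest.Agent.R335
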