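import Crest.Agent.R335.U1

/-! Row 335: angle representation of admissible pairs. -/

set_option autoImplicit false

open MeasureTheory Set Filter Topology Metric
open scoped Gradient ContDiff RealInnerProductSpace ENNReal

namespace Crest.Agent.R335

noncomputable section

namespace U3a

theorem key {r w : E → ℝ} (hr : Bl r) (hw : Hl w) :
    Bl (fun x => r x * Real.cos (w x)) ∧ Bl (fun x => r x * Real.sin (w x)) ∧
      ∀ᵐ x, ‖D (fun x => r x * Real.cos (w x)) x‖ ^ 2 + ‖D (fun x => r x * Real.sin (w x)) x‖ ^ 2 =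
        ‖D r x‖ ^ 2 + r x ^ 2 * ‖D w x‖ ^ 2 := by
  obtain ⟨c1, c2⟩ := hw.comp (β := Real.cos) (L := 1) Real.contDiff_cos
    (fun t => by simpa using Real.abs_sin_le_one t)
  obtain ⟨s1, s2⟩ := hw.comp (β := Real.sin) (L := 1) Real.contDiff_sin
    (fun t => by simpa using Real.abs_cos_le_one t)
  have bc : Bl fun x => Real.cos (w x) :=
    ⟨c1, Bd.lb ⟨1, Eventually.of_forall fun x => Real.abs_cos_le_one _⟩⟩
  have bs : Bl fun x => Real.sin (w x) :=
    ⟨s1, Bd.lb ⟨1, Eventually.of_forall fun x => Real.abs_sin_le_one _⟩⟩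
  obtain ⟨m1, m2⟩ := hr.mul bc
  obtain ⟨n1, n2⟩ := hr.mul bs
  refine ⟨m1, n1, ?_⟩
  filter_upwards [c2, s2, m2, n2] with x h1 h2 h3 h4
  rw [h3, h4, h1, h2, Real.deriv_cos', Real.deriv_sin, norm_add_sq_real, norm_add_sq_real]
  simp only [norm_smul, mul_pow, Real.norm_eq_abs, sq_abs, real_inner_smul_left,
    real_inner_smul_right]
  have := Real.sin_sq_add_cos_sq (w x)
  linear_combination (‖D r x‖ ^ 2 + r x ^ 2 * ‖D w x‖ ^ 2) * this

theorem int_sq {u : E → ℝ} (h : H1 u) : Integrable fun x => ‖D u x‖ ^ 2 :=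
  (memLp_two_iff_integrable_sq_norm h.dl2.1).1 h.dl2

theorem h1_of_le {r f : E → ℝ} {G : E → ℝ} (hr : H1 r) (hf : Hl f) (h1 : ∀ x, |f x| ≤ |r x|)
    (hG : Integrable G) (h2 : ∀ᵐ x, ‖D f x‖ ^ 2 ≤ G x) : H1 f := by
  refine hf.h1 (hr.l2.of_le hf.aesm (Eventually.of_forall h1)) ?_
  rw [memLp_two_iff_integrable_sq_norm hf.aesm_D]
  refine hG.mono' (hf.aesm_D.norm.pow 2) ?_
  filter_upwards [h2] with x hx
  rwa [Real.norm_of_nonneg (by positivity)]

theorem adm_angle {r w : E → ℝ} (hr : H1 r) (hb : Bd r) (he : Ev r) (hw : Hl w) (ho : Od w)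
    (hi : Integrable fun x => r x ^ 2 * ‖D w x‖ ^ 2) :
    Adm r (fun x => r x * Real.cos (w x)) (fun x => r x * Real.sin (w x)) ∧
      dir (fun x => r x * Real.cos (w x)) + dir (fun x => r x * Real.sin (w x)) =
        dir r + ∫ x, r x ^ 2 * ‖D w x‖ ^ 2 := by
  obtain ⟨k1, k2, k3⟩ := key ⟨hr.hl, hb.lb⟩ hw
  have hG := (int_sq hr).add hi
  have a1 : H1 fun x => r x * Real.cos (w x) := by
    refine h1_of_le hr k1.hl (fun x => ?_) hG ?_
    · rw [abs_mul]
      exact mul_le_of_le_one_right (abs_nonneg _) (Real.abs_cos_le_one _)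
    · filter_upwards [k3] with x hx
      simp only [Pi.add_apply]
      linarith [sq_nonneg ‖D (fun x => r x * Real.sin (w x)) x‖]
  have a2 : H1 fun x => r x * Real.sin (w x) := by
    refine h1_of_le hr k2.hl (fun x => ?_) hG ?_
    · rw [abs_mul]
      exact mul_le_of_le_one_right (abs_nonneg _) (Real.abs_sin_le_one _)
    · filter_upwards [k3] with x hx
      simp only [Pi.add_apply]
      linarith [sq_nonneg ‖D (fun x => r x * Real.cos (w x)) x‖]
  refine ⟨⟨a1, a2, ?_, ?_, Eventually.of_forall fun x => ?_⟩, ?_⟩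
  · filter_upwards [he, ho] with x h1 h2
    rw [h1, h2, Real.cos_neg]
  · filter_upwards [he, ho] with x h1 h2
    rw [h1, h2, Real.sin_neg, mul_neg]
  · linear_combination r x ^ 2 * Real.sin_sq_add_cos_sq (w x)
  · unfold dir
    rw [← integral_add (int_sq a1) (int_sq a2), ← integral_add (int_sq hr) hi]
    exact integral_congr_ae k3

theorem arcsin_eq {r φ ψ : ℝ} (hr : 0 < r) (hφ : 0 ≤ φ) (h : φ ^ 2 + ψ ^ 2 = r ^ 2) :
    Real.arcsin (ψ / r) = 2 * Real.arctan (ψ / (r + φ)) ∧ φ = r * Real.cos (Real.arcsin (ψ / r)) ∧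
      ψ = r * Real.sin (Real.arcsin (ψ / r)) := by
  have h0 : 0 < r + φ := by linarith
  have h1 : |ψ| ≤ r := abs_le_of_sq_le_sq' (by nlinarith) hr.le |> abs_le.2
  obtain ⟨h2, h3⟩ := abs_le.1 h1
  have h4 : -1 ≤ ψ / r := by rw [le_div_iff₀ hr]; linarith
  have h5 : ψ / r ≤ 1 := by rw [div_le_iff₀ hr]; linarith
  refine ⟨?_, ?_, ?_⟩
  · have a1 : Real.arctan (ψ / (r + φ)) ≤ Real.pi / 4 := by
      rw [← Real.arctan_one]
      exact Real.arctan_mono (by rw [div_le_iff₀ h0]; linarith)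
    have a2 : -(Real.pi / 4) ≤ Real.arctan (ψ / (r + φ)) := by
      rw [← Real.arctan_one, ← Real.arctan_neg]
      exact Real.arctan_mono (by rw [le_div_iff₀ h0]; linarith)
    rw [← Real.arcsin_sin (x := 2 * Real.arctan (ψ / (r + φ))) (by linarith) (by linarith)]
    congr 1
    have e : 1 + (ψ / (r + φ)) ^ 2 = 2 * r / (r + φ) := by
      field_simp
      linarith
    have hs : √(1 + (ψ / (r + φ)) ^ 2) * √(1 + (ψ / (r + φ)) ^ 2) = 2 * r / (r + φ) := by
      rw [Real.mul_self_sqrt (by positivity), e]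
    rw [Real.sin_two_mul, Real.sin_arctan, Real.cos_arctan, mul_assoc, div_mul_div_comm, hs]
    field_simp
  · rw [Real.cos_arcsin]
    have e : 1 - (ψ / r) ^ 2 = (φ / r) ^ 2 := by
      field_simp
      linarith
    rw [e, Real.sqrt_sq (by positivity)]
    field_simp
  · rw [Real.sin_arcsin h4 h5]
    field_simp

theorem sin_sq_bd (a h : ℝ) :
    |Real.sin (a + h) ^ 2 - Real.sin a ^ 2 - h * (2 * Real.sin a * Real.cos a)| ≤ 2 * h ^ 2 := by
  have hd : ∀ t ∈ closedBall (0 : ℝ) |h|, HasDerivWithinAt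
      (fun t => Real.sin (a + t) ^ 2 - t * (2 * Real.sin a * Real.cos a))
      (Real.sin (2 * (a + t)) - Real.sin (2 * a)) (closedBall (0 : ℝ) |h|) t := by
    intro t _
    have h1 : HasDerivAt (fun t => Real.sin (a + t)) (Real.cos (a + t)) t := by
      simpa using ((hasDerivAt_id t).const_add a).sin
    have h2 := (h1.fun_pow 2).fun_sub ((hasDerivAt_id' t).mul_const (2 * Real.sin a * Real.cos a))
    refine (h2.congr_deriv ?_).hasDerivWithinAt
    rw [Real.sin_two_mul, Real.sin_two_mul]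
    norm_num
  have := (convex_closedBall (0 : ℝ) |h|).norm_image_sub_le_of_norm_hasDerivWithin_le
    (C := 2 * |h|) hd (fun t ht => by
      have h1 := Real.abs_sin_sub_sin_le (2 * (a + t)) (2 * a)
      have h2 : |t| ≤ |h| := by simpa using ht
      rw [show 2 * (a + t) - 2 * a = 2 * t by ring, abs_mul, abs_two] at h1
      rw [Real.norm_eq_abs]
      linarith) (mem_closedBall_self (abs_nonneg h)) (y := h) (by simp)
  simp only [Real.norm_eq_abs, add_zero, zero_mul, sub_zero] at this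
  rw [mul_assoc 2 |h|, abs_mul_abs_self, ← sq] at this
  convert this using 2
  ring

theorem eq_zero_of_quad {A B : ℝ} (h : ∀ ε : ℝ, 0 ≤ ε * A + ε ^ 2 * B) : A = 0 := by
  by_contra hA
  have h0 : 0 < |B| + 1 := by positivity
  have h1 := h (-A / (|B| + 1))
  have e : -A / (|B| + 1) * A + (-A / (|B| + 1)) ^ 2 * B =
      A ^ 2 / (|B| + 1) ^ 2 * (B - (|B| + 1)) := by
    field_simp
    ring
  rw [e] at h1
  have h2 : 0 < A ^ 2 / (|B| + 1) ^ 2 := by positivity
  have h3 : B - (|B| + 1) < 0 := by linarith [le_abs_self B]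
  nlinarith

/-- the reduced energy -/
def J (r : E → ℝ) (δ : ℝ) (w : E → ℝ) : ℝ :=
  ∫ x, r x ^ 2 * ((1 / 2) * ‖D w x‖ ^ 2 - δ * Real.sin (w x) ^ 2)

theorem anchor_U3a : True := by
  have := @J.eq_1
  trivial

theorem int_sin {r w : E → ℝ} (hr : H1 r) (hw : Hl w) :
    Integrable fun x => (r x * Real.sin (w x)) ^ 2 := by
  have h1 : AEStronglyMeasurable (fun x => r x * Real.sin (w x)) volume :=
    hr.l2.1.mul (Real.continuous_sin.comp_aestronglyMeasurable hw.aesm)
  refine (hr.l2.of_le h1 (Eventually.of_forall fun x => ?_)).integrable_sq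
  rw [Real.norm_eq_abs, Real.norm_eq_abs, abs_mul]
  exact mul_le_of_le_one_right (abs_nonneg _) (Real.abs_sin_le_one _)

theorem J_int {r w : E → ℝ} (δ : ℝ) (hr : H1 r) (hw : Hl w)
    (hi : Integrable fun x => r x ^ 2 * ‖D w x‖ ^ 2) :
    Integrable fun x => r x ^ 2 * ((1 / 2) * ‖D w x‖ ^ 2 - δ * Real.sin (w x) ^ 2) := by
  refine ((hi.const_mul (1 / 2)).sub ((int_sin hr hw).const_mul δ)).congr
    (Eventually.of_forall fun x => ?_)
  simp only [Pi.sub_apply]
  ring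

theorem J_eq {r w : E → ℝ} (δ : ℝ) (hr : H1 r) (hw : Hl w)
    (hi : Integrable fun x => r x ^ 2 * ‖D w x‖ ^ 2) :
    J r δ w = (1 / 2) * (∫ x, r x ^ 2 * ‖D w x‖ ^ 2) - δ * nsq fun x => r x * Real.sin (w x) := by
  unfold J nsq
  rw [← integral_const_mul, ← integral_const_mul,
    ← integral_sub (hi.const_mul _) ((int_sin hr hw).const_mul δ)]
  refine integral_congr_ae (Eventually.of_forall fun x => ?_)
  ring

theorem mem_bd {F : Type*} [NormedAddCommGroup F] [NormedSpace ℝ F] {r : E → ℝ} {g : E → F}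
    (hr : H1 r) (hb : Bd r) (hg : MemLp g 2 volume) : MemLp (fun x => r x • g x) 2 volume := by
  obtain ⟨M, hM⟩ := hb
  refine (hg.const_smul M).of_le (hr.l2.1.smul hg.1) ?_
  filter_upwards [hM] with x hx
  rw [Pi.smul_apply, norm_smul, norm_smul, Real.norm_eq_abs, Real.norm_eq_abs]
  exact mul_le_mul_of_nonneg_right (hx.trans (le_abs_self M)) (norm_nonneg _)

theorem int_1 {r u χ : E → ℝ} (hr : H1 r) (hb : Bd r) (hu : Hl u)
    (hi : Integrable fun x => r x ^ 2 * ‖D u x‖ ^ 2) (hχ : H1 χ) :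
    Integrable fun x => (1 / 2) * r x ^ 2 * ⟪D u x, D χ x⟫ := by
  have h1 : MemLp (fun x => r x • D u x) 2 volume := by
    refine (memLp_two_iff_integrable_sq_norm (hr.l2.1.smul hu.aesm_D)).2 ?_
    refine hi.congr (Eventually.of_forall fun x => ?_)
    simp [norm_smul, mul_pow]
  have h2 := mem_bd hr hb hχ.dl2
  have h3 : Integrable fun x => ⟪r x • D u x, r x • D χ x⟫ := by
    refine (h1.norm.integrable_mul h2.norm).mono' (h1.1.inner h2.1)
      (Eventually.of_forall fun x => ?_)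
    exact norm_inner_le_norm _ _
  refine (h3.const_mul (1 / 2)).congr (Eventually.of_forall fun x => ?_)
  simp only [real_inner_smul_left, real_inner_smul_right]
  ring

theorem int_2 {r u χ : E → ℝ} (δ : ℝ) (hr : H1 r) (hb : Bd r) (hu : Hl u) (hχ : H1 χ) :
    Integrable fun x => δ * r x ^ 2 * Real.sin (u x) * Real.cos (u x) * χ x := by
  have h2 := hr.l2.integrable_mul (mem_bd hr hb hχ.l2)
  have h3 := (h2.const_mul δ).bdd_mul (c := 1)
    ((Real.continuous_sin.comp_aestronglyMeasurable hu.aesm).mul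
      (Real.continuous_cos.comp_aestronglyMeasurable hu.aesm))
    (Eventually.of_forall fun x => by
      rw [Pi.mul_apply, norm_mul]
      exact mul_le_one₀ (Real.abs_sin_le_one _) (norm_nonneg _) (Real.abs_cos_le_one _))
  refine h3.congr (Eventually.of_forall fun x => ?_)
  simp only [Pi.mul_apply, smul_eq_mul]
  ring

theorem el_odd {r u χ : E → ℝ} {δ : ℝ} (hr : H1 r) (hb : Bd r) (hu : Hl u) (ho : Od u)
    (hi : Integrable fun x => r x ^ 2 * ‖D u x‖ ^ 2)
    (hm : ∀ w, Hl w → Od w → Integrable (fun x => r x ^ 2 * ‖D w x‖ ^ 2) → J r δ u ≤ J r δ w)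
    (hχ : H1 χ) (hχo : Od χ) :
    ∫ x, ((1 / 2) * r x ^ 2 * ⟪D u x, D χ x⟫ -
      δ * r x ^ 2 * Real.sin (u x) * Real.cos (u x) * χ x) = 0 := by
  have i1 := int_1 hr hb hu hi hχ
  have i2 := int_2 δ hr hb hu hχ
  have i3 : Integrable fun x => r x ^ 2 * ‖D χ x‖ ^ 2 := by
    have := mem_bd hr hb hχ.dl2
    refine ((memLp_two_iff_integrable_sq_norm this.1).1 this).congr
      (Eventually.of_forall fun x => ?_)
    simp [norm_smul, mul_pow]
  have i4 : Integrable fun x => r x ^ 2 * χ x ^ 2 := by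
    refine (mem_bd hr hb hχ.l2).integrable_sq.congr (Eventually.of_forall fun x => ?_)
    simp [mul_pow]
  have i5 : Integrable fun x => (1 / 2) * (r x ^ 2 * ‖D χ x‖ ^ 2) + 2 * |δ| * (r x ^ 2 * χ x ^ 2) :=
    (i3.const_mul (1 / 2)).add (i4.const_mul (2 * |δ|))
  have i6 : Integrable fun x => 2 * ((1 / 2) * r x ^ 2 * ⟪D u x, D χ x⟫ -
      δ * r x ^ 2 * Real.sin (u x) * Real.cos (u x) * χ x) := (i1.sub i2).const_mul 2
  have := eq_zero_of_quad (A := ∫ x, 2 * ((1 / 2) * r x ^ 2 * ⟪D u x, D χ x⟫ -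
      δ * r x ^ 2 * Real.sin (u x) * Real.cos (u x) * χ x))
    (B := ∫ x, ((1 / 2) * (r x ^ 2 * ‖D χ x‖ ^ 2) + 2 * |δ| * (r x ^ 2 * χ x ^ 2))) fun ε => by
      have w1 : Hl fun x => u x + ε * χ x := hu.add (hχ.hl.smul ε)
      have w2 : ∀ᵐ x, ‖D (fun x => u x + ε * χ x) x‖ ^ 2 =
          ‖D u x‖ ^ 2 + 2 * ε * ⟪D u x, D χ x⟫ + ε ^ 2 * ‖D χ x‖ ^ 2 := by
        filter_upwards [D_add hu (hχ.hl.smul ε), D_smul ε hχ.hl] with x h1 h2
        rw [h1, h2, norm_add_sq_real, real_inner_smul_right, norm_smul, mul_pow, Real.norm_eq_abs,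
          sq_abs]
        ring
      have w3 : Od fun x => u x + ε * χ x := by
        filter_upwards [ho, hχo] with x h1 h2
        rw [h1, h2]
        ring
      have w4 : Integrable fun x => r x ^ 2 * ‖D (fun x => u x + ε * χ x) x‖ ^ 2 := by
        refine ((hi.add (i1.const_mul (4 * ε))).add (i3.const_mul (ε ^ 2))).congr ?_
        filter_upwards [w2] with x hx
        simp only [Pi.add_apply]
        rw [hx]
        ring
      have w5 := sub_nonneg.2 (hm _ w1 w3 w4)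
      unfold J at w5
      rw [← integral_sub (J_int δ hr w1 w4) (J_int δ hr hu hi)] at w5
      rw [← integral_const_mul, ← integral_const_mul,
        ← integral_add (i6.const_mul ε) (i5.const_mul (ε ^ 2))]
      refine w5.trans (integral_mono_ae ((J_int δ hr w1 w4).sub (J_int δ hr hu hi))
        ((i6.const_mul ε).add (i5.const_mul (ε ^ 2))) ?_)
      filter_upwards [w2] with x hx
      have h1 := sin_sq_bd (u x) (ε * χ x)
      have h2 : -(δ * (Real.sin (u x + ε * χ x) ^ 2 - Real.sin (u x) ^ 2 -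
          ε * χ x * (2 * Real.sin (u x) * Real.cos (u x)))) ≤ |δ| * (2 * (ε * χ x) ^ 2) :=
        (neg_le_abs _).trans (by rw [abs_mul]; exact mul_le_mul_of_nonneg_left h1 (abs_nonneg _))
      have h3 := mul_le_mul_of_nonneg_left h2 (sq_nonneg (r x))
      simp only [Pi.add_apply, Pi.sub_apply]
      rw [hx]
      linarith
  rw [integral_const_mul] at this
  linarith

theorem el {r u χ : E → ℝ} {δ : ℝ} (hr : H1 r) (hb : Bd r) (he : Ev r) (hu : Hl u) (ho : Od u)
    (hi : Integrable fun x => r x ^ 2 * ‖D u x‖ ^ 2)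
    (hm : ∀ w, Hl w → Od w → Integrable (fun x => r x ^ 2 * ‖D w x‖ ^ 2) → J r δ u ≤ J r δ w)
    (hχ : H1 χ) :
    ∫ x, (1 / 2) * r x ^ 2 * ⟪D u x, D χ x⟫ =
      ∫ x, δ * r x ^ 2 * Real.sin (u x) * Real.cos (u x) * χ x := by
  obtain ⟨L, hL, hL'⟩ := exists_Riso
  have c1 : H1 fun x => χ (R x) := by simpa only [hL] using (hχ.iso L).1
  have c2 := hχ.hl.refl.2
  have h0 := el_odd hr hb hu ho hi hm (hχ.sub c1)
    (Eventually.of_forall fun x => by simp only [R_R]; ring)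
  have i1 := int_1 hr hb hu hi hχ
  have i2 := int_2 δ hr hb hu hχ
  have i3 := i1.sub i2
  have i4 := mp_R.integrable_comp_of_integrable i3
  have e := S07.integral_R fun x => (1 / 2) * r x ^ 2 * ⟪D u x, D χ x⟫ -
      δ * r x ^ 2 * Real.sin (u x) * Real.cos (u x) * χ x
  have h1 := integral_add i3 i4
  simp only [Pi.sub_apply, Function.comp_apply] at h1
  rw [e, integral_sub i1 i2] at h1
  have h2 : ∫ x, ((1 / 2) * r x ^ 2 * ⟪D u x, D χ x⟫ -
      δ * r x ^ 2 * Real.sin (u x) * Real.cos (u x) * χ x +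
      ((1 / 2) * r (R x) ^ 2 * ⟪D u (R x), D χ (R x)⟫ -
      δ * r (R x) ^ 2 * Real.sin (u (R x)) * Real.cos (u (R x)) * χ (R x))) = 0 := by
    rw [← h0]
    refine integral_congr_ae ?_
    filter_upwards [he, ho, Od.D hu ho, c2, D_sub hχ.hl c1.hl] with x h1 h2 h3 h4 h5
    have h6 : ⟪R (D u x), D χ (R x)⟫ = ⟪D u x, R (D χ (R x))⟫ := by
      rw [← hL, L.inner_map_eq_flip, hL']
    rw [h1, h2, h3, h5, h4, inner_neg_left, h6, inner_sub_right, Real.sin_neg, Real.cos_neg]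
    ring
  linarith

theorem ang_of_min {r φ ψ : E → ℝ} {δ : ℝ} (hr : H1 r) (hb : Bd r) (hp : LP r) (hn : ∀ x, 0 ≤ r x)
    (he : Ev r) (h3 : nsq r = 3) (a : Adm r φ ψ) (hφ : ∀ x, 0 ≤ φ x) (hψ : ∀ x ∈ Hp, 0 ≤ ψ x)
    (h1 : nsq ψ = 1) (hm : ∀ φ' ψ', Adm r φ' ψ' → Kin φ ψ + δ * (nsq ψ' - 1) ≤ Kin φ' ψ') :
    ∃ u, Ang r u δ ∧ ∀ᵐ x, φ x = r x * Real.cos (u x) ∧ ψ x = r x * Real.sin (u x) := by
  have br : Bl r := ⟨hr.hl, hb.lb⟩
  obtain ⟨M, hM⟩ := id hb
  have bφ : Bl φ := ⟨a.hφ.hl, Bd.lb ⟨M, by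
    filter_upwards [hM, a.sum] with x h1 h2
    exact (sq_le_sq.1 (by nlinarith [sq_nonneg (ψ x)])).trans h1⟩⟩
  have bψ : Bl ψ := ⟨a.hψ.hl, Bd.lb ⟨M, by
    filter_upwards [hM, a.sum] with x h1 h2
    exact (sq_le_sq.1 (by nlinarith [sq_nonneg (φ x)])).trans h1⟩⟩
  have lp : LP fun x => r x + φ x := fun K hK => by
    obtain ⟨c, hc, h⟩ := hp K hK
    refine ⟨c, hc, ?_⟩
    filter_upwards [h] with x hx hxK
    linarith [hx hxK, hφ x]
  have b1 := ((bψ.div (br.add bφ) lp).1.comp (β := fun t => 2 * Real.arctan t)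
    (contDiff_const.mul Real.contDiff_arctan)).1
  have ae : ∀ᵐ x, Real.arcsin (ψ x / r x) = 2 * Real.arctan (ψ x / (r x + φ x)) ∧
      φ x = r x * Real.cos (Real.arcsin (ψ x / r x)) ∧
      ψ x = r x * Real.sin (Real.arcsin (ψ x / r x)) := by
    filter_upwards [S04.ae_pos hp, a.sum] with x h1 h2
    exact arcsin_eq h1 (hφ x) h2
  obtain ⟨u, hu⟩ : ∃ u : E → ℝ, u = fun x => Real.arcsin (ψ x / r x) := ⟨_, rfl⟩
  have hl : Hl u := b1.hl.congr (by
    filter_upwards [ae] with x hx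
    rw [hu]
    exact hx.1)
  have ae' : ∀ᵐ x, φ x = r x * Real.cos (u x) ∧ ψ x = r x * Real.sin (u x) := by
    filter_upwards [ae] with x hx
    rw [hu]
    exact hx.2
  have od : Od u := by
    filter_upwards [he, a.od] with x h1 h2
    rw [hu]
    dsimp only
    rw [h1, h2, neg_div, Real.arcsin_neg]
  have d1 := D_congr (ae'.mono fun x hx => hx.1)
  have d2 := D_congr (ae'.mono fun x hx => hx.2)
  have fin : Integrable fun x => r x ^ 2 * ‖D u x‖ ^ 2 := by
    refine (((int_sq a.hφ).add (int_sq a.hψ)).sub (int_sq hr)).congr ?_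
    filter_upwards [(key br hl).2.2, d1, d2] with x h1 h2 h3
    simp only [Pi.add_apply, Pi.sub_apply]
    rw [h2, h3]
    linarith
  obtain ⟨A, kin⟩ := adm_angle hr hb he hl od fin
  have n1 : nsq (fun x => r x * Real.sin (u x)) = 1 := by
    rw [← h1]
    refine integral_congr_ae ?_
    filter_upwards [ae'] with x hx
    rw [hx.2]
  have e1 : dir φ = dir fun x => r x * Real.cos (u x) := by
    refine integral_congr_ae ?_
    filter_upwards [d1] with x hx
    rw [hx]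
  have e2 : dir ψ = dir fun x => r x * Real.sin (u x) := by
    refine integral_congr_ae ?_
    filter_upwards [d2] with x hx
    rw [hx]
  have mn : ∀ w, Hl w → Od w → Integrable (fun x => r x ^ 2 * ‖D w x‖ ^ 2) →
      J r δ u ≤ J r δ w := by
    intro w w1 w2 w3
    obtain ⟨A', kin'⟩ := adm_angle hr hb he w1 w2 w3
    have := hm _ _ A'
    unfold Kin at this
    rw [e1, e2, kin, kin'] at this
    rw [J_eq δ hr hl fin, J_eq δ hr w1 w3, n1]
    linarith
  refine ⟨u, ⟨hr, hb, hp, hn, he, h3, hl, fun x => ?_, od, fun x hx => ?_, fin, A.hφ, A.hψ, n1, kin,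
    fun χ hχ => el hr hb he hl od fin mn hχ.h1, fun w w1 w2 _ w3 => mn w w1 w2 w3⟩, ae'⟩
  · rw [hu]
    exact abs_le.2 ⟨Real.neg_pi_div_two_le_arcsin _, Real.arcsin_le_pi_div_two _⟩
  · rw [hu]
    exact Real.arcsin_nonneg.2 (div_nonneg (hψ x hx) (hn x))

end U3a

end

end Crest.Agent.R335
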