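import Crest.Agent.R335.U1
import Crest.Agent.R335.S10

/-! Auxiliary lemmas for `Ang.eq_cos`, `Ang.eq_sin`, `Ang.pos`. -/

set_option autoImplicit false

open MeasureTheory Set Filter Topology Metric
open scoped Gradient ContDiff RealInnerProductSpace ENNReal

namespace Crest.Agent.R335

noncomputable section

namespace U3b

theorem bl_u {r u : E → ℝ} {δ : ℝ} (h : Ang r u δ) : Bl u :=
  ⟨h.hu, Bd.lb ⟨_, ae_of_all _ h.bu⟩⟩

theorem aesm_w {r u : E → ℝ} {δ : ℝ} (h : Ang r u δ) :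
    AEStronglyMeasurable (fun x => r x ^ 2) volume := h.hr.hl.aesm.pow 2

theorem lb_w {r u : E → ℝ} {δ : ℝ} (h : Ang r u δ) : LB fun x => r x ^ 2 := by
  simpa only [sq] using S12_lb_mul_lb h.bd.lb h.bd.lb

theorem lp_w {r u : E → ℝ} {δ : ℝ} (h : Ang r u δ) : LP fun x => r x ^ 2 := by
  intro K hK
  obtain ⟨c, hc, h1⟩ := h.lp K hK
  refine ⟨c ^ 2, by positivity, ?_⟩
  filter_upwards [h1] with x hx hxK using pow_le_pow_left₀ hc.le (hx hxK) 2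

theorem int_w {r u : E → ℝ} {δ : ℝ} (h : Ang r u δ) : Integrable fun x => r x ^ 2 :=
  h.hr.l2.integrable_sq

/-- an integrable function times a bounded function of `u` times a test function -/
theorem int_mul {u F χ : E → ℝ} {γ : ℝ → ℝ} {M : ℝ} {Ω : Set E} (hu : Hl u) (hF : Integrable F)
    (hγ : Continuous γ) (hM : ∀ t, |γ t| ≤ M) (hχ : TF Ω χ) :
    Integrable fun x => γ (u x) * F x * χ x :=
  S12_int_rhs (fun _ _ _ => (Integrable.bdd_mul (c := M) hF (hγ.comp_aestronglyMeasurable hu.aesm)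
    (ae_of_all _ fun x => hM (u x))).integrableOn) hχ

/-- the equation of `β (u)` -/
theorem eq_gen {r u χ : E → ℝ} {δ : ℝ} {β β1 β2 : ℝ → ℝ} (h : Ang r u δ) (hχ : TF univ χ)
    (hβ : ContDiff ℝ 1 β) (hβ1 : ContDiff ℝ 1 β1) (e1 : deriv β = β1) (e2 : deriv β1 = β2)
    (c2 : Continuous β2) (b2 : ∀ t, |β2 t| ≤ 1) :
    ∫ x, (1 / 2) * r x ^ 2 * ⟪D (fun x => β (u x)) x, D χ x⟫ =
      (∫ x, δ * r x ^ 2 * Real.sin (u x) * Real.cos (u x) * (β1 (u x) * χ x)) -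
        ∫ x, (1 / 2) * (β2 (u x) * (r x ^ 2 * ‖D u x‖ ^ 2) * χ x) := by
  obtain ⟨p1, p2⟩ := (bl_u h).comp hβ
  obtain ⟨q1, q2⟩ := (bl_u h).comp hβ1
  have key := h.el _ (hχ.mul q1)
  have i1 := S12_int_lhs (aesm_w h) (lb_w h) p1.hl hχ
  have i2 := (int_mul h.hu h.fin c2 b2 hχ).const_mul (1 / 2)
  rw [← key, eq_sub_iff_add_eq, ← integral_add i1 i2]
  refine integral_congr_ae ?_
  filter_upwards [p2, q2, (q1.mul hχ.bl).2] with x h1 h2 h3
  rw [h1, h3, h2, e1, e2]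
  simp only [inner_add_right, real_inner_smul_left, real_inner_smul_right,
    real_inner_self_eq_norm_sq]
  ring

/-- dichotomy on a ball -/
theorem dich {r u p : E → ℝ} {δ : ℝ} {γ : ℝ → ℝ} {c : E} {ρ : ℝ} (h : Ang r u δ) (hρ : 0 < ρ)
    (hp : Bl p) (hp1 : ∀ x, |p x| ≤ 1) (hγ : Continuous γ) (hγ1 : ∀ t, |γ t| ≤ |δ|)
    (h0 : ∀ x ∈ ball c ρ, 0 ≤ p x)
    (he : ∀ χ, TF univ χ → ∫ x, (1 / 2) * r x ^ 2 * ⟪D p x, D χ x⟫ =
      ∫ x, r x ^ 2 * ((1 / 2) * ‖D u x‖ ^ 2 + γ (u x)) * p x * χ x) :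
    (∀ᵐ x, x ∈ ball c ρ → 0 < p x) ∨ ∀ᵐ x, x ∈ ball c ρ → p x = 0 := by
  have ip : Integrable fun x => p x * r x ^ 2 :=
    Integrable.bdd_mul (c := 1) (int_w h) hp.hl.aesm (ae_of_all _ hp1)
  have iq : Integrable fun x => p x * (r x ^ 2 * ‖D u x‖ ^ 2) :=
    Integrable.bdd_mul (c := 1) h.fin hp.hl.aesm (ae_of_all _ hp1)
  have iS : Integrable fun x => |δ| * r x ^ 2 * p x := by
    refine (ip.const_mul |δ|).congr (ae_of_all _ fun x => ?_)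
    ring
  refine pos_or_zero hρ (aesm_w h) (lb_w h) (lp_w h) hp (abs_nonneg δ) (ae_of_all _ h0)
    ⟨(S12_D_neg hp.hl).1, fun K _ _ => iS.integrableOn, fun χ hχ hχ0 => ?_⟩
  have e1 : ∫ x, (1 / 2) * r x ^ 2 * ⟪D (fun x => -p x) x, D χ x⟫ =
      -∫ x, (1 / 2) * r x ^ 2 * ⟪D p x, D χ x⟫ := by
    rw [← integral_neg]
    refine integral_congr_ae ?_
    filter_upwards [(S12_D_neg hp.hl).2] with x hx
    rw [hx, inner_neg_left]
    ring
  rw [e1, he χ (hχ.mono (subset_univ _)), ← integral_neg]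
  have j1 := int_mul h.hu ip hγ hγ1 hχ
  have j2 : Integrable fun x => p x * (r x ^ 2 * ‖D u x‖ ^ 2) * χ x :=
    S12_int_rhs (fun _ _ _ => iq.integrableOn) hχ
  refine integral_mono_ae ((j1.add (j2.const_mul (1 / 2))).neg.congr (ae_of_all _ fun x => ?_))
    (S12_int_rhs (fun _ _ _ => iS.integrableOn) hχ) ?_
  · simp only [Pi.neg_apply, Pi.add_apply]
    ring
  · obtain ⟨K, -, hK, hz⟩ := hχ.cs
    filter_upwards [hχ0, hz] with x h1 h2
    by_cases hx : x ∈ K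
    · have h3 : 0 ≤ r x ^ 2 * p x * χ x := mul_nonneg (mul_nonneg (sq_nonneg _) (h0 x (hK hx))) h1
      have h4 : -|δ| ≤ γ (u x) := neg_le_of_abs_le (hγ1 _)
      have h5 : 0 ≤ (1 / 2) * ‖D u x‖ ^ 2 + γ (u x) + |δ| := by
        have : 0 ≤ ‖D u x‖ ^ 2 := sq_nonneg _
        linarith
      have h6 := mul_nonneg h3 h5
      nlinarith [h6]
    · simp [h2 hx]

/-- dichotomy along an increasing exhaustion -/
theorem dich_union {p : E → ℝ} {B : ℕ → Set E} {S : Set E} (hm : Monotone B)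
    (hc : ∀ x ∈ S, ∃ n, x ∈ B n)
    (h : ∀ n, (∀ᵐ x, x ∈ B n → 0 < p x) ∨ ∀ᵐ x, x ∈ B n → p x = 0) :
    (∀ᵐ x, x ∈ S → 0 < p x) ∨ ∀ᵐ x, x ∈ S → p x = 0 := by
  by_cases hall : ∀ n, ∀ᵐ x, x ∈ B n → 0 < p x
  · left
    filter_upwards [ae_all_iff.2 hall] with x hx hS
    obtain ⟨n, hn⟩ := hc x hS
    exact hx n hn
  · right
    obtain ⟨n0, hn0⟩ := not_forall.1 hall
    have h2 : ∀ n, ∀ᵐ x, x ∈ B (n + n0) → p x = 0 := fun n => by
      refine (h (n + n0)).resolve_left fun h3 => hn0 ?_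
      filter_upwards [h3] with x hx hB using hx (hm (Nat.le_add_left _ _) hB)
    filter_upwards [ae_all_iff.2 h2] with x hx hS
    obtain ⟨n, hn⟩ := hc x hS
    exact hx n (hm (Nat.le_add_right _ _) hn)

/-- balls exhausting the open half space -/
def HB (n : ℕ) : Set E := ball (((n : ℝ) + 1) • ez) ((n : ℝ) + 1)

theorem mem_HB {n : ℕ} {x : E} : x ∈ HB n ↔ ‖x‖ ^ 2 < 2 * ((n : ℝ) + 1) * x 2 := by
  have h1 : ‖x - ((n : ℝ) + 1) • ez‖ ^ 2 = ‖x‖ ^ 2 - 2 * ((n : ℝ) + 1) * x 2 + ((n : ℝ) + 1) ^ 2 := by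
    rw [EuclideanSpace.real_norm_sq_eq, EuclideanSpace.real_norm_sq_eq]
    simp only [Fin.sum_univ_three, PiLp.sub_apply, PiLp.smul_apply, S07.ez_zero, S07.ez_one,
      S07.ez_two, smul_eq_mul]
    ring
  have h2 : (0 : ℝ) < (n : ℝ) + 1 := by positivity
  rw [HB, mem_ball, dist_eq_norm, ← sq_lt_sq₀ (norm_nonneg _) h2.le, h1]
  constructor <;> intro h <;> linarith

theorem HB_pos {n : ℕ} {x : E} (h : x ∈ HB n) : 0 < x 2 := by
  have h1 := mem_HB.1 h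
  have h2 : (0 : ℝ) < 2 * ((n : ℝ) + 1) := by positivity
  exact (mul_pos_iff_of_pos_left h2).1 (lt_of_le_of_lt (sq_nonneg _) h1)

theorem HB_mono : Monotone HB := by
  intro m n hmn x hx
  have h1 := HB_pos hx
  have h2 : (m : ℝ) ≤ n := Nat.cast_le.2 hmn
  rw [mem_HB] at hx ⊢
  nlinarith

theorem HB_cover (x : E) (hx : x ∈ {x : E | 0 < x 2}) : ∃ n, x ∈ HB n := by
  have hx' : 0 < x 2 := hx
  obtain ⟨n, hn⟩ := exists_nat_gt (‖x‖ ^ 2 / x 2)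
  rw [div_lt_iff₀ hx'] at hn
  refine ⟨n, mem_HB.2 ?_⟩
  have : (0 : ℝ) ≤ n := Nat.cast_nonneg n
  nlinarith

end U3b

end

end Crest.Agent.R335
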