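import Crest.Agent.R335.U1
import Crest.Agent.R335.U3Aux1
import Crest.Agent.R335.S10
import Crest.Agent.R335.U3bAux1

set_option autoImplicit false

open MeasureTheory Set Filter Topology Metric
open scoped Gradient ContDiff RealInnerProductSpace ENNReal

namespace Crest.Agent.R335

noncomputable section

theorem adm_angle {r w : E → ℝ} (hr : H1 r) (hb : Bd r) (he : Ev r) (hw : Hl w) (ho : Od w)
    (hi : Integrable fun x => r x ^ 2 * ‖D w x‖ ^ 2) :
    Adm r (fun x => r x * Real.cos (w x)) (fun x => r x * Real.sin (w x)) ∧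
      dir (fun x => r x * Real.cos (w x)) + dir (fun x => r x * Real.sin (w x)) =
        dir r + ∫ x, r x ^ 2 * ‖D w x‖ ^ 2 :=
  U3a.adm_angle hr hb he hw ho hi
theorem ang_of_min {r φ ψ : E → ℝ} {δ : ℝ} (hr : H1 r) (hb : Bd r) (hp : LP r) (hn : ∀ x, 0 ≤ r x)
    (he : Ev r) (h3 : nsq r = 3) (a : Adm r φ ψ) (hφ : ∀ x, 0 ≤ φ x) (hψ : ∀ x ∈ Hp, 0 ≤ ψ x)
    (h1 : nsq ψ = 1) (hm : ∀ φ' ψ', Adm r φ' ψ' → Kin φ ψ + δ * (nsq ψ' - 1) ≤ Kin φ' ψ') :
    ∃ u, Ang r u δ ∧ ∀ᵐ x, φ x = r x * Real.cos (u x) ∧ ψ x = r x * Real.sin (u x) :=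
  U3a.ang_of_min hr hb hp hn he h3 a hφ hψ h1 hm
theorem Ang.eq_cos {r u χ : E → ℝ} {δ : ℝ} (h : Ang r u δ) (hχ : TF univ χ) :
    ∫ x, (1 / 2) * r x ^ 2 * ⟪D (fun x => Real.cos (u x)) x, D χ x⟫ =
      ∫ x, r x ^ 2 * ((1 / 2) * ‖D u x‖ ^ 2 - δ * Real.sin (u x) ^ 2) * Real.cos (u x) * χ x := by
  have key := U3b.eq_gen (β := Real.cos) (β1 := fun t => -Real.sin t) (β2 := fun t => -Real.cos t)
    h hχ Real.contDiff_cos Real.contDiff_sin.neg (by funext t; simp) (by funext t; simp)
    Real.continuous_cos.neg (fun t => by simpa using Real.abs_cos_le_one t)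
  have i1 := (U3b.int_mul (γ := fun t => Real.sin t * Real.cos t * -Real.sin t) (M := 1) h.hu
    (U3b.int_w h) (by fun_prop) (fun t => by
      rw [abs_mul, abs_mul, abs_neg]
      exact mul_le_one₀ (mul_le_one₀ (Real.abs_sin_le_one t) (abs_nonneg _)
        (Real.abs_cos_le_one t)) (abs_nonneg _) (Real.abs_sin_le_one t)) hχ).const_mul δ
  have i2 := (U3b.int_mul (γ := fun t => -Real.cos t) (M := 1) h.hu h.fin (by fun_prop)
    (fun t => by simpa using Real.abs_cos_le_one t) hχ).const_mul (1 / 2)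
  rw [key, ← integral_sub (i1.congr (ae_of_all _ fun x => by ring)) i2]
  refine integral_congr_ae (ae_of_all _ fun x => ?_)
  ring
theorem Ang.eq_sin {r u χ : E → ℝ} {δ : ℝ} (h : Ang r u δ) (hχ : TF univ χ) :
    ∫ x, (1 / 2) * r x ^ 2 * ⟪D (fun x => Real.sin (u x)) x, D χ x⟫ =
      ∫ x, r x ^ 2 * ((1 / 2) * ‖D u x‖ ^ 2 + δ * Real.cos (u x) ^ 2) * Real.sin (u x) * χ x := by
  have key := U3b.eq_gen (β := Real.sin) (β1 := Real.cos) (β2 := fun t => -Real.sin t)
    h hχ Real.contDiff_sin Real.contDiff_cos (by funext t; simp) (by funext t; simp)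
    Real.continuous_sin.neg (fun t => by simpa using Real.abs_sin_le_one t)
  have i1 := (U3b.int_mul (γ := fun t => Real.sin t * Real.cos t * Real.cos t) (M := 1) h.hu
    (U3b.int_w h) (by fun_prop) (fun t => by
      rw [abs_mul, abs_mul]
      exact mul_le_one₀ (mul_le_one₀ (Real.abs_sin_le_one t) (abs_nonneg _)
        (Real.abs_cos_le_one t)) (abs_nonneg _) (Real.abs_cos_le_one t)) hχ).const_mul δ
  have i2 := (U3b.int_mul (γ := fun t => -Real.sin t) (M := 1) h.hu h.fin (by fun_prop)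
    (fun t => by simpa using Real.abs_sin_le_one t) hχ).const_mul (1 / 2)
  rw [key, ← integral_sub (i1.congr (ae_of_all _ fun x => by ring)) i2]
  refine integral_congr_ae (ae_of_all _ fun x => ?_)
  ring
theorem Ang.pos {r u : E → ℝ} {δ : ℝ} (h : Ang r u δ) :
    (∀ᵐ x, 0 < Real.cos (u x)) ∧ ∀ᵐ x, 0 < x 2 → 0 < u x := by
  have hn1 := h.n1
  have hn3 := h.nr
  unfold nsq at hn1 hn3
  constructor
  · have d := U3b.dich_union (p := fun x => Real.cos (u x)) (S := univ)
      (B := fun n : ℕ => ball (0 : E) ((n : ℝ) + 1))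
      (fun m n hmn => ball_subset_ball (by simpa using hmn))
      (fun x _ => by
        obtain ⟨n, hn⟩ := exists_nat_gt ‖x‖
        exact ⟨n, mem_ball_zero_iff.2 (by linarith)⟩)
      fun n => U3b.dich (γ := fun t => -(δ * Real.sin t ^ 2)) h (by positivity)
        ((U3b.bl_u h).comp Real.contDiff_cos).1 (fun x => Real.abs_cos_le_one _) (by fun_prop)
        (fun t => by
          rw [abs_neg, abs_mul, abs_of_nonneg (sq_nonneg (Real.sin t))]
          exact mul_le_of_le_one_right (abs_nonneg _) (Real.sin_sq_le_one t))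
        (fun x _ => Real.cos_nonneg_of_mem_Icc (abs_le.1 (h.bu x)))
        (fun χ hχ => by simpa only [sub_eq_add_neg] using h.eq_cos hχ)
    rcases d with d | d
    · filter_upwards [d] with x hx using hx (mem_univ x)
    · exfalso
      have e : ∫ x, (r x * Real.sin (u x)) ^ 2 = ∫ x, r x ^ 2 := by
        refine integral_congr_ae ?_
        filter_upwards [d] with x hx
        have h1 := Real.sin_sq_add_cos_sq (u x)
        rw [hx (mem_univ x)] at h1
        rw [mul_pow, show Real.sin (u x) ^ 2 = 1 by linarith, mul_one]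
      linarith
  · have d := U3b.dich_union (p := fun x => Real.sin (u x)) U3b.HB_mono U3b.HB_cover
      fun n => U3b.dich (γ := fun t => δ * Real.cos t ^ 2) h (by positivity)
        ((U3b.bl_u h).comp Real.contDiff_sin).1 (fun x => Real.abs_sin_le_one _) (by fun_prop)
        (fun t => by
          rw [abs_mul, abs_of_nonneg (sq_nonneg (Real.cos t))]
          exact mul_le_of_le_one_right (abs_nonneg _) (Real.cos_sq_le_one t))
        (fun x hx => Real.sin_nonneg_of_nonneg_of_le_pi (h.u_nn x (U3b.HB_pos hx).le)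
          (by linarith [(abs_le.1 (h.bu x)).2, Real.pi_pos]))
        (fun χ hχ => h.eq_sin hχ)
    rcases d with d | d
    · filter_upwards [d] with x hx h2
      refine lt_of_le_of_ne (h.u_nn x h2.le) fun h0 => ?_
      have h3 := hx h2
      rw [← h0, Real.sin_zero] at h3
      exact lt_irrefl _ h3
    · exfalso
      have e : ∫ x, (r x * Real.sin (u x)) ^ 2 = ∫ _ : E, (0 : ℝ) := by
        refine integral_congr_ae ?_
        filter_upwards [d, mp_R.quasiMeasurePreserving.ae d, h.od, ae_two_ne] with x h1 h2 h3 h4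
        have h5 : Real.sin (u x) = 0 := by
          rcases lt_or_gt_of_ne h4 with h6 | h6
          · have h7 := h2 (show 0 < R x 2 by rw [R_two]; linarith)
            rw [h3, Real.sin_neg] at h7
            linarith
          · exact h1 h6
        rw [h5]
        ring
      rw [e, integral_zero] at hn1
      exact zero_ne_one hn1

end

end Crest.Agent.R335
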