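import Crest.Agent.R335.T1bAux2
import Crest.Agent.R335.U3
import Crest.Agent.R335.F7c
import Crest.Agent.R335.T1Aux2

set_option autoImplicit false

open MeasureTheory Set Filter Topology Metric
open scoped Gradient ContDiff RealInnerProductSpace ENNReal

namespace Crest.Agent.R335

noncomputable section

theorem T1a {o : OD} {m : MD} {c K : ℝ} (hm : m.OK o c) (hK : 0 < K) (hf : ∀ x ∈ Hp, 0 ≤ m.f x) :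
    Bl (m.θT K) ∧ Continuous (m.θT K) ∧ (∀ x, m.θT K (R x) = -m.θT K x) ∧
      WSub (fun x => m.r x ^ 2) Hp (m.θT K) (m.ST o K) :=
  T1A_a hm hK hf
theorem T1b : Lg fun o => ∀ c Γ : ℝ, ∃ ρ s K0 : ℝ, 0 < s ∧ 0 < K0 ∧ Sm o c fun m => FD o m Γ →
    ∀ K ≥ K0, ∀ᵐ x, 0 < x 2 → (ρ < ‖x‖ ∨ x 2 < s) →
      m.ST o K x ≤ o.δ0 / 4 * (m.r x ^ 2 * (m.xT K x ^ 2 / (1 + m.xT K x) ^ 3)) := by
  exact T1b_main
theorem T1c : Lg fun o => ∀ c Γ : ℝ, Sm o c fun m => FD o m Γ → ∀ K, 1 ≤ K →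
    Integrable (fun x => m.r x ^ 2 * ‖D (m.θT K) x‖ ^ 2) ∧
    Integrable (fun x => m.r x ^ 2 * ‖D (m.θT K) x‖ * |Real.tan (m.θT K x)|) ∧
    (∀ x ∈ Hp, 0 ≤ m.θT K x ∧ m.θT K x < Real.pi / 2 ∧ (0 < x 2 → 0 < m.xT K x ∧ 0 < m.θT K x) ∧
      m.xT K x ^ 2 / (1 + m.xT K x) ^ 3 ≤ Real.sin (m.θT K x) * Real.cos (m.θT K x) ∧
      m.θT K x ≤ 2 * (Γ * jb x ^ 2 / K) ^ 2) ∧
    ∀ s ε : ℝ, 0 < s → 0 < ε → ∃ ρ : ℝ, ∀ x, ρ ≤ ‖x‖ → s ≤ x 2 → Real.pi / 2 - ε ≤ m.θT K x :=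
  (Lg.ge 0).mono fun o ho _ c Γ => (num_kappa o ho c 1 one_pos).mono fun m hm h hF K hK =>
    T1B_c hm (by linarith [h.2.2.1]) hF hK

end

end Crest.Agent.R335
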