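import Crest.Agent.R335.U3
import Crest.Agent.R335.F7c

/-! Row 335: the equation of the barrier `θT` (auxiliary file for `T1a`). -/

set_option autoImplicit false

open MeasureTheory Set Filter Topology Metric
open scoped Gradient ContDiff RealInnerProductSpace ENNReal

namespace Crest.Agent.R335

noncomputable section

theorem T1A_glue {F P N F' : ℝ → ℝ} (hP : ∀ s, 0 ≤ s → F s = P s) (hN : ∀ s, s ≤ 0 → F s = N s)
    (dP : ∀ s, 0 ≤ s → HasDerivAt P (F' s) s) (dN : ∀ s, s ≤ 0 → HasDerivAt N (F' s) s) (s : ℝ) :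
    HasDerivAt F (F' s) s := by
  rcases lt_trichotomy s 0 with h | h | h
  · refine (dN s h.le).congr_of_eventuallyEq ?_
    filter_upwards [Iio_mem_nhds h] with t ht using hN t (le_of_lt ht)
  · subst h
    have h1 : HasDerivWithinAt F (F' 0) (Ici 0) 0 :=
      (dP 0 le_rfl).hasDerivWithinAt.congr (fun t ht => hP t ht) (hP 0 le_rfl)
    have h2 : HasDerivWithinAt F (F' 0) (Iic 0) 0 :=
      (dN 0 le_rfl).hasDerivWithinAt.congr (fun t ht => hN t ht) (hN 0 le_rfl)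
    have h3 := h2.union h1
    rwa [Iic_union_Ici, hasDerivWithinAt_univ] at h3
  · refine (dP s h.le).congr_of_eventuallyEq ?_
    filter_upwards [Ioi_mem_nhds h] with t ht using hP t (le_of_lt ht)

theorem T1A_β_hd (s : ℝ) : HasDerivAt βT (Real.pi * |s| / (1 + |s|) ^ 3) s := by
  refine T1A_glue (F := βT) (F' := fun s => Real.pi * |s| / (1 + |s|) ^ 3)
    (P := fun s => Real.pi / 2 * (s * s / (1 + s) ^ 2))
    (N := fun s => Real.pi / 2 * (s * -s / (1 + -s) ^ 2)) (fun s h => ?_) (fun s h => ?_)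
    (fun s h => ?_) (fun s h => ?_) s
  · rw [βT, abs_of_nonneg h]
  · rw [βT, abs_of_nonpos h]
  · have h0 : (1 + s) ≠ 0 := by linarith
    have h1 := ((((hasDerivAt_id s).mul (hasDerivAt_id s)).div
      (((hasDerivAt_id s).const_add 1).pow 2) (pow_ne_zero 2 h0))).const_mul (Real.pi / 2)
    refine h1.congr_deriv ?_
    simp only [id, abs_of_nonneg h, Pi.mul_apply, Pi.pow_apply]
    field_simp
    ring
  · have h0 : (1 + -s) ≠ 0 := by linarith
    have h1 := ((((hasDerivAt_id s).mul (hasDerivAt_id s).neg).div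
      (((hasDerivAt_id s).neg.const_add 1).pow 2) (pow_ne_zero 2 h0))).const_mul (Real.pi / 2)
    refine h1.congr_deriv ?_
    simp only [id, abs_of_nonpos h, Pi.mul_apply, Pi.pow_apply, Pi.neg_apply]
    field_simp
    ring

theorem T1A_β_deriv : deriv βT = fun s => Real.pi * |s| / (1 + |s|) ^ 3 :=
  funext fun s => (T1A_β_hd s).deriv

theorem T1A_β_c1 : ContDiff ℝ 1 βT := by
  rw [contDiff_one_iff_deriv, T1A_β_deriv]
  refine ⟨fun s => (T1A_β_hd s).differentiableAt, ?_⟩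
  exact (continuous_const.mul continuous_abs).div ((continuous_const.add continuous_abs).pow 3)
    fun s => by positivity

/-- odd extension of `β'` -/
def T1A_b (s : ℝ) : ℝ := Real.pi * s / (1 + |s|) ^ 3

theorem T1A_b_hd (s : ℝ) : HasDerivAt T1A_b (Real.pi * (1 - 2 * |s|) / (1 + |s|) ^ 4) s := by
  refine T1A_glue (F := T1A_b) (F' := fun s => Real.pi * (1 - 2 * |s|) / (1 + |s|) ^ 4)
    (P := fun s => Real.pi * s / (1 + s) ^ 3)
    (N := fun s => Real.pi * s / (1 + -s) ^ 3) (fun s h => ?_) (fun s h => ?_)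
    (fun s h => ?_) (fun s h => ?_) s
  · rw [T1A_b, abs_of_nonneg h]
  · rw [T1A_b, abs_of_nonpos h]
  · have h0 : (1 + s) ≠ 0 := by linarith
    have h1 := ((hasDerivAt_id s).const_mul Real.pi).div
      (((hasDerivAt_id s).const_add 1).pow 3) (pow_ne_zero 3 h0)
    refine h1.congr_deriv ?_
    simp only [id, abs_of_nonneg h, Pi.pow_apply]
    field_simp
    ring
  · have h0 : (1 + -s) ≠ 0 := by linarith
    have h1 := ((hasDerivAt_id s).const_mul Real.pi).div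
      (((hasDerivAt_id s).neg.const_add 1).pow 3) (pow_ne_zero 3 h0)
    refine h1.congr_deriv ?_
    simp only [id, abs_of_nonpos h, Pi.pow_apply, Pi.neg_apply]
    field_simp
    ring

theorem T1A_b_deriv : deriv T1A_b = fun s => Real.pi * (1 - 2 * |s|) / (1 + |s|) ^ 4 :=
  funext fun s => (T1A_b_hd s).deriv

theorem T1A_b'_cont : Continuous fun s : ℝ => Real.pi * (1 - 2 * |s|) / (1 + |s|) ^ 4 :=
  (continuous_const.mul (continuous_const.sub (continuous_const.mul continuous_abs))).div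
    ((continuous_const.add continuous_abs).pow 4) fun s => by positivity

theorem T1A_b_c1 : ContDiff ℝ 1 T1A_b := by
  rw [contDiff_one_iff_deriv, T1A_b_deriv]
  exact ⟨fun s => (T1A_b_hd s).differentiableAt, T1A_b'_cont⟩

/-- quotient by a positive `C¹` function -/
theorem T1A_quot {f q : E → ℝ} {K : ℝ} (hK : 0 < K) (hf : Bl f) (hq : ContDiff ℝ 1 q)
    (h0 : ∀ x, 0 < q x) : Bl (fun x => f x / (K * q x)) ∧
      ∀ᵐ x, D (fun x => f x / (K * q x)) x = (K * q x)⁻¹ • D f x - (f x / (K * q x ^ 2)) • ∇ q x := by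
  have hw : ContDiff ℝ 1 fun x => K * q x := contDiff_const.mul hq
  obtain ⟨h1, h2⟩ := hf.div (bl_c1 hw)
    (Continuous.lp' hw.continuous fun x => mul_pos hK (h0 x))
  refine ⟨h1, ?_⟩
  filter_upwards [h2, D_smul K (bl_c1 hq).hl, D_c1 hq] with x e1 e2 e3
  rw [e1, e2, e3, smul_sub, smul_smul, smul_smul, smul_smul]
  have := (h0 x).ne'
  have := hK.ne'
  congr 2
  · field_simp
  · field_simp

theorem T1A_lap_cont {q : E → ℝ} (hq : ContDiff ℝ 2 q) : Continuous (lap q) :=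
  continuousOn_univ.1 (S12_lap_cont isOpen_univ hq.contDiffOn)

theorem T1A_src {f A q : E → ℝ} (K : ℝ) (h : Sol f A) (hq : ContDiff ℝ 2 q) {C : Set E}
    (hC : IsCompact C) :
    IntegrableOn (fun x => K⁻¹ * (q x * A x + (1 / 2) * (lap q x * f x))) C volume := by
  have h1 := S12_cont_mul hq.continuous hC (S12_intOn hC (h.l2.restrict C))
  have h2 := S12_cont_mul (T1A_lap_cont hq) hC (S12_intOn hC (h.h1.l2.restrict C))
  exact (h1.add (h2.const_mul (1 / 2))).const_mul K⁻¹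

/-- the weak equation of the quotient -/
theorem T1A_weak {f A q φ : E → ℝ} {K : ℝ} (hK : 0 < K) (h : Sol f A) (hf : LB f)
    (hq : ContDiff ℝ 2 q) (h0 : ∀ x, 0 < q x) (hφ : TF univ φ) :
    ∫ x, (1 / 2) * q x ^ 2 * ⟪D (fun x => f x / (K * q x)) x, D φ x⟫ =
      ∫ x, K⁻¹ * (q x * A x + (1 / 2) * (lap q x * f x)) * φ x := by
  have hq1 : ContDiff ℝ 1 q := hq.of_le (by norm_num)
  have hg : Continuous (∇ q) := s01_cont_grad hq1
  have e1 := h.eq _ (hφ.mul (bl_c1 hq1)).h1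
  have e2 := S12_ibp (F0a_grad_smooth hq) h.h1.hl hφ
  have i1 : Integrable fun x => q x * ⟪D f x, D φ x⟫ :=
    S12_int_vec hq.continuous.aestronglyMeasurable (Continuous.lb' hq.continuous) h.h1.hl.dl2 hφ
  have i2 : Integrable fun x => ⟪D f x, ∇ q x⟫ * φ x :=
    S12_int_rhs (fun C hC _ => S12_inner (h.h1.hl.dl2 C hC) (S12_cont_memLp hg hC)) hφ
  have i3 : Integrable fun x => f x * ⟪∇ q x, D φ x⟫ :=
    S12_int_vec h.h1.l2.1 hf (fun C hC => S12_cont_memLp hg hC) hφ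
  have i4 : Integrable fun x => lap q x * f x * φ x :=
    S12_int_rhs (fun C hC _ => S12_cont_mul (T1A_lap_cont hq) hC
      (S12_intOn hC (h.h1.l2.restrict C))) hφ
  have i5 : Integrable fun x => q x * A x * φ x :=
    S12_int_rhs (fun C hC _ => S12_cont_mul hq.continuous hC (S12_intOn hC (h.l2.restrict C))) hφ
  have a1 : ∫ x, (1 / 2) * ⟪D f x, D (fun x => q x * φ x) x⟫ =
      (1 / 2) * (∫ x, q x * ⟪D f x, D φ x⟫) + (1 / 2) * ∫ x, ⟪D f x, ∇ q x⟫ * φ x := by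
    rw [← integral_const_mul, ← integral_const_mul,
      ← integral_add (i1.const_mul _) (i2.const_mul _)]
    refine integral_congr_ae ?_
    filter_upwards [D_mul_c1 hφ.h1.hl hq1] with x hx
    rw [hx, inner_add_right, real_inner_smul_right, real_inner_smul_right]
    ring
  have a2 : ∫ x, (f x * dvg (∇ q) x + ⟪D f x, ∇ q x⟫) * φ x =
      (∫ x, lap q x * f x * φ x) + ∫ x, ⟪D f x, ∇ q x⟫ * φ x := by
    rw [← integral_add i4 i2]
    refine integral_congr_ae (Eventually.of_forall fun x => ?_)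
    simp only [lap]
    ring
  have a3 : ∫ x, A x * (q x * φ x) = ∫ x, q x * A x * φ x :=
    integral_congr_ae (Eventually.of_forall fun x => by ring)
  have a4 : ∫ x, (1 / 2) * q x ^ 2 * ⟪D (fun x => f x / (K * q x)) x, D φ x⟫ =
      K⁻¹ / 2 * (∫ x, q x * ⟪D f x, D φ x⟫) - K⁻¹ / 2 * ∫ x, f x * ⟪∇ q x, D φ x⟫ := by
    rw [← integral_const_mul, ← integral_const_mul,
      ← integral_sub (i1.const_mul _) (i3.const_mul _)]
    refine integral_congr_ae ?_
    filter_upwards [(T1A_quot hK ⟨h.h1.hl, hf⟩ hq1 h0).2] with x hx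
    rw [hx, inner_sub_left, real_inner_smul_left, real_inner_smul_left]
    have := (h0 x).ne'
    have := hK.ne'
    field_simp
  have a5 : ∫ x, K⁻¹ * (q x * A x + (1 / 2) * (lap q x * f x)) * φ x =
      K⁻¹ * (∫ x, q x * A x * φ x) + K⁻¹ / 2 * ∫ x, lap q x * f x * φ x := by
    rw [← integral_const_mul, ← integral_const_mul,
      ← integral_add (i5.const_mul _) (i4.const_mul _)]
    exact integral_congr_ae (Eventually.of_forall fun x => by ring)
  rw [a1, a3] at e1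
  rw [a2] at e2
  rw [a4, a5, e2, ← e1]
  ring

/-- the equation of the angle, in abstract form -/
theorem T1A_main {f g r A q : E → ℝ} {K : ℝ} (hK : 0 < K) (h : Sol f A) (hf : Continuous f)
    (hg : Bl g) (hr : ∀ᵐ x, r x ^ 2 = f x ^ 2 + g x ^ 2) (hq : ContDiff ℝ 2 q) (h0 : ∀ x, 0 < q x)
    (hp : ∀ x ∈ Hp, 0 ≤ f x) {X : E → ℝ} (hX : X = fun x => f x / (K * q x)) :
    WSub (fun x => r x ^ 2) Hp (fun x => βT (X x)) fun x =>
      Real.pi * X x / (1 + X x) ^ 3 *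
        (r x ^ 2 * (A x / (K * q x) + X x * ((1 / 2) * lap q x / q x)) -
          (K * q x) ^ 2 * X x * ‖D X x‖ ^ 2 - g x * ⟪D g x, D X x⟫ +
          g x ^ 2 * ⟪∇ q x, D X x⟫ / q x) -
        (1 / 2) * (Real.pi * (1 - 2 * X x) / (1 + X x) ^ 4) * r x ^ 2 * ‖D X x‖ ^ 2 := by
  have hq1 : ContDiff ℝ 1 q := hq.of_le (by norm_num)
  have hfb : Bl f := ⟨h.h1.hl, Continuous.lb' hf⟩
  have bX : Bl X := hX ▸ (T1A_quot hK hfb hq1 h0).1
  have cX : Continuous X := by
    rw [hX]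
    exact hf.div (continuous_const.mul hq.continuous) fun x => (mul_pos hK (h0 x)).ne'
  have pX : ∀ x ∈ Hp, 0 ≤ X x := fun x hx => by
    rw [hX]
    exact div_nonneg (hp x hx) (mul_pos hK (h0 x)).le
  have fX : ∀ x, f x = K * q x * X x := fun x => by
    have := (h0 x).ne'
    have := hK.ne'
    rw [hX]
    field_simp
  obtain ⟨bθ, dθ⟩ := bX.comp T1A_β_c1
  obtain ⟨bb, db⟩ := bX.comp T1A_b_c1
  obtain ⟨bY, dY⟩ := T1A_quot one_pos hg hq1 h0
  obtain ⟨Y, hY⟩ : ∃ Y : E → ℝ, Y = fun x => g x / (1 * q x) := ⟨_, rfl⟩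
  rw [← hY] at bY dY
  obtain ⟨bXX, dXX⟩ := bX.mul bX
  obtain ⟨bYY, dYY⟩ := bY.mul bY
  obtain ⟨ρ, hρ⟩ : ∃ ρ : E → ℝ, ρ = fun x => K ^ 2 * (X x * X x) + Y x * Y x := ⟨_, rfl⟩
  have bρ : Bl ρ := hρ ▸ (bXX.smul (K ^ 2)).add bYY
  have dρ : ∀ᵐ x, D ρ x = (K ^ 2 * (2 * X x)) • D X x + (2 * Y x) • D Y x := by
    filter_upwards [D_add (bXX.smul (K ^ 2)).hl bYY.hl, D_smul (K ^ 2) bXX.hl, dXX, dYY]
      with x e1 e2 e3 e4
    rw [hρ, e1, e2, e3, e4]
    module
  have rρ : ∀ᵐ x, r x ^ 2 = q x ^ 2 * ρ x := by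
    filter_upwards [hr] with x hx
    have := (h0 x).ne'
    rw [hx, fX x, hρ, hY]
    field_simp
  obtain ⟨bP, dP⟩ := bρ.mul bb
  obtain ⟨S2, hS2⟩ : ∃ S2 : E → ℝ, S2 = fun x => ρ x * T1A_b (X x) *
    (K⁻¹ * (q x * A x + (1 / 2) * (lap q x * f x))) := ⟨_, rfl⟩
  obtain ⟨S3, hS3⟩ : ∃ S3 : E → ℝ, S3 = fun x => (1 / 2) * q x ^ 2 *
    ⟪D X x, D (fun x => ρ x * T1A_b (X x)) x⟫ := ⟨_, rfl⟩
  have cq : Continuous fun x => (1 / 2 : ℝ) * q x ^ 2 := continuous_const.mul (hq.continuous.pow 2)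
  have iS2 : ∀ C, IsCompact C → IntegrableOn S2 C volume := fun C hC =>
    hS2 ▸ S12_lb_mul bP.hl.aesm bP.lb hC (T1A_src K h hq hC)
  have iS3 : ∀ C, IsCompact C → IntegrableOn S3 C volume := fun C hC =>
    hS3 ▸ S12_cont_mul cq hC (S12_inner (bX.hl.dl2 C hC) (bP.hl.dl2 C hC))
  have eS : ∀ᵐ x, x ∈ Hp → Real.pi * X x / (1 + X x) ^ 3 *
        (r x ^ 2 * (A x / (K * q x) + X x * ((1 / 2) * lap q x / q x)) -
          (K * q x) ^ 2 * X x * ‖D X x‖ ^ 2 - g x * ⟪D g x, D X x⟫ +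
          g x ^ 2 * ⟪∇ q x, D X x⟫ / q x) -
        (1 / 2) * (Real.pi * (1 - 2 * X x) / (1 + X x) ^ 4) * r x ^ 2 * ‖D X x‖ ^ 2 =
      S2 x - S3 x := by
    filter_upwards [dP, db, dρ, dY, rρ] with x e1 e2 e3 e4 e5 hx
    have h1 := (h0 x).ne'
    have h2 := hK.ne'
    have h3 : 1 + X x ≠ 0 := by linarith [pX x hx]
    simp only [hS2, hS3]
    rw [e1, e2, e3, e4, T1A_b_deriv, e5, fX x, ← real_inner_self_eq_norm_sq,
      real_inner_comm (D X x) (D g x), real_inner_comm (D X x) (∇ q x)]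
    simp only [T1A_b, abs_of_nonneg (pX x hx), inner_add_right, inner_sub_right,
      real_inner_smul_right, hY]
    field_simp
    ring
  refine ⟨bθ.hl, fun C hC hCp => ?_, fun χ hχ _ => le_of_eq ?_⟩
  · refine ((iS2 C hC).sub (iS3 C hC)).congr ?_
    filter_upwards [ae_restrict_of_ae eS, ae_restrict_mem hC.measurableSet] with x e1 e2
    exact (e1 (hCp e2)).symm
  · obtain ⟨C, hC, hCp, z1, z2⟩ := S12_supp hχ
    have hχ' : TF univ χ := hχ.mono (subset_univ _)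
    have hφ := hχ'.mul bP
    have e := T1A_weak hK h hfb.lb hq h0 hφ
    rw [← hX] at e
    have i1 := S12_int_lhs (w := fun x => q x ^ 2) (hq.continuous.pow 2).aestronglyMeasurable
      (Continuous.lb' (hq.continuous.pow 2)) bX.hl hφ
    have i2 : Integrable fun x => S2 x * χ x := S12_int_rhs (fun C hC _ => iS2 C hC) hχ'
    have i3 : Integrable fun x => S3 x * χ x := S12_int_rhs (fun C hC _ => iS3 C hC) hχ'
    have a1 : ∫ x, K⁻¹ * (q x * A x + (1 / 2) * (lap q x * f x)) * (ρ x * T1A_b (X x) * χ x) =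
        ∫ x, S2 x * χ x := integral_congr_ae (Eventually.of_forall fun x => by
      simp only [hS2]
      ring)
    rw [a1] at e
    calc ∫ x, (1 / 2) * r x ^ 2 * ⟪D (fun x => βT (X x)) x, D χ x⟫
        = ∫ x, ((1 / 2) * q x ^ 2 * ⟪D X x, D (fun x => ρ x * T1A_b (X x) * χ x) x⟫ -
            S3 x * χ x) := by
          refine integral_congr_ae ?_
          filter_upwards [(bP.mul hχ.bl).2, dθ, rρ, z1, z2] with x e1 e2 e3 e4 e5
          simp only [hS3]
          rw [e1, e2, e3, inner_add_right, real_inner_smul_right, real_inner_smul_right,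
            real_inner_smul_left, T1A_β_deriv]
          by_cases hx : x ∈ C
          · simp only [T1A_b, abs_of_nonneg (pX x (hCp hx))]
            ring
          · rw [e4 hx, e5 hx, inner_zero_right]
            ring
      _ = ∫ x, (S2 x * χ x - S3 x * χ x) := by
          rw [integral_sub i1 i3, integral_sub i2 i3, e]
      _ = _ := by
          refine integral_congr_ae ?_
          filter_upwards [eS, z1] with x e1 e2
          by_cases hx : x ∈ C
          · rw [e1 (hCp hx)]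
            ring
          · rw [e2 hx]
            ring

theorem T1A_q (m : MD) : ContDiff ℝ 2 m.qT ∧ (∀ x, 0 < m.qT x) ∧ ∀ x, m.qT (R x) = m.qT x :=
  ⟨(radb_smooth _ _ _).of_le (by norm_cast), fun x => (radb_facts _ _ _ x).1,
    fun x => (radb_facts _ _ _ x).2.1⟩

theorem T1A_β_neg (s : ℝ) : βT (-s) = -βT s := by
  simp only [βT, abs_neg]
  ring

theorem T1A_X {o : OD} {m : MD} {c K : ℝ} (hm : m.OK o c) (hK : 0 < K) :
    Bl (m.xT K) ∧ Continuous (m.xT K) ∧ (∀ x, m.xT K (R x) = -m.xT K x) ∧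
      ∀ᵐ x, D (m.xT K) x =
        (K * m.qT x)⁻¹ • D m.f x - (m.f x / (K * m.qT x ^ 2)) • ∇ m.qT x := by
  obtain ⟨hq, h0, hR⟩ := T1A_q m
  obtain ⟨h1, h2⟩ := T1A_quot hK ⟨hm.sf.h1.hl, Continuous.lb' hm.cf.1⟩ (hq.of_le (by norm_num)) h0
  refine ⟨h1, ?_, fun x => ?_, h2⟩
  · exact hm.cf.1.div (continuous_const.mul hq.continuous) fun x => (mul_pos hK (h0 x)).ne'
  · simp only [MD.xT, hm.cf.2.2, hR, neg_div]

theorem T1A_a {o : OD} {m : MD} {c K : ℝ} (hm : m.OK o c) (hK : 0 < K)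
    (hf : ∀ x ∈ Hp, 0 ≤ m.f x) :
    Bl (m.θT K) ∧ Continuous (m.θT K) ∧ (∀ x, m.θT K (R x) = -m.θT K x) ∧
      WSub (fun x => m.r x ^ 2) Hp (m.θT K) (m.ST o K) := by
  obtain ⟨hq, h0, hR⟩ := T1A_q m
  obtain ⟨h1, h2, h3, -⟩ := T1A_X hm hK
  have hg : Bl m.g := by
    refine ⟨hm.h1.2.2.2.1.hl, Bd.lb ⟨|c|, ?_⟩⟩
    filter_upwards [hm.bd, hm.pyth] with x e1 e2
    have a1 := (hm.nn x).1
    refine (abs_le_of_sq_le_sq (b := m.r x) (by nlinarith [sq_nonneg (m.f x)]) a1).trans ?_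
    exact e1.1.trans (le_abs_self c)
  refine ⟨(h1.comp T1A_β_c1).1, T1A_β_c1.continuous.comp h2, fun x => ?_, ?_⟩
  · simp only [MD.θT, h3, T1A_β_neg]
  · exact T1A_main hK hm.sf hm.cf.1 hg (hm.pyth.mono fun x hx => hx.2.1) hq h0 hf rfl

end

end Crest.Agent.R335
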