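import Mathlib

set_option autoImplicit false

namespace Crest.Agent.R335

noncomputable section

theorem T1b_amgm {w X A α β : ℝ} (hα : 0 < α) (hw : w ^ 2 ≤ 4 * α * β) :
    w * X * A ≤ α * X ^ 2 + β * A ^ 2 := by
  have h1 : 0 ≤ (2 * α * X - w * A) ^ 2 := sq_nonneg _
  have h2 : w ^ 2 * A ^ 2 ≤ 4 * α * β * A ^ 2 := mul_le_mul_of_nonneg_right hw (sq_nonneg _)
  have h3 : 4 * α * (w * X * A) ≤ 4 * α * (α * X ^ 2 + β * A ^ 2) := by nlinarith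
  exact le_of_mul_le_mul_left h3 (by positivity)

/-- the data at one point -/
structure T1bP (Γ K ε C1 η t u z X Q r g A : ℝ) : Prop where
  hΓ : 1 ≤ Γ
  hK : 1 ≤ K
  hε : 0 < ε
  hε1 : ε ≤ 1 / 5
  hC : 0 ≤ C1
  hη0 : 0 ≤ η
  hη : 12 * Γ ^ 2 * η ≤ ε
  ht : 1 ≤ t
  hu1 : 1 / K ≤ u
  hu2 : u ≤ t / K
  hz : 0 < z
  hX : 0 < X
  hQ : 0 < Q
  hr : 0 < r
  hg : 0 ≤ g
  hA : 0 ≤ A
  py : r ^ 2 = (Q * X) ^ 2 + g ^ 2
  lo : z * u ≤ Γ * X
  up : X ≤ Γ * (z * u)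
  dz : z ≤ 1 / Γ → u ≤ Γ * A

namespace T1bP

variable {Γ K ε C1 η t u z X Q r g A : ℝ}

theorem u0 (h : T1bP Γ K ε C1 η t u z X Q r g A) : 0 < u :=
  lt_of_lt_of_le (by have := h.hK; positivity) h.hu1

theorem gr (h : T1bP Γ K ε C1 η t u z X Q r g A) : g ≤ r :=
  abs_le_of_sq_le_sq' (by rw [h.py]; nlinarith [sq_nonneg (Q * X)]) h.hr.le |>.2

theorem fr (h : T1bP Γ K ε C1 η t u z X Q r g A) : Q * X ≤ r :=
  abs_le_of_sq_le_sq' (by rw [h.py]; nlinarith [sq_nonneg g]) h.hr.le |>.2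

theorem Γz (h : T1bP Γ K ε C1 η t u z X Q r g A) (hz : z ≤ 1 / Γ) : Γ * z ≤ 1 := by
  have := h.hΓ
  rw [le_div_iff₀ (by linarith)] at hz
  linarith

theorem XA (h : T1bP Γ K ε C1 η t u z X Q r g A) (hz : z ≤ 1 / Γ) : X ≤ Γ ^ 2 * z * A := by
  have h1 := h.dz hz
  have := h.hΓ
  have := h.hz
  calc X ≤ Γ * (z * u) := h.up
    _ ≤ Γ * (z * (Γ * A)) := by gcongr
    _ = Γ ^ 2 * z * A := by ring

/-- error term, absorbed in `X²` -/
theorem t2a (h : T1bP Γ K ε C1 η t u z X Q r g A) (hc : 1 / 4 ≤ X ∨ 1 / Γ ≤ z) :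
    X * (η / K) ≤ ε / 3 * X ^ 2 := by
  have hΓ := h.hΓ
  have hK := h.hK
  have hX := h.hX
  have hη := h.hη0
  have h1 : 1 / K ≤ 4 * Γ ^ 2 * X := by
    rcases hc with hc | hc
    · have : 1 / K ≤ 1 := by rw [div_le_one (by linarith)]; exact hK
      nlinarith [mul_le_mul_of_nonneg_right (show 1 ≤ Γ ^ 2 by nlinarith) hX.le]
    · rw [div_le_iff₀ (by linarith)] at hc
      have h2 : u ≤ Γ * (z * u) := by nlinarith [h.u0]
      have h3 : Γ * (z * u) ≤ Γ * (Γ * X) := mul_le_mul_of_nonneg_left h.lo (by linarith)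
      have := h.hu1
      nlinarith [mul_pos (show 0 < Γ ^ 2 by positivity) hX]
  calc X * (η / K) = X * η * (1 / K) := by ring
    _ ≤ X * η * (4 * Γ ^ 2 * X) := by gcongr
    _ = (12 * Γ ^ 2 * η) / 3 * X ^ 2 := by ring
    _ ≤ ε / 3 * X ^ 2 := by gcongr; exact h.hη

/-- error term, absorbed in the gain -/
theorem t2b (h : T1bP Γ K ε C1 η t u z X Q r g A) (hz : z ≤ 1 / Γ) :
    X * (η / K) ≤ A ^ 2 / 15 := by
  have hΓ := h.hΓ
  have hK := h.hK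
  have hX := h.hX
  have hη := h.hη0
  have hA := h.hA
  have h1 := h.dz hz
  have h2 : X ≤ Γ * A := by
    have h3 := h.Γz hz
    have h4 := h.up
    nlinarith [h.u0]
  have h3 : 1 / K ≤ Γ * A := h.hu1.trans h1
  calc X * (η / K) = X * η * (1 / K) := by ring
    _ ≤ (Γ * A) * η * (Γ * A) := by gcongr
    _ = (12 * Γ ^ 2 * η) / 12 * A ^ 2 := by ring
    _ ≤ (1 / 5) / 12 * A ^ 2 := by gcongr; exact h.hη.trans h.hε1
    _ ≤ A ^ 2 / 15 := by nlinarith [sq_nonneg A]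

theorem t1a (h : T1bP Γ K ε C1 η t u z X Q r g A) (ht : 3 * C1 / ε ≤ t) :
    X ^ 2 * (C1 / t) ≤ ε / 3 * X ^ 2 := by
  have := h.ht
  have := h.hε
  rw [div_le_iff₀ h.hε] at ht
  have : C1 / t ≤ ε / 3 := by rw [div_le_iff₀ (by linarith)]; linarith
  nlinarith [sq_nonneg X]

theorem t1b (h : T1bP Γ K ε C1 η t u z X Q r g A) (hz : z ≤ 1 / Γ) (hs : 15 * C1 * Γ ^ 4 * z ≤ 1) :
    X ^ 2 * (C1 / t) ≤ A ^ 2 / 15 := by
  have hΓ := h.hΓ
  have hC := h.hC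
  have hz0 := h.hz
  have hX := h.hX
  have h1 := h.XA hz
  have hz1 : z ≤ 1 := by nlinarith [h.Γz hz]
  have h2 : C1 / t ≤ C1 := div_le_self hC h.ht
  calc X ^ 2 * (C1 / t) ≤ (Γ ^ 2 * z * A) ^ 2 * C1 := by
        have := h.ht
        gcongr
    _ = (15 * C1 * Γ ^ 4 * z) * z * (A ^ 2 / 15) := by ring
    _ ≤ 1 * 1 * (A ^ 2 / 15) := by gcongr
    _ = A ^ 2 / 15 := by ring

/-- cross term, `X ≥ 1/4` -/
theorem t3B (h : T1bP Γ K ε C1 η t u z X Q r g A) (hc : 1 / 4 ≤ X) (hK' : 1500 * Γ ^ 2 / ε ≤ K) :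
    5 * Γ * g * (Q * u) / t * X * A ≤ ε / 3 * r ^ 2 * X ^ 2 + r ^ 2 / (4 * (1 + X)) * A ^ 2 := by
  have hΓ := h.hΓ
  have hK := h.hK
  have hX := h.hX
  have hr := h.hr
  have hε := h.hε
  have ht := h.ht
  have hQ := h.hQ
  have hg := h.hg
  have hu := h.u0
  refine T1b_amgm (by positivity) ?_
  have h1 : u / t ≤ 1 / K := by
    rw [div_le_iff₀ (by linarith)]
    calc u ≤ t / K := h.hu2
      _ = 1 / K * t := by ring
  have h2 : Q ≤ r / X := by rw [le_div_iff₀ hX]; exact h.fr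
  have h3 : 5 * Γ * g * (Q * u) / t ≤ 5 * Γ * r * (r / X) * (1 / K) := by
    calc 5 * Γ * g * (Q * u) / t = 5 * Γ * g * Q * (u / t) := by ring
      _ ≤ 5 * Γ * r * (r / X) * (1 / K) := by gcongr; exact h.gr
  rw [div_le_iff₀ hε] at hK'
  have h4 : 75 * Γ ^ 2 * (1 + X) ≤ ε * (X ^ 2 * K ^ 2) := by
    have e1 : 1 + X ≤ 20 * X ^ 2 := by nlinarith
    have e2 : K * ε ≤ ε * K ^ 2 := by nlinarith [mul_pos hε (show 0 < K by linarith)]
    calc 75 * Γ ^ 2 * (1 + X) ≤ 75 * Γ ^ 2 * (20 * X ^ 2) := by gcongr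
      _ = 1500 * Γ ^ 2 * X ^ 2 := by ring
      _ ≤ ε * K ^ 2 * X ^ 2 := mul_le_mul_of_nonneg_right (by linarith) (sq_nonneg X)
      _ = ε * (X ^ 2 * K ^ 2) := by ring
  calc (5 * Γ * g * (Q * u) / t) ^ 2 ≤ (5 * Γ * r * (r / X) * (1 / K)) ^ 2 := by gcongr
    _ = r ^ 4 / 3 * (75 * Γ ^ 2 * (1 + X)) / ((1 + X) * (X ^ 2 * K ^ 2)) := by
        field_simp; ring
    _ ≤ r ^ 4 / 3 * (ε * (X ^ 2 * K ^ 2)) / ((1 + X) * (X ^ 2 * K ^ 2)) := by gcongr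
    _ = 4 * (ε / 3 * r ^ 2) * (r ^ 2 / (4 * (1 + X))) := by field_simp

/-- cross term, `z ≥ 1/Γ`, far -/
theorem t3C (h : T1bP Γ K ε C1 η t u z X Q r g A) (hc : 1 / Γ ≤ z) (ht' : 94 * Γ ^ 6 / ε ≤ t) :
    5 * Γ * g * (Q * u) / t * X * A ≤ ε / 3 * r ^ 2 * X ^ 2 + r ^ 2 / 5 * A ^ 2 := by
  have hΓ := h.hΓ
  have hX := h.hX
  have hr := h.hr
  have hε := h.hε
  have ht := h.ht
  have hQ := h.hQ
  have hg := h.hg
  have hu := h.u0
  refine T1b_amgm (by positivity) ?_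
  rw [div_le_iff₀ (by linarith)] at hc
  have h1 : u ≤ Γ ^ 2 * X := by
    have h2 : u ≤ Γ * (z * u) := by nlinarith
    have h3 : Γ * (z * u) ≤ Γ * (Γ * X) := mul_le_mul_of_nonneg_left h.lo (by linarith)
    nlinarith
  have h2 : Q * u ≤ Γ ^ 2 * r := by
    calc Q * u ≤ Q * (Γ ^ 2 * X) := by gcongr
      _ = Γ ^ 2 * (Q * X) := by ring
      _ ≤ Γ ^ 2 * r := by gcongr; exact h.fr
  have h3 : 5 * Γ * g * (Q * u) / t ≤ 5 * Γ * r * (Γ ^ 2 * r) / t := by gcongr; exact h.gr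
  rw [div_le_iff₀ hε] at ht'
  have h4 : 94 * Γ ^ 6 ≤ ε * t ^ 2 := by nlinarith [mul_pos hε (show 0 < t by linarith)]
  calc (5 * Γ * g * (Q * u) / t) ^ 2 ≤ (5 * Γ * r * (Γ ^ 2 * r) / t) ^ 2 := by gcongr
    _ = 25 / 94 * r ^ 4 * (94 * Γ ^ 6) / t ^ 2 := by field_simp; norm_num
    _ ≤ 25 / 94 * r ^ 4 * (ε * t ^ 2) / t ^ 2 := by gcongr
    _ = 25 / 94 * (ε * r ^ 4) := by field_simp
    _ ≤ 4 / 15 * (ε * r ^ 4) := mul_le_mul_of_nonneg_right (by norm_num) (by positivity)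
    _ = 4 * (ε / 3 * r ^ 2) * (r ^ 2 / 5) := by ring

theorem t3A (h : T1bP Γ K ε C1 η t u z X Q r g A) (hz : z ≤ 1 / Γ)
    (hw : 75 * Γ ^ 3 * (g * (Q * u) * z) ≤ t * r ^ 2) :
    5 * Γ * g * (Q * u) / t * X * A ≤ r ^ 2 * (A ^ 2 / 15) := by
  have hΓ := h.hΓ
  have ht := h.ht
  have hQ := h.hQ
  have hg := h.hg
  have hu := h.u0
  have hA := h.hA
  calc 5 * Γ * g * (Q * u) / t * X * A ≤ 5 * Γ * g * (Q * u) / t * (Γ ^ 2 * z * A) * A := by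
        gcongr; exact h.XA hz
    _ = 75 * Γ ^ 3 * (g * (Q * u) * z) / t * (A ^ 2 / 15) := by ring
    _ ≤ t * r ^ 2 / t * (A ^ 2 / 15) := by gcongr
    _ = r ^ 2 * (A ^ 2 / 15) := by field_simp

theorem gain (h : T1bP Γ K ε C1 η t u z X Q r g A) (hc : X ≤ 1 / 4) :
    r ^ 2 / 5 * A ^ 2 ≤ r ^ 2 / (4 * (1 + X)) * A ^ 2 := by
  have := h.hX
  gcongr
  linarith

theorem main (h : T1bP Γ K ε C1 η t u z X Q r g A) (hK' : 1500 * Γ ^ 2 / ε ≤ K)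
    (hreg : (3 * C1 / ε ≤ t ∧ 94 * Γ ^ 6 / ε ≤ t) ∨
      (z ≤ 1 / Γ ∧ 4 * t ≤ K ∧ 15 * C1 * Γ ^ 4 * z ≤ 1 ∧ 75 * Γ ^ 3 * (Q * u) * z ≤ g)) :
    r ^ 2 * (X ^ 2 * (C1 / t) + X * (η / K)) + 5 * Γ * g * (Q * u) / t * X * A ≤
      ε * r ^ 2 * X ^ 2 + r ^ 2 / (4 * (1 + X)) * A ^ 2 := by
  have hΓ := h.hΓ
  have hK := h.hK
  have hX := h.hX
  have hr := h.hr
  have hε := h.hε
  have ht := h.ht
  have hQ := h.hQ
  have hg := h.hg
  have hu := h.u0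
  have hr2 : 0 ≤ r ^ 2 := sq_nonneg r
  have hp : 0 ≤ ε * r ^ 2 * X ^ 2 := by positivity
  have hq : 0 ≤ r ^ 2 * A ^ 2 := by positivity
  rcases hreg with ⟨h1, h2⟩ | ⟨h1, h2, h3, h4⟩
  · have a1 := mul_le_mul_of_nonneg_left (h.t1a h1) hr2
    rcases le_total (1 / 4) X with hc | hc
    · have a2 := mul_le_mul_of_nonneg_left (h.t2a (Or.inl hc)) hr2
      have a3 := h.t3B hc hK'
      nlinarith
    · have a4 := h.gain hc
      rcases le_total (1 / Γ) z with hz | hz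
      · have a2 := mul_le_mul_of_nonneg_left (h.t2a (Or.inr hz)) hr2
        have a3 := h.t3C hz h2
        nlinarith
      · have a2 := mul_le_mul_of_nonneg_left (h.t2b hz) hr2
        have a3 := h.t3A hz (by
          have e1 : g * (Q * u) * z ≤ Γ * (r ^ 2 / 2) := by
            calc g * (Q * u) * z = g * Q * (z * u) := by ring
              _ ≤ g * Q * (Γ * X) := mul_le_mul_of_nonneg_left h.lo (by positivity)
              _ = Γ * (g * (Q * X)) := by ring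
              _ ≤ Γ * (r ^ 2 / 2) := by
                gcongr
                rw [h.py]; nlinarith [sq_nonneg (g - Q * X)]
          have e2 : 38 * Γ ^ 4 ≤ t := by
            refine le_trans ?_ h2
            rw [le_div_iff₀ hε]
            have e3 : Γ ^ 4 ≤ Γ ^ 6 := pow_le_pow_right₀ hΓ (by norm_num)
            have e4 : 0 < Γ ^ 4 := by positivity
            nlinarith [h.hε1]
          calc 75 * Γ ^ 3 * (g * (Q * u) * z) ≤ 75 * Γ ^ 3 * (Γ * (r ^ 2 / 2)) := by gcongr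
            _ = 75 / 2 * Γ ^ 4 * r ^ 2 := by ring
            _ ≤ 38 * Γ ^ 4 * r ^ 2 := by gcongr; norm_num
            _ ≤ t * r ^ 2 := by gcongr)
        nlinarith
  · have hc : X ≤ 1 / 4 := by
      have e1 : X ≤ u := by nlinarith [h.Γz h1, h.up]
      have e2 : t / K ≤ 1 / 4 := by rw [div_le_iff₀ (by linarith)]; linarith
      linarith [h.hu2]
    have a4 := h.gain hc
    have a1 := mul_le_mul_of_nonneg_left (h.t1b h1 h3) hr2
    have a2 := mul_le_mul_of_nonneg_left (h.t2b h1) hr2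
    have a3 := h.t3A h1 (by
      calc 75 * Γ ^ 3 * (g * (Q * u) * z) = g * (75 * Γ ^ 3 * (Q * u) * z) := by ring
        _ ≤ g * g := by gcongr
        _ ≤ r * r := by gcongr <;> exact h.gr
        _ = 1 * r ^ 2 := by ring
        _ ≤ t * r ^ 2 := by gcongr)
    nlinarith

theorem neg (h : T1bP Γ K ε C1 η t u z X Q r g A) (hK' : 2 * Γ ≤ K) (hg' : g ≤ Γ * (Q * u) / t) :
    X * g ^ 2 ≤ (Q * X) ^ 2 + r ^ 2 / 4 := by
  have hΓ := h.hΓ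
  have hK := h.hK
  have hX := h.hX
  have ht := h.ht
  have hQ := h.hQ
  have hg := h.hg
  have hu := h.u0
  rcases le_total (1 / 4) X with hc | hc
  · have h1 : u / t ≤ 1 / K := by
      rw [div_le_iff₀ (by linarith)]
      calc u ≤ t / K := h.hu2
        _ = 1 / K * t := by ring
    have h2 : Γ * (1 / K) ≤ 1 / 2 := by
      rw [mul_one_div, div_le_iff₀ (by linarith)]; linarith
    have h3 : g ≤ Q / 2 := by
      calc g ≤ Γ * (Q * u) / t := hg'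
        _ = Q * (Γ * (u / t)) := by ring
        _ ≤ Q * (Γ * (1 / K)) := by gcongr
        _ ≤ Q * (1 / 2) := by gcongr
        _ = Q / 2 := by ring
    calc X * g ^ 2 ≤ X * (Q / 2) ^ 2 := by gcongr
      _ = Q ^ 2 * X * (1 / 4) := by ring
      _ ≤ Q ^ 2 * X * X := by gcongr
      _ ≤ (Q * X) ^ 2 + r ^ 2 / 4 := by nlinarith [sq_nonneg r]
  · rw [h.py]
    nlinarith [sq_nonneg g, sq_nonneg (Q * X)]

/-- the final form -/
theorem final (h : T1bP Γ K ε C1 η t u z X Q r g A) (hK' : 1500 * Γ ^ 2 / ε ≤ K)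
    (hg' : g ≤ Γ * (Q * u) / t)
    (hreg : (3 * C1 / ε ≤ t ∧ 94 * Γ ^ 6 / ε ≤ t) ∨
      (z ≤ 1 / Γ ∧ 4 * t ≤ K ∧ 15 * C1 * Γ ^ 4 * z ≤ 1 ∧ 75 * Γ ^ 3 * (Q * u) * z ≤ g))
    {P L e c1 c2 : ℝ} (hB : -P + L ≤ C1 / t) (he : e / Q ≤ η / K)
    (hc : -c1 + c2 ≤ 5 * Γ * g * (Q * u) / t * A) :
    Real.pi * X / (1 + X) ^ 3 *
      (r ^ 2 * ((-(P * (Q * X)) + e) / Q + X * L) - Q ^ 2 * X * A ^ 2 - c1 + c2) -
      (1 / 2) * (Real.pi * (1 - 2 * X) / (1 + X) ^ 4) * r ^ 2 * A ^ 2 ≤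
      16 * ε / 4 * (r ^ 2 * (X ^ 2 / (1 + X) ^ 3)) := by
  have hΓ := h.hΓ
  have hX := h.hX
  have hQ := h.hQ
  have hε := h.hε
  have hr := h.hr
  have hK2 : 2 * Γ ≤ K := by
    refine le_trans ?_ hK'
    rw [le_div_iff₀ hε]
    nlinarith [h.hε1]
  have a1 := h.main hK' hreg
  have a2 := h.neg hK2 hg'
  have hX1 : 0 < 1 + X := by linarith
  have e1 : (-(P * (Q * X)) + e) / Q + X * L = X * (-P + L) + e / Q := by field_simp; ring
  have b1 : X * (r ^ 2 * (X * (-P + L) + e / Q) - c1 + c2) ≤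
      r ^ 2 * (X ^ 2 * (C1 / t) + X * (η / K)) + 5 * Γ * g * (Q * u) / t * X * A := by
    have d1 : r ^ 2 * X ^ 2 * (-P + L) ≤ r ^ 2 * X ^ 2 * (C1 / t) := by gcongr
    have d2 : r ^ 2 * X * (e / Q) ≤ r ^ 2 * X * (η / K) := by gcongr
    have d3 : X * (-c1 + c2) ≤ X * (5 * Γ * g * (Q * u) / t * A) := by gcongr
    nlinarith
  have b2 : r ^ 2 / (4 * (1 + X)) * A ^ 2 ≤
      (Q * X) ^ 2 * A ^ 2 + (1 / 2) * ((1 - 2 * X) / (1 + X)) * r ^ 2 * A ^ 2 := by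
    have d1 : r ^ 2 / 4 ≤ (Q * X) ^ 2 * (1 + X) + (1 / 2) * (1 - 2 * X) * r ^ 2 := by
      have := h.py
      nlinarith
    calc r ^ 2 / (4 * (1 + X)) * A ^ 2 = r ^ 2 / 4 * (A ^ 2 / (1 + X)) := by field_simp
      _ ≤ ((Q * X) ^ 2 * (1 + X) + (1 / 2) * (1 - 2 * X) * r ^ 2) * (A ^ 2 / (1 + X)) := by gcongr
      _ = _ := by field_simp
  have b3 : X * (r ^ 2 * (X * (-P + L) + e / Q) - Q ^ 2 * X * A ^ 2 - c1 + c2) -
      (1 / 2) * ((1 - 2 * X) / (1 + X)) * r ^ 2 * A ^ 2 ≤ ε * r ^ 2 * X ^ 2 := by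
    nlinarith
  rw [e1]
  calc _ = Real.pi / (1 + X) ^ 3 *
        (X * (r ^ 2 * (X * (-P + L) + e / Q) - Q ^ 2 * X * A ^ 2 - c1 + c2) -
          (1 / 2) * ((1 - 2 * X) / (1 + X)) * r ^ 2 * A ^ 2) := by field_simp
    _ ≤ Real.pi / (1 + X) ^ 3 * (ε * r ^ 2 * X ^ 2) := by
        have := Real.pi_pos
        gcongr
    _ ≤ 4 / (1 + X) ^ 3 * (ε * r ^ 2 * X ^ 2) := by
        gcongr
        exact Real.pi_le_four
    _ = _ := by field_simp; norm_num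

end T1bP

end

end Crest.Agent.R335
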