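import Crest.Agent.R335.Defs6
import Crest.Agent.R335.F0b
import Crest.Agent.R335.T1bAux1

set_option autoImplicit false

open MeasureTheory Set Filter Topology Metric
open scoped Gradient ContDiff RealInnerProductSpace ENNReal

namespace Crest.Agent.R335

noncomputable section

theorem T1b_coord (x : E) : |x 2| ≤ ‖x‖ := by
  simpa using PiLp.norm_apply_le x 2

theorem T1b_ez (d : ℝ) : (d • ez) 2 = d ∧ ‖d • ez‖ = |d| := by
  refine ⟨by simp [ez], ?_⟩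
  rw [norm_smul, ez]
  simp

theorem T1b_dist {d : ℝ} (hd : 2 ≤ d) {x : E} (hz : 0 < x 2) (h : d + 1 ≤ ‖x‖ ∨ x 2 ≤ 1) :
    1 ≤ ‖x - d • ez‖ ∧ 1 ≤ ‖x + d • ez‖ := by
  obtain ⟨e1, e2⟩ := T1b_ez d
  rw [abs_of_nonneg (by linarith)] at e2
  have a1 := T1b_coord (x - d • ez)
  have a2 := T1b_coord (x + d • ez)
  rw [PiLp.sub_apply, e1] at a1
  rw [PiLp.add_apply, e1] at a2
  refine ⟨?_, by linarith [le_abs_self (x 2 + d)]⟩
  rcases h with h | h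
  · linarith [norm_sub_norm_le x (d • ez)]
  · linarith [neg_abs_le (x 2 - d)]

theorem T1b_pot {d : ℝ} (hd : 2 ≤ d) {x : E} (h1 : 1 ≤ ‖x - d • ez‖) (h2 : 1 ≤ ‖x + d • ez‖) :
    -vx d x ≤ 2 * (2 + d) / jb x := by
  obtain ⟨-, e2⟩ := T1b_ez d
  rw [abs_of_nonneg (by linarith)] at e2
  obtain ⟨j1, -, j3, -⟩ := jb_facts x
  have key : ∀ a : ℝ, 1 ≤ a → ‖x‖ ≤ a + d → 1 / a ≤ (2 + d) / jb x := by
    intro a ha hx
    rw [div_le_div_iff₀ (by linarith) (by linarith)]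
    nlinarith
  have a1 := key _ h1 (by
    have := norm_add_le (x - d • ez) (d • ez)
    rw [sub_add_cancel] at this
    linarith)
  have a2 := key _ h2 (by
    have := norm_sub_le (x + d • ez) (d • ez)
    rw [add_sub_cancel_right] at this
    linarith)
  have : 2 * (2 + d) / jb x = (2 + d) / jb x + (2 + d) / jb x := by ring
  rw [this, vx]
  linarith

theorem T1b_inv (a k : ℝ) (x : E) : rad (-a) (-k) x * rad a k x = 1 := by
  have h : 0 < jb x := by linarith [(jb_facts x).1]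
  simp only [rad, radb, zero_div, add_zero]
  rw [mul_mul_mul_comm, ← Real.rpow_add h, ← Real.exp_add]
  simp

theorem T1b_D {f : E → ℝ} (hf : Hl f) (a k K : ℝ) :
    ∀ᵐ x, D (fun x => f x / (K * rad a k x)) x 2 =
      (D f x 2 + f x * (k - a / jb x) * (x 2 / jb x)) / (K * rad a k x) := by
  have hc : ContDiff ℝ 1 (rad (-a) (-k)) := (radb_smooth _ _ _).of_le (by simp)
  have e : (fun x => f x / (K * rad a k x)) = fun x => K⁻¹ * (rad (-a) (-k) x * f x) := by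
    funext x
    rw [eq_inv_of_mul_eq_one_left (T1b_inv a k x)]
    ring
  rw [e]
  filter_upwards [D_smul K⁻¹ (hf.mul_c1 hc), D_mul_c1 hf hc] with x h1 h2
  rw [h1, h2, (radb_facts (-a) (-k) 0 x).2.2.1]
  have h3 := eq_inv_of_mul_eq_one_left (T1b_inv a k x)
  simp only [PiLp.smul_apply, PiLp.add_apply, smul_eq_mul, ell, zero_div, sub_zero]
  change K⁻¹ * (rad (-a) (-k) x * _ + f x * (rad (-a) (-k) x * _ / _ * _)) = _
  rw [h3]
  ring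

theorem T1b_rad : ∃ C : ℝ, 0 < C ∧ ∀ a k : ℝ, -2 ≤ a → a ≤ 1 / 10 → 99 / 100 ≤ k → k ≤ 11 / 10 → ∀ x,
    0 < rad (a + -(1 / 2)) k x ∧ rad a k x = √(jb x) * rad (a + -(1 / 2)) k x ∧ rad a k x ≤ jb x ∧
    ‖∇ (rad (a + -(1 / 2)) k) x‖ ≤ 4 * rad (a + -(1 / 2)) k x ∧
    (1 / 2) * lap (rad (a + -(1 / 2)) k) x / rad (a + -(1 / 2)) k x ≤ k ^ 2 / 2 + (2 + C) / jb x ∧
    0 ≤ k - (a + -(1 / 2)) / jb x := by
  obtain ⟨C, hC, hlap⟩ := lap_radb 3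
  refine ⟨C, hC, fun a k ha1 ha2 k1 k5 x => ?_⟩
  obtain ⟨j1, j2, j3, -⟩ := jb_facts x
  have ht0 : 0 < jb x := by linarith
  obtain ⟨q0, -, qg, -⟩ := radb_facts (a + -(1 / 2)) k 0 x
  have ql := hlap (a + -(1 / 2)) k 0 (abs_le.2 ⟨by linarith, by linarith⟩)
    (abs_le.2 ⟨by linarith, by linarith⟩) (by simp) x
  have b1 : (a + -(1 / 2)) / jb x ≤ 0 := div_nonpos_of_nonpos_of_nonneg (by linarith) ht0.le
  refine ⟨q0, ?_, ?_, ?_, ?_, by linarith⟩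
  · have := (radb_facts (a + -(1 / 2)) k 0 x).2.2.2.2.2 (1 / 2)
    rw [show a + -(1 / 2) + 1 / 2 = a by ring, ← Real.sqrt_eq_rpow] at this
    exact this
  · simp only [rad, radb, zero_div, add_zero]
    have e1 : jb x ^ a ≤ jb x ^ (1 : ℝ) := Real.rpow_le_rpow_of_exponent_le j1 (by linarith)
    have e2 : Real.exp (-(k * jb x)) ≤ 1 := Real.exp_le_one_iff.2 (by nlinarith)
    rw [Real.rpow_one] at e1
    calc _ ≤ jb x * 1 := by gcongr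
      _ = jb x := mul_one _
  · have e2 : |ell (a + -(1 / 2)) k 0 x| ≤ 4 := by
      have b2 : -(5 / 2) ≤ (a + -(1 / 2)) / jb x := by rw [le_div_iff₀ ht0]; nlinarith
      simp only [ell, zero_div, sub_zero]
      exact abs_le.2 ⟨by linarith, by linarith⟩
    rw [qg, norm_smul, Real.norm_eq_abs, abs_div, abs_mul, abs_of_pos q0, abs_of_pos ht0]
    calc _ ≤ radb (a + -(1 / 2)) k 0 x * 4 / jb x * jb x := by gcongr
      _ = _ := by field_simp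
  · have e1 := (abs_le.1 ql).1
    have e2 : (1 / 2) * lap (rad (a + -(1 / 2)) k) x / rad (a + -(1 / 2)) k x ≤
        k ^ 2 / 2 - k * (a + -(1 / 2) + 1) / jb x + C / jb x ^ 2 := by
      rw [div_le_iff₀ q0]
      simp only [mul_zero, zero_div, sub_zero] at e1
      linarith
    have e3 : C / jb x ^ 2 ≤ C / jb x := by gcongr; nlinarith
    have e4 : -(k * (a + -(1 / 2) + 1)) / jb x ≤ 2 / jb x := by gcongr; nlinarith
    rw [neg_div] at e4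
    rw [add_div]
    linarith

theorem T1b_cross {Dg DX Gq : E} {g q B : ℝ} (hg : 0 ≤ g) (hq : 0 < q) (h1 : g ≤ B) (h2 : ‖Dg‖ ≤ B)
    (h3 : ‖Gq‖ ≤ 4 * q) : -(g * ⟪Dg, DX⟫) + g ^ 2 * ⟪Gq, DX⟫ / q ≤ 5 * g * B * ‖DX‖ := by
  have e1 : -⟪Dg, DX⟫ ≤ B * ‖DX‖ := by
    calc _ ≤ |⟪Dg, DX⟫| := neg_le_abs _
      _ ≤ ‖Dg‖ * ‖DX‖ := abs_real_inner_le_norm _ _
      _ ≤ _ := by gcongr
  have e4 : ⟪Gq, DX⟫ / q ≤ 4 * ‖DX‖ := by
    rw [div_le_iff₀ hq]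
    calc _ ≤ ‖Gq‖ * ‖DX‖ := real_inner_le_norm _ _
      _ ≤ 4 * q * ‖DX‖ := by gcongr
      _ = _ := by ring
  have e5 := mul_le_mul_of_nonneg_left e1 hg
  have e6 : g ^ 2 * (⟪Gq, DX⟫ / q) ≤ g * B * (4 * ‖DX‖) := by
    calc _ ≤ g ^ 2 * (4 * ‖DX‖) := by gcongr
      _ = g * g * (4 * ‖DX‖) := by ring
      _ ≤ _ := by gcongr
  rw [mul_div_assoc (g ^ 2)]
  linarith

/-- everything at one point, in real numbers -/
theorem T1b_pt {Γ K ε C1 cl t z q Dm f r g X A Dz fz b ρ s g1 P L e c1 c2 : ℝ} (hΓ : 1 ≤ Γ)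
    (hε : 0 < ε) (hε1 : ε ≤ 1 / 5) (hC : 0 < C1) (hcl : 0 ≤ cl) (hη : 12 * Γ ^ 3 * cl ≤ ε)
    (hK1 : 1500 * Γ ^ 2 / ε ≤ K) (hK2 : 4 * (ρ + 1) ≤ K) (hρ : 0 ≤ ρ) (ht : 1 ≤ t) (hz : 0 < z)
    (q0 : 0 < q) (qD : Dm = √t * q) (hDle : Dm ≤ t) (hXe : X = f / (K * q)) (n1 : 0 ≤ r)
    (n3 : 0 ≤ g) (hA : 0 ≤ A) (py : r ^ 2 = f ^ 2 + g ^ 2) (fl : z * Dm / Γ ≤ f)
    (fu : f ≤ Γ * (z * Dm)) (hdz : z ≤ 1 / Γ → Dm / Γ ≤ fz) (hb : 0 ≤ b)
    (hD : Dz = (fz + f * b * (z / t)) / (K * q)) (hDA : Dz ≤ A) (hg : g ≤ Γ * Dm / t)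
    (hs1 : s ≤ 1 / Γ) (hs2 : s ≤ 1 / (15 * C1 * Γ ^ 4)) (hs3 : s ≤ g1 / (75 * Γ ^ 3 * (ρ + 1)))
    (hreg : (3 * C1 / ε ≤ t ∧ 94 * Γ ^ 6 / ε ≤ t) ∨ (z < s ∧ t ≤ ρ + 1 ∧ g1 ≤ g))
    (hB : -P + L ≤ C1 / t) (he : |e| ≤ cl / t ^ 2 * g)
    (hc : -c1 + c2 ≤ 5 * g * (Γ * Dm / t) * A) :
    Real.pi * X / (1 + X) ^ 3 *
      (r ^ 2 * ((-(P * f) + e) / (K * q) + X * L) - (K * q) ^ 2 * X * A ^ 2 - c1 + c2) -
      (1 / 2) * (Real.pi * (1 - 2 * X) / (1 + X) ^ 4) * r ^ 2 * A ^ 2 ≤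
      16 * ε / 4 * (r ^ 2 * (X ^ 2 / (1 + X) ^ 3)) := by
  have hΓ0 : 0 < Γ := by linarith
  have ht0 : 0 < t := by linarith
  have hK3 : 1 ≤ K := by linarith
  have s1 : 1 ≤ √t := Real.one_le_sqrt.2 ht
  have s2 : √t ≤ t := by
    rw [Real.sqrt_le_left ht0.le]; nlinarith
  have hQ : 0 < K * q := by positivity
  have hu : Dm = K * q * (√t / K) := by rw [qD]; field_simp
  have hDm0 : 0 < Dm := by rw [qD]; positivity
  have hf0 : 0 < f := lt_of_lt_of_le (by positivity) fl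
  have hfe : f = K * q * X := by rw [hXe]; field_simp
  have hX0 : 0 < X := by rw [hXe]; positivity
  have hr0 : 0 < r := by
    rcases n1.eq_or_lt with h | h
    · rw [← h] at py
      have := sq_nonneg g
      have := pow_pos hf0 2
      linarith
    · exact h
  have hP : T1bP Γ K ε C1 (cl * Γ) t (√t / K) z X (K * q) r g A := by
    refine ⟨hΓ, hK3, hε, hε1, hC.le, by positivity, by linarith, ht, by gcongr, by gcongr, hz, hX0,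
      hQ, hr0, n3, hA, by rw [← hfe]; exact py, ?_, ?_, fun h => ?_⟩
    · rw [div_le_iff₀ hΓ0, hfe, hu] at fl
      refine le_of_mul_le_mul_left ?_ hQ
      linarith
    · rw [hfe, hu] at fu
      refine le_of_mul_le_mul_left ?_ hQ
      linarith
    · have e1 := hdz h
      have e2 : 0 ≤ f * b * (z / t) := by positivity
      rw [hD, div_le_iff₀ hQ] at hDA
      rw [div_le_iff₀ hΓ0, hu] at e1
      refine le_of_mul_le_mul_left ?_ hQ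
      have e3 : fz * Γ ≤ A * (K * q) * Γ := mul_le_mul_of_nonneg_right (by linarith) hΓ0.le
      linarith
  have hfin := hP.final hK1 (by rw [← hu]; exact hg) ?_ (P := P) (L := L) (e := e) (c1 := c1)
    (c2 := c2) hB ?_ ?_
  · rw [← hfe] at hfin
    exact hfin
  · refine hreg.imp id fun ⟨h1, h2, h3⟩ => ⟨by linarith, by linarith, ?_, ?_⟩
    · rw [le_div_iff₀ (by positivity)] at hs2
      have : 15 * C1 * Γ ^ 4 * z ≤ 15 * C1 * Γ ^ 4 * s := by gcongr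
      linarith
    · rw [le_div_iff₀ (by positivity)] at hs3
      rw [← hu]
      calc 75 * Γ ^ 3 * Dm * z ≤ 75 * Γ ^ 3 * (ρ + 1) * s := by gcongr; linarith
        _ ≤ g := by linarith
  · rw [div_le_iff₀ hQ]
    have e1 : t ≤ t ^ 2 * t := le_mul_of_one_le_left ht0.le (one_le_pow₀ ht)
    calc e ≤ cl / t ^ 2 * g := (le_abs_self _).trans he
      _ ≤ cl / t ^ 2 * (Γ * Dm / t) := by gcongr
      _ = cl * Γ * q * (√t / (t ^ 2 * t)) := by rw [qD]; field_simp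
      _ ≤ cl * Γ * q * 1 := by
        gcongr
        rw [div_le_one (by positivity)]
        linarith
      _ = cl * Γ / K * (K * q) := by field_simp
  · rw [← hu]
    calc _ ≤ _ := hc
      _ = _ := by ring

theorem T1b_main : Lg fun o => ∀ c Γ : ℝ, ∃ ρ s K0 : ℝ, 0 < s ∧ 0 < K0 ∧ Sm o c fun m => FD o m Γ →
    ∀ K ≥ K0, ∀ᵐ x, 0 < x 2 → (ρ < ‖x‖ ∨ x 2 < s) →
      m.ST o K x ≤ o.δ0 / 4 * (m.r x ^ 2 * (m.xT K x ^ 2 / (1 + m.xT K x) ^ 3)) := by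
  refine (Lg.ge 2).mono fun o ho hd c Γ => ?_
  by_cases hΓ : 1 ≤ Γ
  swap
  · exact ⟨0, 1, 1, one_pos, one_pos, 1, one_pos, fun m _ _ h => absurd h.Γ1 hΓ⟩
  by_cases hc : 0 ≤ c
  swap
  · exact ⟨0, 1, 1, one_pos, one_pos, 1, one_pos, fun m hm _ _ =>
      absurd ((hm.w_bd 0).1.trans (hm.w_bd 0).2.1) hc⟩
  obtain ⟨C, hC, hrad⟩ := T1b_rad
  obtain ⟨ε, hεd⟩ : ∃ ε : ℝ, o.δ0 = 16 * ε := ⟨o.δ0 / 16, by ring⟩
  have hε : 0 < ε := by linarith [ho.δ.1]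
  have hε1 : ε ≤ 1 / 5 := by
    have : Real.exp (-(o.d / 4)) ≤ 1 := Real.exp_le_one_iff.2 (by linarith)
    linarith [ho.δ.2]
  obtain ⟨C1, hC1⟩ : ∃ C1 : ℝ, C1 = 2 * (2 + o.d) + (2 + C) := ⟨_, rfl⟩
  have hC0 : 0 < C1 := by rw [hC1]; linarith
  obtain ⟨ρ, hρ1, hρ2, hρ3⟩ : ∃ ρ : ℝ, o.d + 1 ≤ ρ ∧ 3 * C1 / ε ≤ ρ ∧ 94 * Γ ^ 6 / ε ≤ ρ :=
    ⟨max (o.d + 1) (max (3 * C1 / ε) (94 * Γ ^ 6 / ε)), le_max_left _ _,
      (le_max_left _ _).trans (le_max_right _ _), (le_max_right _ _).trans (le_max_right _ _)⟩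
  obtain ⟨x1, -, hx1⟩ := (isCompact_closedBall (0 : E) ρ).exists_isMinOn
    ⟨0, mem_closedBall_self (by linarith)⟩ ho.cg.continuousOn
  obtain ⟨g1, hg1⟩ : ∃ g1 : ℝ, o.g0 x1 = 2 * g1 := ⟨o.g0 x1 / 2, by ring⟩
  have hg10 : 0 < g1 := by linarith [ho.g_pos x1]
  have hΓ0 : 0 < Γ := by linarith
  have hρ0 : 0 < ρ + 1 := by linarith
  obtain ⟨s, hs0, hs1, hs2, hs3⟩ : ∃ s : ℝ, 0 < s ∧ s ≤ 1 / Γ ∧ s ≤ 1 / (15 * C1 * Γ ^ 4) ∧
      s ≤ g1 / (75 * Γ ^ 3 * (ρ + 1)) :=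
    ⟨min (1 / Γ) (min (1 / (15 * C1 * Γ ^ 4)) (g1 / (75 * Γ ^ 3 * (ρ + 1)))), by positivity,
      min_le_left _ _, (min_le_right _ _).trans (min_le_left _ _),
      (min_le_right _ _).trans (min_le_right _ _)⟩
  have hs1' : s ≤ 1 := hs1.trans (by rw [div_le_one hΓ0]; exact hΓ)
  refine ⟨ρ, s, max (1500 * Γ ^ 2 / ε) (4 * (ρ + 1)), hs0, by positivity, ?_⟩
  refine (((num_kappa o ho c 1 one_pos).and
    (Sm.le o c (a := ε / (12 * Γ ^ 3 * (c + 1))) (by positivity))).and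
    (Sm.le o c (a := (g1 / (c + 1)) ^ 2) (by positivity))).mono ?_
  rintro m hm ⟨⟨⟨-, -, k1, k2, k3, -, -, -, k4, -⟩, l1⟩, l2⟩ hF K hK
  have hK1 : 1500 * Γ ^ 2 / ε ≤ K := (le_max_left _ _).trans hK
  have hK2 : 4 * (ρ + 1) ≤ K := (le_max_right _ _).trans hK
  have k5 : m.κ ≤ 11 / 10 := by linarith [ho.δ.1]
  obtain ⟨l0, l3⟩ := hm.l0
  obtain ⟨a, ha⟩ : ∃ a : ℝ, a = (2 - 2 * m.l) / m.κ - 2 := ⟨_, rfl⟩
  have ha1 : -2 ≤ a := by
    have : 0 ≤ (2 - 2 * m.l) / m.κ := div_nonneg (by linarith) (by linarith)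
    linarith
  have ha2 : a ≤ 1 / 10 := by
    have : (2 - 2 * m.l) / m.κ ≤ 21 / 10 := by rw [div_le_iff₀ (by linarith)]; linarith
    linarith
  have hq : m.qT = rad (a + -(1 / 2)) m.κ := by rw [MD.qT, ha]
  have hDm : m.Dm = rad a m.κ := by rw [MD.Dm, ha]
  have hx : m.xT K = fun x => m.f x / (K * rad (a + -(1 / 2)) m.κ x) := by
    funext x; rw [MD.xT, hq]
  have hsq : c * √m.l ≤ g1 := by
    have : √m.l ≤ g1 / (c + 1) := Real.sqrt_le_iff.2 ⟨by positivity, l2⟩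
    rw [le_div_iff₀ (by linarith)] at this
    linarith [Real.sqrt_nonneg m.l]
  have hη : 12 * Γ ^ 3 * (c * m.l) ≤ ε := by
    rw [le_div_iff₀ (by positivity)] at l1
    linarith [mul_pos l0 (show 0 < Γ ^ 3 by positivity)]
  have hD := T1b_D hm.sf.h1.hl (a + -(1 / 2)) m.κ K
  rw [← hx, ← hq] at hD
  have hrad' := hrad a m.κ ha1 ha2 k1 k5
  rw [← hq, ← hDm] at hrad'
  filter_upwards [hD, hm.pyth, hm.ef_bd, hF.dz, hF.g_bd, hF.df] with x hD py hef hdz hg hdf hz hreg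
  obtain ⟨j1, j2, j3, -⟩ := jb_facts x
  obtain ⟨q0, qD, hDle, qg, ql, qb⟩ := hrad' x
  obtain ⟨fl, fu⟩ := hF.f_bd x hz.le
  obtain ⟨n1, n2, -, n3, -⟩ := hm.nn x
  obtain ⟨d1, d2⟩ := T1b_dist hd hz (hreg.imp (fun h => by linarith) fun h => by linarith)
  have hv := T1b_pot hd d1 d2
  obtain ⟨-, hdg⟩ := hdf ⟨by linarith, by linarith⟩
  unfold MD.ST
  rw [hεd]
  refine T1b_pt hΓ hε hε1 hC0 (mul_nonneg hc l0.le) hη hK1 hK2 (by linarith) j1 hz q0 qD hDle rfl n1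
    n3 (norm_nonneg _) py.2.1 fl fu (fun h => hdz (by rw [abs_of_pos hz]; exact h)) qb hD
    ((le_abs_self _).trans (T1b_coord _)) hg hs1 hs2 hs3 ?_ ?_ hef (T1b_cross n3 q0 hg hdg qg)
  · rcases lt_or_ge ρ ‖x‖ with h | h
    · exact Or.inl ⟨by linarith, by linarith⟩
    · refine Or.inr ⟨hreg.resolve_left (not_lt.2 h), by linarith, ?_⟩
      have e1 : o.g0 x1 ≤ o.g0 x := hx1 (mem_closedBall_zero_iff.2 h)
      have e2 := (abs_le.1 (hm.close.1 x).2).1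
      have e3 : m.G x ≤ m.g x :=
        (abs_le_of_sq_le_sq' (by rw [py.1]; linarith [sq_nonneg (m.n x)]) n3).2
      have e4 := (le_abs_self _).trans py.2.2
      linarith
  · have e5 : 0 ≤ m.l * m.w x := mul_nonneg l0.le (hm.w_bd x).1
    rw [hC1, add_div, OD.v]
    linarith

end

end Crest.Agent.R335
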