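import Crest.Agent.R335.U3
import Crest.Agent.R335.S04

/-! Row 335: auxiliary lemmas for `T2`. -/

set_option autoImplicit false

open MeasureTheory Set Filter Topology Metric
open scoped Gradient ContDiff RealInnerProductSpace ENNReal

namespace Crest.Agent.R335

noncomputable section

theorem T2_pt (a b : E) {S C s c g g' : ℝ} (hS : 0 < S) (hC : 0 < C) (h1 : S ^ 2 + C ^ 2 = 1)
    (h2 : s ^ 2 + c ^ 2 = 1) (hN : 0 ≤ S ^ 2 - s ^ 2) (hg : 0 ≤ g)
    (h : -(g * (C ^ 2 - S ^ 2)) ≤ g' * (S * C)) :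
    g * (S * C) * (‖a‖ ^ 2 - ‖b‖ ^ 2) ≤
      ⟪a, (S ^ 2 - s ^ 2) • g' • a + g • ((2 * S * C) • a - (2 * s * c) • b)⟫ := by
  have e1 : ⟪a, (S ^ 2 - s ^ 2) • g' • a + g • ((2 * S * C) • a - (2 * s * c) • b)⟫ =
      (S ^ 2 - s ^ 2) * (g' * ‖a‖ ^ 2) + g * (2 * S * C * ‖a‖ ^ 2 - 2 * s * c * ⟪a, b⟫) := by
    simp only [inner_add_right, inner_sub_right, real_inner_smul_right, real_inner_self_eq_norm_sq]
  have e2 : ‖(S * C) • b - (s * c) • a‖ ^ 2 =
      (S * C) ^ 2 * ‖b‖ ^ 2 - 2 * (S * C) * (s * c) * ⟪a, b⟫ + (s * c) ^ 2 * ‖a‖ ^ 2 := by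
    rw [norm_sub_sq_real, real_inner_smul_left, real_inner_smul_right, real_inner_comm a b, norm_smul,
      norm_smul, mul_pow, mul_pow, Real.norm_eq_abs, Real.norm_eq_abs, sq_abs, sq_abs]
    ring
  have e3 : (S * C) ^ 2 - (S ^ 2 - s ^ 2) * (C ^ 2 - S ^ 2) - (s * c) ^ 2 = (S ^ 2 - s ^ 2) ^ 2 := by
    rw [mul_pow, mul_pow, show C ^ 2 = 1 - S ^ 2 by linarith, show c ^ 2 = 1 - s ^ 2 by linarith]
    ring
  have h3 := mul_nonneg hg (add_nonneg (sq_nonneg ‖(S * C) • b - (s * c) • a‖)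
    (mul_nonneg (sq_nonneg (S ^ 2 - s ^ 2)) (sq_nonneg ‖a‖)))
  have h4 := mul_le_mul_of_nonneg_left h (mul_nonneg hN (sq_nonneg ‖a‖))
  rw [e2, ← e3] at h3
  rw [e1]
  refine le_of_mul_le_mul_left ?_ (mul_pos hS hC)
  linarith

theorem T2_fatou {f : ℕ → E → ℝ} {a : ℕ → ℝ} {a₀ : ℝ} (hi : ∀ n, Integrable (f n))
    (h0 : ∀ n, ∀ᵐ x, 0 ≤ f n x) (hle : ∀ n, ∫ x, f n x ≤ a n) (ha : Tendsto a atTop (𝓝 a₀))
    (ha0 : a₀ ≤ 0) : ∀ᵐ x, ∀ t, Tendsto (fun n => f n x) atTop (𝓝 t) → t ≤ 0 := by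
  have hm : ∀ n, AEMeasurable (fun x => ENNReal.ofReal (f n x)) volume := fun n =>
    (hi n).aemeasurable.ennreal_ofReal
  have h1 := lintegral_liminf_le' (u := atTop) hm
  have h2 : liminf (fun n => ∫⁻ x, ENNReal.ofReal (f n x)) atTop ≤
      liminf (fun n => ENNReal.ofReal (a n)) atTop := by
    refine liminf_le_liminf (Eventually.of_forall fun n => ?_)
    rw [← ofReal_integral_eq_lintegral_ofReal (hi n) (h0 n)]
    exact ENNReal.ofReal_le_ofReal (hle n)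
  rw [(ENNReal.tendsto_ofReal ha).liminf_eq, ENNReal.ofReal_eq_zero.2 ha0] at h2
  have hl : AEMeasurable (fun x => liminf (fun n => ENNReal.ofReal (f n x)) atTop) volume := by
    refine ⟨_, Measurable.liminf fun n => (hm n).measurable_mk, ?_⟩
    filter_upwards [ae_all_iff.2 fun n => (hm n).ae_eq_mk] with x hx
    simp only [hx]
  have h3 := (lintegral_eq_zero_iff' hl).1 (le_zero_iff.1 (h1.trans h2))
  filter_upwards [h3] with x hx t ht
  rw [(ENNReal.tendsto_ofReal ht).liminf_eq] at hx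
  exact ENNReal.ofReal_eq_zero.1 hx

/-- the positive part of `θ - u` on the upper half space -/
def T2P (u θ : E → ℝ) (x : E) : ℝ := max (Hp.indicator (fun x => θ x - u x) x) 0

theorem T2P_of {u θ : E → ℝ} {x : E} (h : x ∈ Hp ∧ u x < θ x) : T2P u θ x = θ x - u x := by
  rw [T2P, indicator_of_mem h.1, max_eq_left (sub_pos.2 h.2).le]

theorem T2P_of_not {u θ : E → ℝ} {x : E} (h : ¬(x ∈ Hp ∧ u x < θ x)) : T2P u θ x = 0 := by
  by_cases hx : x ∈ Hp
  · rw [T2P, indicator_of_mem hx, max_eq_right (sub_nonpos.2 (not_lt.1 fun h' => h ⟨hx, h'⟩))]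
  · rw [T2P, indicator_of_notMem hx, max_self]

theorem T2P_bl {u θ : E → ℝ} (hu : Bl u) (hθ : Bl θ) (ou : Od u) (oθ : Od θ) :
    Bl (T2P u θ) ∧ ∀ᵐ x, (x ∈ Hp ∧ u x < θ x → D (T2P u θ) x = D θ x - D u x) ∧
      (¬(x ∈ Hp ∧ u x < θ x) → D (T2P u θ) x = 0) := by
  have ho : Od fun x => θ x - u x := by
    filter_upwards [ou, oθ] with x h1 h2
    rw [h1, h2]
    ring
  have h1 := (hθ.sub hu).half ho
  refine ⟨h1.pos, ?_⟩
  filter_upwards [h1.hl.pos.2, ((hθ.sub hu).hl.half ho).2, D_sub hθ.hl hu.hl] with x e1 e2 e3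
  have e4 : D (T2P u θ) x = _ := e1
  rw [e4, e2]
  refine ⟨fun h => ?_, fun h => if_neg fun h' => h ?_⟩
  · rw [indicator_of_mem h.1, indicator_of_mem h.1, if_pos (sub_pos.2 h.2), e3]
  · by_cases hx : x ∈ Hp
    · rw [indicator_of_mem hx] at h'
      exact ⟨hx, sub_pos.1 h'⟩
    · rw [indicator_of_notMem hx] at h'
      exact absurd h' (lt_irrefl _)

theorem T2_bl {r u : E → ℝ} {δ : ℝ} (hA : Ang r u δ) : Bl u :=
  ⟨hA.hu, fun _ _ => ⟨_, Eventually.of_forall fun x _ => hA.bu x⟩⟩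

/-- the energy density -/
def T2j (r : E → ℝ) (δ : ℝ) (w : E → ℝ) (x : E) : ℝ :=
  r x ^ 2 * ((1 / 2) * ‖D w x‖ ^ 2 - δ * Real.sin (w x) ^ 2)

theorem T2_int_D {r u θ w : E → ℝ} (hr : H1 r) (hw : Hl w)
    (h1 : Integrable fun x => r x ^ 2 * ‖D u x‖ ^ 2) (h2 : Integrable fun x => r x ^ 2 * ‖D θ x‖ ^ 2)
    (h : ∀ᵐ x, D w x = D u x ∨ D w x = D θ x ∨ D w x = 0) :
    Integrable fun x => r x ^ 2 * ‖D w x‖ ^ 2 := by
  refine (h1.add h2).mono' ((hr.l2.1.pow 2).mul (hw.aesm_D.norm.pow 2)) ?_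
  filter_upwards [h] with x hx
  rw [Real.norm_of_nonneg (by positivity), Pi.add_apply]
  have a1 : 0 ≤ r x ^ 2 * ‖D u x‖ ^ 2 := by positivity
  have a2 : 0 ≤ r x ^ 2 * ‖D θ x‖ ^ 2 := by positivity
  rcases hx with hx | hx | hx <;> rw [hx]
  · linarith
  · linarith
  · rw [norm_zero, zero_pow two_ne_zero, mul_zero]
    linarith

theorem T2_int_sin {r w : E → ℝ} (hr : H1 r) (hw : Hl w) :
    Integrable fun x => r x ^ 2 * Real.sin (w x) ^ 2 :=
  hr.l2.integrable_sq.mul_bdd ((Real.continuous_sin.comp_aestronglyMeasurable hw.aesm).pow 2)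
    (c := 1) (Eventually.of_forall fun x => by
      rw [Real.norm_of_nonneg (sq_nonneg _)]
      exact Real.sin_sq_le_one _)

theorem T2_int_j {r w : E → ℝ} (δ : ℝ) (hr : H1 r) (hw : Hl w)
    (h : Integrable fun x => r x ^ 2 * ‖D w x‖ ^ 2) : Integrable (T2j r δ w) := by
  refine ((h.const_mul (1 / 2)).sub ((T2_int_sin hr hw).const_mul δ)).congr
    (Eventually.of_forall fun x => ?_)
  simp only [T2j, Pi.sub_apply]
  ring

/-- `v = min (θ, u)` on the upper half space, `θ` on the lower one -/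
theorem T2_v {u θ : E → ℝ} (hu : Bl u) (hθ : Bl θ) (ou : Od u) (oθ : Od θ) :
    Bl (fun x => θ x - T2P u θ x) ∧
      ∀ᵐ x, (x ∈ Hp ∧ u x < θ x → D (fun x => θ x - T2P u θ x) x = D u x) ∧
        (¬(x ∈ Hp ∧ u x < θ x) → D (fun x => θ x - T2P u θ x) x = D θ x) := by
  obtain ⟨h1, h2⟩ := T2P_bl hu hθ ou oθ
  refine ⟨hθ.sub h1, ?_⟩
  filter_upwards [h2, D_sub hθ.hl h1.hl] with x e1 e2
  rw [e2]
  exact ⟨fun h => by rw [e1.1 h, sub_sub_cancel], fun h => by rw [e1.2 h, sub_zero]⟩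

/-- minimality of `u` against `max (u, θ)` -/
theorem T2_min {r u θ : E → ℝ} {δ : ℝ} (hA : Ang r u δ) (hθ : Bl θ) (od : Od θ)
    (h0 : ∀ x ∈ Hp, θ x ≤ Real.pi / 2) (hi : Integrable fun x => r x ^ 2 * ‖D θ x‖ ^ 2) :
    Integrable (fun x => T2j r δ (fun x => θ x - T2P u θ x) x - T2j r δ θ x) ∧
      ∫ x, (T2j r δ (fun x => θ x - T2P u θ x) x - T2j r δ θ x) ≤ 0 := by
  have hu := T2_bl hA
  obtain ⟨bP, dP⟩ := T2P_bl hu hθ hA.od od
  obtain ⟨bv, dv⟩ := T2_v hu hθ hA.od od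
  have iG : Integrable (fun x => T2j r δ (fun x => θ x - T2P u θ x) x - T2j r δ θ x) := by
    refine (T2_int_j δ hA.hr bv.hl (T2_int_D hA.hr bv.hl hA.fin hi ?_)).sub
      (T2_int_j δ hA.hr hθ.hl hi)
    filter_upwards [dv] with x hx
    by_cases h : x ∈ Hp ∧ u x < θ x
    · exact Or.inl (hx.1 h)
    · exact Or.inr (Or.inl (hx.2 h))
  refine ⟨iG, ?_⟩
  obtain ⟨bu, du⟩ := hA.hu.half hA.od
  set M : E → ℝ := fun x => Hp.indicator u x + T2P u θ x with hM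
  have bM : Hl M := bu.add bP.hl
  have M0 : ∀ x, x ∉ Hp → M x = 0 := fun x hx => by
    simp only [hM, indicator_of_notMem hx, T2P_of_not fun h => hx h.1, add_zero]
  have M1 : ∀ x, x ∈ Hp ∧ u x < θ x → M x = θ x := fun x hx => by
    simp only [hM, indicator_of_mem hx.1, T2P_of hx, add_sub_cancel]
  have M2 : ∀ x ∈ Hp, ¬(x ∈ Hp ∧ u x < θ x) → M x = u x := fun x hx h => by
    simp only [hM, indicator_of_mem hx, T2P_of_not h, add_zero]
  have Mb : ∀ x, 0 ≤ M x ∧ M x ≤ Real.pi / 2 := fun x => by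
    by_cases hx : x ∈ Hp
    · by_cases h : x ∈ Hp ∧ u x < θ x
      · rw [M1 x h]
        exact ⟨(hA.u_nn x hx).trans h.2.le, h0 x hx⟩
      · rw [M2 x hx h]
        exact ⟨hA.u_nn x hx, (le_abs_self _).trans (hA.bu x)⟩
    · rw [M0 x hx]
      exact ⟨le_rfl, by positivity⟩
  have dM : ∀ᵐ x, (x ∉ Hp → D M x = 0) ∧ (x ∈ Hp ∧ u x < θ x → D M x = D θ x) ∧
      (x ∈ Hp → ¬(x ∈ Hp ∧ u x < θ x) → D M x = D u x) := by
    filter_upwards [D_add bu bP.hl, du, dP] with x e1 e2 e3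
    rw [e1, e2]
    refine ⟨fun hx => ?_, fun h => ?_, fun hx h => ?_⟩
    · rw [indicator_of_notMem hx, e3.2 fun h => hx h.1, add_zero]
    · rw [indicator_of_mem h.1, e3.1 h, add_sub_cancel]
    · rw [indicator_of_mem hx, e3.2 h, add_zero]
  have iM : Integrable fun x => r x ^ 2 * ‖D M x‖ ^ 2 := by
    refine T2_int_D hA.hr bM hA.fin hi ?_
    filter_upwards [dM] with x hx
    by_cases h1 : x ∈ Hp
    · by_cases h : x ∈ Hp ∧ u x < θ x
      · exact Or.inr (Or.inl (hx.2.1 h))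
      · exact Or.inl (hx.2.2 h1 h)
    · exact Or.inr (Or.inr (hx.1 h1))
  have bw : Hl fun x => M x - M (R x) := bM.sub bM.refl.1
  have key : ∀ᵐ x, r (R x) = r x ∧
      ‖D (fun x => M x - M (R x)) x‖ ^ 2 = ‖D M x‖ ^ 2 + ‖D M (R x)‖ ^ 2 ∧
      Real.sin (M x - M (R x)) ^ 2 = Real.sin (M x) ^ 2 + Real.sin (M (R x)) ^ 2 := by
    filter_upwards [hA.evr, D_sub bM bM.refl.1, bM.refl.2, dM, mp_R.quasiMeasurePreserving.ae dM,
      ae_two_ne] with x e0 e1 e2 e3 e4 hx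
    refine ⟨e0, ?_⟩
    rw [e1, e2]
    by_cases h1 : x ∈ Hp
    · have h2 : R x ∉ Hp := fun h2 => by
        have h3 : 0 ≤ R x 2 := h2
        rw [R_two] at h3
        exact hx (le_antisymm (by linarith) h1)
      have h3 : R 0 = 0 := norm_eq_zero.1 (by rw [norm_R, norm_zero])
      simp [e4.1 h2, M0 _ h2, h3]
    · simp [e3.1 h1, M0 _ h1, norm_R]
  have iMR : Integrable fun x => r (R x) ^ 2 * ‖D M (R x)‖ ^ 2 :=
    (mp_R.integrable_comp_emb S07.me_R).2 iM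
  have h1 := hA.min _ bw (Eventually.of_forall fun x => by simp only [R_R, neg_sub])
    (fun x => abs_le.2 ⟨by linarith [Mb x, Mb (R x)], by linarith [Mb x, Mb (R x)]⟩)
    ((iM.add iMR).congr (by
      filter_upwards [key] with x hx
      rw [Pi.add_apply, hx.1, hx.2.1, mul_add]))
  have jM := T2_int_j δ hA.hr bM iM
  have ju := T2_int_j δ hA.hr hA.hu hA.fin
  have e1 : ∫ x, T2j r δ (fun x => M x - M (R x)) x = 2 * ∫ x, T2j r δ M x := by
    have jMR : Integrable fun x => T2j r δ M (R x) := (mp_R.integrable_comp_emb S07.me_R).2 jM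
    rw [two_mul]
    nth_rewrite 2 [← mp_R.integral_comp S07.me_R (T2j r δ M)]
    rw [← integral_add jM jMR]
    refine integral_congr_ae ?_
    filter_upwards [key] with x hx
    simp only [T2j, hx.1, hx.2.1, hx.2.2]
    ring
  have e2 : ∫ x, T2j r δ M x = (∫ x in Hp, T2j r δ u x) -
      ∫ x, (T2j r δ (fun x => θ x - T2P u θ x) x - T2j r δ θ x) := by
    rw [← integral_indicator S07.mHp, ← integral_sub (ju.indicator S07.mHp) iG]
    refine integral_congr_ae ?_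
    filter_upwards [dM, dv] with x e1 e2
    by_cases h : x ∈ Hp ∧ u x < θ x
    · simp only [T2j, indicator_of_mem h.1, e1.2.1 h, e2.1 h, M1 x h, T2P_of h, sub_sub_cancel]
    · by_cases hx : x ∈ Hp
      · simp only [T2j, indicator_of_mem hx, e1.2.2 hx h, e2.2 h, M2 x hx h, T2P_of_not h, sub_zero,
          sub_self]
      · simp [T2j, indicator_of_notMem hx, e1.1 hx, e2.2 h, M0 x hx, T2P_of_not h]
  have e3 : ∫ x, T2j r δ u x = 2 * ∫ x in Hp, T2j r δ u x := by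
    refine Ev.integral ?_ ju
    filter_upwards [hA.evr, hA.od, Od.D hA.hu hA.od] with x a1 a2 a3
    simp only [T2j, a1, a2, a3, norm_neg, norm_R, Real.sin_neg, neg_sq]
  have h2 : ∫ x, T2j r δ u x ≤ ∫ x, T2j r δ (fun x => M x - M (R x)) x := h1
  linarith

end

end Crest.Agent.R335
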