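import Crest.Agent.R335.U3
import Crest.Agent.R335.S04
import Crest.Agent.R335.T2Aux1

set_option autoImplicit false

open MeasureTheory Set Filter Topology Metric
open scoped Gradient ContDiff RealInnerProductSpace ENNReal

namespace Crest.Agent.R335

noncomputable section

/-- regularisation of `1 / (sin t cos t)` -/
def T2g (ε t : ℝ) : ℝ := Real.sin t / ((Real.sin t ^ 2 + ε) * Real.cos t)

theorem T2g_mul {ε t : ℝ} (hc : 0 < Real.cos t) :
    T2g ε t * (Real.sin t * Real.cos t) = Real.sin t ^ 2 / (Real.sin t ^ 2 + ε) := by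
  rw [T2g, div_mul_eq_mul_div, ← mul_assoc, mul_div_mul_right _ _ hc.ne', sq]

theorem T2g_bl {θ : E → ℝ} {ε : ℝ} (hε : 0 < ε) (hθ : Bl θ) (hc : Continuous θ)
    (hcos : ∀ x, 0 < Real.cos (θ x)) :
    Bl (fun x => T2g ε (θ x)) ∧ ∀ᵐ x, ∃ g' : ℝ, D (fun x => T2g ε (θ x)) x = g' • D θ x ∧
      (0 ≤ Real.sin (θ x) → -(T2g ε (θ x) * (Real.cos (θ x) ^ 2 - Real.sin (θ x) ^ 2)) ≤
        g' * (Real.sin (θ x) * Real.cos (θ x))) := by
  obtain ⟨b1, d1⟩ := hθ.comp (β := Real.sin) Real.contDiff_sin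
  obtain ⟨b2, d2⟩ := hθ.comp (β := fun t => (Real.sin t ^ 2 + ε) * Real.cos t) (by fun_prop)
  obtain ⟨b3, d3⟩ := b1.div b2 (Continuous.lp' (by fun_prop) fun x =>
    mul_pos (by positivity) (hcos x))
  refine ⟨b3, ?_⟩
  filter_upwards [d1, d2, d3] with x e1 e2 e3
  have hd := (((Real.hasDerivAt_sin (θ x)).fun_pow 2).add_const ε).fun_mul (Real.hasDerivAt_cos (θ x))
  rw [e1, e2, hd.deriv, Real.deriv_sin, smul_smul, smul_smul, ← sub_smul, smul_smul] at e3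
  refine ⟨_, e3, fun hS => ?_⟩
  have hC := hcos x
  rw [T2g, neg_le_iff_add_nonneg]
  generalize Real.sin (θ x) = S at *
  generalize Real.cos (θ x) = C at *
  refine le_of_le_of_eq (show 0 ≤ 2 * S * C * ε / (S ^ 2 + ε) ^ 2 by positivity) ?_
  push_cast
  field_simp
  ring

theorem T2_sin {s t : ℝ} (h0 : 0 ≤ s) (h1 : s < t) (h2 : t < Real.pi / 2) :
    0 < Real.sin t ∧ 0 < Real.sin t ^ 2 - Real.sin s ^ 2 := by
  have h3 : 0 ≤ Real.sin s := Real.sin_nonneg_of_nonneg_of_le_pi h0 (by linarith [Real.pi_pos])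
  have h4 : Real.sin s < Real.sin t :=
    Real.sin_lt_sin_of_lt_of_le_pi_div_two (by linarith [Real.pi_pos]) h2.le h1
  exact ⟨h3.trans_lt h4, by nlinarith⟩

theorem T2_test {r u θ μ : E → ℝ} {δ : ℝ} {Ω C : Set E} (hA : Ang r u δ) (hθ : Bl θ) (od : Od θ)
    (hc : Continuous θ) (h0 : ∀ x ∈ Hp, θ x < Real.pi / 2) (hcos : ∀ x, 0 < Real.cos (θ x))
    (hi : Integrable fun x => r x ^ 2 * ‖D θ x‖ ^ 2)
    (hi' : Integrable fun x => r x ^ 2 * ‖D θ x‖ * |Real.tan (θ x)|)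
    (hs : WSub (fun x => r x ^ 2) (Hp ∩ Ω) θ
      fun x => δ * r x ^ 2 * Real.sin (θ x) * Real.cos (θ x) - μ x)
    (hμ : ∀ᵐ x, 0 < x 2 → 0 < μ x) (hC : IsClosed C) (hCΩ : C ⊆ Ω)
    (hout : ∀ᵐ x, x ∈ Hp → x ∉ C → θ x ≤ u x) {ε ρ L : ℝ} (hε : 0 < ε) {j : E → ℝ}
    (hj : ContDiff ℝ 1 j) (hj0 : ∀ x, 0 ≤ j x ∧ j x ≤ 1) (hj1 : ∀ x, ρ ≤ ‖x‖ → j x = 0)
    (hj2 : ∀ x, ‖∇ j x‖ ≤ L) :
    Integrable (fun x => μ x * (j x *
      ((Real.sin (θ x) ^ 2 - Real.sin (θ x - T2P u θ x) ^ 2) * T2g ε (θ x)))) ∧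
    (∀ᵐ x, 0 ≤ μ x * (j x *
      ((Real.sin (θ x) ^ 2 - Real.sin (θ x - T2P u θ x) ^ 2) * T2g ε (θ x)))) ∧
    ∫ x, μ x * (j x * ((Real.sin (θ x) ^ 2 - Real.sin (θ x - T2P u θ x) ^ 2) * T2g ε (θ x))) ≤
      (∫ x, j x * (Real.sin (θ x) ^ 2 / (Real.sin (θ x) ^ 2 + ε)) *
        (T2j r δ (fun x => θ x - T2P u θ x) x - T2j r δ θ x)) +
      L / 2 * ∫ x, r x ^ 2 * ‖D θ x‖ * |Real.tan (θ x)| := by
  obtain ⟨bv, dv⟩ := T2_v (T2_bl hA) hθ hA.od od
  obtain ⟨iG, -⟩ := T2_min hA hθ od (fun x hx => (h0 x hx).le) hi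
  obtain ⟨bg, dg⟩ := T2g_bl hε hθ hc hcos
  have hd : ∀ t, deriv (fun t => Real.sin t ^ 2) t = 2 * Real.sin t * Real.cos t := fun t => by
    simp
  obtain ⟨b1, d1⟩ := hθ.comp (β := fun t => Real.sin t ^ 2) (by fun_prop)
  obtain ⟨b2, d2⟩ := bv.comp (β := fun t => Real.sin t ^ 2) (by fun_prop)
  obtain ⟨bχ, dχ⟩ := (b1.sub b2).mul bg
  obtain ⟨bφ, dφ⟩ := (bl_c1 hj).mul bχ
  set χ : E → ℝ := fun x =>
    (Real.sin (θ x) ^ 2 - Real.sin (θ x - T2P u θ x) ^ 2) * T2g ε (θ x) with hχ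
  have χ0 : ∀ x, ¬(x ∈ Hp ∧ u x < θ x) → χ x = 0 := fun x h => by
    simp only [hχ, T2P_of_not h, sub_zero, sub_self, zero_mul]
  have χ1 : ∀ x, 0 ≤ χ x ∧ χ x ≤ |Real.tan (θ x)| := fun x => by
    by_cases h : x ∈ Hp ∧ u x < θ x
    · obtain ⟨a1, a2⟩ := T2_sin (hA.u_nn x h.1) h.2 (h0 x h.1)
      have a3 := hcos x
      simp only [hχ, T2P_of h, sub_sub_cancel, T2g]
      refine ⟨by positivity, le_trans ?_ (le_abs_self _)⟩
      rw [Real.tan_eq_sin_div_cos, ← mul_div_assoc, div_le_div_iff₀ (by positivity) a3]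
      have a4 : 0 ≤ Real.sin (θ x) * Real.cos (θ x) * (Real.sin (u x) ^ 2 + ε) := by positivity
      linarith
    · rw [χ0 x h]
      exact ⟨le_rfl, abs_nonneg _⟩
  have hK : IsCompact (closedBall (0 : E) ρ ∩ (Hp ∩ C)) :=
    (isCompact_closedBall 0 ρ).inter_right
      ((isClosed_le continuous_const (by fun_prop) : IsClosed Hp).inter hC)
  have hKs : closedBall (0 : E) ρ ∩ (Hp ∩ C) ⊆ Hp ∩ Ω := fun x hx => ⟨hx.2.1, hCΩ hx.2.2⟩
  have hz : ∀ᵐ x, x ∉ closedBall (0 : E) ρ ∩ (Hp ∩ C) → j x * χ x = 0 := by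
    filter_upwards [hout] with x hx h
    by_cases h1 : x ∈ closedBall (0 : E) ρ
    · rw [χ0 x fun h2 => h ⟨h1, h2.1, by_contra fun h3 => (hx h2.1 h3).not_gt h2.2⟩, mul_zero]
    · rw [hj1 x (not_le.1 fun h2 => h1 (mem_closedBall_zero_iff.2 h2)).le, zero_mul]
  have tf : TF (Hp ∩ Ω) fun x => j x * χ x := bφ.tf ⟨_, hK, hKs, hz⟩
  have hle := hs.le _ tf (Eventually.of_forall fun x => mul_nonneg (hj0 x).1 (χ1 x).1)
  obtain ⟨B, hB⟩ := tf.bd
  obtain ⟨M, hM⟩ := hA.bd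
  have iS : Integrable fun x =>
      (δ * r x ^ 2 * Real.sin (θ x) * Real.cos (θ x) - μ x) * (j x * χ x) := by
    refine (((integrable_indicator_iff hK.measurableSet).2 (hs.li _ hK hKs)).mul_bdd
      bφ.hl.aesm hB).congr ?_
    filter_upwards [hz] with x hx
    by_cases h : x ∈ closedBall (0 : E) ρ ∩ (Hp ∩ C)
    · rw [indicator_of_mem h]
    · rw [hx h, mul_zero, mul_zero]
  have iL : Integrable fun x => 1 / 2 * r x ^ 2 * ⟪D θ x, D (fun x => j x * χ x) x⟫ := by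
    refine (hi.add ((S11_int_normsq tf.h1.dl2).const_mul (M ^ 2))).mono'
      (((hA.hr.l2.1.pow 2).const_mul _).mul (hθ.hl.aesm_D.inner bφ.hl.aesm_D)) ?_
    filter_upwards [hM] with x hx
    have a1 := mul_le_mul_of_nonneg_left (abs_real_inner_le_norm (D θ x) (D (fun x => j x * χ x) x))
      (sq_nonneg (r x))
    have a2 := mul_le_mul_of_nonneg_right (sq_le_sq' (abs_le.1 hx).1 (abs_le.1 hx).2)
      (sq_nonneg ‖D (fun x => j x * χ x) x‖)
    have a3 := mul_nonneg (sq_nonneg (r x)) (sq_nonneg (‖D θ x‖ - ‖D (fun x => j x * χ x) x‖))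
    have a4 := mul_nonneg (sq_nonneg (r x)) (sq_nonneg ‖D θ x‖)
    have a5 := mul_nonneg (sq_nonneg (r x)) (sq_nonneg ‖D (fun x => j x * χ x) x‖)
    rw [Real.norm_eq_abs, abs_mul, abs_of_nonneg (by positivity), Pi.add_apply]
    linarith
  have iR : Integrable fun x => r x ^ 2 * (Real.sin (θ x) * Real.cos (θ x)) * (j x * χ x) :=
    (hA.hr.l2.integrable_sq.mul_bdd (c := 1) (by fun_prop : Continuous fun x =>
      Real.sin (θ x) * Real.cos (θ x)).aestronglyMeasurable (Eventually.of_forall fun x => by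
        rw [norm_mul]
        exact mul_le_one₀ (Real.abs_sin_le_one _) (norm_nonneg _) (Real.abs_cos_le_one _))).mul_bdd
      bφ.hl.aesm hB
  have iμ : Integrable fun x => μ x * (j x * χ x) :=
    ((iR.const_mul δ).sub iS).congr (Eventually.of_forall fun x => by
      simp only [Pi.sub_apply]
      ring)
  have iG' : Integrable fun x => j x * (Real.sin (θ x) ^ 2 / (Real.sin (θ x) ^ 2 + ε)) *
      (T2j r δ (fun x => θ x - T2P u θ x) x - T2j r δ θ x) := by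
    refine iG.bdd_mul (c := 1) (hj.continuous.mul (Continuous.div (by fun_prop) (by fun_prop)
      fun x => by positivity)).aestronglyMeasurable (Eventually.of_forall fun x => ?_)
    rw [Real.norm_of_nonneg (mul_nonneg (hj0 x).1 (by positivity))]
    exact mul_le_one₀ (hj0 x).2 (by positivity) (div_le_one_of_le₀ (by linarith) (by positivity))
  refine ⟨iμ, ?_, ?_⟩
  · filter_upwards [hμ, ae_two_ne] with x hx h2
    by_cases h : x ∈ Hp
    · exact mul_nonneg (hx (lt_of_le_of_ne h h2.symm)).le (mul_nonneg (hj0 x).1 (χ1 x).1)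
    · exact (mul_eq_zero_of_right _ (mul_eq_zero_of_right _ (χ0 x fun h' => h h'.1))).ge
  have i1 : Integrable fun x => j x * (Real.sin (θ x) ^ 2 / (Real.sin (θ x) ^ 2 + ε)) *
      (T2j r δ (fun x => θ x - T2P u θ x) x - T2j r δ θ x) +
      L / 2 * (r x ^ 2 * ‖D θ x‖ * |Real.tan (θ x)|) := iG'.add (hi'.const_mul _)
  have i2 : Integrable fun x => 1 / 2 * r x ^ 2 * ⟪D θ x, D (fun x => j x * χ x) x⟫ -
      (δ * r x ^ 2 * Real.sin (θ x) * Real.cos (θ x) - μ x) * (j x * χ x) := iL.sub iS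
  refine (integral_mono_ae iμ (i1.add i2) ?_).trans ?_
  · filter_upwards [dv, dg, d1, d2, D_sub b1.hl b2.hl, dχ, dφ, D_c1 hj] with x e1 e2 e3 e4 e5 e6 e7 e8
    obtain ⟨g', e2, hg'⟩ := e2
    rw [e2, e5, e3, e4, hd, hd] at e6
    have a1 : T2g ε (θ x) * (Real.sin (θ x) * Real.cos (θ x)) *
        (‖D θ x‖ ^ 2 - ‖D (fun x => θ x - T2P u θ x) x‖ ^ 2) ≤ ⟪D θ x, D χ x⟫ := by
      rw [e6]
      by_cases h : x ∈ Hp ∧ u x < θ x
      · obtain ⟨a1, a2⟩ := T2_sin (hA.u_nn x h.1) h.2 (h0 x h.1)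
        have a3 := hcos x
        rw [T2P_of h, sub_sub_cancel]
        exact T2_pt _ _ a1 a3 (Real.sin_sq_add_cos_sq _) (Real.sin_sq_add_cos_sq _) a2.le
          (by unfold T2g; positivity) (hg' a1.le)
      · simp [e1.2 h, T2P_of_not h]
    have a2 : -(‖D θ x‖ * L) ≤ ⟪D θ x, ∇ j x⟫ := by
      have a3 := mul_le_mul_of_nonneg_left (hj2 x) (norm_nonneg (D θ x))
      linarith [neg_abs_le ⟪D θ x, ∇ j x⟫, abs_real_inner_le_norm (D θ x) (∇ j x)]
    have a3 := mul_le_mul_of_nonneg_left a1 (mul_nonneg (sq_nonneg (r x)) (hj0 x).1)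
    have a4 := mul_le_mul_of_nonneg_left a2 (mul_nonneg (sq_nonneg (r x)) (χ1 x).1)
    have a5 := mul_le_mul_of_nonneg_left (χ1 x).2 (mul_nonneg (sq_nonneg (r x))
      (mul_nonneg (norm_nonneg (D θ x)) ((norm_nonneg _).trans (hj2 x))))
    rw [Pi.add_apply, e7, e8, inner_add_right, real_inner_smul_right, real_inner_smul_right,
      ← T2g_mul (hcos x)]
    simp only [T2j, hχ] at a4 a5 ⊢
    linarith
  · simp only [Pi.add_apply]
    rw [integral_add i1 i2, integral_add iG' (hi'.const_mul _), integral_sub iL iS, integral_const_mul]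
    linarith

/-- comparison by hidden convexity -/
theorem T2 {r u θ μ : E → ℝ} {δ : ℝ} {Ω C : Set E} (hA : Ang r u δ) (hθ : Bl θ) (od : Od θ)
    (hc : Continuous θ) (h0 : ∀ x ∈ Hp, 0 ≤ θ x ∧ θ x < Real.pi / 2 ∧ (0 < x 2 → 0 < θ x))
    (hi : Integrable fun x => r x ^ 2 * ‖D θ x‖ ^ 2)
    (hi' : Integrable fun x => r x ^ 2 * ‖D θ x‖ * |Real.tan (θ x)|)
    (hs : WSub (fun x => r x ^ 2) (Hp ∩ Ω) θ
      fun x => δ * r x ^ 2 * Real.sin (θ x) * Real.cos (θ x) - μ x)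
    (hμ : ∀ᵐ x, 0 < x 2 → 0 < μ x) (hC : IsClosed C) (hCΩ : C ⊆ Ω)
    (hout : ∀ᵐ x, x ∈ Hp → x ∉ C → θ x ≤ u x) : ∀ᵐ x, x ∈ Hp → θ x ≤ u x := by
  have hodd : ∀ x, θ (R x) = -θ x := by
    obtain ⟨L, hL, -⟩ := exists_Riso
    have h1 : Continuous R := L.continuous.congr hL
    exact congrFun (((hc.comp h1).ae_eq_iff_eq volume hc.neg).1 od)
  have hcos : ∀ x, 0 < Real.cos (θ x) := by
    have h1 : ∀ x ∈ Hp, 0 < Real.cos (θ x) := fun x hx =>
      Real.cos_pos_of_mem_Ioo ⟨by linarith [(h0 x hx).1, Real.pi_pos], (h0 x hx).2.1⟩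
    intro x
    by_cases hx : x ∈ Hp
    · exact h1 x hx
    · rw [← Real.cos_neg, ← hodd]
      refine h1 _ ?_
      show 0 ≤ R x 2
      rw [R_two]
      exact neg_nonneg.2 (not_le.1 hx).le
  obtain ⟨iG, hG⟩ := T2_min hA hθ od (fun x hx => (h0 x hx).2.1.le) hi
  obtain ⟨-, dv⟩ := T2_v (T2_bl hA) hθ hA.od od
  choose j hj1 _ hj2 hj3 hj4 hj5 _ using fun n : ℕ =>
    exists_cutoff (0 : E) (r := n) (s := (n : ℝ) + 1) (Nat.cast_nonneg n) (by positivity)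
  have key := fun n : ℕ => T2_test hA hθ od hc (fun x hx => (h0 x hx).2.1) hcos hi hi' hs hμ hC hCΩ
    hout (ε := 1 / ((n : ℝ) + 1)) (by positivity) ((hj1 n).of_le (by exact_mod_cast le_top)) (hj2 n)
    (fun x hx => hj4 n x (by rwa [sub_zero])) (hj5 n)
  have tε := tendsto_one_div_add_atTop_nhds_zero_nat (𝕜 := ℝ)
  have tj : ∀ x, Tendsto (fun n => j n x) atTop (𝓝 1) := fun x => by
    refine tendsto_const_nhds.congr' ?_
    filter_upwards [tendsto_natCast_atTop_atTop.eventually_ge_atTop ‖x‖] with n hn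
    exact (hj3 n x (by rwa [sub_zero])).symm
  have t1 : Tendsto (fun n : ℕ => ∫ x, j n x *
      (Real.sin (θ x) ^ 2 / (Real.sin (θ x) ^ 2 + 1 / ((n : ℝ) + 1))) *
        (T2j r δ (fun x => θ x - T2P u θ x) x - T2j r δ θ x)) atTop
      (𝓝 (∫ x, (T2j r δ (fun x => θ x - T2P u θ x) x - T2j r δ θ x))) := by
    refine tendsto_integral_of_dominated_convergence _ (fun n => ((hj1 n).continuous.mul
      (Continuous.div (by fun_prop) (by fun_prop) fun x => by positivity)).aestronglyMeasurable.mul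
        iG.1) iG.norm (fun n => Eventually.of_forall fun x => ?_) ?_
    · rw [norm_mul]
      refine mul_le_of_le_one_left (norm_nonneg _) ?_
      have a1 : (0 : ℝ) < 1 / ((n : ℝ) + 1) := by positivity
      rw [Real.norm_of_nonneg (mul_nonneg (hj2 n x).1 (by positivity))]
      exact mul_le_one₀ (hj2 n x).2 (by positivity) (div_le_one_of_le₀ (by linarith) (by positivity))
    · filter_upwards [dv] with x hx
      by_cases h : x ∈ Hp ∧ u x < θ x
      · have a1 := (T2_sin (hA.u_nn x h.1) h.2 (h0 x h.1).2.1).1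
        have a2 := ((tj x).mul ((tendsto_const_nhds (x := Real.sin (θ x) ^ 2)).div
          (tε.const_add (Real.sin (θ x) ^ 2)) (by positivity))).mul_const
            (T2j r δ (fun x => θ x - T2P u θ x) x - T2j r δ θ x)
        rwa [add_zero, div_self (by positivity), one_mul, one_mul] at a2
      · simp only [T2j, hx.2 h, T2P_of_not h, sub_zero, sub_self, mul_zero, tendsto_const_nhds]
  have t2 : Tendsto (fun n : ℕ => 4 / ((n : ℝ) + 1) / 2 *
      ∫ x, r x ^ 2 * ‖D θ x‖ * |Real.tan (θ x)|) atTop (𝓝 0) := by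
    have a1 := ((tε.const_mul 4).div_const 2).mul_const (∫ x, r x ^ 2 * ‖D θ x‖ * |Real.tan (θ x)|)
    simpa only [mul_zero, zero_div, zero_mul, mul_one_div] using a1
  filter_upwards [T2_fatou (fun n => (key n).1) (fun n => (key n).2.1) (fun n => (key n).2.2)
    (t1.add t2) (by rwa [add_zero]), hμ, ae_two_ne] with x h1 h2 h3 hx
  by_contra h4
  have h : x ∈ Hp ∧ u x < θ x := ⟨hx, not_le.1 h4⟩
  obtain ⟨a1, a2⟩ := T2_sin (hA.u_nn x hx) h.2 (h0 x hx).2.1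
  have a3 := hcos x
  have a4 := h2 (lt_of_le_of_ne hx h3.symm)
  have a5 := h1 _ (((tj x).mul (((tendsto_const_nhds (x := Real.sin (θ x))).div
    ((tε.const_add (Real.sin (θ x) ^ 2)).mul_const (Real.cos (θ x))) (by positivity)).const_mul
      (Real.sin (θ x) ^ 2 - Real.sin (θ x - T2P u θ x) ^ 2))).const_mul (μ x))
  rw [T2P_of h, sub_sub_cancel] at a5
  exact absurd a5 (not_le.2 (by positivity))

end

end Crest.Agent.R335
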