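import Crest.Agent.R335.U3
import Crest.Agent.R335.F0
import Crest.Agent.R335.S09

set_option autoImplicit false

open MeasureTheory Set Filter Topology Metric
open scoped Gradient ContDiff RealInnerProductSpace ENNReal

namespace Crest.Agent.R335

noncomputable section

/-- thin slabs have small volume in unit balls -/
theorem T3_slab {η : ℝ} (hη : 0 < η) : ∃ s : ℝ, 0 < s ∧ ∀ x₀ : E,
    volume ({x : E | |x 2| ≤ s} ∩ ball x₀ 1) ≤ ENNReal.ofReal η := by
  have c2 : Continuous fun x : E => |x 2| := by fun_prop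
  have t := tendsto_measure_iInter_atTop (μ := (volume : Measure E))
    (s := fun n : ℕ => {x : E | |x 2| ≤ 1 / ((n : ℝ) + 1)} ∩ ball 0 3)
    (fun n => ((isClosed_le c2 continuous_const).measurableSet.inter
      measurableSet_ball).nullMeasurableSet)
    (fun m n h x hx => ⟨le_trans (α := ℝ) hx.1 (Nat.one_div_le_one_div h), hx.2⟩)
    ⟨0, ((measure_mono inter_subset_right).trans_lt measure_ball_lt_top).ne⟩
  have e : volume (⋂ n : ℕ, {x : E | |x 2| ≤ 1 / ((n : ℝ) + 1)} ∩ ball 0 3) = 0 := by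
    refine measure_mono_null (fun x hx => ?_) (ae_iff.1 ae_two_ne)
    have h1 : |x 2| ≤ 0 := ge_of_tendsto' tendsto_one_div_add_atTop_nhds_zero_nat
      fun n => (mem_iInter.1 hx n).1
    simpa using h1
  rw [e] at t
  obtain ⟨n, hn⟩ := (t.eventually (ge_mem_nhds (ENNReal.ofReal_pos.2 hη))).exists
  refine ⟨1 / ((n : ℝ) + 1), by positivity, fun x₀ => le_trans ?_ hn⟩
  rw [Function.comp_apply, ← measure_preimage_add_right volume (-hor x₀) (_ ∩ ball 0 3)]
  refine measure_mono fun x hx => ⟨?_, ?_⟩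
  · have : (x + -hor x₀) 2 = x 2 := by simp [hor, ez]
    simpa only [mem_ofPred_eq, this] using hx.1
  · have h1 : ‖x - x₀‖ < 1 := mem_ball_iff_norm.1 hx.2
    have h2 : |x 2| ≤ 1 := le_trans hx.1 ((div_le_one (by positivity)).2 (by simp))
    have h3 := PiLp.norm_apply_le (x - x₀) 2
    simp only [PiLp.sub_apply, Real.norm_eq_abs] at h3
    have h4 : x + -hor x₀ = (x - x₀) + x₀ 2 • ez := by simp only [hor]; abel
    have h5 := abs_sub_abs_le_abs_sub (x₀ 2) (x 2)
    rw [abs_sub_comm] at h5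
    simp only [mem_ball_zero_iff, h4]
    refine (norm_add_le _ _).trans_lt ?_
    rw [norm_smul, S07.norm_ez, mul_one, Real.norm_eq_abs]
    linarith

/-- `r` is comparable to a constant on far balls away from the plane -/
theorem T3_cmp {o : OD} {m : MD} {c Γ s : ℝ} (hm : m.OK o c) (hF : FD o m Γ) (hs : 0 < s) :
    ∃ M : ℝ, ∀ x₀ : E, ∃ q : ℝ, 0 < q ∧ (∀ᵐ y, ‖y - x₀‖ ≤ 2 → 0 ≤ y 2 → m.r y ≤ M * q) ∧
      ∀ᵐ x, ‖x - x₀‖ ≤ 1 → s ≤ x 2 → q ≤ m.r x := by
  obtain ⟨C, C0, hC⟩ := rad_cmp |(2 - 2 * m.l) / m.κ - 2|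
  have k0 : 0 ≤ m.κ := Real.sqrt_nonneg _
  have Γ1 := hF.Γ1
  obtain ⟨B, hB⟩ : ∃ B, B = C * Real.exp ((m.κ + 1 / 4) * 2) := ⟨_, rfl⟩
  have B0 : 0 < B := by rw [hB]; positivity
  have dp : ∀ x, 0 < m.Dm x := fun x => (radb_facts _ _ _ x).1
  have cmp : ∀ x y : E, ‖y - x‖ ≤ 2 → m.Dm y ≤ B * m.Dm x := fun x y h => by
    refine (hC _ _ le_rfl k0 x y).trans (mul_le_mul_of_nonneg_right ?_ (dp x).le)
    rw [hB]
    gcongr
  have co : ∀ x y : E, |x 2 - y 2| ≤ ‖x - y‖ := fun x y => by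
    simpa using PiLp.norm_apply_le (x - y) 2
  refine ⟨3 * Γ * B * (Γ * B * (1 + 2 / s)), fun x₀ =>
    ⟨(1 + |x₀ 2|) * m.Dm x₀ / (Γ * B * (1 + 2 / s)), by have := dp x₀; positivity, ?_, ?_⟩⟩
  · filter_upwards [hm.pyth, hF.g_bd] with y h1 h2 h3 h4
    obtain ⟨f1, f2⟩ := hF.f_bd y h4
    have f0 : 0 ≤ m.f y := le_trans (by have := dp y; positivity) f1
    obtain ⟨r0, -, -, g0, -⟩ := hm.nn y
    have e1 : m.r y ≤ m.f y + m.g y := by
      refine le_of_sq_le_sq ?_ (by positivity)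
      nlinarith [h1.2.1, mul_nonneg f0 g0]
    have e2 : m.g y ≤ Γ * m.Dm y :=
      h2.trans (div_le_self (by have := dp y; positivity) (jb_facts y).1)
    have e3 : 1 + y 2 ≤ 3 * (1 + |x₀ 2|) := by
      linarith [(abs_le.1 ((co y x₀).trans h3)).2, le_abs_self (x₀ 2), abs_nonneg (x₀ 2)]
    rw [mul_assoc (3 * Γ * B), mul_div_cancel₀ _ (by positivity)]
    calc m.r y ≤ Γ * ((1 + y 2) * m.Dm y) := by linarith
      _ ≤ Γ * ((3 * (1 + |x₀ 2|)) * (B * m.Dm x₀)) := by
        have := dp y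
        gcongr
        exact cmp x₀ y h3
      _ = _ := by ring
  · filter_upwards [hm.pyth] with x h1 h3 h4
    obtain ⟨f1, -⟩ := hF.f_bd x (show 0 ≤ x 2 by linarith)
    have e1 : m.f x ≤ m.r x :=
      le_of_sq_le_sq (by nlinarith [h1.2.1, sq_nonneg (m.g x)]) (hm.nn x).1
    refine le_trans ?_ (f1.trans e1)
    have e3 : 1 + |x₀ 2| ≤ (1 + 2 / s) * x 2 := by
      have h5 := abs_sub_abs_le_abs_sub (x₀ 2) (x 2)
      rw [abs_sub_comm, abs_of_pos (show 0 < x 2 by linarith)] at h5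
      have h6 : 2 ≤ 2 / s * x 2 := by
        rw [div_mul_eq_mul_div, le_div_iff₀ hs]; linarith
      linarith [co x x₀]
    have e4 := cmp x x₀ (by rw [norm_sub_rev]; linarith)
    rw [div_le_div_iff₀ (by positivity) (by positivity)]
    calc (1 + |x₀ 2|) * m.Dm x₀ * Γ ≤ ((1 + 2 / s) * x 2) * (B * m.Dm x) * Γ := by
          have := dp x₀
          have : 0 < x 2 := by linarith
          gcongr
      _ = _ := by ring

/-- Caccioppoli and Chebyshev on a ball above the plane -/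
theorem T3_cheb {r u : E → ℝ} {δ s t M q ε : ℝ} {x₀ : E} {A : Set E} (hA : Ang r u δ) (hδ : 0 ≤ δ)
    (hs : 0 < s) (hε : 0 ≤ ε) (hq : 0 < q) (mA : MeasurableSet A)
    (h1 : ∀ᵐ y, ‖y - x₀‖ ≤ 2 → 0 ≤ y 2 → r y ≤ M * q)
    (h2 : ∀ᵐ x, ‖x - x₀‖ ≤ 1 → s ≤ x 2 → q ≤ r x)
    (h3 : ∀ᵐ x, ‖x - x₀‖ ≤ 2 → s / 2 ≤ x 2 → Real.pi / 2 - t ≤ u x)
    (h4 : ∀ᵐ x, x ∈ A → s < x 2 ∧ ε ≤ ‖D u x‖ ^ 2) :
    volume.real (A ∩ ball x₀ 1) * ε ≤
      volume.real (closedBall (0 : E) 2) * (M ^ 2 * t ^ 2 * (1 + 2 / s) ^ 2) := by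
  have br : Bl r := ⟨hA.hr.hl, hA.bd.lb⟩
  have bu : Bl u := ⟨hA.hu, Bd.lb ⟨_, Eventually.of_forall hA.bu⟩⟩
  have b2 : Bl fun x => r x ^ 2 := (br.comp (contDiff_id.pow 2)).1
  have bk : Bl fun _ : E => Real.pi / 2 := bl_c1 contDiff_const
  have bT : Bl fun x => Real.pi / 2 - u x := bk.sub bu
  have dT : ∀ᵐ x, D (fun x => Real.pi / 2 - u x) x = -D u x := by
    filter_upwards [D_sub bk.hl bu.hl, D_const (V := E) (Real.pi / 2)] with x a b
    rw [a, b, zero_sub]
  have T0 : ∀ x, 0 ≤ Real.pi / 2 - u x := fun x => sub_nonneg.2 (abs_le.1 (hA.bu x)).2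
  have hW : WSub (fun x => r x ^ 2) Hp (fun x => Real.pi / 2 - u x) fun _ => 0 := by
    refine ⟨bT.hl, fun _ _ _ => integrableOn_zero, fun χ hχ h0 => ?_⟩
    have e := hA.el χ (hχ.mono (subset_univ _))
    have e1 : ∫ x, (1 / 2) * r x ^ 2 * ⟪D (fun x => Real.pi / 2 - u x) x, D χ x⟫ =
        -∫ x, (1 / 2) * r x ^ 2 * ⟪D u x, D χ x⟫ := by
      rw [← integral_neg]
      refine integral_congr_ae ?_
      filter_upwards [dT] with x hx
      rw [hx, inner_neg_left, mul_neg]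
    simp only [zero_mul, integral_zero]
    rw [e1, e, neg_nonpos]
    obtain ⟨K, -, hK, hz⟩ := hχ.cs
    refine integral_nonneg_of_ae ?_
    filter_upwards [hz, h0] with x hz h0
    by_cases hx : x ∈ K
    · have u0 := hA.u_nn x (hK hx)
      have u1 := (abs_le.1 (hA.bu x)).2
      have := Real.sin_nonneg_of_nonneg_of_le_pi u0 (by linarith [Real.pi_pos])
      have := Real.cos_nonneg_of_neg_pi_div_two_le_of_le (abs_le.1 (hA.bu x)).1 u1
      show 0 ≤ _
      positivity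
    · simp [hz hx]
  obtain ⟨j, hj⟩ : ∃ j : E → ℝ,
      j = fun x => max (min 1 (min (2 - ‖x - x₀‖) (2 / s * x 2 - 1))) 0 := ⟨_, rfl⟩
  have L0 : 0 < 2 / s := by positivity
  obtain ⟨bj, dj⟩ := lip_D_le' (u := j) (L := 1 + 2 / s) (by positivity) fun x y => by
    rw [hj]
    refine (abs_max_sub_max_le_abs _ _ _).trans ((abs_min_sub_min_le_max _ _ _ _).trans
      (max_le (by simp; positivity) ((abs_min_sub_min_le_max _ _ _ _).trans (max_le ?_ ?_))))
    · have := abs_norm_sub_norm_le (y - x₀) (x - x₀)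
      rw [sub_sub_sub_cancel_right, norm_sub_rev y x] at this
      rw [sub_sub_sub_cancel_left]
      nlinarith [norm_nonneg (x - y)]
    · have : |x 2 - y 2| ≤ ‖x - y‖ := by simpa using PiLp.norm_apply_le (x - y) 2
      rw [sub_sub_sub_cancel_right, ← mul_sub, abs_mul, abs_of_pos L0]
      nlinarith [norm_nonneg (x - y)]
  have cK : IsCompact (closedBall x₀ 2 ∩ {x : E | s / 2 ≤ x 2}) :=
    (isCompact_closedBall _ _).inter_right (isClosed_le continuous_const (by fun_prop))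
  have j0 : ∀ᵐ x, x ∉ closedBall x₀ 2 ∩ {x : E | s / 2 ≤ x 2} → j x = 0 :=
    Eventually.of_forall fun x hx => by
      rw [hj]
      refine max_eq_right (min_le_of_right_le ?_)
      by_cases h : x ∈ closedBall x₀ 2
      · have h' : x 2 < s / 2 := not_le.1 fun h' => hx ⟨h, h'⟩
        refine min_le_of_right_le ?_
        rw [sub_nonpos, div_mul_eq_mul_div, div_le_one hs]
        linarith
      · rw [mem_closedBall_iff_norm, not_le] at h
        exact min_le_of_left_le (by linarith)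
  have tj : TF Hp j := bj.tf ⟨_, cK, fun x hx => le_trans (half_pos hs).le hx.2, j0⟩
  have en := hW.energy b2.hl.aesm b2.lb bT.lb (Eventually.of_forall fun x _ => T0 x) tj
  simp only [zero_mul, integral_zero, zero_add] at en
  have tT : H1 fun x => j x * (Real.pi / 2 - u x) := by
    simpa only [mul_comm] using (tj.mul bT).h1
  have oW : IsOpen (ball x₀ 1 ∩ {x : E | s < x 2}) :=
    isOpen_ball.inter (isOpen_lt continuous_const (by fun_prop))
  have dW := D_eqOn tT.hl bT.hl oW (Eventually.of_forall fun x hx => by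
    have e : j x = 1 := by
      rw [hj]
      have a1 : ‖x - x₀‖ < 1 := mem_ball_iff_norm.1 hx.1
      have a2 : 2 ≤ 2 / s * x 2 := by
        rw [div_mul_eq_mul_div, le_div_iff₀ hs]; linarith [show s < x 2 from hx.2]
      simp only
      rw [min_eq_left (le_min (by linarith) (by linarith)), max_eq_left zero_le_one]
    rw [e, one_mul])
  obtain ⟨N, hN⟩ := hA.bd
  have iG : Integrable fun x => (1 / 2) * r x ^ 2 * ‖D (fun x => j x * (Real.pi / 2 - u x)) x‖ ^ 2 := by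
    refine tT.dl2.norm.integrable_sq.bdd_mul (c := 1 / 2 * N ^ 2) (b2.hl.aesm.const_mul _) ?_
    filter_upwards [hN] with x hx
    rw [Real.norm_of_nonneg (by positivity), ← sq_abs]
    gcongr
  have mB : MeasurableSet (A ∩ ball x₀ 1) := mA.inter measurableSet_ball
  have lo : volume.real (A ∩ ball x₀ 1) * (1 / 2 * q ^ 2 * ε) ≤
      ∫ x, (1 / 2) * r x ^ 2 * ‖D (fun x => j x * (Real.pi / 2 - u x)) x‖ ^ 2 := by
    rw [← smul_eq_mul, ← integral_indicator_const _ mB]
    refine integral_mono_of_nonneg (Eventually.of_forall fun x =>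
      indicator_nonneg (fun _ _ => by positivity) x) iG ?_
    filter_upwards [h2, h4, dW, dT] with x a1 a2 a3 a4
    by_cases hx : x ∈ A ∩ ball x₀ 1
    · rw [indicator_of_mem hx, a3 ⟨hx.2, (a2 hx.1).1⟩, a4, norm_neg]
      have := a1 (mem_ball_iff_norm.1 hx.2).le (a2 hx.1).1.le
      have := (a2 hx.1).2
      gcongr
    · rw [indicator_of_notMem hx]
      positivity
  have hi : ∫ x, (1 / 2) * r x ^ 2 * (Real.pi / 2 - u x) ^ 2 * ‖D j x‖ ^ 2 ≤
      volume.real (closedBall x₀ 2) * (1 / 2 * (M * q) ^ 2 * t ^ 2 * (1 + 2 / s) ^ 2) := by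
    rw [← smul_eq_mul, ← integral_indicator_const _ measurableSet_closedBall]
    refine integral_mono_of_nonneg (Eventually.of_forall fun x => by positivity)
      ((integrable_indicator_iff measurableSet_closedBall).2
        (integrableOn_const measure_closedBall_lt_top.ne)) ?_
    filter_upwards [h1, h3, dj, CS.D_zero bj.hl j0] with x a1 a2 a3 a4
    by_cases hx : x ∈ closedBall x₀ 2 ∩ {x : E | s / 2 ≤ x 2}
    · rw [indicator_of_mem hx.1]
      have a5 := mem_closedBall_iff_norm.1 hx.1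
      have a6 := a1 a5 (le_trans (half_pos hs).le hx.2)
      have a7 : Real.pi / 2 - u x ≤ t := by linarith [a2 a5 hx.2]
      have := hA.nn x
      have := T0 x
      gcongr
    · rw [a4 hx, norm_zero]
      simpa using indicator_nonneg (fun _ _ => by positivity) x
  rw [measureReal_def, Measure.addHaar_closedBall_center, ← measureReal_def] at hi
  refine le_of_mul_le_mul_left ?_ (show 0 < 1 / 2 * q ^ 2 by positivity)
  linarith

/-- the attractive part of the local potential is thin at infinity -/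
theorem T3 {o : OD} {m : MD} {c Γ δ : ℝ} {u : E → ℝ} (ho : o.OK) (hm : m.OK o c) (hF : FD o m Γ)
    (hA : Ang m.r u δ) (hδ : 0 ≤ δ)
    (hcos : ∀ s ε : ℝ, 0 < s → 0 < ε → ∃ ρ : ℝ, ∀ᵐ x, ρ ≤ ‖x‖ → s ≤ x 2 → Real.pi / 2 - ε ≤ u x)
    (ε η : ℝ) (hε : 0 < ε) (hη : 0 < η) : ∃ (ρ : ℝ) (A : Set E), MeasurableSet A ∧
      (∀ x₀, (volume (A ∩ ball x₀ 1)).toReal ≤ η) ∧
      ∀ᵐ x, ρ ≤ ‖x‖ → x ∉ A → (1 / 2) * ‖D u x‖ ^ 2 + δ * Real.cos (u x) ^ 2 ≤ ε := by
  obtain ⟨s, s0, hs⟩ := T3_slab (show 0 < η / 3 by positivity)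
  obtain ⟨M, hM⟩ := T3_cmp hm hF s0
  obtain ⟨W, hW⟩ : ∃ W, W = volume.real (closedBall (0 : E) 2) * (M ^ 2 * (1 + 2 / s) ^ 2) :=
    ⟨_, rfl⟩
  have W0 : 0 ≤ W := by rw [hW]; positivity
  obtain ⟨t, ht⟩ : ∃ t, t = √(min (ε / (2 * (δ + 1))) (η / 3 * ε / (W + 1))) := ⟨_, rfl⟩
  have t0 : 0 < t := by rw [ht]; positivity
  have t1 : t ^ 2 = min (ε / (2 * (δ + 1))) (η / 3 * ε / (W + 1)) := by
    rw [ht, Real.sq_sqrt (by positivity)]
  have t2 : t ^ 2 * (2 * (δ + 1)) ≤ ε := (le_div_iff₀ (by positivity)).1 (t1 ▸ min_le_left _ _)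
  have t3 : t ^ 2 * (W + 1) ≤ η / 3 * ε := (le_div_iff₀ (by positivity)).1 (t1 ▸ min_le_right _ _)
  obtain ⟨ρ, hρ⟩ := hcos (s / 2) t (half_pos s0) t0
  have mg := hA.hu.aesm_D
  obtain ⟨B, hB⟩ : ∃ B : Set E,
      B = {x | ε ≤ ‖mg.mk _ x‖ ^ 2} ∩ ({x | s < x 2} ∩ {x | ρ + 3 ≤ ‖x‖}) := ⟨_, rfl⟩
  have mB : MeasurableSet B := by
    rw [hB]
    exact (measurableSet_le measurable_const
      (mg.stronglyMeasurable_mk.measurable.norm.pow_const 2)).inter
      ((isOpen_lt continuous_const (by fun_prop)).measurableSet.inter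
        (isClosed_le continuous_const continuous_norm).measurableSet)
  have vB : ∀ x₀, volume (B ∩ ball x₀ 1) ≤ ENNReal.ofReal (η / 3) := fun x₀ => by
    rcases (B ∩ ball x₀ 1).eq_empty_or_nonempty with h | ⟨y, hy1, hy2⟩
    · simp [h]
    rw [hB] at hy1
    have n1 : ρ + 2 ≤ ‖x₀‖ := by
      linarith [norm_sub_norm_le y x₀, mem_ball_iff_norm.1 hy2, show ρ + 3 ≤ ‖y‖ from hy1.2.2]
    obtain ⟨q, q0, q1, q2⟩ := hM x₀
    have key := T3_cheb (t := t) hA hδ s0 hε.le q0 mB q1 q2 ?_ ?_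
    · refine (ENNReal.le_ofReal_iff_toReal_le
        ((measure_mono inter_subset_right).trans_lt measure_ball_lt_top).ne (by positivity)).2 ?_
      refine le_of_mul_le_mul_right (key.trans ?_) hε
      nlinarith [sq_nonneg t]
    · filter_upwards [hρ] with x hx h1 h2
      exact hx (by linarith [norm_sub_norm_le x₀ x, norm_sub_rev x₀ x]) h2
    · filter_upwards [mg.ae_eq_mk] with x hx h1
      rw [hB] at h1
      exact ⟨h1.2.1, hx ▸ h1.1⟩
  have up : ∀ᵐ x, ρ + 3 ≤ ‖x‖ → s < x 2 → x ∉ B →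
      (1 / 2) * ‖D u x‖ ^ 2 + δ * Real.cos (u x) ^ 2 ≤ ε := by
    filter_upwards [mg.ae_eq_mk, hρ] with x h1 h2 h3 h4 h5
    have e1 : ‖D u x‖ ^ 2 ≤ ε := by
      rw [h1]
      exact le_of_not_ge fun h => h5 (hB ▸ ⟨h, h4, h3⟩)
    have e2 := h2 (by linarith) (by linarith)
    have e3 := (abs_le.1 (hA.bu x)).2
    have e4 : Real.cos (u x) ≤ t := by
      rw [← Real.sin_pi_div_two_sub]
      exact (Real.sin_le (by linarith)).trans (by linarith)
    have e5 := Real.cos_nonneg_of_neg_pi_div_two_le_of_le (abs_le.1 (hA.bu x)).1 e3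
    have e6 : δ * Real.cos (u x) ^ 2 ≤ δ * t ^ 2 := by gcongr
    nlinarith [sq_nonneg t]
  have c2 : Continuous fun x : E => |x 2| := by fun_prop
  refine ⟨ρ + 3, {x | |x 2| ≤ s} ∪ B ∪ R ⁻¹' B,
    ((isClosed_le c2 continuous_const).measurableSet.union mB).union (mp_R.measurable mB),
    fun x₀ => ENNReal.toReal_le_of_le_ofReal hη.le ?_, ?_⟩
  · have e : volume (R ⁻¹' B ∩ ball x₀ 1) ≤ ENNReal.ofReal (η / 3) := by
      refine le_trans ?_ (vB (R x₀))
      rw [← mp_R.measure_preimage (mB.inter measurableSet_ball).nullMeasurableSet]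
      refine measure_mono fun x hx => ⟨hx.1, ?_⟩
      obtain ⟨L, hL, -⟩ := exists_Riso
      rw [mem_ball, ← hL, ← hL, L.dist_map]
      exact hx.2
    rw [union_inter_distrib_right, union_inter_distrib_right]
    refine ((measure_union_le _ _).trans (add_le_add ((measure_union_le _ _).trans
      (add_le_add (hs x₀) (vB x₀))) e)).trans_eq ?_
    rw [← ENNReal.ofReal_add (by positivity) (by positivity),
      ← ENNReal.ofReal_add (by positivity) (by positivity)]
    congr 1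
    ring
  · filter_upwards [up, mp_R.quasiMeasurePreserving.ae up, hA.od, Od.D hA.hu hA.od]
      with x h1 h2 h3 h4 h5 h6
    simp only [mem_union, mem_ofPred_eq, mem_preimage, not_or, not_le] at h6
    rcases lt_abs.1 h6.1.1 with h | h
    · exact h1 h5 h h6.1.2
    · have := h2 (by rwa [norm_R]) (by rwa [R_two]) h6.2
      rwa [h3, h4, norm_neg, norm_R, Real.cos_neg] at this
theorem T4 {r u U v : E → ℝ} {δ e : ℝ} (hA : Ang r u δ) (h : Sub univ r fun x => -(U x * r x))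
    (hv : Cls v) (he : Eig v e fun x => r x * Real.cos (u x)) :
    ∀ᵐ x, U x - (1 / 2) * ‖D u x‖ ^ 2 + δ * Real.sin (u x) ^ 2 ≤ v x - e := by
  obtain ⟨v₁, v₂, rfl, hv1, hv2⟩ := hv
  obtain ⟨C1, -, H⟩ := l32_bound
  obtain ⟨M, hM⟩ : ∃ M : ℝ, ∀ᵐ x, |v₂ x| ≤ M :=
    ⟨(eLpNormEssSup v₂ volume).toReal, (ae_le_eLpNormEssSup (f := v₂) (μ := volume)).mono fun x hx => by
      have h := ENNReal.toReal_mono (by simpa using hv2.2.ne) hx
      simpa using h⟩
  have br : Bl r := ⟨hA.hr.hl, hA.bd.lb⟩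
  have bu : Bl u := ⟨hA.hu, Bd.lb ⟨_, Eventually.of_forall hA.bu⟩⟩
  have bc : Bl fun x => Real.cos (u x) := (bu.comp Real.contDiff_cos).1
  have bs : Bl fun x => Real.sin (u x) := (bu.comp Real.contDiff_sin).1
  have c0 : ∀ x, 0 ≤ Real.cos (u x) := fun x =>
    Real.cos_nonneg_of_neg_pi_div_two_le_of_le (abs_le.1 (hA.bu x)).1 (abs_le.1 (hA.bu x)).2
  obtain ⟨bφ, dφ⟩ := br.mul bc
  have i0 : Integrable fun x => r x ^ 2 := hA.hr.l2.integrable_sq
  have cb : ∀ᵐ x, ‖Real.cos (u x)‖ ≤ 1 := Eventually.of_forall fun x => Real.abs_cos_le_one _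
  have i1 : Integrable fun x => (v₁ + v₂) x * (r x * Real.cos (u x)) * r x :=
    (((integrableOn_univ.1 (H v₁ _ univ MeasurableSet.univ (hv1.restrict _) hA.hr).1).add
      (i0.bdd_mul (c := M) hv2.1 hM)).mul_bdd bc.hl.aesm cb).congr
      (Eventually.of_forall fun x => by simp only [Pi.add_apply]; ring)
  have i2 : Integrable fun x => r x * Real.cos (u x) * r x :=
    (i0.mul_bdd bc.hl.aesm cb).congr (Eventually.of_forall fun x => by ring)
  have i3 : Integrable fun x =>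
      r x ^ 2 * ((1 / 2) * ‖D u x‖ ^ 2 - δ * Real.sin (u x) ^ 2) * Real.cos (u x) := by
    refine Integrable.mul_bdd ?_ bc.hl.aesm cb
    refine ((hA.fin.const_mul (1 / 2)).sub ((i0.mul_bdd (c := 1) (bs.hl.aesm.pow 2)
      (Eventually.of_forall fun x => ?_)).const_mul δ)).congr
      (Eventually.of_forall fun x => by simp only [Pi.sub_apply, Pi.pow_apply]; ring)
    simpa using Real.abs_sin_le_one (u x)
  have i4 : ∀ K, IsCompact K → K ⊆ univ →
      IntegrableOn (fun x => r x * Real.cos (u x) * -(U x * r x)) K volume := fun K hK hU =>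
    S12_lb_mul bφ.hl.aesm bφ.lb hK (h.li K hK hU)
  have key := ae_le_of_tests (U := univ)
    (A := fun x => e * (r x * Real.cos (u x) * r x) - (v₁ + v₂) x * (r x * Real.cos (u x)) * r x)
    (B := fun x => r x ^ 2 * ((1 / 2) * ‖D u x‖ ^ 2 - δ * Real.sin (u x) ^ 2) * Real.cos (u x) +
      r x * Real.cos (u x) * -(U x * r x)) isOpen_univ
    (fun K _ _ => ((i2.const_mul e).sub i1).integrableOn)
    (fun K hK hU => i3.integrableOn.add (i4 K hK hU)) fun w hw _ w0 => ?_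
  · filter_upwards [key, S04.ae_pos hA.lp, hA.pos.1] with x hx h1 h2
    have h3 : 0 < r x ^ 2 * Real.cos (u x) := by positivity
    refine le_of_mul_le_mul_left ?_ h3
    have := hx (mem_univ x)
    nlinarith
  have tw : TF univ w := hw.tf (subset_univ _)
  have t1 := tw.mul br
  have t2 := tw.mul bφ
  have e1 := he _ t1.h1
  have e2 := hA.eq_cos tw
  have e3 := h.le _ t2 (Eventually.of_forall fun x => mul_nonneg (mul_nonneg (hA.nn x) (c0 x)) (w0 x))
  have j1 := (S12_inner hA.hφ.dl2 t1.h1.dl2).const_mul (1 / 2 : ℝ)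
  have j2 := (S12_inner hA.hr.dl2 t2.h1.dl2).const_mul ((1 / 2 : ℝ) * 1)
  have k : ∀ {f : E → ℝ}, Integrable f → Integrable fun x => f x * w x := fun hf =>
    S12_int_rhs (fun K _ _ => hf.integrableOn) tw
  have e4 : ∫ x, (1 / 2) * r x ^ 2 * ⟪D (fun x => Real.cos (u x)) x, D w x⟫ =
      (∫ x, (1 / 2) * ⟪D (fun x => r x * Real.cos (u x)) x, D (fun x => r x * w x) x⟫) -
        ∫ x, (1 / 2) * 1 * ⟪D r x, D (fun x => r x * Real.cos (u x) * w x) x⟫ := by
    rw [← integral_sub j1 j2]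
    refine integral_congr_ae ?_
    filter_upwards [dφ, (br.mul tw.bl).2, (bφ.mul tw.bl).2] with x h1 h2 h3
    rw [h3, h2, h1]
    simp only [inner_add_left, inner_add_right, real_inner_smul_left, real_inner_smul_right,
      real_inner_comm (D r x) (D (fun x => Real.cos (u x)) x)]
    ring
  have e5 : ∫ x, ((1 / 2) * ⟪D (fun x => r x * Real.cos (u x)) x, D (fun x => r x * w x) x⟫ +
      (v₁ + v₂) x * (r x * Real.cos (u x)) * (r x * w x)) =
      (∫ x, (1 / 2) * ⟪D (fun x => r x * Real.cos (u x)) x, D (fun x => r x * w x) x⟫) +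
        ∫ x, (v₁ + v₂) x * (r x * Real.cos (u x)) * r x * w x := by
    rw [← integral_add j1 (k i1)]
    exact integral_congr_ae (Eventually.of_forall fun x => by ring)
  have e6 : ip (fun x => r x * Real.cos (u x)) (fun x => r x * w x) =
      ∫ x, r x * Real.cos (u x) * r x * w x :=
    integral_congr_ae (Eventually.of_forall fun x => by ring)
  have e7 : ∫ x, -(U x * r x) * (r x * Real.cos (u x) * w x) =
      ∫ x, r x * Real.cos (u x) * -(U x * r x) * w x :=
    integral_congr_ae (Eventually.of_forall fun x => by ring)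
  simp only [sub_mul, add_mul (_ * Real.cos _), mul_assoc e]
  rw [integral_sub ((k i2).const_mul e) (k i1), integral_add (k i3) (S12_int_rhs i4 tw),
    integral_const_mul]
  rw [e5, e6] at e1
  linarith

end

end Crest.Agent.R335
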