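import Crest.Agent.R335.F0b
import Crest.Agent.R335.S09
import Crest.Agent.R335.S11

set_option autoImplicit false

open MeasureTheory Set Filter Topology Metric
open scoped Gradient ContDiff RealInnerProductSpace ENNReal

namespace Crest.Agent.R335

noncomputable section

/-- the truncated exponential weight -/
theorem T5_weight {k : ℝ} (hk : 0 < k) (ρ : ℝ) (n : ℕ) : ∃ a : E → ℝ, Hl a ∧ Bd a ∧
    Bd (fun x => ‖D a x‖) ∧ (∀ x, a x = max (Real.exp (min (k * ‖x‖) n) - Real.exp (k * ρ)) 0) ∧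
    ∀ᵐ x, ‖D a x‖ ≤ k * (a x + Real.exp (k * ρ)) := by
  have lip : ∀ x y : E, |min (k * ‖x‖) n - min (k * ‖y‖) n| ≤ k * ‖x - y‖ := by
    intro x y
    have h1 := abs_min_sub_min_le_max (k * ‖x‖) n (k * ‖y‖) n
    rw [sub_self, abs_zero] at h1
    refine (h1.trans (max_le le_rfl (abs_nonneg _))).trans ?_
    rw [← mul_sub, abs_mul, abs_of_pos hk]
    exact mul_le_mul_of_nonneg_left (abs_norm_sub_norm_le x y) hk.le
  obtain ⟨q1, q2⟩ := lip_D_le' hk.le lip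
  obtain ⟨w1, w2⟩ := q1.comp (β := Real.exp) Real.contDiff_exp
  have hc : Hl fun _ : E => Real.exp (k * ρ) := (bl_c1 contDiff_const).hl
  obtain ⟨a1, a2⟩ := (w1.hl.sub hc).pos
  have hb : ∀ x : E, |max (Real.exp (min (k * ‖x‖) n) - Real.exp (k * ρ)) 0| ≤ Real.exp n := by
    intro x
    rw [abs_of_nonneg (le_max_right _ _)]
    refine max_le ?_ (Real.exp_pos _).le
    linarith [Real.exp_le_exp.2 (min_le_right (k * ‖x‖) n), Real.exp_pos (k * ρ)]
  have hD : ∀ᵐ x : E, ‖D (fun x : E => max (Real.exp (min (k * ‖x‖) n) - Real.exp (k * ρ)) 0) x‖ ≤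
      k * (max (Real.exp (min (k * ‖x‖) n) - Real.exp (k * ρ)) 0 + Real.exp (k * ρ)) := by
    filter_upwards [q2, w2, a2, D_sub w1.hl hc, D_const (V := E) (Real.exp (k * ρ))]
      with x e1 e2 e3 e4 e5
    rw [e3]
    split_ifs with h
    · rw [e4, e5, sub_zero, e2, norm_smul, Real.deriv_exp, Real.norm_of_nonneg (Real.exp_pos _).le,
        max_eq_left h.le, sub_add_cancel, mul_comm]
      exact mul_le_mul_of_nonneg_right e1 (Real.exp_pos _).le
    · rw [norm_zero]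
      positivity
  refine ⟨_, a1, ⟨_, Eventually.of_forall hb⟩, ⟨k * (Real.exp n + Real.exp (k * ρ)), ?_⟩,
    fun _ => rfl, hD⟩
  filter_upwards [hD] with x hx
  rw [abs_norm]
  exact hx.trans (mul_le_mul_of_nonneg_left (add_le_add ((le_abs_self _).trans (hb x)) le_rfl) hk.le)

/-- the localisation identity for a weak eigenfunction -/
theorem T5_loc {φ v a : E → ℝ} {e : ℝ} (hφ : H1 φ) (he : Eig v e φ) (ha : Hl a) (hb : Bd a)
    (hg : Bd fun x => ‖D a x‖) (hi : Integrable fun x => v x * (a x * φ x) ^ 2) :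
    (1 / 2) * dir (fun x => a x * φ x) + ∫ x, (v x - e) * (a x * φ x) ^ 2 =
      (1 / 2) * ∫ x, ‖D a x‖ ^ 2 * φ x ^ 2 := by
  obtain ⟨h1, h2⟩ := hφ.mul_lip ha hb hg
  obtain ⟨h3, h4⟩ := h1.mul_lip ha hb hg
  have i1 := S11_int_normsq h1.dl2
  have i2 := S11_int_bd ha hg hφ.l2
  have i3 : Integrable fun x => (a x * φ x) ^ 2 := h1.l2.integrable_sq
  have k := he _ h3
  have e1 : ∫ x, ((1 / 2) * ⟪D φ x, D (fun x => a x * (a x * φ x)) x⟫ + v x * φ x * (a x * (a x * φ x))) =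
      ∫ x, ((1 / 2) * ‖D (fun x => a x * φ x) x‖ ^ 2 + -(1 / 2) * (‖D a x‖ ^ 2 * φ x ^ 2) +
        1 * (v x * (a x * φ x) ^ 2)) := by
    refine integral_congr_ae ?_
    filter_upwards [h2, h4] with x e2 e4
    rw [e4, e2]
    simp only [← real_inner_self_eq_norm_sq, inner_add_left, inner_add_right, real_inner_smul_left,
      real_inner_smul_right, real_inner_comm (D φ x) (D a x)]
    ring
  have e2 : ip φ (fun x => a x * (a x * φ x)) = ∫ x, (a x * φ x) ^ 2 :=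
    integral_congr_ae (Eventually.of_forall fun x => by ring)
  have e3 : ∫ x, (v x - e) * (a x * φ x) ^ 2 =
      (∫ x, v x * (a x * φ x) ^ 2) - e * ∫ x, (a x * φ x) ^ 2 := by
    rw [← integral_const_mul, ← integral_sub hi (i3.const_mul e)]
    exact integral_congr_ae (Eventually.of_forall fun x => by ring)
  rw [e1, S11_int3 i1 i2 hi, e2] at k
  rw [e3, dir]
  linarith

theorem T5_tail {v : E → ℝ} (hv : MemLp v (3 / 2 : ℝ≥0∞) volume) {ε : ℝ} (hε : 0 < ε) :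
    ∃ ρ : ℝ, ∀ ρ', ρ ≤ ρ' →
      (∫ x in {x : E | ρ' ≤ ‖x‖}, |v x| ^ (3 / 2 : ℝ)) ^ (2 / 3 : ℝ) ≤ ε := by
  have e1 : (3 / 2 : ℝ≥0∞) = ENNReal.ofReal (3 / 2) := by
    rw [ENNReal.ofReal_div_of_pos two_pos]
    simp
  have hi : Integrable fun x => |v x| ^ (3 / 2 : ℝ) := by
    have := hv.integrable_norm_rpow (by rw [e1]; simp) (by rw [e1]; simp)
    rw [e1, ENNReal.toReal_ofReal (by norm_num)] at this
    exact this
  have ms : ∀ r : ℝ, MeasurableSet {x : E | r ≤ ‖x‖} := fun r =>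
    (isClosed_le continuous_const continuous_norm).measurableSet
  have t := tendsto_setIntegral_of_antitone (μ := volume) (f := fun x => |v x| ^ (3 / 2 : ℝ))
    (s := fun n : ℕ => {x : E | (n : ℝ) ≤ ‖x‖}) (fun n => ms n)
    (fun m n h x (hx : (n : ℝ) ≤ ‖x‖) => show (m : ℝ) ≤ ‖x‖ from (Nat.cast_le.2 h).trans hx)
    ⟨0, hi.integrableOn⟩
  have e2 : ⋂ n : ℕ, {x : E | (n : ℝ) ≤ ‖x‖} = ∅ := by
    refine eq_empty_of_forall_notMem fun x hx => ?_
    obtain ⟨n, hn⟩ := exists_nat_gt ‖x‖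
    exact absurd (mem_iInter.1 hx n) (not_le.2 hn)
  rw [e2, setIntegral_empty] at t
  obtain ⟨n, hn⟩ := (t.eventually (ge_mem_nhds (show 0 < ε ^ (3 / 2 : ℝ) by positivity))).exists
  refine ⟨n, fun ρ' h => ?_⟩
  have h1 : ∫ x in {x : E | ρ' ≤ ‖x‖}, |v x| ^ (3 / 2 : ℝ) ≤ ε ^ (3 / 2 : ℝ) :=
    (setIntegral_mono_set hi.integrableOn (Eventually.of_forall fun x => by positivity)
      (HasSubset.Subset.eventuallyLE fun x (hx : ρ' ≤ ‖x‖) => show (n : ℝ) ≤ ‖x‖ from h.trans hx)).trans hn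
  refine (Real.rpow_le_rpow (integral_nonneg fun x => by positivity) h1 (by norm_num)).trans_eq ?_
  rw [← Real.rpow_mul hε.le]
  norm_num

/-- Agmon bound -/
theorem T5_agmon {φ v P : E → ℝ} {e κ δ : ℝ} (hφ : H1 φ) (hv : Cls v) (he : Eig v e φ)
    (hκ : 0 < κ) (hδ : 0 < δ) (hP : ∀ᵐ x, κ ^ 2 / 2 + δ - P x ≤ v x - e)
    (hthin : ∀ ε η : ℝ, 0 < ε → 0 < η → ∃ (ρ : ℝ) (A : Set E), MeasurableSet A ∧
      (∀ x₀, (volume (A ∩ ball x₀ 1)).toReal ≤ η) ∧ ∀ᵐ x, ρ ≤ ‖x‖ → x ∉ A → P x ≤ ε) :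
    ∃ k ρ B : ℝ, κ < k ∧ ∀ n : ℕ,
      MemLp (fun x => max (Real.exp (min (k * ‖x‖) n) - Real.exp (k * ρ)) 0 * φ x) 2 volume ∧
      ∫ x, (max (Real.exp (min (k * ‖x‖) n) - Real.exp (k * ρ)) 0 * φ x) ^ 2 ≤ B := by
  obtain ⟨v₁, v₂, rfl, hv1, hv2⟩ := hv
  obtain ⟨C1, hC1, H1'⟩ := l32_bound
  obtain ⟨C2, hC2, H2⟩ := thin
  obtain ⟨M, hM⟩ : ∃ M : ℝ, ∀ᵐ x, |v₂ x| ≤ M :=
    ⟨(eLpNormEssSup v₂ volume).toReal, (ae_le_eLpNormEssSup (f := v₂) (μ := volume)).mono fun x hx => by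
      have h := ENNReal.toReal_mono (by simpa using hv2.2.ne) hx
      simpa using h⟩
  obtain ⟨B, hB⟩ : ∃ B, B = κ ^ 2 / 2 + δ + |M| + |e| := ⟨_, rfl⟩
  have B0 : 0 < B := by rw [hB]; positivity
  obtain ⟨μ, hμ⟩ : ∃ μ, μ = min (1 / 4) (δ / 4) := ⟨_, rfl⟩
  have μ0 : 0 < μ := by rw [hμ]; positivity
  have μ1 : μ ≤ 1 / 4 := hμ ▸ min_le_left _ _
  have μ2 : μ ≤ δ / 4 := hμ ▸ min_le_right _ _
  have hη : 0 < (μ / (B * C2)) ^ (3 / 2 : ℝ) := by positivity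
  obtain ⟨ρ1, A, mA, hA, hA'⟩ := hthin (δ / 4) _ (by positivity) hη
  obtain ⟨ρ2, h2⟩ := T5_tail hv1 (show 0 < 1 / (4 * C1) by positivity)
  obtain ⟨k, hk⟩ : ∃ k, k = √(κ ^ 2 + δ / 4) := ⟨_, rfl⟩
  have k2 : k ^ 2 = κ ^ 2 + δ / 4 := by rw [hk, Real.sq_sqrt (by positivity)]
  have kκ : κ < k := by rw [hk]; exact Real.lt_sqrt_of_sq_lt (by linarith)
  have k0 : 0 < k := hκ.trans kκ
  obtain ⟨ρ, hρ⟩ : ∃ ρ, ρ = max ρ1 ρ2 := ⟨_, rfl⟩
  obtain ⟨θ, hθ⟩ : ∃ θ, θ = δ / (4 * k ^ 2) := ⟨_, rfl⟩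
  have θ0 : 0 < θ := by rw [hθ]; positivity
  have θk : k ^ 2 * θ = δ / 4 := by rw [hθ]; field_simp
  obtain ⟨c, hc⟩ : ∃ c, c = k ^ 2 * (1 + θ⁻¹) * Real.exp (k * ρ) ^ 2 := ⟨_, rfl⟩
  refine ⟨k, ρ, 2 / δ * (c * nsq φ), kκ, fun n => ?_⟩
  obtain ⟨a, a1, a2, a3, a4, a5⟩ := T5_weight k0 ρ n
  simp only [← a4]
  have hy := (hφ.mul_lip a1 a2 a3).1
  refine ⟨hy.l2, ?_⟩
  have mT : MeasurableSet {x : E | ρ ≤ ‖x‖} :=
    (isClosed_le continuous_const continuous_norm).measurableSet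
  have i0 : Integrable fun x => (a x * φ x) ^ 2 := hy.l2.integrable_sq
  have i1 : Integrable fun x => v₁ x * (a x * φ x) ^ 2 :=
    integrableOn_univ.1 (H1' v₁ _ univ MeasurableSet.univ (hv1.restrict _) hy).1
  have i1' : Integrable fun x => |v₁ x| * (a x * φ x) ^ 2 :=
    i1.abs.congr (Eventually.of_forall fun x => by
      simp only [abs_mul, abs_of_nonneg (sq_nonneg (a x * φ x))])
  have i2 : Integrable fun x => v₂ x * (a x * φ x) ^ 2 :=
    i0.bdd_mul (c := M) hv2.1 hM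
  have i3 : Integrable fun x => (v₁ + v₂) x * (a x * φ x) ^ 2 :=
    (i1.add i2).congr (Eventually.of_forall fun x => by simp only [Pi.add_apply]; ring)
  have key := T5_loc hφ he a1 a2 a3 i3
  have t1 := (H1' v₁ _ _ mT (hv1.restrict _) hy).2
  have t2 := H2 _ A _ hy mA hη.le hA
  have d0 := S11_dir_nonneg fun x => a x * φ x
  have n0 := S11_nsq_nonneg fun x => a x * φ x
  have t1' : ∫ x in {x : E | ρ ≤ ‖x‖}, |v₁ x| * (a x * φ x) ^ 2 ≤ 1 / 4 * dir fun x => a x * φ x := by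
    refine t1.trans (mul_le_mul_of_nonneg_right ?_ d0)
    refine (mul_le_mul_of_nonneg_left (h2 ρ (hρ ▸ le_max_right _ _)) hC1.le).trans_eq ?_
    field_simp
  have t2' : B * ∫ x in A, (a x * φ x) ^ 2 ≤
      μ * ((dir fun x => a x * φ x) + nsq fun x => a x * φ x) := by
    refine (mul_le_mul_of_nonneg_left t2 B0.le).trans_eq ?_
    rw [← Real.rpow_mul (by positivity), show (3 / 2 : ℝ) * (2 / 3) = 1 by norm_num, Real.rpow_one]
    field_simp
  have low : (κ ^ 2 / 2 + 3 * δ / 4) * nsq (fun x => a x * φ x) + -B * (∫ x in A, (a x * φ x) ^ 2) +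
      -1 * ∫ x in {x : E | ρ ≤ ‖x‖}, |v₁ x| * (a x * φ x) ^ 2 ≤
      ∫ x, ((v₁ + v₂) x - e) * (a x * φ x) ^ 2 := by
    rw [← integral_indicator mA, ← integral_indicator mT, nsq,
      ← S11_int3 i0 (i0.indicator mA) (i1'.indicator mT)]
    refine integral_mono_ae (((i0.const_mul _).add ((i0.indicator mA).const_mul _)).add
      ((i1'.indicator mT).const_mul _)) ((i3.sub (i0.const_mul e)).congr
        (Eventually.of_forall fun x => by simp only [Pi.sub_apply]; ring)) ?_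
    filter_upwards [hP, hA', hM] with x p1 p2 p3
    have y0 := sq_nonneg (a x * φ x)
    by_cases hx : x ∈ {x : E | ρ ≤ ‖x‖}
    · rw [indicator_of_mem hx]
      have p4 := mul_nonneg (abs_nonneg (v₁ x)) y0
      by_cases hxA : x ∈ A
      · rw [indicator_of_mem hxA]
        have p5 : κ ^ 2 / 2 + 3 * δ / 4 - B - |v₁ x| ≤ (v₁ + v₂) x - e := by
          simp only [Pi.add_apply]
          linarith [neg_abs_le (v₁ x), (abs_le.1 p3).1, le_abs_self M, le_abs_self e]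
        nlinarith [mul_le_mul_of_nonneg_right p5 y0]
      · rw [indicator_of_notMem hxA]
        have p5 : κ ^ 2 / 2 + 3 * δ / 4 ≤ (v₁ + v₂) x - e := by
          linarith [p2 ((hρ ▸ le_max_left _ _ : ρ1 ≤ ρ).trans hx) hxA]
        nlinarith [mul_le_mul_of_nonneg_right p5 y0]
    · have ax : a x = 0 := by
        rw [a4]
        refine max_eq_right (sub_nonpos.2 (Real.exp_le_exp.2 ((min_le_left _ _).trans ?_)))
        exact mul_le_mul_of_nonneg_left (not_le.1 hx).le k0.le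
      rw [indicator_of_notMem hx]
      by_cases hxA : x ∈ A <;> simp [hxA, ax]
  have up : ∫ x, ‖D a x‖ ^ 2 * φ x ^ 2 ≤
      (κ ^ 2 + δ / 2) * nsq (fun x => a x * φ x) + c * nsq φ := by
    have i4 : Integrable fun x => φ x ^ 2 := hφ.l2.integrable_sq
    rw [nsq, nsq, ← integral_const_mul, ← integral_const_mul,
      ← integral_add (i0.const_mul _) (i4.const_mul _)]
    refine integral_mono_of_nonneg (Eventually.of_forall fun x => by positivity)
      ((i0.const_mul _).add (i4.const_mul _)) ?_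
    filter_upwards [a5] with x hx
    have p1 := pow_le_pow_left₀ (norm_nonneg _) hx 2
    have p2 := mul_le_mul_of_nonneg_left (s05_sq_add (a := a x) (b := Real.exp (k * ρ)) θ0)
      (sq_nonneg k)
    have p3 : ‖D a x‖ ^ 2 ≤ (κ ^ 2 + δ / 2) * a x ^ 2 + c := by
      have : k ^ 2 * ((1 + θ) * a x ^ 2 + (1 + θ⁻¹) * Real.exp (k * ρ) ^ 2) =
          (k ^ 2 + k ^ 2 * θ) * a x ^ 2 + c := by rw [hc]; ring
      rw [this, θk, k2] at p2
      rw [mul_pow, k2] at p1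
      linarith
    nlinarith [mul_le_mul_of_nonneg_right p3 (sq_nonneg (φ x))]
  change nsq (fun x => a x * φ x) ≤ _
  rw [div_mul_eq_mul_div, le_div_iff₀ hδ]
  nlinarith [mul_le_mul_of_nonneg_right μ1 d0, mul_le_mul_of_nonneg_right μ2 n0]

/-- Agmon estimate against the slab lower bound -/
theorem T5 {φ v P : E → ℝ} {e κ δ a ℓ R : ℝ} (hφ : H1 φ) (hv : Cls v) (he : Eig v e φ)
    (hκ : 0 < κ) (hδ : 0 < δ) (ha : 0 < a) (hℓ : 0 < ℓ)
    (hP : ∀ᵐ x, κ ^ 2 / 2 + δ - P x ≤ v x - e)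
    (hthin : ∀ ε η : ℝ, 0 < ε → 0 < η → ∃ (ρ : ℝ) (A : Set E), MeasurableSet A ∧
      (∀ x₀, (volume (A ∩ ball x₀ 1)).toReal ≤ η) ∧ ∀ᵐ x, ρ ≤ ‖x‖ → x ∉ A → P x ≤ ε)
    (hlow : ∀ᵐ x, |x 2| < ℓ → R ≤ ‖hor x‖ → a * rad (-10) κ x ≤ φ x) : False := by
  obtain ⟨k, ρ, B, kκ, H⟩ := T5_agmon hφ hv he hκ hδ hP hthin
  have k0 : 0 < k := hκ.trans kκ
  obtain ⟨s, hs⟩ : ∃ s, s = min ℓ 1 := ⟨_, rfl⟩
  have s0 : 0 < s := by rw [hs]; positivity
  have s1 : s ≤ ℓ := hs ▸ min_le_left _ _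
  have s2 : s ≤ 1 := hs ▸ min_le_right _ _
  obtain ⟨w, hw⟩ : ∃ w, w = volume.real (ball (0 : E) s) := ⟨_, rfl⟩
  have w0 : 0 < w := by
    rw [hw]
    exact ENNReal.toReal_pos (measure_ball_pos _ _ s0).ne' measure_ball_lt_top.ne
  obtain ⟨b, hb⟩ : ∃ b, b = (1 - Real.exp (-k)) * Real.exp (-(3 * k)) * a := ⟨_, rfl⟩
  have b1 : 0 < 1 - Real.exp (-k) := sub_pos.2 (by rw [← Real.exp_zero]; exact Real.exp_lt_exp.2 (by linarith))
  have b0 : 0 < b := by rw [hb]; positivity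
  obtain ⟨t, t1, t2, t3, t4, t5⟩ : ∃ t : ℝ, 3 ≤ t ∧ R + 4 ≤ t ∧ ρ + 4 ≤ t ∧
      1 ≤ Real.exp ((k - κ) * t) / t ^ (10 : ℝ) ∧
      (|B| + 1) / (w * b ^ 2) ≤ Real.exp ((k - κ) * t) / t ^ (10 : ℝ) := by
    have h := tendsto_exp_mul_div_rpow_atTop 10 (k - κ) (sub_pos.2 kκ)
    exact ((eventually_ge_atTop 3).and ((eventually_ge_atTop _).and ((eventually_ge_atTop _).and
      ((h.eventually_ge_atTop _).and (h.eventually_ge_atTop _))))).exists
  obtain ⟨G, hG⟩ : ∃ G, G = Real.exp ((k - κ) * t) / t ^ (10 : ℝ) := ⟨_, rfl⟩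
  rw [← hG] at t4 t5
  obtain ⟨n, hn⟩ := exists_nat_ge (k * t)
  obtain ⟨m1, m2⟩ := H n
  obtain ⟨x₀, hx₀⟩ : ∃ x₀ : E, x₀ = EuclideanSpace.single 0 (t - 2) := ⟨_, rfl⟩
  have n0 : ‖x₀‖ = t - 2 := by
    rw [hx₀, EuclideanSpace.norm_single, Real.norm_of_nonneg (by linarith)]
  have z0 : x₀ 2 = 0 := by rw [hx₀]; simp
  have low : ∀ᵐ x, x ∈ ball x₀ s →
      (b * G) ^ 2 ≤ (max (Real.exp (min (k * ‖x‖) n) - Real.exp (k * ρ)) 0 * φ x) ^ 2 := by
    filter_upwards [hlow] with x hx hxb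
    have d1 : ‖x - x₀‖ < s := mem_ball_iff_norm.1 hxb
    have d2 : |x 2| < s := by
      have := PiLp.norm_apply_le (x - x₀) 2
      simp only [PiLp.sub_apply, z0, sub_zero, Real.norm_eq_abs] at this
      linarith
    have d3 := abs_le.1 (abs_norm_sub_norm_le x x₀)
    have d4 : ‖x‖ ≤ ‖hor x‖ + |x 2| := by
      have : x = hor x + x 2 • ez := by simp [hor]
      calc ‖x‖ = ‖hor x + x 2 • ez‖ := by rw [← this]
        _ ≤ ‖hor x‖ + ‖x 2 • ez‖ := norm_add_le _ _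
        _ = _ := by rw [norm_smul, S07.norm_ez, mul_one, Real.norm_eq_abs]
    have j := jb_facts x
    have jt : jb x ≤ t := by linarith [j.2.2.1]
    have r1 : t ^ (-10 : ℝ) * Real.exp (-(κ * t)) ≤ rad (-10) κ x := by
      change _ ≤ jb x ^ (-10 : ℝ) * Real.exp (-(κ * jb x) + 0 / √(jb x))
      rw [zero_div, add_zero]
      refine mul_le_mul (Real.rpow_le_rpow_of_nonpos (by linarith [j.1]) jt (by norm_num))
        (Real.exp_le_exp.2 (by nlinarith)) (Real.exp_pos _).le (Real.rpow_nonneg (by linarith [j.1]) _)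
    have r2 : a * (t ^ (-10 : ℝ) * Real.exp (-(κ * t))) ≤ φ x :=
      (mul_le_mul_of_nonneg_left r1 ha.le).trans (hx (by linarith) (by linarith))
    have r3 : (1 - Real.exp (-k)) * Real.exp (k * (t - 3)) ≤
        max (Real.exp (min (k * ‖x‖) n) - Real.exp (k * ρ)) 0 := by
      refine le_max_of_le_left ?_
      have e1 : Real.exp (k * (t - 3)) ≤ Real.exp (min (k * ‖x‖) n) :=
        Real.exp_le_exp.2 (le_min (by nlinarith) (by nlinarith))
      have e2 : Real.exp (k * ρ) ≤ Real.exp (-k) * Real.exp (k * (t - 3)) := by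
        rw [← Real.exp_add]
        exact Real.exp_le_exp.2 (by nlinarith)
      linarith
    have t0 : 0 < t := by linarith
    have r4 : b * G = (1 - Real.exp (-k)) * Real.exp (k * (t - 3)) *
        (a * (t ^ (-10 : ℝ) * Real.exp (-(κ * t)))) := by
      have e1 : Real.exp (-(3 * k)) * Real.exp ((k - κ) * t) =
          Real.exp (k * (t - 3)) * Real.exp (-(κ * t)) := by
        rw [← Real.exp_add, ← Real.exp_add]; congr 1; ring
      rw [hb, hG, Real.rpow_neg t0.le, div_eq_mul_inv]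
      linear_combination (1 - Real.exp (-k)) * a * (t ^ (10 : ℝ))⁻¹ * e1
    refine pow_le_pow_left₀ (by positivity) ?_ 2
    rw [r4]
    exact mul_le_mul r3 r2 (by positivity) (le_max_right _ _)
  have i0 := m1.integrable_sq
  have f1 : ∫ _ in ball x₀ s, (b * G) ^ 2 ≤
      ∫ x in ball x₀ s, (max (Real.exp (min (k * ‖x‖) n) - Real.exp (k * ρ)) 0 * φ x) ^ 2 :=
    integral_mono_of_nonneg (Eventually.of_forall fun _ => sq_nonneg _) i0.integrableOn
      ((ae_restrict_iff' measurableSet_ball).2 low)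
  have f2 := setIntegral_le_integral (s := ball x₀ s) i0 (Eventually.of_forall fun _ => sq_nonneg _)
  rw [setIntegral_const, smul_eq_mul, Measure.real, Measure.addHaar_ball_center, ← Measure.real,
    ← hw] at f1
  rw [div_le_iff₀ (by positivity)] at t5
  have f3 : G * (w * b ^ 2) ≤ w * (b * G) ^ 2 := by
    have : w * (b * G) ^ 2 = G * (G * (w * b ^ 2)) := by ring
    rw [this]
    exact le_mul_of_one_le_left (by positivity) t4
  linarith [le_abs_self B]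

end

end Crest.Agent.R335
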