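import Crest.Agent.R335.U8
import Crest.Agent.R335.S09

set_option autoImplicit false

open MeasureTheory Set Filter Topology Metric
open scoped Gradient ContDiff RealInnerProductSpace ENNReal

namespace Crest.Agent.R335

noncomputable section

theorem U10_int {F : Type*} [NormedAddCommGroup F] {μ : Measure E} {f : E → F} {g : E → ℝ}
    (hf : MemLp f 2 μ) (hg : AEStronglyMeasurable g μ) {M : ℝ} (hb : ∀ᵐ x ∂μ, |g x| ≤ M) :
    Integrable (fun x => g x ^ 2 * ‖f x‖ ^ 2) μ := by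
  refine (hf.integrable_norm_pow two_ne_zero).bdd_mul (c := M ^ 2) (hg.pow 2) ?_
  filter_upwards [hb] with x hx
  rw [norm_pow, Real.norm_eq_abs]
  exact pow_le_pow_left₀ (abs_nonneg _) hx 2

theorem U10_int' {μ : Measure E} {f g : E → ℝ}
    (hf : MemLp f 2 μ) (hg : AEStronglyMeasurable g μ) {M : ℝ} (hb : ∀ᵐ x ∂μ, |g x| ≤ M) :
    Integrable (fun x => g x ^ 2 * f x ^ 2) μ := by
  simpa only [Real.norm_eq_abs, sq_abs] using U10_int hf hg hb

theorem U10_ball {F : Type*} [NormedAddCommGroup F] {f : E → F}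
    (h : ∀ K, IsCompact K → MemLp f 2 (volume.restrict K)) (ρ : ℝ) :
    MemLp f 2 (volume.restrict (ball (0 : E) ρ)) :=
  (h _ (isCompact_closedBall 0 ρ)).mono_measure (Measure.restrict_mono ball_subset_closedBall le_rfl)

theorem U10_W {y j : E → ℝ} (hy : Bl y) (a : ℝ) (hj : ContDiff ℝ ∞ j) (hc : HasCompactSupport j)
    {ρ L : ℝ} (h01 : ∀ x, 0 ≤ j x ∧ j x ≤ 1) (h0 : ∀ x, ρ ≤ ‖x‖ → j x = 0)
    (hL : ∀ x, ‖∇ j x‖ ≤ L) :
    TF univ (fun x => j x * (y x - a)) ∧ ∀ᵐ x,
      ‖D (fun x => j x * (y x - a)) x‖ ^ 2 ≤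
        (ball (0 : E) ρ).indicator (fun x => 2 * ‖D y x‖ ^ 2 + 2 * L ^ 2 * (y x - a) ^ 2) x := by
  have hj1 : ContDiff ℝ 1 j := hj.of_le (by simp)
  have hya : Bl fun x => y x - a := hy.sub (bl_c1 contDiff_const)
  have htf : TF univ fun x => j x * (y x - a) := by
    have := TF.mul (Tst.tf ⟨hj1, hc⟩ (subset_univ _)) hya
    simpa only [mul_comm] using this
  refine ⟨htf, ?_⟩
  have hz : ∀ᵐ x, x ∉ ball (0 : E) ρ → D (fun x => j x * (y x - a)) x = 0 :=
    CS.D_zero htf.h1.hl (Eventually.of_forall fun x hx => by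
      rw [h0 x (by simpa using hx), zero_mul])
  filter_upwards [hz, D_mul_c1 hya.hl hj1, (s03_shift hy.hl a).2] with x h1 h2 h3
  by_cases hx : x ∈ ball (0 : E) ρ
  · rw [indicator_of_mem hx, h2, h3]
    have e1 : ‖j x • D y x + (y x - a) • ∇ j x‖ ≤ ‖D y x‖ + |y x - a| * L := by
      refine (norm_add_le _ _).trans (add_le_add ?_ ?_)
      · rw [norm_smul, Real.norm_eq_abs, abs_of_nonneg (h01 x).1]
        exact mul_le_of_le_one_left (norm_nonneg _) (h01 x).2
      · rw [norm_smul, Real.norm_eq_abs]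
        exact mul_le_mul_of_nonneg_left (hL x) (abs_nonneg _)
    have e2 := pow_le_pow_left₀ (norm_nonneg _) e1 2
    have e3 : (y x - a) ^ 2 = |y x - a| ^ 2 := (sq_abs _).symm
    rw [e3]
    nlinarith [sq_nonneg (‖D y x‖ - |y x - a| * L)]
  · rw [indicator_of_notMem hx, h1 hx]
    simp

theorem U10_gap (o : OD) (ho : o.OK) {W : E → ℝ} (hW : TF univ W) (he : Ev W)
    (h0 : ∫ x, o.g0 x * (W x * o.g0 x) = 0) :
    nsq (fun x => W x * o.g0 x) ≤ o.d * ∫ x, o.g0 x ^ 2 * ‖D W x‖ ^ 2 := by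
  have hg : Bl o.g0 := ⟨ho.sg.h1.hl, Continuous.lb' ho.cg⟩
  have hf : H1 fun x => W x * o.g0 x := by
    simpa only [mul_comm] using (TF.mul hW hg).h1
  have hen := WSub.energy (w := fun _ => (1 : ℝ)) aestronglyMeasurable_const
    (Continuous.lb' continuous_const) ho.sg.sub hg.lb
    (Eventually.of_forall fun x _ => ho.g_nn x) hW
  have hu : ip o.u0 (fun x => W x * o.g0 x) = 0 := by
    refine Od.integral (u := fun x => o.u0 x * (W x * o.g0 x)) ?_
    filter_upwards [he] with x hx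
    rw [ho.odu, ho.evg, hx]
    ring
  have hgap := ho.gap _ hf
  have h0' : ip o.g0 (fun x => W x * o.g0 x) = 0 := h0
  rw [hu, h0'] at hgap
  have iv : Integrable fun x => o.v x * (W x * o.g0 x) ^ 2 := by
    have := ((vx_facts o.d).2.2 _ hf).1.integrable_mul hf.l2
    refine this.congr (Eventually.of_forall fun x => ?_)
    simp only [OD.v, Pi.mul_apply]
    ring
  have i2 : Integrable fun x => (W x * o.g0 x) ^ 2 := hf.l2.integrable_sq
  have e1 : ∫ x, (o.eg - o.v x) * o.g0 x * o.g0 x * W x ^ 2 =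
      o.eg * nsq (fun x => W x * o.g0 x) - ∫ x, o.v x * (W x * o.g0 x) ^ 2 := by
    rw [nsq, ← integral_const_mul, ← integral_sub (i2.const_mul _) iv]
    congr 1
    funext x
    ring
  have e2 : ∫ x, (1 / 2) * (1 : ℝ) * ‖D (fun x => W x * o.g0 x) x‖ ^ 2 =
      (1 / 2) * dir (fun x => W x * o.g0 x) := by
    rw [dir, ← integral_const_mul]
    simp only [mul_one]
  have e3 : ∫ x, (1 / 2) * (1 : ℝ) * o.g0 x ^ 2 * ‖D W x‖ ^ 2 =
      (1 / 2) * ∫ x, o.g0 x ^ 2 * ‖D W x‖ ^ 2 := by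
    rw [← integral_const_mul]
    simp only [mul_one, mul_assoc]
  rw [e1, e2, e3] at hen
  have hN : 0 ≤ nsq fun x => W x * o.g0 x := integral_nonneg fun x => sq_nonneg _
  have hγ : 1 ≤ o.d * o.γ := by
    have := (div_le_iff₀ ho.γ0.1).1 (ho.C0.2.1.trans ho.C0.2.2)
    exact this
  have hd : 0 ≤ o.d := by linarith [ho.C0.1, ho.C0.2.2]
  have h1 : o.γ * nsq (fun x => W x * o.g0 x) ≤ ∫ x, o.g0 x ^ 2 * ‖D W x‖ ^ 2 := by
    have : o.γ / 2 ≤ o.e3 - o.eg := by
      unfold OD.e3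
      linarith [ho.en.2.1, ho.en.2.2]
    have h2 := mul_le_mul_of_nonneg_right this hN
    unfold Q at hgap
    linarith
  calc nsq (fun x => W x * o.g0 x) ≤ o.d * o.γ * nsq (fun x => W x * o.g0 x) :=
        le_mul_of_one_le_left hN hγ
    _ = o.d * (o.γ * nsq (fun x => W x * o.g0 x)) := by ring
    _ ≤ _ := mul_le_mul_of_nonneg_left h1 hd

theorem U10a (o : OD) (ho : o.OK) (ρ η : ℝ) (hη : 0 < η) : ∃ ρ', ρ + 1 ≤ ρ' ∧ ∀ y, Bl y → Ev y →
    ∃ a : ℝ, ∫ x in ball (0 : E) ρ, o.g0 x ^ 2 * (y x - a) ^ 2 ≤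
      4 * o.d * (∫ x in ball (0 : E) ρ', o.g0 x ^ 2 * ‖D y x‖ ^ 2) +
        η * ∫ x in ball (0 : E) ρ', o.g0 x ^ 2 * (y x - a) ^ 2 := by
  have hd : 0 ≤ o.d := by linarith [ho.C0.1, ho.C0.2.2]
  set s : ℝ := 1 + 32 * o.d / η with hs
  have hq : 0 ≤ 32 * o.d / η := by positivity
  have hs1 : 1 ≤ s := by linarith
  have hs0 : 0 < s := by linarith
  obtain ⟨j, hj, hc, h01, h1, h0, hL, hsym⟩ := exists_cutoff (0 : E) (le_max_right ρ 0) hs0
  simp only [sub_zero] at h1 h0
  refine ⟨max ρ 0 + s, by linarith [le_max_left ρ 0], fun y hy he => ?_⟩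
  have hgb : ∀ x, |o.g0 x| ≤ o.C0 := fun x => by
    rw [abs_of_nonneg (ho.g_nn x)]
    exact (ho.bd x).1
  have hcont : Continuous fun x => o.g0 x ^ 2 * j x := (ho.cg.pow 2).mul hj.continuous
  have hcs : HasCompactSupport fun x => o.g0 x ^ 2 * j x := hc.mul_left
  have hpos : 0 < ∫ x, o.g0 x ^ 2 * j x := by
    refine hcont.integral_pos_of_hasCompactSupport_nonneg_nonzero (x := 0) hcs
      (fun x => mul_nonneg (sq_nonneg _) (h01 x).1) ?_
    rw [h1 0 (by simp), mul_one]
    exact (pow_pos (ho.g_pos 0) 2).ne'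
  have i1 : Integrable fun x => o.g0 x ^ 2 * j x := hcont.integrable_of_hasCompactSupport hcs
  have i2 : Integrable fun x => o.g0 x ^ 2 * j x * y x := s05_int_mul hy.hl.isW.lu hcont hcs
  set a : ℝ := (∫ x, o.g0 x ^ 2 * j x * y x) / ∫ x, o.g0 x ^ 2 * j x with ha
  refine ⟨a, ?_⟩
  obtain ⟨hW, hD⟩ := U10_W hy a hj hc h01 h0 hL
  obtain ⟨L, hL1, -⟩ := exists_Riso
  have hev : Ev fun x => j x * (y x - a) := by
    filter_upwards [he] with x hx
    rw [hx, ← hL1, hsym L (map_zero L)]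
  have hz : ∫ x, o.g0 x * (j x * (y x - a) * o.g0 x) = 0 := by
    have : ∀ x, o.g0 x * (j x * (y x - a) * o.g0 x) =
        o.g0 x ^ 2 * j x * y x - a * (o.g0 x ^ 2 * j x) := fun x => by ring
    simp only [this]
    rw [integral_sub i2 (i1.const_mul a), integral_const_mul, ha, div_mul_cancel₀ _ hpos.ne',
      sub_self]
  have hgap := U10_gap o ho hW hev hz
  have hg : Bl o.g0 := ⟨ho.sg.h1.hl, Continuous.lb' ho.cg⟩
  have hf : H1 fun x => j x * (y x - a) * o.g0 x := by
    simpa only [mul_comm] using (TF.mul hW hg).h1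
  have l1 : ∫ x in ball (0 : E) ρ, o.g0 x ^ 2 * (y x - a) ^ 2 ≤
      nsq fun x => j x * (y x - a) * o.g0 x := by
    have : ∫ x in ball (0 : E) ρ, o.g0 x ^ 2 * (y x - a) ^ 2 =
        ∫ x in ball (0 : E) ρ, (j x * (y x - a) * o.g0 x) ^ 2 := by
      refine setIntegral_congr_fun measurableSet_ball fun x hx => ?_
      have : j x = 1 := h1 x ((mem_ball_zero_iff.1 hx).le.trans (le_max_left _ _))
      simp only [this]
      ring
    rw [this]
    exact setIntegral_le_integral hf.l2.integrable_sq (Eventually.of_forall fun x => sq_nonneg _)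
  have j1 : IntegrableOn (fun x => o.g0 x ^ 2 * ‖D y x‖ ^ 2) (ball (0 : E) (max ρ 0 + s)) :=
    U10_int (U10_ball hy.hl.dl2 _) ho.cg.aestronglyMeasurable (Eventually.of_forall hgb)
  have j2 : IntegrableOn (fun x => o.g0 x ^ 2 * (y x - a) ^ 2) (ball (0 : E) (max ρ 0 + s)) :=
    U10_int' (U10_ball (s03_shift hy.hl a).1.l2 _) ho.cg.aestronglyMeasurable
      (Eventually.of_forall hgb)
  have l2 : ∫ x, o.g0 x ^ 2 * ‖D (fun x => j x * (y x - a)) x‖ ^ 2 ≤
      2 * (∫ x in ball (0 : E) (max ρ 0 + s), o.g0 x ^ 2 * ‖D y x‖ ^ 2) +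
        2 * (4 / s) ^ 2 * ∫ x in ball (0 : E) (max ρ 0 + s), o.g0 x ^ 2 * (y x - a) ^ 2 := by
    rw [← integral_const_mul, ← integral_const_mul,
      ← integral_add (j1.const_mul _) (j2.const_mul _), ← integral_indicator measurableSet_ball]
    refine integral_mono_of_nonneg (Eventually.of_forall fun x => by positivity)
      ((integrable_indicator_iff measurableSet_ball).2 ((j1.const_mul _).add (j2.const_mul _))) ?_
    filter_upwards [hD] with x hx
    refine (mul_le_mul_of_nonneg_left hx (sq_nonneg _)).trans (le_of_eq ?_)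
    by_cases hx' : x ∈ ball (0 : E) (max ρ 0 + s)
    · rw [indicator_of_mem hx', indicator_of_mem hx']
      ring
    · rw [indicator_of_notMem hx', indicator_of_notMem hx', mul_zero]
  have hX : 0 ≤ ∫ x in ball (0 : E) (max ρ 0 + s), o.g0 x ^ 2 * ‖D y x‖ ^ 2 :=
    integral_nonneg fun x => by positivity
  have hY : 0 ≤ ∫ x in ball (0 : E) (max ρ 0 + s), o.g0 x ^ 2 * (y x - a) ^ 2 :=
    integral_nonneg fun x => by positivity
  have hη' : o.d * (2 * (4 / s) ^ 2) ≤ η := by
    have e1 : 32 * o.d ≤ η * s := by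
      have : η * s = η + 32 * o.d := by
        rw [hs]
        field_simp
      linarith
    have e2 : o.d * (2 * (4 / s) ^ 2) = 32 * o.d / (s * s) := by
      field_simp
      ring
    rw [e2, div_le_iff₀ (by positivity)]
    nlinarith [mul_pos hη hs0]
  have := mul_le_mul_of_nonneg_left l2 hd
  have := mul_le_mul_of_nonneg_right hη' hY
  nlinarith [mul_nonneg hd hX]
theorem U10b : Lg fun o => ∀ c ρ η : ℝ, 0 < η → SmA o c fun m u _ => ∀ y, TF univ y → Ev y →
    ∃ a : ℝ, ∫ x in ball (0 : E) ρ, (m.r x * Real.cos (u x)) ^ 2 * (y x - a) ^ 2 ≤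
      o.d ^ 8 * (∫ x, (m.r x * Real.cos (u x)) ^ 2 * ‖D y x‖ ^ 2) +
        η * ∫ x, (m.r x * Real.cos (u x)) ^ 2 * (y x - a) ^ 2 := by
  refine U9a.mono fun o ho h9 c ρ η hη => ?_
  have hd : 100 ≤ o.d := ho.C0.1.trans ho.C0.2.2
  have hd0 : 0 < o.d := by linarith
  obtain ⟨ρ', hρ', h10⟩ := U10a o ho (max ρ 0) (η / (8 * o.d ^ 6)) (by positivity)
  obtain ⟨C, hC, hthin⟩ := thin
  obtain ⟨x₀, -, hx₀⟩ := (isCompact_closedBall (0 : E) ρ').exists_isMinOn
    (nonempty_closedBall.2 (by linarith [le_max_right ρ 0])) ho.cg.continuousOn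
  have hm0 : 0 < o.g0 x₀ := ho.g_pos x₀
  have hmin : ∀ x, ‖x‖ ≤ ρ' → o.g0 x₀ ≤ o.g0 x := fun x hx => hx₀ (mem_closedBall_zero_iff.2 hx)
  set K : ℝ := (o.d ^ 3 / o.g0 x₀) ^ 2 with hK
  have hK0 : 0 < K := by positivity
  set τ : ℝ := min 1 (η / 2) / (33 * (c ^ 2 + 1) * C * K) with hτ
  have hτ0 : 0 < τ := by
    have : 0 < min 1 (η / 2) := lt_min one_pos (by linarith)
    positivity
  have hε : 0 < τ ^ (3 / 2 : ℝ) * (o.g0 x₀ / 2) ^ 2 := by positivity
  obtain ⟨j, hj, hc, h01, h1, h0, hL, -⟩ := exists_cutoff (0 : E) (le_max_right ρ 0) one_pos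
  simp only [sub_zero, div_one] at h1 h0 hL
  refine ((h9 c ρ').and (SmA.le o c hε)).mono ?_
  rintro m u δ hm - ⟨h9, hA⟩ y hy he
  obtain ⟨a, ha⟩ := h10 y hy.bl he
  refine ⟨a, ?_⟩
  set φ : E → ℝ := fun x => m.r x * Real.cos (u x) with hφ
  have hφ1 : H1 φ := hA.ang.hφ
  have hφb : ∀ᵐ x, |φ x| ≤ c := by
    filter_upwards [hm.bd] with x hx
    rw [hφ, abs_mul, abs_of_nonneg (hm.nn x).1]
    exact (mul_le_of_le_one_right (hm.nn x).1 (Real.abs_cos_le_one _)).trans hx.1
  have hya := s03_shift hy.h1.hl a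
  have iX : Integrable fun x => φ x ^ 2 * ‖D y x‖ ^ 2 := U10_int hy.h1.dl2 hφ1.hl.aesm hφb
  have iY : Integrable fun x => φ x ^ 2 * (y x - a) ^ 2 := by
    obtain ⟨M, hM⟩ := hy.bd
    have := U10_int' (M := M + |a|) hφ1.l2 hya.1.aesm (by
      filter_upwards [hM] with x hx
      exact (abs_sub _ _).trans (by linarith))
    simpa only [mul_comm] using this
  set X := ∫ x, φ x ^ 2 * ‖D y x‖ ^ 2 with hX
  set Y := ∫ x, φ x ^ 2 * (y x - a) ^ 2 with hY
  have hX0 : 0 ≤ X := integral_nonneg fun x => by positivity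
  have hY0 : 0 ≤ Y := integral_nonneg fun x => by positivity
  -- comparison on the ball `ρ'`
  have hcmp : ∀ᵐ x, ‖x‖ ≤ ρ' → o.g0 x ^ 2 ≤ o.d ^ 6 * φ x ^ 2 ∧ 1 ≤ K * φ x ^ 2 := by
    filter_upwards [h9] with x hx hx'
    have e1 : o.g0 x ≤ o.d ^ 3 * φ x := by
      have := hx hx'
      rw [div_le_iff₀ (by positivity)] at this
      linarith
    have e2 : 1 ≤ o.d ^ 3 / o.g0 x₀ * φ x := by
      rw [div_mul_eq_mul_div, le_div_iff₀ hm0]
      linarith [hmin x hx']
    constructor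
    · calc o.g0 x ^ 2 ≤ (o.d ^ 3 * φ x) ^ 2 := pow_le_pow_left₀ (ho.g_nn x) e1 2
        _ = _ := by ring
    · calc (1 : ℝ) ≤ (o.d ^ 3 / o.g0 x₀ * φ x) ^ 2 := one_le_pow₀ e2
        _ = _ := by rw [hK]; ring
  have key : ∀ {F : E → ℝ} {w : E → ℝ} {k : ℝ}, 0 ≤ k → (∀ x, 0 ≤ F x) → (∀ x, 0 ≤ w x) →
      Integrable (fun x => φ x ^ 2 * F x) → (∀ᵐ x, ‖x‖ ≤ ρ' → w x ≤ k * φ x ^ 2) →
      ∫ x in ball (0 : E) ρ', w x * F x ≤ k * ∫ x, φ x ^ 2 * F x := by
    intro F w k hk hF hw hi hle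
    calc ∫ x in ball (0 : E) ρ', w x * F x ≤ ∫ x in ball (0 : E) ρ', k * (φ x ^ 2 * F x) := by
          refine integral_mono_of_nonneg (Eventually.of_forall fun x => mul_nonneg (hw x) (hF x))
            (hi.const_mul k).integrableOn ?_
          rw [EventuallyLE, ae_restrict_iff' measurableSet_ball]
          filter_upwards [hle] with x hx hx'
          rw [← mul_assoc]
          exact mul_le_mul_of_nonneg_right (hx (mem_ball_zero_iff.1 hx').le) (hF x)
      _ ≤ ∫ x, k * (φ x ^ 2 * F x) := setIntegral_le_integral (hi.const_mul k)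
          (Eventually.of_forall fun x => mul_nonneg hk (mul_nonneg (sq_nonneg _) (hF x)))
      _ = _ := integral_const_mul _ _
  have c1 : ∫ x in ball (0 : E) ρ', o.g0 x ^ 2 * ‖D y x‖ ^ 2 ≤ o.d ^ 6 * X :=
    key (by positivity) (fun x => by positivity) (fun x => by positivity) iX
      (hcmp.mono fun x h hx => (h hx).1)
  have c2 : ∫ x in ball (0 : E) ρ', o.g0 x ^ 2 * (y x - a) ^ 2 ≤ o.d ^ 6 * Y :=
    key (by positivity) (fun x => by positivity) (fun x => by positivity) iY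
      (hcmp.mono fun x h hx => (h hx).1)
  have c3 : ∫ x in ball (0 : E) ρ', 1 * ‖D y x‖ ^ 2 ≤ K * X :=
    key hK0.le (fun x => by positivity) (fun _ => zero_le_one) iX
      (hcmp.mono fun x h hx => (h hx).2)
  have c4 : ∫ x in ball (0 : E) ρ', 1 * (y x - a) ^ 2 ≤ K * Y :=
    key hK0.le (fun x => by positivity) (fun _ => zero_le_one) iY
      (hcmp.mono fun x h hx => (h hx).2)
  simp only [one_mul] at c3 c4
  -- the cutoff function
  have h0' : ∀ x, ρ' ≤ ‖x‖ → j x = 0 := fun x hx => h0 x (hρ'.trans hx)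
  obtain ⟨hW, hD⟩ := U10_W hy.bl a hj hc h01 h0' hL
  have j1 : IntegrableOn (fun x => ‖D y x‖ ^ 2) (ball (0 : E) ρ') :=
    (hy.h1.dl2.integrable_norm_pow two_ne_zero).integrableOn
  have j2 : IntegrableOn (fun x => (y x - a) ^ 2) (ball (0 : E) ρ') :=
    (U10_ball hya.1.l2 _).integrable_sq
  have w1 : dir (fun x => j x * (y x - a)) ≤ 2 * (K * X) + 32 * (K * Y) := by
    have : dir (fun x => j x * (y x - a)) ≤ 2 * (∫ x in ball (0 : E) ρ', ‖D y x‖ ^ 2) +
        2 * 4 ^ 2 * ∫ x in ball (0 : E) ρ', (y x - a) ^ 2 := by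
      rw [← integral_const_mul, ← integral_const_mul,
        ← integral_add (j1.const_mul _) (j2.const_mul _), ← integral_indicator measurableSet_ball]
      exact integral_mono_of_nonneg (Eventually.of_forall fun x => by positivity)
        ((integrable_indicator_iff measurableSet_ball).2 ((j1.const_mul _).add (j2.const_mul _))) hD
    linarith
  have w2 : nsq (fun x => j x * (y x - a)) ≤ K * Y := by
    refine le_trans ?_ c4
    rw [← integral_indicator measurableSet_ball]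
    refine integral_mono_of_nonneg (Eventually.of_forall fun x => by positivity)
      ((integrable_indicator_iff measurableSet_ball).2 j2) (Eventually.of_forall fun x => ?_)
    by_cases hx' : x ∈ ball (0 : E) ρ'
    · simp only [indicator_of_mem hx']
      rw [mul_pow]
      exact mul_le_of_le_one_left (sq_nonneg _) (pow_le_one₀ (h01 x).1 (h01 x).2)
    · simp only [indicator_of_notMem hx']
      rw [h0' x (by simpa using hx')]
      simp
  -- the exceptional set
  obtain ⟨φ', hφ', hφφ⟩ := hφ1.hl.aesm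
  set A : Set E := ball (0 : E) (max ρ 0) ∩ {x | 2 * o.g0 x < φ' x} with hAdef
  have hAm : MeasurableSet A := measurableSet_ball.inter
    (measurableSet_lt (ho.cg.measurable.const_mul 2) hφ'.measurable)
  have hAfin : volume A ≠ ⊤ := ((measure_mono inter_subset_left).trans_lt measure_ball_lt_top).ne
  have hAv : volume.real A ≤ τ ^ (3 / 2 : ℝ) := by
    have hl2 : MemLp (fun x => φ x - √2 * o.g0 x) 2 volume := hφ1.l2.sub (ho.sg.h1.l2.const_mul _)
    have e1 : nsq (fun x => φ x - √2 * o.g0 x) ≤ τ ^ (3 / 2 : ℝ) * (o.g0 x₀ / 2) ^ 2 := by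
      have := hA.cl
      have h' : 0 ≤ nsq fun x => m.r x * Real.sin (u x) - o.u0 x :=
        integral_nonneg fun x => sq_nonneg _
      linarith
    have e2 : volume.real A * (o.g0 x₀ / 2) ^ 2 ≤ nsq fun x => φ x - √2 * o.g0 x := by
      calc volume.real A * (o.g0 x₀ / 2) ^ 2 = ∫ _ in A, (o.g0 x₀ / 2) ^ 2 := by
            rw [setIntegral_const, smul_eq_mul]
        _ ≤ ∫ x in A, (φ x - √2 * o.g0 x) ^ 2 := by
            refine integral_mono_of_nonneg (Eventually.of_forall fun x => by positivity)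
              hl2.integrable_sq.integrableOn ?_
            rw [EventuallyLE, ae_restrict_iff' hAm]
            filter_upwards [hφφ] with x hx hx'
            have h2 : √2 ≤ (3 / 2 : ℝ) := by
              rw [Real.sqrt_le_left (by norm_num)]
              norm_num
            have h3 := hmin x (by linarith [mem_ball_zero_iff.1 hx'.1])
            have h4 : 2 * o.g0 x < φ' x := hx'.2
            refine pow_le_pow_left₀ (by positivity) ?_ 2
            rw [hx]
            nlinarith [ho.g_nn x]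
        _ ≤ _ := setIntegral_le_integral hl2.integrable_sq
            (Eventually.of_forall fun x => sq_nonneg _)
    exact le_of_mul_le_mul_right (e2.trans e1) (by positivity)
  have hth := hthin _ A (τ ^ (3 / 2 : ℝ)) hW.h1 hAm (by positivity) fun x =>
    (measureReal_mono inter_subset_left hAfin).trans hAv
  have hτe : (τ ^ (3 / 2 : ℝ)) ^ (2 / 3 : ℝ) = τ := by
    rw [← Real.rpow_mul hτ0.le]
    norm_num
  rw [hτe] at hth
  -- splitting
  have hgb : ∀ x, |o.g0 x| ≤ o.C0 := fun x => by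
    rw [abs_of_nonneg (ho.g_nn x)]
    exact (ho.bd x).1
  have k1 : IntegrableOn (fun x => o.g0 x ^ 2 * (y x - a) ^ 2) (ball (0 : E) (max ρ 0)) :=
    U10_int' (U10_ball hya.1.l2 _) ho.cg.aestronglyMeasurable (Eventually.of_forall hgb)
  have k2 : Integrable (A.indicator fun x => (j x * (y x - a)) ^ 2) :=
    hW.h1.l2.integrable_sq.indicator hAm
  have sp : ∫ x in ball (0 : E) ρ, φ x ^ 2 * (y x - a) ^ 2 ≤
      4 * (∫ x in ball (0 : E) (max ρ 0), o.g0 x ^ 2 * (y x - a) ^ 2) +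
        c ^ 2 * ∫ x in A, (j x * (y x - a)) ^ 2 := by
    calc ∫ x in ball (0 : E) ρ, φ x ^ 2 * (y x - a) ^ 2
        ≤ ∫ x in ball (0 : E) (max ρ 0), φ x ^ 2 * (y x - a) ^ 2 :=
          setIntegral_mono_set iY.integrableOn (Eventually.of_forall fun x => by positivity)
            (ball_subset_ball (le_max_left _ _)).eventuallyLE
      _ ≤ ∫ x in ball (0 : E) (max ρ 0), (4 * (o.g0 x ^ 2 * (y x - a) ^ 2) +
            c ^ 2 * A.indicator (fun x => (j x * (y x - a)) ^ 2) x) := by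
          refine integral_mono_of_nonneg (Eventually.of_forall fun x => by positivity)
            ((k1.const_mul _).add (k2.const_mul _).integrableOn) ?_
          rw [EventuallyLE, ae_restrict_iff' measurableSet_ball]
          filter_upwards [hφφ, hφb, hA.cpos] with x hx hb hcp hx'
          by_cases hxA : x ∈ A
          · rw [indicator_of_mem hxA, h1 x (mem_ball_zero_iff.1 hx').le, one_mul]
            have : φ x ^ 2 ≤ c ^ 2 := by
              rw [← sq_abs]
              exact pow_le_pow_left₀ (abs_nonneg _) hb 2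
            have := mul_le_mul_of_nonneg_right this (sq_nonneg (y x - a))
            have : 0 ≤ o.g0 x ^ 2 * (y x - a) ^ 2 := by positivity
            linarith
          · rw [indicator_of_notMem hxA, mul_zero, add_zero]
            have h5 : φ x ≤ 2 * o.g0 x := by
              rw [hx]
              exact not_lt.1 fun h => hxA ⟨hx', h⟩
            have h6 : 0 ≤ φ x := mul_nonneg (hm.nn x).1 hcp.le
            have := mul_le_mul_of_nonneg_right (pow_le_pow_left₀ h6 h5 2) (sq_nonneg (y x - a))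
            linarith
      _ = 4 * (∫ x in ball (0 : E) (max ρ 0), o.g0 x ^ 2 * (y x - a) ^ 2) +
            c ^ 2 * ∫ x in ball (0 : E) (max ρ 0), A.indicator (fun x => (j x * (y x - a)) ^ 2) x := by
          rw [integral_add (k1.const_mul _) (k2.const_mul _).integrableOn, integral_const_mul,
            integral_const_mul]
      _ ≤ _ := by
          rw [← integral_indicator hAm]
          refine add_le_add le_rfl (mul_le_mul_of_nonneg_left (setIntegral_le_integral k2
            (Eventually.of_forall fun x => ?_)) (sq_nonneg _))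
          exact indicator_nonneg (fun _ _ => sq_nonneg _) x
  have f1 : ∫ x in ball (0 : E) (max ρ 0), o.g0 x ^ 2 * (y x - a) ^ 2 ≤
      4 * o.d ^ 7 * X + η / 8 * Y := by
    refine ha.trans ?_
    have a1 := mul_le_mul_of_nonneg_left c1 (by positivity : 0 ≤ 4 * o.d)
    have a2 := mul_le_mul_of_nonneg_left c2 (by positivity : 0 ≤ η / (8 * o.d ^ 6))
    have a3 : η / (8 * o.d ^ 6) * (o.d ^ 6 * Y) = η / 8 * Y := by field_simp
    have a4 : 4 * o.d * (o.d ^ 6 * X) = 4 * o.d ^ 7 * X := by ring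
    linarith
  have f2 : c ^ 2 * ∫ x in A, (j x * (y x - a)) ^ 2 ≤ X + η / 2 * Y := by
    have b0 : c ^ 2 * (C * τ * K) * 33 ≤ min 1 (η / 2) := by
      have : (c ^ 2 + 1) * (C * τ * K) * 33 = min 1 (η / 2) := by
        rw [hτ]
        field_simp
      have : 0 ≤ C * τ * K := by positivity
      nlinarith
    have b1 : ∫ x in A, (j x * (y x - a)) ^ 2 ≤ C * τ * K * (33 * X + 33 * Y) := by
      refine hth.trans ?_
      rw [mul_assoc (C * τ) K]
      refine mul_le_mul_of_nonneg_left ?_ (by positivity)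
      nlinarith [mul_nonneg hK0.le hX0]
    have b2 := mul_le_mul_of_nonneg_left b1 (sq_nonneg c)
    have b3 := mul_le_mul_of_nonneg_right (b0.trans (min_le_left _ _)) hX0
    have b4 := mul_le_mul_of_nonneg_right (b0.trans (min_le_right _ _)) hY0
    nlinarith
  have f3 : 16 * o.d ^ 7 + 1 ≤ o.d ^ 8 := by
    have h7 : 1 ≤ o.d ^ 7 := one_le_pow₀ (by linarith)
    nlinarith
  have f4 := mul_le_mul_of_nonneg_right f3 hX0
  linarith

end

end Crest.Agent.R335
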