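import Crest.Agent.R335.U3
import Crest.Agent.R335.S04

/-! Row 335: auxiliary lemmas for `U7` (Picone identity, limits, integrability). -/

set_option autoImplicit false

open MeasureTheory Set Filter Topology Metric
open scoped Gradient ContDiff RealInnerProductSpace ENNReal

namespace Crest.Agent.R335

noncomputable section

/-- integrand of `Bf` -/
def U7I (r u : E → ℝ) (δ : ℝ) (t : E → ℝ) (x : E) : ℝ :=
  r x ^ 2 * ((1 / 2) * ‖D t x‖ ^ 2 - ((1 / 2) * ‖D u x‖ ^ 2 + δ * Real.cos (u x) ^ 2) * t x ^ 2)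

theorem U7_Bf (r u : E → ℝ) (δ : ℝ) (t : E → ℝ) : Bf r u δ t = ∫ x, U7I r u δ t x := rfl

theorem U7_bm {f g : E → ℝ} (hf : Integrable f) (hg : AEStronglyMeasurable g volume) (hb : Bd g) :
    Integrable fun x => g x * f x := by
  obtain ⟨M, hM⟩ := hb
  exact hf.bdd_mul hg hM

theorem U7_bd_mul {f g : E → ℝ} (hf : Bd f) (hg : Bd g) : Bd fun x => f x * g x := by
  obtain ⟨M, hM⟩ := hf
  obtain ⟨N, hN⟩ := hg
  refine ⟨M * N, ?_⟩
  filter_upwards [hM, hN] with x h1 h2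
  rw [abs_mul]
  exact mul_le_mul h1 h2 (abs_nonneg _) ((abs_nonneg _).trans h1)

theorem U7_bd_sq {f : E → ℝ} (hf : Bd f) : Bd fun x => f x ^ 2 := by
  simpa only [sq] using U7_bd_mul hf hf

theorem U7_lim {F : E → ℝ} (hF : Integrable F) {q : ℕ → E → ℝ}
    (hm : ∀ n, AEStronglyMeasurable (q n) volume) (hb : ∀ n x, |q n x| ≤ 1)
    (hl : ∀ᵐ x, F x ≠ 0 → Tendsto (fun n => q n x) atTop (𝓝 1)) :
    Tendsto (fun n => ∫ x, q n x * F x) atTop (𝓝 (∫ x, F x)) := by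
  refine tendsto_integral_of_dominated_convergence (fun x => ‖F x‖)
    (fun n => (hm n).mul hF.1) hF.norm (fun n => ae_of_all _ fun x => ?_) ?_
  · rw [norm_mul]
    exact mul_le_of_le_one_left (norm_nonneg _) (hb n x)
  · filter_upwards [hl] with x hx
    by_cases h : F x = 0
    · simp [h]
    · simpa using (hx h).mul_const (F x)

theorem U7_q_le {p ε : ℝ} (hp : 0 ≤ p) (hε : 0 < ε) : |p / (p + ε)| ≤ 1 := by
  rw [abs_of_nonneg (by positivity), div_le_one (by positivity)]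
  linarith

theorem U7_q_lim {p : ℝ} (hp : 0 < p) :
    Tendsto (fun n : ℕ => p / (p + 1 / ((n : ℝ) + 1))) atTop (𝓝 1) := by
  have h := (tendsto_const_nhds (x := p)).div
    ((tendsto_const_nhds (x := p)).add tendsto_one_div_add_atTop_nhds_zero_nat)
    (by simpa using hp.ne')
  rw [add_zero, div_self hp.ne'] at h
  exact h

theorem U7_q_meas {p : E → ℝ} (hp : AEStronglyMeasurable p volume) (ε : ℝ) :
    AEStronglyMeasurable (fun x => p x / (p x + ε)) volume :=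
  (hp.aemeasurable.div (hp.aemeasurable.add_const ε)).aestronglyMeasurable

theorem U7_kin {r t : E → ℝ} (hr : AEStronglyMeasurable r volume) (hb : Bd r) (ht : H1 t) :
    Integrable fun x => r x ^ 2 * ‖D t x‖ ^ 2 :=
  U7_bm ht.dl2.norm.integrable_sq (hr.pow 2) (U7_bd_sq hb)

/-- the Picone identity -/
theorem U7_pic {r p t : E → ℝ} (hr : AEStronglyMeasurable r volume) (hb : Bd r) (hp : Bl p)
    (p0 : ∀ x, 0 ≤ p x) (p1 : ∀ x, p x ≤ 1) (ht : TF univ t) {ε : ℝ} (hε : 0 < ε) :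
    TF univ (fun x => t x / (p x + ε)) ∧ TF univ (fun x => t x * (t x / (p x + ε))) ∧
      Integrable (fun x => r x ^ 2 * (p x + ε) ^ 2 * ‖D (fun x => t x / (p x + ε)) x‖ ^ 2) ∧
      ∫ x, r x ^ 2 * ‖D t x‖ ^ 2 =
        (∫ x, r x ^ 2 * (p x + ε) ^ 2 * ‖D (fun x => t x / (p x + ε)) x‖ ^ 2) +
          2 * ∫ x, (1 / 2) * r x ^ 2 * ⟪D p x, D (fun x => t x * (t x / (p x + ε))) x⟫ := by
  have hc : Bl fun _ : E => ε := bl_c1 contDiff_const
  have hm : Bl fun x => p x + ε := hp.add hc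
  have hD : ∀ᵐ x, D (fun x => p x + ε) x = D p x := by
    filter_upwards [D_add hp.hl hc.hl, D_const (V := E) ε] with x h1 h2
    rw [h1, h2, add_zero]
  have hl : LP fun x => p x + ε := fun K _ =>
    ⟨ε, hε, ae_of_all _ fun x _ => by linarith [p0 x]⟩
  obtain ⟨y1, y2⟩ := ht.bl.div hm hl
  have hy : TF univ fun x => t x / (p x + ε) := by
    refine y1.tf ?_
    obtain ⟨K, hK, hKS, h0⟩ := ht.cs
    refine ⟨K, hK, hKS, ?_⟩
    filter_upwards [h0] with x h1 hx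
    rw [h1 hx, zero_div]
  have i1 := U7_kin hr hb ht.h1
  have i2 : Integrable fun x =>
      r x ^ 2 * (p x + ε) ^ 2 * ‖D (fun x => t x / (p x + ε)) x‖ ^ 2 := by
    refine U7_bm hy.h1.dl2.norm.integrable_sq ((hr.pow 2).mul (hm.hl.aesm.pow 2))
      (U7_bd_mul (U7_bd_sq hb) (U7_bd_sq ⟨1 + ε, ae_of_all _ fun x => ?_⟩))
    rw [abs_of_nonneg (by linarith [p0 x])]
    linarith [p1 x]
  refine ⟨hy, hy.mul ht.bl, i2, ?_⟩
  rw [← sub_eq_iff_eq_add', ← integral_sub i1 i2, ← integral_const_mul]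
  refine integral_congr_ae ?_
  filter_upwards [y2, hD, (ht.bl.mul y1).2] with x h1 h2 h3
  have hm0 : p x + ε ≠ 0 := by linarith [p0 x]
  rw [h3, h1, h2]
  simp only [← real_inner_self_eq_norm_sq, inner_add_right, inner_sub_right, inner_sub_left,
    real_inner_smul_right, real_inner_smul_left, real_inner_comm (D t x) (D p x)]
  field_simp
  ring

namespace Ang

variable {r u : E → ℝ} {δ : ℝ}

theorem U7_cos (h : Ang r u δ) : Bl fun x => Real.cos (u x) :=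
  (Bl.comp ⟨h.hu, Bd.lb ⟨_, ae_of_all _ h.bu⟩⟩ Real.contDiff_cos).1

theorem U7_sin (h : Ang r u δ) : Bl fun x => Real.sin (u x) :=
  (Bl.comp ⟨h.hu, Bd.lb ⟨_, ae_of_all _ h.bu⟩⟩ Real.contDiff_sin).1

theorem U7_cos_nn (h : Ang r u δ) (x : E) : 0 ≤ Real.cos (u x) :=
  Real.cos_nonneg_of_mem_Icc (abs_le.1 (h.bu x))

theorem U7_pot (h : Ang r u δ) {g t : E → ℝ} (hg : AEStronglyMeasurable g volume) (hb : Bd g)
    (ht : TF univ t) :
    Integrable fun x => r x ^ 2 * ((1 / 2) * ‖D u x‖ ^ 2 + g x) * t x ^ 2 := by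
  have i1 := (U7_bm h.fin (ht.h1.hl.aesm.pow 2) (U7_bd_sq ht.bd)).const_mul (1 / 2)
  have i2 := U7_bm h.hr.l2.integrable_sq (hg.mul (ht.h1.hl.aesm.pow 2))
    (U7_bd_mul hb (U7_bd_sq ht.bd))
  refine (i1.add i2).congr (ae_of_all _ fun x => ?_)
  simp only [Pi.add_apply, Pi.mul_apply, Pi.pow_apply]
  ring

theorem U7_potc (h : Ang r u δ) {t : E → ℝ} (ht : TF univ t) :
    Integrable fun x => r x ^ 2 * ((1 / 2) * ‖D u x‖ ^ 2 + δ * Real.cos (u x) ^ 2) * t x ^ 2 :=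
  h.U7_pot ((h.U7_cos.hl.aesm.pow 2).const_mul δ)
    (U7_bd_mul ⟨|δ|, ae_of_all _ fun _ => le_rfl⟩
      (U7_bd_sq ⟨1, ae_of_all _ fun _ => Real.abs_cos_le_one _⟩)) ht

theorem U7_pots (h : Ang r u δ) {t : E → ℝ} (ht : TF univ t) :
    Integrable fun x => r x ^ 2 * ((1 / 2) * ‖D u x‖ ^ 2 - δ * Real.sin (u x) ^ 2) * t x ^ 2 := by
  have := h.U7_pot ((h.U7_sin.hl.aesm.pow 2).const_mul (-δ))
    (U7_bd_mul ⟨|-δ|, ae_of_all _ fun _ => le_rfl⟩
      (U7_bd_sq ⟨1, ae_of_all _ fun _ => Real.abs_sin_le_one _⟩)) ht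
  simpa only [neg_mul, ← sub_eq_add_neg, Pi.pow_apply] using this

theorem U7_split (h : Ang r u δ) {t : E → ℝ} (ht : TF univ t) :
    Integrable (U7I r u δ t) ∧ Bf r u δ t = (1 / 2) * (∫ x, r x ^ 2 * ‖D t x‖ ^ 2) -
      ∫ x, r x ^ 2 * ((1 / 2) * ‖D u x‖ ^ 2 + δ * Real.cos (u x) ^ 2) * t x ^ 2 := by
  have i1 := (U7_kin h.hr.hl.aesm h.bd ht.h1).const_mul (1 / 2)
  have i2 := h.U7_potc ht
  have e : U7I r u δ t = fun x => (1 / 2) * (r x ^ 2 * ‖D t x‖ ^ 2) -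
      r x ^ 2 * ((1 / 2) * ‖D u x‖ ^ 2 + δ * Real.cos (u x) ^ 2) * t x ^ 2 := by
    funext x
    rw [U7I]
    ring
  rw [U7_Bf, e, integral_sub i1 i2, integral_const_mul]
  exact ⟨i1.sub i2, rfl⟩

theorem U7_nφ (h : Ang r u δ) : nsq (fun x => r x * Real.cos (u x)) = 2 := by
  have h1 := h.nr
  have h2 := h.n1
  have e : nsq r = nsq (fun x => r x * Real.cos (u x)) + nsq fun x => r x * Real.sin (u x) := by
    unfold nsq
    rw [← integral_add h.hφ.l2.integrable_sq h.hψ.l2.integrable_sq]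
    refine integral_congr_ae (ae_of_all _ fun x => ?_)
    have := Real.cos_sq_add_sin_sq (u x)
    simp only [mul_pow]
    rw [← mul_add, this, mul_one]
  linarith

theorem U7_evc (h : Ang r u δ) : ∀ᵐ x, Real.cos (u (R x)) = Real.cos (u x) := by
  filter_upwards [h.od] with x hx
  rw [hx, Real.cos_neg]

theorem U7_evD (h : Ang r u δ) : ∀ᵐ x, ‖D u (R x)‖ = ‖D u x‖ := by
  filter_upwards [h.od.D h.hu] with x hx
  rw [hx, norm_neg, norm_R]

end Ang

theorem U7_inner_R (a b : E) : ⟪R a, R b⟫ = ⟪a, b⟫ := by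
  obtain ⟨L, hL, -⟩ := exists_Riso
  rw [← hL, ← hL, L.inner_map_map]

theorem U7_tf_R {t : E → ℝ} (ht : TF univ t) : TF univ fun x => t (R x) := by
  obtain ⟨L, hL, -⟩ := exists_Riso
  have e : (fun x => t (R x)) = fun x => t (L x) := funext fun x => by rw [hL]
  refine Bl.tf (e ▸ ht.bl.iso L) ?_
  obtain ⟨K, hK, -, h0⟩ := ht.cs
  refine ⟨L '' K, hK.image L.continuous, subset_univ _, ?_⟩
  filter_upwards [mp_R.quasiMeasurePreserving.ae h0] with x h1 hx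
  exact h1 fun h2 => hx ⟨R x, h2, by rw [hL, R_R]⟩

theorem U7_tf_lc {t w : E → ℝ} (ht : TF univ t) (hw : TF univ w) (a b : ℝ) :
    TF univ fun x => a * t x + b * w x := by
  refine Bl.tf ((ht.bl.smul a).add (hw.bl.smul b)) ?_
  obtain ⟨K, hK, -, h0⟩ := ht.cs
  obtain ⟨K', hK', -, h0'⟩ := hw.cs
  refine ⟨K ∪ K', hK.union hK', subset_univ _, ?_⟩
  filter_upwards [h0, h0'] with x h1 h2 hx
  rw [h1 fun h => hx (Or.inl h), h2 fun h => hx (Or.inr h)]
  ring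

end

end Crest.Agent.R335
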