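import Crest.Agent.R335.U3
import Crest.Agent.R335.S04
import Crest.Agent.R335.U7Aux1

set_option autoImplicit false

open MeasureTheory Set Filter Topology Metric
open scoped Gradient ContDiff RealInnerProductSpace ENNReal

namespace Crest.Agent.R335

noncomputable section

theorem pic_even {r u t : E → ℝ} {δ P : ℝ} (h : Ang r u δ) (hδ : 0 ≤ δ)
    (hP : Poi (fun x => r x * Real.cos (u x)) P) (hδP : 2 * δ * P ≤ 1) (ht : TF univ t) (he : Ev t) :
    -(δ / 2 * ip (fun x => r x * Real.cos (u x)) (fun x => r x * t x) ^ 2) ≤ Bf r u δ t := by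
  set c : E → ℝ := fun x => Real.cos (u x) with hc
  have mr := h.hr.hl.aesm
  have mt := ht.h1.hl.aesm
  have mc : AEStronglyMeasurable c volume := h.U7_cos.hl.aesm
  have hφ : MemLp (fun x => r x * c x) 2 volume := h.hφ.l2
  have iA : Integrable fun x => r x ^ 2 * t x ^ 2 := by
    simpa only [mul_comm, Pi.pow_apply] using
      U7_bm h.hr.l2.integrable_sq (mt.pow 2) (U7_bd_sq ht.bd)
  have hrt : MemLp (fun x => r x * t x) 2 volume :=
    (ht.mul ⟨h.hr.hl, h.bd.lb⟩).h1.l2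
  have iB : Integrable fun x => r x * c x * (r x * t x) := hφ.integrable_mul hrt
  have iC := h.U7_pots ht
  have key : ∀ ε : ℝ, 0 < ε →
      δ * (∫ x, (c x / (c x + ε)) ^ 2 * (r x ^ 2 * t x ^ 2)) -
        δ / 2 * (∫ x, c x / (c x + ε) * (r x * c x * (r x * t x))) ^ 2 +
        ∫ x, c x / (c x + ε) *
          (r x ^ 2 * ((1 / 2) * ‖D u x‖ ^ 2 - δ * Real.sin (u x) ^ 2) * t x ^ 2) ≤
      (1 / 2) * ∫ x, r x ^ 2 * ‖D t x‖ ^ 2 := by
    intro ε hε
    obtain ⟨hy, hχ, i2, e⟩ := U7_pic mr h.bd h.U7_cos h.U7_cos_nn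
      (fun x => Real.cos_le_one _) ht hε
    rw [h.eq_cos hχ] at e
    set y : E → ℝ := fun x => t x / (c x + ε) with hy'
    have ey : Ev y := by
      filter_upwards [he, h.U7_evc] with x h1 h2
      simp only [hy', hc, h1, h2]
    obtain ⟨a, ha⟩ := hP y hy ey
    have i3 : Integrable fun x => (r x * c x) ^ 2 * ‖D y x‖ ^ 2 :=
      U7_kin (mr.mul mc) (U7_bd_mul h.bd ⟨1, ae_of_all _ fun _ => Real.abs_cos_le_one _⟩) hy.h1
    have h1 : ∫ x, (r x * c x) ^ 2 * ‖D y x‖ ^ 2 ≤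
        ∫ x, r x ^ 2 * (c x + ε) ^ 2 * ‖D y x‖ ^ 2 := by
      refine integral_mono i3 i2 fun x => ?_
      have := h.U7_cos_nn x
      simp only [mul_pow]
      gcongr
      linarith
    have h2 : 0 ≤ ∫ x, (r x * c x) ^ 2 * ‖D y x‖ ^ 2 := integral_nonneg fun x => by positivity
    have hφy : MemLp (fun x => r x * c x * y x) 2 volume := by
      refine (memLp_two_iff_integrable_sq ((mr.mul mc).mul hy.h1.hl.aesm)).2 ?_
      refine (U7_bm hφ.integrable_sq (hy.h1.hl.aesm.pow 2) (U7_bd_sq hy.bd)).congr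
        (ae_of_all _ fun x => ?_)
      simp only [Pi.mul_apply, Pi.pow_apply]
      ring
    have h3 := S11_nsq_lc hφy hφ 1 (-a)
    have e1 : nsq (fun x => 1 * (r x * c x * y x) + -a * (r x * c x)) =
        ∫ x, (r x * c x) ^ 2 * (y x - a) ^ 2 :=
      integral_congr_ae (ae_of_all _ fun x => by ring)
    have e2 : nsq (fun x => r x * c x * y x) =
        ∫ x, (c x / (c x + ε)) ^ 2 * (r x ^ 2 * t x ^ 2) :=
      integral_congr_ae (ae_of_all _ fun x => by simp only [hy']; ring)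
    have e3 : ip (fun x => r x * c x * y x) (fun x => r x * c x) =
        ∫ x, c x / (c x + ε) * (r x * c x * (r x * t x)) :=
      integral_congr_ae (ae_of_all _ fun x => by simp only [hy']; ring)
    have e4 : ∫ x, r x ^ 2 * ((1 / 2) * ‖D u x‖ ^ 2 - δ * Real.sin (u x) ^ 2) * Real.cos (u x) *
        (t x * y x) = ∫ x, c x / (c x + ε) *
          (r x ^ 2 * ((1 / 2) * ‖D u x‖ ^ 2 - δ * Real.sin (u x) ^ 2) * t x ^ 2) :=
      integral_congr_ae (ae_of_all _ fun x => by simp only [hy', hc]; ring)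
    have n2 : nsq (fun x => r x * c x) = 2 := h.U7_nφ
    rw [e1, e2, e3, n2] at h3
    rw [e4] at e
    rw [e]
    have h4 := mul_le_mul_of_nonneg_left ha hδ
    have h5 := mul_le_mul_of_nonneg_right hδP h2
    rw [h3] at h4
    nlinarith [mul_nonneg hδ (sq_nonneg
      (2 * a - ∫ x, c x / (c x + ε) * (r x * c x * (r x * t x))))]
  have hq : ∀ n : ℕ, (0 : ℝ) < 1 / ((n : ℝ) + 1) := fun n => by positivity
  have hl : ∀ᵐ x, Tendsto (fun n : ℕ => c x / (c x + 1 / ((n : ℝ) + 1))) atTop (𝓝 1) :=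
    h.pos.1.mono fun x hx => U7_q_lim hx
  have l1 := U7_lim iA (q := fun n x => (c x / (c x + 1 / ((n : ℝ) + 1))) ^ 2)
    (fun n => (U7_q_meas mc _).pow 2)
    (fun n x => by
      rw [abs_pow]
      exact pow_le_one₀ (abs_nonneg _) (U7_q_le (h.U7_cos_nn x) (hq n)))
    (hl.mono fun x hx _ => by simpa using hx.pow 2)
  have l2 := U7_lim iB (fun n => U7_q_meas mc _) (fun n x => U7_q_le (h.U7_cos_nn x) (hq n))
    (hl.mono fun x hx _ => hx)
  have l3 := U7_lim iC (fun n => U7_q_meas mc _) (fun n x => U7_q_le (h.U7_cos_nn x) (hq n))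
    (hl.mono fun x hx _ => hx)
  have fin := le_of_tendsto' (((l1.const_mul δ).sub ((l2.pow 2).const_mul (δ / 2))).add l3)
    fun n => key _ (hq n)
  have e5 : ∫ x, r x ^ 2 * ((1 / 2) * ‖D u x‖ ^ 2 + δ * Real.cos (u x) ^ 2) * t x ^ 2 =
      δ * (∫ x, r x ^ 2 * t x ^ 2) +
        ∫ x, r x ^ 2 * ((1 / 2) * ‖D u x‖ ^ 2 - δ * Real.sin (u x) ^ 2) * t x ^ 2 := by
    rw [← integral_const_mul, ← integral_add (iA.const_mul δ) iC]
    refine integral_congr_ae (ae_of_all _ fun x => ?_)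
    simp only [Real.cos_sq']
    ring
  rw [(h.U7_split ht).2, e5, ip]
  linarith
theorem pic_odd {r u t : E → ℝ} {δ : ℝ} (h : Ang r u δ) (ht : TF univ t) (ho : Od t) :
    0 ≤ Bf r u δ t := by
  set p : E → ℝ := fun x => max (Real.sin (u x)) 0 with hp
  have mr := h.hr.hl.aesm
  have bp : Bl p := h.U7_sin.pos
  have p0 : ∀ x, 0 ≤ p x := fun x => le_max_right _ _
  have hw : TF univ (Hp.indicator t) := by
    refine (ht.bl.half ho).tf ?_
    obtain ⟨K, hK, hKS, h0⟩ := ht.cs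
    refine ⟨K, hK, hKS, ?_⟩
    filter_upwards [h0] with x h1 hx
    exact indicator_apply_eq_zero.2 fun _ => h1 hx
  set w := Hp.indicator t with hw'
  have hs : ∀ᵐ x, x ∈ Hp → 0 < Real.sin (u x) := by
    filter_upwards [h.pos.2, ae_two_ne] with x h1 h2 hx
    have h3 := h1 (lt_of_le_of_ne hx h2.symm)
    exact Real.sin_pos_of_pos_of_lt_pi h3 (by linarith [(abs_le.1 (h.bu x)).2, Real.pi_pos])
  have iC := h.U7_potc hw
  have key : ∀ ε : ℝ, 0 < ε → ∫ x, p x / (p x + ε) *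
      (r x ^ 2 * ((1 / 2) * ‖D u x‖ ^ 2 + δ * Real.cos (u x) ^ 2) * w x ^ 2) ≤
      (1 / 2) * ∫ x, r x ^ 2 * ‖D w x‖ ^ 2 := by
    intro ε hε
    obtain ⟨hy, hχ, i2, e⟩ := U7_pic mr h.bd bp p0
      (fun x => max_le (Real.sin_le_one _) zero_le_one) hw hε
    have e1 : ∫ x, (1 / 2) * r x ^ 2 * ⟪D p x, D (fun x => w x * (w x / (p x + ε))) x⟫ =
        ∫ x, (1 / 2) * r x ^ 2 *
          ⟪D (fun x => Real.sin (u x)) x, D (fun x => w x * (w x / (p x + ε))) x⟫ := by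
      refine integral_congr_ae ?_
      filter_upwards [hs, h.U7_sin.hl.pos.2, hχ.h1.hl.D_level 0] with x h1 h2 h3
      by_cases hx : x ∈ Hp
      · rw [h2, if_pos (h1 hx)]
      · rw [h3 (by rw [hw', indicator_of_notMem hx, zero_mul]), inner_zero_right, inner_zero_right]
    have e2 : ∫ x, r x ^ 2 * ((1 / 2) * ‖D u x‖ ^ 2 + δ * Real.cos (u x) ^ 2) * Real.sin (u x) *
        (w x * (w x / (p x + ε))) = ∫ x, p x / (p x + ε) *
          (r x ^ 2 * ((1 / 2) * ‖D u x‖ ^ 2 + δ * Real.cos (u x) ^ 2) * w x ^ 2) := by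
      refine integral_congr_ae ?_
      filter_upwards [hs] with x h1
      by_cases hx : x ∈ Hp
      · have : p x = Real.sin (u x) := max_eq_left (h1 hx).le
        rw [← this]
        ring
      · have : w x = 0 := by rw [hw', indicator_of_notMem hx]
        rw [this]
        ring
    rw [e1, h.eq_sin hχ, e2] at e
    have h2 : 0 ≤ ∫ x, r x ^ 2 * (p x + ε) ^ 2 * ‖D (fun x => w x / (p x + ε)) x‖ ^ 2 :=
      integral_nonneg fun x => by positivity
    linarith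
  have hq : ∀ n : ℕ, (0 : ℝ) < 1 / ((n : ℝ) + 1) := fun n => by positivity
  have l3 := U7_lim iC (q := fun n x => p x / (p x + 1 / ((n : ℝ) + 1)))
    (fun n => U7_q_meas bp.hl.aesm _) (fun n x => U7_q_le (p0 x) (hq n)) (by
      filter_upwards [hs] with x h1 h2
      by_cases hx : x ∈ Hp
      · exact U7_q_lim ((h1 hx).trans_le (le_max_left _ _))
      · exact absurd (by rw [hw', indicator_of_notMem hx]; ring) h2)
  have fin := le_of_tendsto' l3 fun n => key _ (hq n)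
  have b1 : 0 ≤ Bf r u δ w := by
    rw [(h.U7_split hw).2]
    linarith
  have ev : Ev (U7I r u δ t) := by
    filter_upwards [h.evr, h.U7_evc, h.U7_evD, ho, ho.D ht.h1.hl] with x h1 h2 h3 h4 h5
    simp only [U7I, h1, h2, h3, h4, h5, norm_neg, norm_R, neg_sq]
  have e3 : Bf r u δ w = ∫ x in Hp, U7I r u δ t x := by
    rw [U7_Bf, ← integral_indicator S07.mHp]
    refine integral_congr_ae ?_
    filter_upwards [(ht.h1.hl.half ho).2] with x h1
    by_cases hx : x ∈ Hp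
    · simp only [U7I, hw', h1, indicator_of_mem hx]
    · simp [U7I, hw', h1, indicator_of_notMem hx]
  rw [U7_Bf, ev.integral (h.U7_split ht).1, ← e3]
  linarith
theorem U7_tf {r u t : E → ℝ} {δ P : ℝ} (h : Ang r u δ) (hδ : 0 ≤ δ)
    (hP : Poi (fun x => r x * Real.cos (u x)) P) (hδP : 2 * δ * P ≤ 1) (ht : TF univ t) :
    -(δ / 2 * ip (fun x => r x * Real.cos (u x)) (fun x => r x * t x) ^ 2) ≤ Bf r u δ t := by
  have ha := U7_tf_lc ht (U7_tf_R ht) (1 / 2) (1 / 2)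
  have hb := U7_tf_lc ht (U7_tf_R ht) (1 / 2) (-(1 / 2))
  set a : E → ℝ := fun x => 1 / 2 * t x + 1 / 2 * t (R x) with ha'
  set b : E → ℝ := fun x => 1 / 2 * t x + -(1 / 2) * t (R x) with hb'
  have ea : Ev a := ae_of_all _ fun x => by simp only [ha', R_R]; ring
  have ob : Od b := ae_of_all _ fun x => by simp only [hb', R_R]; ring
  have et : ∀ x, t x = a x + b x := fun x => by simp only [ha', hb']; ring
  have h1 := pic_even h hδ hP hδP ha ea
  have h2 := pic_odd h hb ob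
  have hD : ∀ᵐ x, D t x = D a x + D b x := by
    have := D_add ha.h1.hl hb.h1.hl
    rwa [← funext et] at this
  have ex : ∀ᵐ x, U7I r u δ t x - (U7I r u δ a x + U7I r u δ b x) = r x ^ 2 * (⟪D a x, D b x⟫ -
      2 * ((1 / 2) * ‖D u x‖ ^ 2 + δ * Real.cos (u x) ^ 2) * (a x * b x)) := by
    filter_upwards [hD] with x hx
    simp only [U7I, hx, et x, norm_add_sq_real]
    ring
  have o1 : Od fun x => r x ^ 2 * (⟪D a x, D b x⟫ -
      2 * ((1 / 2) * ‖D u x‖ ^ 2 + δ * Real.cos (u x) ^ 2) * (a x * b x)) := by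
    filter_upwards [h.evr, h.U7_evc, h.U7_evD, ea, ob, ea.D ha.h1.hl, ob.D hb.h1.hl]
      with x a1 a2 a3 a4 a5 a6 a7
    rw [a1, a2, a3, a4, a5, a6, a7, inner_neg_right, U7_inner_R]
    ring
  have e1 := (integral_congr_ae ex).trans o1.integral
  have iab : Integrable fun x => U7I r u δ a x + U7I r u δ b x :=
    (h.U7_split ha).1.add (h.U7_split hb).1
  rw [integral_sub (h.U7_split ht).1 iab,
    integral_add (h.U7_split ha).1 (h.U7_split hb).1, ← U7_Bf, ← U7_Bf, ← U7_Bf] at e1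
  have m : ∀ {w : E → ℝ}, TF univ w → MemLp (fun x => r x * w x) 2 volume := fun hw =>
    (hw.mul ⟨h.hr.hl, h.bd.lb⟩).h1.l2
  have o2 : Od fun x => r x * Real.cos (u x) * (r x * b x) := by
    filter_upwards [h.evr, h.U7_evc, ob] with x a1 a2 a3
    rw [a1, a2, a3]
    ring
  have e2 : ip (fun x => r x * Real.cos (u x)) (fun x => r x * t x) =
      ip (fun x => r x * Real.cos (u x)) (fun x => r x * a x) := by
    have := S11_ip_lc h.hφ.l2 (m ha) (m hb) 1 1
    rw [ip.eq_1 _ fun x => r x * b x, o2.integral, mul_zero, add_zero, one_mul] at this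
    rw [← this]
    congr 1
    funext x
    rw [et x]
    ring
  rw [e2]
  linarith
theorem cert_of_poi {r u : E → ℝ} {δ P : ℝ} (h : Ang r u δ) (hδ : 0 ≤ δ)
    (hP : Poi (fun x => r x * Real.cos (u x)) P) (hδP : 2 * δ * P ≤ 1) : Cert r u δ := by
  intro f hf hi
  obtain ⟨w, w1, w2, w3, w4, w5, w6, -⟩ := hf.trunc
  have br : Bl r := ⟨h.hr.hl, h.bd.lb⟩
  have rp := S04.ae_pos h.lp
  have ht : ∀ n, TF univ fun x => w n x / r x := fun n => by
    refine ((w1 n).bl.div br h.lp).1.tf ?_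
    obtain ⟨K, hK, hKS, h0⟩ := (w1 n).cs
    refine ⟨K, hK, hKS, ?_⟩
    filter_upwards [h0] with x h1 hx
    rw [h1 hx, zero_div]
  have eI : ∀ n, ∀ᵐ x, U7I r u δ (fun x => w n x / r x) x =
      (1 / 2) * ‖D (w n) x - w n x • (r x)⁻¹ • D r x‖ ^ 2 -
        ((1 / 2) * ‖D u x‖ ^ 2 + δ * Real.cos (u x) ^ 2) * w n x ^ 2 := fun n => by
    filter_upwards [rp, ((w1 n).bl.div br h.lp).2] with x h1 h2
    have e : D (w n) x - w n x • (r x)⁻¹ • D r x = r x • D (fun x => w n x / r x) x := by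
      rw [h2]
      match_scalars <;> field_simp
    rw [U7I, e, norm_smul, mul_pow, Real.norm_eq_abs, sq_abs]
    field_simp
  have hn : ∀ n, -(δ / 2 * ip (fun x => r x * Real.cos (u x)) (w n) ^ 2) ≤
      ∫ x, ((1 / 2) * ‖D (w n) x - w n x • (r x)⁻¹ • D r x‖ ^ 2 -
        ((1 / 2) * ‖D u x‖ ^ 2 + δ * Real.cos (u x) ^ 2) * w n x ^ 2) := fun n => by
    have h1 := U7_tf h hδ hP hδP (ht n)
    have e : ip (fun x => r x * Real.cos (u x)) (fun x => r x * (w n x / r x)) =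
        ip (fun x => r x * Real.cos (u x)) (w n) := by
      refine integral_congr_ae ?_
      filter_upwards [rp] with x hx
      rw [mul_div_cancel₀ _ hx.ne']
    rwa [e, U7_Bf, integral_congr_ae (eI n)] at h1
  have l1 : Tendsto (fun n => ip (fun x => r x * Real.cos (u x)) (w n)) atTop
      (𝓝 (ip (fun x => r x * Real.cos (u x)) f)) :=
    S06_lim_mul hf.l2 (fun n => (w1 n).h1.l2) h.hφ.l2 w6
  refine le_of_tendsto_of_tendsto' ((l1.pow 2).const_mul (δ / 2)).neg ?_ hn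
  refine tendsto_integral_of_dominated_convergence
    (fun x => 2 * ‖D f x‖ ^ 2 + (2 + δ) * f x ^ 2 +
      (‖(r x)⁻¹ • D r x‖ ^ 2 + ‖D u x‖ ^ 2) * f x ^ 2)
    (fun n => ((h.U7_split (ht n)).1.congr (eI n)).1)
    (((hf.dl2.norm.integrable_sq.const_mul 2).add (hf.l2.integrable_sq.const_mul _)).add hi)
    (fun n => ?_) ?_
  · filter_upwards [w4 n] with x h1
    have h2 : w n x ^ 2 ≤ f x ^ 2 := sq_le_sq.2 (w2 n x).1
    have h3 : ‖D (w n) x - w n x • (r x)⁻¹ • D r x‖ ≤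
        ‖D f x‖ + |f x| + |f x| * ‖(r x)⁻¹ • D r x‖ := by
      refine (norm_sub_le _ _).trans (add_le_add h1 ?_)
      rw [norm_smul, Real.norm_eq_abs]
      exact mul_le_mul_of_nonneg_right (w2 n x).1 (norm_nonneg _)
    have h4 := pow_le_pow_left₀ (norm_nonneg _) h3 2
    have h5 : (‖D f x‖ + |f x| + |f x| * ‖(r x)⁻¹ • D r x‖) ^ 2 ≤
        4 * ‖D f x‖ ^ 2 + 4 * f x ^ 2 + 2 * (‖(r x)⁻¹ • D r x‖ ^ 2 * f x ^ 2) := by
      rw [← sq_abs (f x)]
      nlinarith [sq_nonneg (‖D f x‖ - |f x|),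
        sq_nonneg (‖D f x‖ + |f x| - |f x| * ‖(r x)⁻¹ • D r x‖)]
    have h6 : δ * Real.cos (u x) ^ 2 ≤ δ := mul_le_of_le_one_right hδ (Real.cos_sq_le_one _)
    have h7 : ((1 / 2) * ‖D u x‖ ^ 2 + δ * Real.cos (u x) ^ 2) * w n x ^ 2 ≤
        (‖D u x‖ ^ 2 + δ) * f x ^ 2 :=
      mul_le_mul (by nlinarith [sq_nonneg ‖D u x‖]) h2 (sq_nonneg _) (by positivity)
    have h8 : 0 ≤ ((1 / 2) * ‖D u x‖ ^ 2 + δ * Real.cos (u x) ^ 2) * w n x ^ 2 := by positivity
    have h9 : 0 ≤ (‖D u x‖ ^ 2 + δ) * f x ^ 2 := by positivity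
    have h10 : 0 ≤ ‖(r x)⁻¹ • D r x‖ ^ 2 * f x ^ 2 := by positivity
    rw [Real.norm_eq_abs, abs_le]
    constructor <;> nlinarith [sq_nonneg ‖D (w n) x - w n x • (r x)⁻¹ • D r x‖,
      sq_nonneg ‖D f x‖, sq_nonneg (f x)]
  · filter_upwards [w5] with x h1
    exact (((h1.sub ((w3 x).smul_const _)).norm.pow 2).const_mul _).sub
      (((w3 x).pow 2).const_mul _)

end

end Crest.Agent.R335
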