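import Crest.Agent.R335.U12
import Crest.Agent.R335.U10
import Crest.Agent.R335.U7
import Crest.Agent.R335.F12

set_option autoImplicit false

open MeasureTheory Set Filter Topology Metric
open scoped Gradient ContDiff RealInnerProductSpace ENNReal

namespace Crest.Agent.R335

noncomputable section

theorem SD.mono {o : OD} {m : MD} {Λ Λ' R η0 η0' η1 ε : ℝ} {η Dt Gt : E → ℝ}
    (h : SD o m Λ R η0 η1 ε η Dt Gt) (h1 : Λ ≤ Λ') (h2 : η0 ≤ η0') :
    SD o m Λ' R η0' η1 ε η Dt Gt := by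
  have hΛ : 0 < Λ := zero_lt_one.trans_le h.Λ1
  have hp : ∀ x, 0 < η x * Dt x := fun x => mul_pos (h.pos x).1 (h.pos x).2
  refine ⟨h.Λ1.trans h1, h.η_c, h.Dt_c, h.lat, h.pos, fun x hx => ?_, fun x hx => ?_, ?_, h.Gt_r,
    ?_, h.ν_bd, ?_, h.ef, h.pot, fun ℓ a b w hw => ?_, h.low⟩
  · obtain ⟨a, b, c, d⟩ := h.η_bd x hx
    have := mul_le_mul_of_nonneg_right h1 (h.pos x).1.le
    exact ⟨a.trans h2, b.trans this, c.trans this, d⟩
  · obtain ⟨a, b, c⟩ := h.f_bd x hx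
    have h0 : 0 ≤ |x 2| * Dt x := mul_nonneg (abs_nonneg _) (h.pos x).2.le
    exact ⟨(div_le_div_of_nonneg_left h0 hΛ h1).trans a,
      b.trans (mul_le_mul_of_nonneg_right h1 h0), c⟩
  · filter_upwards [h.df] with x hx hs
    obtain ⟨a, b, c⟩ := hx hs
    have h0 := (h.pos x).2.le
    refine ⟨a.trans (mul_le_mul_of_nonneg_right h1 h0),
      b.trans (mul_le_mul_of_nonneg_right h1 (mul_nonneg (Real.sqrt_nonneg _) h0)), fun hz => ?_⟩
    exact (div_le_div_of_nonneg_left h0 hΛ h1).trans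
      (c (hz.trans (one_div_le_one_div_of_le hΛ h1)))
  · filter_upwards [h.Gt_bd] with x hx hs
    obtain ⟨a, b, c, d⟩ := hx hs
    exact ⟨(div_le_div_of_nonneg_left (hp x).le hΛ h1).trans a,
      b.trans (mul_le_mul_of_nonneg_right h1 (hp x).le), c, d⟩
  · refine WSub.mono h.sub subset_rfl (fun K hK hs => ?_) (Eventually.of_forall fun x _ => ?_)
    · have a := h.sub.li K hK hs
      have hc : Continuous fun x => (Λ' - Λ) * (η x * Dt x) :=
        continuous_const.mul (h.η_c.continuous.mul h.Dt_c)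
      have b : IntegrableOn (fun x => (Λ' - Λ) * (η x * Dt x)) K volume :=
        hc.continuousOn.integrableOn_compact hK
      refine (a.add b).congr (Eventually.of_forall fun x => ?_)
      simp only [Pi.add_apply]
      ring
    · have := mul_le_mul_of_nonneg_right h1 (hp x).le
      linarith
  · refine (h.hardy ℓ a b w hw).trans (mul_le_mul_of_nonneg_right h1 ?_)
    exact integral_nonneg fun x => by positivity

theorem U13_slab_mono {r u b : E → ℝ} {Λ Λ' R : ℝ} (h : Slab r u b Λ R) (h0 : 0 < Λ) (h1 : Λ ≤ Λ')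
    (hb : ∀ x, 0 ≤ b x) : Slab r u b Λ' R := by
  filter_upwards [h] with x hx a c
  exact (div_le_div_of_nonneg_left (hb x) h0 h1).trans
    (hx (a.trans_le (one_div_le_one_div_of_le h0 h1)) c)

theorem U13_arctan (s t : ℝ) : |Real.arctan s - Real.arctan t| ≤ |s - t| := by
  have h : LipschitzWith 1 Real.arctan := by
    refine lipschitzWith_of_nnnorm_deriv_le Real.differentiable_arctan fun x => ?_
    rw [Real.deriv_arctan, ← NNReal.coe_le_coe, coe_nnnorm, Real.norm_eq_abs,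
      abs_of_nonneg (by positivity), NNReal.coe_one, div_le_one (by positivity)]
    nlinarith [sq_nonneg x]
  have := h.dist_le_mul s t
  simpa [Real.dist_eq] using this

theorem U13_quot {f G u g a C e : ℝ} (ha : 0 < a) (hg : a ≤ g) (hu : |u| ≤ C) (h1 : |f - u| ≤ e)
    (h2 : |G - g| ≤ e) (he : e ≤ a / 2) : |f / G - u / g| ≤ e * (2 / a + 2 * C / a ^ 2) := by
  have hG : a / 2 ≤ G := by have := (abs_le.1 h2).1; linarith
  have hG0 : 0 < G := by linarith
  have hg0 : 0 < g := by linarith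
  have he0 : 0 ≤ e := (abs_nonneg _).trans h1
  have hC : 0 ≤ C := (abs_nonneg _).trans hu
  have e1 : f / G - u / g = (f - u) / G + u * (g - G) / (G * g) := by
    field_simp
    ring
  rw [e1]
  refine (abs_add_le _ _).trans ?_
  rw [abs_div, abs_div, abs_of_pos hG0, abs_of_pos (mul_pos hG0 hg0), abs_mul, abs_sub_comm g G]
  have a1 : |f - u| / G ≤ e / (a / 2) := div_le_div₀ he0 h1 (half_pos ha) hG
  have a2 : |u| * |G - g| / (G * g) ≤ C * e / (a / 2 * a) :=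
    div_le_div₀ (mul_nonneg hC he0) (mul_le_mul hu h2 (abs_nonneg _) hC) (by positivity)
      (mul_le_mul hG hg ha.le hG0.le)
  have a3 : e / (a / 2) + C * e / (a / 2 * a) = e * (2 / a + 2 * C / a ^ 2) := by
    field_simp
  linarith

theorem U13_sqrt (o : OD) (c A ε : ℝ) (hε : 0 < ε) : Sm o c fun m => A * √m.l ≤ ε := by
  have hA : 0 < |A| + 1 := by positivity
  refine (Sm.le o c (a := (ε / (|A| + 1)) ^ 2) (by positivity)).mono fun m _ h => ?_
  have h1 : √m.l ≤ ε / (|A| + 1) := Real.sqrt_le_iff.2 ⟨by positivity, h⟩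
  have h2 : A * √m.l ≤ (|A| + 1) * √m.l :=
    mul_le_mul_of_nonneg_right ((le_abs_self A).trans (by linarith)) (Real.sqrt_nonneg _)
  rw [le_div_iff₀ hA] at h1
  linarith

theorem U13_delta {o : OD} (ho : o.OK) {m : MD} {u : E → ℝ} {δ : ℝ} (h : AU o m o.δ0 u δ) :
    0 ≤ δ ∧ δ ≤ 2 * o.δ0 ∧ δ ≤ 1 := by
  have h1 := abs_le.1 h.δb
  have h2 : o.δ0 ≤ 1 / 2 := by
    refine ho.δ.2.trans ?_
    have h3 : 100 ≤ o.d := ho.C0.1.trans ho.C0.2.2
    have h4 := Real.add_one_le_exp (o.d / 4)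
    rw [Real.exp_neg, inv_eq_one_div]
    exact one_div_le_one_div_of_le (by norm_num) (by linarith)
  exact ⟨by linarith, by linarith, by linarith⟩

theorem U13_away {d : ℝ} (hd : 100 ≤ d) {x : E} (hx : |x 2| < 1) :
    1 / 6 ≤ ‖x - d • ez‖ ∧ 1 / 6 ≤ ‖x + d • ez‖ := by
  have h1 : |(x - d • ez) 2| ≤ ‖x - d • ez‖ := by
    simpa using PiLp.norm_apply_le (x - d • ez) 2
  have h2 : |(x + d • ez) 2| ≤ ‖x + d • ez‖ := by
    simpa using PiLp.norm_apply_le (x + d • ez) 2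
  have e1 : (x - d • ez) 2 = x 2 - d := by simp [S07.ez_two]
  have e2 : (x + d • ez) 2 = x 2 + d := by simp [S07.ez_two]
  rw [e1] at h1
  rw [e2] at h2
  have h3 := abs_lt.1 hx
  have h4 := neg_abs_le (x 2 - d)
  have h5 := le_abs_self (x 2 + d)
  constructor <;> linarith [h3.1, h3.2]

theorem U_slab : ∃ N N' : ℕ, N ≤ N' ∧ Lg fun o => ∀ c : ℝ, ∃ R η0 η1 : ℝ, 0 ≤ R ∧
    η0 * (10 * (o.L ^ N) ^ 2) ≤ 1 ∧ 1 ≤ N ∧ SmA o c fun m u _ => ∃ ε η Dt Gt,
      SD o m (o.L ^ N) R η0 η1 ε η Dt Gt ∧ Slab m.r u (fun x => η x * Dt x) (o.L ^ N') R := by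
  obtain ⟨N1, hF⟩ := F_SD
  obtain ⟨N2, A, hU⟩ := U11
  refine ⟨N1 + 1, (N1 + 1) * (N2 + 1), Nat.le_mul_of_pos_right _ (Nat.succ_pos _),
    (hF.and (U8.and (num_good 0 (max A 1)))).mono fun o ho hh c => ?_⟩
  obtain ⟨hF, h8, hA, hL, -, -⟩ := hh
  have hL1 : 1 ≤ o.L := ((le_max_right _ _).trans hA).trans hL
  set Λ : ℝ := o.L ^ (N1 + 1) with hΛ
  have hΛ1 : 1 ≤ Λ := one_le_pow₀ hL1
  have hΛL : o.L ≤ Λ := le_self_pow₀ hL1 (Nat.succ_ne_zero _)
  have hΛ0 : 0 < Λ := zero_lt_one.trans_le hΛ1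
  set η0 : ℝ := min (1 / Λ ^ N2) (1 / (10 * Λ ^ 2)) with hη0
  have hη0' : 0 < η0 := lt_min (by positivity) (by positivity)
  obtain ⟨R, η1, hR, hη1, hS⟩ := hF c η0 0 hη0'
  refine ⟨R, η0, η1, hR, ?_, by omega, ?_⟩
  · exact (le_div_iff₀ (by positivity)).1 (min_le_right _ _)
  obtain ⟨x0, -, hx0⟩ := (isCompact_closedBall (0 : E) (R + 2)).exists_isMinOn
    ⟨0, mem_closedBall_self (by linarith)⟩ ho.cg.continuousOn
  set a : ℝ := o.g0 x0 with ha
  have ha0 : 0 < a := ho.g_pos x0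
  have hC0 : 0 < o.C0 := by linarith [ho.C0.1]
  set K : ℝ := 2 / a + 2 * o.C0 / a ^ 2 with hK
  have hK0 : 0 < K := by positivity
  set e : ℝ := min (a / 2) (η1 / 2 / K) with he
  have he0 : 0 < e := lt_min (by positivity) (by positivity)
  have heK : e * K ≤ η1 / 2 := (le_div_iff₀ hK0).1 (min_le_right _ _)
  refine ((((hS e he0).and (U13_sqrt o c c e he0)).smA.and
    ((h8 c (R + 2) (η1 / 2) (half_pos hη1)).and (SmA.le o c ho.δ.1))).mono ?_)
  rintro m u δ hm - ⟨⟨⟨η, Dt, Gt, hsd⟩, hce⟩, hu, hau⟩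
  obtain ⟨d0, -, d1⟩ := U13_delta ho hau
  have hsd1 : SD o m Λ R η0 η1 e η Dt Gt :=
    hsd.mono (pow_le_pow_right₀ hL1 (Nat.le_succ _)) le_rfl
  refine ⟨e, η, Dt, Gt, hsd1, ?_⟩
  have key := hU hm hau.ang (((le_max_left _ _).trans hA).trans (hL.trans hΛL)) d0 d1
    (hsd1.mono le_rfl (min_le_left _ _)) (by
      filter_upwards [hu, hsd.Gt_bd] with x h1 h2 hs hz hx
      have hn : ‖x‖ ≤ R + 2 := by
        have e1 := norm_sq_hor x
        have e2 : |x 2| < 1 := hs.1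
        have e3 := sq_abs (x 2)
        have e4 := norm_nonneg (hor x)
        have e5 := abs_nonneg (x 2)
        refine abs_le_of_sq_le_sq' ?_ (by linarith) |>.2
        nlinarith
      obtain ⟨w1, w2⟩ := U13_away (ho.C0.1.trans ho.C0.2.2) hs.1
      have b1 := (abs_le.1 (h1 hn w1 w2)).2
      have b2 : η1 ≤ η x := (hsd.η_bd x hs).2.2.2 (by linarith)
      have b3 : a ≤ √2 * o.g0 x := by
        have : a ≤ o.g0 x := hx0 (mem_closedBall_zero_iff.2 hn)
        have s2 : (1 : ℝ) ≤ √2 := Real.one_le_sqrt.2 (by norm_num)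
        nlinarith
      have b4 := U13_quot ha0 b3 (ho.bd x).2 ((hm.close.1 x).1.trans hce) (h2 hs).2.2.2
        (min_le_left _ _)
      have b5 := (abs_le.1 ((U13_arctan _ _).trans b4)).1
      simp only [OD.θ0] at b1
      linarith)
  refine U13_slab_mono key (by positivity) ?_
    fun x => (mul_pos (hsd.pos x).1 (hsd.pos x).2).le
  rw [pow_mul]
  exact pow_le_pow_right₀ hΛ1 (Nat.le_succ _)

theorem U13_int1 {φ w : E → ℝ} (hφ : MemLp φ 2 volume) (hw : AEStronglyMeasurable w volume)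
    (hb : Bd w) : Integrable fun x => φ x ^ 2 * w x ^ 2 := by
  obtain ⟨M, hM⟩ := hb
  refine (hφ.integrable_sq.mul_const (M ^ 2)).mono'
    ((hφ.1.pow 2).mul (hw.pow 2)) ?_
  filter_upwards [hM] with x hx
  rw [Real.norm_eq_abs, abs_of_nonneg (by positivity)]
  refine mul_le_mul_of_nonneg_left ?_ (sq_nonneg _)
  rw [← sq_abs]
  exact pow_le_pow_left₀ (abs_nonneg _) hx 2

theorem U13_int2 {φ : E → ℝ} {X : E → E} (hφ : AEStronglyMeasurable φ volume) (hb : Bd φ)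
    (hX : MemLp X 2 volume) : Integrable fun x => φ x ^ 2 * ‖X x‖ ^ 2 := by
  have := U13_int1 hX.norm hφ hb
  exact this.congr (Eventually.of_forall fun x => mul_comm _ _)

theorem U13_step {φ y : E → ℝ} {R P₁ a t : ℝ} (hφ : MemLp φ 2 volume) (hb : Bd φ) (hR : 0 ≤ R)
    (h1 : 1 ≤ P₁)
    (hfar : ∀ y, TF {x | R < ‖x‖} y → Ev y →
      ∫ x, φ x ^ 2 * y x ^ 2 ≤ P₁ * ∫ x, φ x ^ 2 * ‖D y x‖ ^ 2)
    (hy : TF univ y) (he : Ev y) (ht : R + 3 ≤ t) :
    (∫ x in closedBall (0 : E) t, φ x ^ 2 * (y x - a) ^ 2) -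
        ∫ x in ball (0 : E) (R + 3), φ x ^ 2 * (y x - a) ^ 2 ≤
      P₁ * (2 * (∫ x, φ x ^ 2 * ‖D y x‖ ^ 2) + 64 / t ^ 2 * (∫ x, φ x ^ 2 * (y x - a) ^ 2) +
        16 * ∫ x in ball (0 : E) (R + 3), φ x ^ 2 * (y x - a) ^ 2) := by
  have ht0 : 0 < t := by linarith
  obtain ⟨j, j1, -, j2, j3, j4, j5, j6⟩ :=
    exists_cutoff (0 : E) (r := R + 1 / 2) (s := 2) (by linarith) (by norm_num)
  obtain ⟨z, z1, -, z2, z3, z4, z5, z6⟩ := exists_cutoff (0 : E) (r := t) (s := t) ht0.le ht0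
  simp only [sub_zero] at j3 j4 z3 z4
  obtain ⟨L, hL, -⟩ := exists_Riso
  have jc : ContDiff ℝ 1 j := j1.of_le (by exact_mod_cast le_top)
  have zc : ContDiff ℝ 1 z := z1.of_le (by exact_mod_cast le_top)
  have hχ : ContDiff ℝ 1 fun x => z x - j x := zc.sub jc
  have hw : Bl fun x => y x - a := hy.bl.sub (bl_c1 contDiff_const)
  have hwb : Bd fun x => y x - a := by
    obtain ⟨M, hM⟩ := hy.bd
    refine ⟨M + |a|, hM.mono fun x hx => ?_⟩
    exact (abs_sub _ _).trans (by linarith)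
  have hf := U13_int1 hφ hw.hl.aesm hwb
  have hX := U13_int2 hφ.1 hb hy.h1.dl2
  have htf : TF {x : E | R < ‖x‖} fun x => (z x - j x) * (y x - a) := by
    refine ((bl_c1 hχ).mul hw).1.tf ⟨closedBall 0 (t + t) ∩ {x | R + 1 / 2 ≤ ‖x‖}, ?_, ?_, ?_⟩
    · exact (isCompact_closedBall _ _).inter_right (isClosed_le continuous_const continuous_norm)
    · intro x hx
      have : R + 1 / 2 ≤ ‖x‖ := hx.2
      show R < ‖x‖
      linarith
    · refine Eventually.of_forall fun x hx => ?_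
      rw [mem_inter_iff, not_and_or] at hx
      show (z x - j x) * (y x - a) = 0
      rcases hx with hx | hx
      · have : t + t < ‖x‖ := by simpa using hx
        rw [z4 x this.le, j4 x (by linarith)]
        simp
      · have : ‖x‖ < R + 1 / 2 := by simpa using hx
        rw [z3 x (by linarith), j3 x this.le]
        simp
  have hev : Ev fun x => (z x - j x) * (y x - a) := by
    filter_upwards [he] with x hx
    rw [hx, ← hL, z6 L (map_zero _), j6 L (map_zero _)]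
  have key := hfar _ htf hev
  have hg : ∀ x, ‖∇ (fun x => z x - j x) x‖ ^ 2 ≤
      32 / t ^ 2 + (ball (0 : E) (R + 3)).indicator (fun _ => (8 : ℝ)) x := by
    intro x
    have e1 : ‖∇ (fun x => z x - j x) x‖ ≤ ‖∇ z x‖ + ‖∇ j x‖ := by
      rw [s05_norm_grad, s05_norm_grad, s05_norm_grad,
        fderiv_fun_sub (zc.differentiable one_ne_zero x) (jc.differentiable one_ne_zero x)]
      exact norm_sub_le _ _
    have e2 : ‖∇ z x‖ ^ 2 ≤ 16 / t ^ 2 := by
      have := pow_le_pow_left₀ (norm_nonneg _) (z5 x) 2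
      rw [div_pow] at this
      norm_num at this ⊢
      exact this
    have e3 : 2 * ‖∇ j x‖ ^ 2 ≤ (ball (0 : E) (R + 3)).indicator (fun _ => (8 : ℝ)) x := by
      by_cases hx : x ∈ ball (0 : E) (R + 3)
      · rw [indicator_of_mem hx]
        have := j5 x
        nlinarith [norm_nonneg (∇ j x)]
      · rw [indicator_of_notMem hx]
        have hx' : R + 3 ≤ ‖x‖ := by simpa using hx
        have : j =ᶠ[𝓝 x] fun _ => 0 := by
          have ho : IsOpen {x : E | R + 1 / 2 + 2 < ‖x‖} := isOpen_lt continuous_const continuous_norm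
          filter_upwards [ho.mem_nhds (show R + 1 / 2 + 2 < ‖x‖ by linarith)] with x' hx'
          exact j4 x' (le_of_lt hx')
        rw [s05_norm_grad, this.fderiv_eq]
        simp
    have e4 := pow_le_pow_left₀ (norm_nonneg _) e1 2
    have e5 : 32 / t ^ 2 = 2 * (16 / t ^ 2) := by ring
    nlinarith [sq_nonneg (‖∇ z x‖ - ‖∇ j x‖)]
  have hB := hf.indicator (measurableSet_ball (x := (0 : E)) (ε := R + 3))
  have hC := hf.indicator (measurableSet_closedBall (x := (0 : E)) (ε := t))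
  have up : ∫ x, φ x ^ 2 * ‖D (fun x => (z x - j x) * (y x - a)) x‖ ^ 2 ≤
      2 * (∫ x, φ x ^ 2 * ‖D y x‖ ^ 2) + 64 / t ^ 2 * (∫ x, φ x ^ 2 * (y x - a) ^ 2) +
        16 * ∫ x in ball (0 : E) (R + 3), φ x ^ 2 * (y x - a) ^ 2 := by
    have hS : Integrable fun x => 2 * (φ x ^ 2 * ‖D y x‖ ^ 2) +
      64 / t ^ 2 * (φ x ^ 2 * (y x - a) ^ 2) := (hX.const_mul _).add (hf.const_mul _)
    rw [← integral_indicator measurableSet_ball, ← integral_const_mul, ← integral_const_mul,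
      ← integral_const_mul, ← integral_add (hX.const_mul _) (hf.const_mul _),
      ← integral_add hS (hB.const_mul _)]
    refine integral_mono_ae (U13_int2 hφ.1 hb htf.h1.dl2) (hS.add (hB.const_mul _)) ?_
    filter_upwards [D_mul_c1 hw.hl hχ, (s03_shift hy.bl.hl a).2] with x e1 e2
    rw [e1, e2]
    have a1 : |z x - j x| ≤ 1 := abs_le.2 ⟨by linarith [(z2 x).1, (j2 x).2],
      by linarith [(z2 x).2, (j2 x).1]⟩
    have a2 : ‖(z x - j x) • D y x + (y x - a) • ∇ (fun x => z x - j x) x‖ ≤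
        ‖D y x‖ + |y x - a| * ‖∇ (fun x => z x - j x) x‖ := by
      refine (norm_add_le _ _).trans ?_
      rw [norm_smul, norm_smul, Real.norm_eq_abs, Real.norm_eq_abs]
      have := mul_le_mul_of_nonneg_right a1 (norm_nonneg (D y x))
      linarith
    have a3 := pow_le_pow_left₀ (norm_nonneg _) a2 2
    have a4 : (|y x - a| * ‖∇ (fun x => z x - j x) x‖) ^ 2 ≤ (y x - a) ^ 2 *
        (32 / t ^ 2 + (ball (0 : E) (R + 3)).indicator (fun _ => (8 : ℝ)) x) := by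
      rw [mul_pow, sq_abs]
      exact mul_le_mul_of_nonneg_left (hg x) (sq_nonneg _)
    have a5 : ‖(z x - j x) • D y x + (y x - a) • ∇ (fun x => z x - j x) x‖ ^ 2 ≤
        2 * ‖D y x‖ ^ 2 + 2 * ((y x - a) ^ 2 *
        (32 / t ^ 2 + (ball (0 : E) (R + 3)).indicator (fun _ => (8 : ℝ)) x)) := by
      nlinarith [sq_nonneg (‖D y x‖ - |y x - a| * ‖∇ (fun x => z x - j x) x‖)]
    refine (mul_le_mul_of_nonneg_left a5 (sq_nonneg (φ x))).trans (le_of_eq ?_)
    by_cases hx : x ∈ ball (0 : E) (R + 3)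
    · simp only [indicator_of_mem hx]
      ring
    · simp only [indicator_of_notMem hx]
      ring
  have low : (∫ x in closedBall (0 : E) t, φ x ^ 2 * (y x - a) ^ 2) -
        ∫ x in ball (0 : E) (R + 3), φ x ^ 2 * (y x - a) ^ 2 ≤
      ∫ x, φ x ^ 2 * ((z x - j x) * (y x - a)) ^ 2 := by
    rw [← integral_indicator measurableSet_ball, ← integral_indicator measurableSet_closedBall,
      ← integral_sub hC hB]
    refine integral_mono (hC.sub hB) (U13_int1 hφ htf.bl.hl.aesm htf.bd) fun x => ?_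
    have p1 : 0 ≤ φ x ^ 2 * (y x - a) ^ 2 := by positivity
    have p2 : 0 ≤ φ x ^ 2 * ((z x - j x) * (y x - a)) ^ 2 := by positivity
    by_cases hx : x ∈ ball (0 : E) (R + 3)
    · have := indicator_le_self' (s := closedBall (0 : E) t)
        (f := fun x => φ x ^ 2 * (y x - a) ^ 2) (fun x _ => by positivity) x
      simp only [indicator_of_mem hx]
      linarith
    · by_cases hx2 : x ∈ closedBall (0 : E) t
      · have hx' : R + 3 ≤ ‖x‖ := by simpa using hx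
        simp only [indicator_of_notMem hx, indicator_of_mem hx2]
        rw [z3 x (by simpa using hx2), j4 x (by linarith)]
        simp
      · simp only [indicator_of_notMem hx, indicator_of_notMem hx2]
        linarith
  exact low.trans (key.trans (mul_le_mul_of_nonneg_left up (by linarith)))

theorem poi_glue {φ : E → ℝ} {R P₁ P₂ η : ℝ} (hφ : MemLp φ 2 volume) (hb : Bd φ) (hR : 0 ≤ R)
    (h1 : 1 ≤ P₁) (h2 : 1 ≤ P₂) (hη : 0 ≤ η) (hη' : η * (100 * P₁) ≤ 1)
    (hfar : ∀ y, TF {x | R < ‖x‖} y → Ev y → ∫ x, φ x ^ 2 * y x ^ 2 ≤ P₁ * ∫ x, φ x ^ 2 * ‖D y x‖ ^ 2)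
    (hcore : ∀ y, TF univ y → Ev y → ∃ a : ℝ, ∫ x in ball (0 : E) (R + 3), φ x ^ 2 * (y x - a) ^ 2 ≤
      P₂ * (∫ x, φ x ^ 2 * ‖D y x‖ ^ 2) + η * ∫ x, φ x ^ 2 * (y x - a) ^ 2) :
    Poi φ (100 * P₁ * P₂) := by
  intro y hy he
  obtain ⟨a, ha⟩ := hcore y hy he
  refine ⟨a, ?_⟩
  have hw : Bl fun x => y x - a := hy.bl.sub (bl_c1 contDiff_const)
  have hwb : Bd fun x => y x - a := by
    obtain ⟨M, hM⟩ := hy.bd
    refine ⟨M + |a|, hM.mono fun x hx => ?_⟩
    exact (abs_sub _ _).trans (by linarith)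
  have hf := U13_int1 hφ hw.hl.aesm hwb
  have l1 : Tendsto (fun n : ℕ => ∫ x in closedBall (0 : E) n, φ x ^ 2 * (y x - a) ^ 2) atTop
      (𝓝 (∫ x, φ x ^ 2 * (y x - a) ^ 2)) := by
    have := tendsto_setIntegral_of_monotone (μ := volume) (s := fun n : ℕ => closedBall (0 : E) n)
      (f := fun x => φ x ^ 2 * (y x - a) ^ 2) (fun _ => measurableSet_closedBall)
      (fun i k h => closedBall_subset_closedBall (by exact_mod_cast h)) hf.integrableOn
    rwa [iUnion_closedBall_nat, Measure.restrict_univ] at this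
  have l2 : Tendsto (fun n : ℕ => 64 / (n : ℝ) ^ 2) atTop (𝓝 0) :=
    tendsto_const_nhds.div_atTop
      ((tendsto_pow_atTop two_ne_zero).comp tendsto_natCast_atTop_atTop)
  have key := le_of_tendsto_of_tendsto (l1.sub_const (∫ x in ball (0 : E) (R + 3),
      φ x ^ 2 * (y x - a) ^ 2))
    ((((l2.mul_const (∫ x, φ x ^ 2 * (y x - a) ^ 2)).const_add
      (2 * ∫ x, φ x ^ 2 * ‖D y x‖ ^ 2)).add_const
      (16 * ∫ x in ball (0 : E) (R + 3), φ x ^ 2 * (y x - a) ^ 2)).const_mul P₁)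
    (by
      filter_upwards [tendsto_natCast_atTop_atTop.eventually_ge_atTop (R + 3)] with n hn
      exact U13_step hφ hb hR h1 hfar hy he hn)
  have hX : 0 ≤ ∫ x, φ x ^ 2 * ‖D y x‖ ^ 2 := integral_nonneg fun x => by positivity
  have hT : 0 ≤ ∫ x, φ x ^ 2 * (y x - a) ^ 2 := integral_nonneg fun x => by positivity
  generalize ∫ x, φ x ^ 2 * ‖D y x‖ ^ 2 = X at *
  generalize ∫ x, φ x ^ 2 * (y x - a) ^ 2 = T at *
  generalize ∫ x in ball (0 : E) (R + 3), φ x ^ 2 * (y x - a) ^ 2 = I at *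
  have b1 : (1 + 16 * P₁) * I ≤ 17 * P₁ * (P₂ * X + η * T) := by
    have c1 := mul_le_mul_of_nonneg_left ha (by linarith : 0 ≤ 1 + 16 * P₁)
    have c2 : 0 ≤ P₂ * X + η * T := by
      have : 0 ≤ P₂ * X := mul_nonneg (by linarith) hX
      have : 0 ≤ η * T := mul_nonneg hη hT
      linarith
    nlinarith
  have b2 := mul_le_mul_of_nonneg_right hη' hT
  have b3 : P₁ * X ≤ P₁ * P₂ * X := by
    have : 0 ≤ P₁ * X := mul_nonneg (by linarith) hX
    nlinarith
  have b4 : 0 ≤ P₁ * X := mul_nonneg (by linarith) hX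
  nlinarith

theorem U_cert : Lg fun o => ∀ c : ℝ, SmA o c fun m u δ => 0 ≤ δ ∧ Cert m.r u δ := by
  obtain ⟨N, N', hN, hS⟩ := U_slab
  obtain ⟨M, A, hU⟩ := U12
  refine (hS.and (U10b.and ((num_good (N' * M + 8) 400).and (Lg.ge A)))).mono fun o ho hh c => ?_
  obtain ⟨hS, h10, ⟨hd, hL, hδ, -⟩, hA⟩ := hh
  obtain ⟨R, η0, η1, hR, h0, hN1, hS⟩ := hS c
  have hL1 : 1 ≤ o.L := by linarith
  have hP : 1 ≤ (o.L ^ N') ^ M := one_le_pow₀ (one_le_pow₀ hL1)
  refine (hS.and ((h10 c (R + 3 + 3) (1 / (100 * (o.L ^ N') ^ M)) (by positivity)).and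
    (SmA.le o c ho.δ.1))).mono ?_
  rintro m u δ hm - ⟨⟨ε, η, Dt, Gt, hsd, hsl⟩, hcore, hau⟩
  obtain ⟨d0, d1, -⟩ := U13_delta ho hau
  refine ⟨d0, cert_of_poi hau.ang d0 (P := 100 * (o.L ^ N') ^ M * o.d ^ 8) ?_ ?_⟩
  · refine poi_glue (R := R + 3) (η := 1 / (100 * (o.L ^ N') ^ M)) hau.ang.hφ.l2 ?_ (by linarith) hP
      (one_le_pow₀ (by linarith)) (by positivity) (le_of_eq (by field_simp)) ?_ hcore
    · obtain ⟨B, hB⟩ := hau.ang.bd
      refine ⟨B, hB.mono fun x hx => ?_⟩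
      rw [abs_mul]
      exact (mul_le_of_le_one_right (abs_nonneg _) (Real.abs_cos_le_one _)).trans hx
    · exact hU hm hau.ang ((hA.trans hL).trans (le_self_pow₀ hL1 (by omega)))
        (pow_le_pow_right₀ hL1 hN) d0 hsd h0 hsl
  · have e1 : (o.L ^ N') ^ M * o.d ^ 8 ≤ o.L ^ (N' * M + 8) := by
      rw [pow_add, pow_mul]
      exact mul_le_mul_of_nonneg_left (pow_le_pow_left₀ (by linarith) hL 8) (by positivity)
    have e2 : 0 ≤ (o.L ^ N') ^ M * o.d ^ 8 := by positivity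
    have e3 := ho.δ.1
    have e4 := mul_le_mul d1 e1 e2 (by linarith)
    nlinarith

end

end Crest.Agent.R335
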