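import Crest.Agent.R335.T1
import Crest.Agent.R335.T2
import Crest.Agent.R335.T3
import Crest.Agent.R335.T5
import Crest.Agent.R335.U13

set_option autoImplicit false

open MeasureTheory Set Filter Topology Metric
open scoped Gradient ContDiff RealInnerProductSpace ENNReal

namespace Crest.Agent.R335

noncomputable section

theorem T_low : Lg fun o => ∀ c : ℝ, SmA o c fun _ u _ => ∀ s ε : ℝ, 0 < s → 0 < ε →
    ∃ ρ : ℝ, ∀ᵐ x, ρ ≤ ‖x‖ → s ≤ x 2 → Real.pi / 2 - ε ≤ u x := by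
  refine (((F_FD.and T1b).and T1c).and U9b).mono fun o ho h c => ?_
  obtain ⟨⟨⟨h1, h2⟩, h3⟩, h4⟩ := h
  obtain ⟨Γ, s1⟩ := h1 c
  obtain ⟨ρ, s, K0, s0, K00, s2⟩ := h2 c Γ
  have s3 := h3 c Γ
  obtain ⟨a, a0, s4⟩ := h4 c (ρ + 1) (s / 2) (by linarith)
  have δ0 := ho.δ.1
  refine ((((s1.and s2).and s3).smA.and s4).and (SmA.le o c (half_pos δ0))).mono
    fun m u δ hm _ h => ?_
  obtain ⟨⟨⟨⟨hF, h2⟩, h3⟩, h4⟩, hU⟩ := h
  have hδ : o.δ0 / 2 ≤ δ := by linarith [(abs_le.1 hU.δb).1]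
  have Γ1 := hF.Γ1
  obtain ⟨J, hJ⟩ : ∃ J, J = 1 + (ρ + 1) ^ 2 := ⟨_, rfl⟩
  have J0 : 0 < J := by rw [hJ]; positivity
  obtain ⟨K, hK⟩ : ∃ K, K = 1 + K0 + Γ * J * (1 + 2 / a) := ⟨_, rfl⟩
  have q0 : 0 < Γ * J * (1 + 2 / a) := by positivity
  have K1 : 1 ≤ K := by linarith
  have Kp : 0 < K := by linarith
  have hf : ∀ x ∈ Hp, 0 ≤ m.f x := fun x hx => by
    have := (radb_facts ((2 - 2 * m.l) / m.κ - 2) m.κ 0 x).1
    have hx' : 0 ≤ x 2 := hx
    exact le_trans (div_nonneg (mul_nonneg hx' this.le) (by linarith)) (hF.f_bd x hx).1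
  obtain ⟨t1, t2, t3, t4⟩ := T1a (o := o) hm Kp hf
  obtain ⟨c1, c2, c3, c4⟩ := h3 hF K K1
  have qp : ∀ x, 0 < m.qT x := fun x => (radb_facts _ _ _ x).1
  have xc : Continuous (m.xT K) :=
    hm.cf.1.div (continuous_const.mul (radb_smooth _ _ _).continuous)
      fun x => (mul_pos Kp (qp x)).ne'
  have x0 : ∀ x ∈ Hp, 0 ≤ m.xT K x := fun x hx => div_nonneg (hf x hx) (mul_pos Kp (qp x)).le
  have key := T2 (θ := m.θT K) (Ω := {x | ρ < ‖x‖} ∪ {x | x 2 < s})
    (C := {x | ρ + 1 ≤ ‖x‖} ∪ {x | x 2 ≤ s / 2})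
    (μ := fun x => δ * m.r x ^ 2 * Real.sin (m.θT K x) * Real.cos (m.θT K x) -
      o.δ0 / 4 * (m.r x ^ 2 * (m.xT K x ^ 2 / (1 + m.xT K x) ^ 3)))
    hU.ang t1 (Eventually.of_forall t3) t2
    (fun x hx => ⟨(c3 x hx).1, (c3 x hx).2.1, fun h => ((c3 x hx).2.2.1 h).2⟩) c1 c2 ?_ ?_ ?_ ?_ ?_
  · intro s' ε hs' hε
    obtain ⟨ρ', h⟩ := c4 s' ε hs' hε
    refine ⟨ρ', ?_⟩
    filter_upwards [key] with x hx h1 h2
    exact (h x h1 h2).trans (hx (show 0 ≤ x 2 by linarith))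
  · simp only [sub_sub_cancel]
    refine t4.mono inter_subset_left (fun C hC hCΩ => ?_) ?_
    · have i1 : IntegrableOn (fun x => m.r x ^ 2) C volume :=
        hU.ang.hr.l2.integrable_sq.integrableOn
      refine Integrable.const_mul ?_ _
      refine Integrable.mul_bdd (c := 1) i1 ?_ ?_
      · exact ((xc.measurable.pow_const 2).div
          ((measurable_const.add xc.measurable).pow_const 3)).aestronglyMeasurable
      · filter_upwards [ae_restrict_mem hC.measurableSet] with x hx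
        have h0 := x0 x (hCΩ hx).1
        rw [Real.norm_of_nonneg (by positivity), div_le_one (by positivity)]
        nlinarith [mul_nonneg h0 h0, mul_nonneg h0 (mul_nonneg h0 h0)]
    · filter_upwards [h2 hF K (by linarith), ae_two_ne] with x hx h2 hxΩ
      exact hx (lt_of_le_of_ne hxΩ.1 h2.symm) hxΩ.2
  · filter_upwards [S04.ae_pos hF.lp] with x hx hz
    obtain ⟨-, -, e1, e2, -⟩ := c3 x hz.le
    have e3 := (e1 hz).1
    have e4 : 0 < m.xT K x ^ 2 / (1 + m.xT K x) ^ 3 := by positivity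
    have e5 : 0 < m.r x ^ 2 := by positivity
    have e6 := mul_le_mul_of_nonneg_left e2 (mul_nonneg (show 0 ≤ δ by linarith) e5.le)
    nlinarith [mul_pos e5 e4]
  · exact (isClosed_le continuous_const continuous_norm).union
      (isClosed_le (by fun_prop) continuous_const)
  · refine union_subset_union (fun x hx => ?_) fun x hx => ?_
    · simp only [mem_ofPred_eq] at hx ⊢; linarith
    · simp only [mem_ofPred_eq] at hx ⊢; linarith
  · filter_upwards [h4] with x hx hp hC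
    simp only [mem_union, mem_ofPred_eq, not_or, not_le] at hC
    refine ((c3 x hp).2.2.2.2.trans ?_).trans (hx hC.1.le hC.2.le)
    have e1 : jb x ^ 2 ≤ J := by
      rw [jb, Real.sq_sqrt (by positivity), hJ]
      nlinarith [norm_nonneg x, hC.1]
    have e2 : Γ * jb x ^ 2 / K ≤ a / (a + 2) := by
      rw [div_le_div_iff₀ Kp (by positivity)]
      have e3 : a * (Γ * J * (1 + 2 / a)) = Γ * J * (a + 2) := by field_simp
      have e4 : Γ * jb x ^ 2 * (a + 2) ≤ Γ * J * (a + 2) := by gcongr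
      nlinarith
    have e5 : (Γ * jb x ^ 2 / K) ^ 2 ≤ (a / (a + 2)) ^ 2 := by gcongr
    have e6 : 2 * (a / (a + 2)) ^ 2 ≤ a := by
      rw [div_pow, ← mul_div_assoc, div_le_iff₀ (by positivity)]
      nlinarith [mul_pos a0 a0, mul_pos a0 (mul_pos a0 a0)]
    linarith
theorem T_noeig : Lg fun o => ∀ c : ℝ, SmA o c fun m u _ => ∀ v, Cls v → ∀ e,
    ¬ Eig v e fun x => m.r x * Real.cos (u x) := by
  obtain ⟨N, N', -, hS⟩ := U_slab
  refine ((hS.and T_low).and F_FD).mono fun o ho h c => ?_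
  obtain ⟨⟨h1, h2⟩, h3⟩ := h
  obtain ⟨R, η0, η1, -, -, -, s1⟩ := h1 c
  obtain ⟨Γ, s3⟩ := h3 c
  have δ0 := ho.δ.1
  refine ((((s3.and (num_kappa o ho c 1 one_pos)).smA.and s1).and (h2 c)).and
    (SmA.le o c (half_pos δ0))).mono fun m u δ hm _ h v hv e he => ?_
  obtain ⟨⟨⟨⟨hF, -, -, k1, -, k2, -⟩, ε, η, Dt, Gt, hD, hs⟩, hc⟩, hU⟩ := h
  have hδ : o.δ0 / 2 ≤ δ := by linarith [(abs_le.1 hU.δb).1]
  obtain ⟨a, a0, ha⟩ := hD.low
  have d0 : 100 ≤ o.d := ho.C0.1.trans ho.C0.2.2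
  have L1 : 1 ≤ o.L ^ N' := one_le_pow₀ (by unfold OD.L; linarith [abs_nonneg (Real.log o.δ0)])
  have L0 : 0 < o.L ^ N' := by linarith
  refine T5 (P := fun x => (1 / 2) * ‖D u x‖ ^ 2 + δ * Real.cos (u x) ^ 2 - o.v x) (κ := m.κ)
    (δ := δ) (a := a / o.L ^ N') (ℓ := 1 / o.L ^ N') (R := R + 1) hU.ang.hφ hv he (by linarith)
    (by linarith) (by positivity) (by positivity) ?_ (fun ε η hε hη => ?_) ?_
  · filter_upwards [T4 (U := fun x => o.v x + m.I) hU.ang hm.ho hv he] with x hx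
    rw [Real.sin_sq] at hx
    linarith
  · obtain ⟨ρ, A, hA, h1, h2⟩ := T3 ho hm hF hU.ang (by linarith) hc (ε / 2) η (half_pos hε) hη
    refine ⟨max ρ (o.d + 4 / ε), A, hA, h1, ?_⟩
    filter_upwards [h2] with x hx hρ hxA
    have e1 := hx (le_of_max_le_left hρ) hxA
    have e2 := le_of_max_le_right hρ
    have e3 : ‖o.d • ez‖ = o.d := by
      rw [norm_smul, Real.norm_of_nonneg (by linarith)]; simp [ez]
    have e4 : ∀ y : E, ‖y‖ = o.d → 1 / ‖x - y‖ ≤ ε / 4 := fun y hy => by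
      have := norm_sub_norm_le x y
      calc 1 / ‖x - y‖ ≤ 1 / (4 / ε) := one_div_le_one_div_of_le (by positivity) (by linarith)
        _ = ε / 4 := by field_simp
    have e5 := e4 _ e3
    have e6 := e4 (-(o.d • ez)) (by rw [norm_neg, e3])
    rw [sub_neg_eq_add] at e6
    simp only [OD.v, vx]
    linarith
  · filter_upwards [hs] with x hx h1 h2
    refine le_trans ?_ (hx h1 h2)
    rw [div_mul_eq_mul_div]
    exact div_le_div_of_nonneg_right
      (ha x ⟨h1.trans_le ((div_le_one L0).2 L1), by linarith⟩) L0.le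

end

end Crest.Agent.R335
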