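import Crest.Agent.R335.Defs6
import Crest.Agent.R335.S12
import Crest.Agent.R335.S11
import Crest.Agent.R335.S07
import Crest.Agent.R335.S06

set_option autoImplicit false

open MeasureTheory Set Filter Topology Metric
open scoped Gradient ContDiff RealInnerProductSpace ENNReal

namespace Crest.Agent.R335

noncomputable section

theorem U1_hyp {u w : E → ℝ} (a : H1 u) (b : H1 w) {t : ℝ} (h0 : 0 ≤ t) (h1 : t ≤ 1) :
    H1 (fun x => √((1 - t) * u x ^ 2 + t * w x ^ 2)) ∧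
      ∀ᵐ x, ‖D (fun x => √((1 - t) * u x ^ 2 + t * w x ^ 2)) x‖ ^ 2 ≤
        (1 - t) * ‖D u x‖ ^ 2 + t * ‖D w x‖ ^ 2 := by
  have h1' : 0 ≤ 1 - t := by linarith
  have e : (fun x => √((1 - t) * u x ^ 2 + t * w x ^ 2)) =
      fun x => √((√(1 - t) * u x) ^ 2 + (√t * w x) ^ 2) := by
    funext x
    rw [mul_pow, mul_pow, Real.sq_sqrt h1', Real.sq_sqrt h0]
  obtain ⟨k1, -, k3⟩ := (a.smul √(1 - t)).hyp (b.smul √t)
  rw [e]
  refine ⟨k1, ?_⟩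
  filter_upwards [k3, D_smul √(1 - t) a.hl, D_smul √t b.hl] with x hx e1 e2
  rw [e1, e2, norm_smul, norm_smul, mul_pow, mul_pow, Real.norm_eq_abs, Real.norm_eq_abs, sq_abs,
    sq_abs, Real.sq_sqrt h1', Real.sq_sqrt h0] at hx
  exact hx

theorem U1_dir_le {u a b : E → ℝ} (hu : H1 u) (ha : H1 a) (hb : H1 b) {s t : ℝ}
    (h : ∀ᵐ x, ‖D u x‖ ^ 2 ≤ s * ‖D a x‖ ^ 2 + t * ‖D b x‖ ^ 2) :
    dir u ≤ s * dir a + t * dir b := by
  have i1 := (S11_int_normsq ha.dl2).const_mul s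
  have i2 := (S11_int_normsq hb.dl2).const_mul t
  rw [dir, dir, dir, ← integral_const_mul, ← integral_const_mul, ← integral_add i1 i2]
  exact integral_mono_ae (S11_int_normsq hu.dl2) (i1.add i2) h

theorem U1_ae_R {P : E → Prop} (h : ∀ᵐ x, P x) : ∀ᵐ x, P (R x) :=
  mp_R.quasiMeasurePreserving.ae h

theorem U1_R_fix {x : E} (h : x 2 = 0) : R x = x := by
  rw [R, h, mul_zero, zero_smul, sub_zero]

theorem U1_R_zero : R 0 = 0 := U1_R_fix rfl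

theorem Adm.convex {r φ ψ φ' ψ' : E → ℝ} (a : Adm r φ ψ) (b : Adm r φ' ψ') {t : ℝ} (h0 : 0 ≤ t)
    (h1 : t ≤ 1) : ∃ Φ Ψ, Adm r Φ Ψ ∧ (∀ x, 0 ≤ Φ x) ∧ (∀ x ∈ Hp, 0 ≤ Ψ x) ∧
      (∀ᵐ x, Ψ x ^ 2 = (1 - t) * ψ x ^ 2 + t * ψ' x ^ 2) ∧
      Kin Φ Ψ ≤ (1 - t) * Kin φ ψ + t * Kin φ' ψ' := by
  have h1' : 0 ≤ 1 - t := by linarith
  obtain ⟨k1, k2⟩ := U1_hyp a.hφ b.hφ h0 h1
  obtain ⟨p1, p2⟩ := U1_hyp (a.hψ.half a.od) (b.hψ.half b.od) h0 h1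
  set P : E → ℝ := fun x => √((1 - t) * Hp.indicator ψ x ^ 2 + t * Hp.indicator ψ' x ^ 2) with hP
  have P0 : ∀ x, x ∉ Hp → P x = 0 := fun x hx => by
    simp only [hP, indicator_of_notMem hx]
    simp
  have Pnn : ∀ x, 0 ≤ P x := fun x => Real.sqrt_nonneg _
  have Psq : ∀ x ∈ Hp, P x ^ 2 = (1 - t) * ψ x ^ 2 + t * ψ' x ^ 2 := fun x hx => by
    simp only [hP, indicator_of_mem hx]
    exact Real.sq_sqrt (by positivity)
  obtain ⟨L, hL, -⟩ := exists_Riso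
  have pR : H1 fun x => P (R x) := by
    have := (p1.iso L).1
    simpa only [hL] using this
  have hΨ : H1 fun x => P x - P (R x) := p1.sub pR
  have nR : ∀ x : E, 0 < x 2 → R x ∉ Hp := fun x hx h => by
    have h' : 0 ≤ R x 2 := h
    rw [R_two] at h'
    linarith
  have mR : ∀ x : E, x 2 < 0 → R x ∈ Hp := fun x hx => by
    show 0 ≤ R x 2
    rw [R_two]
    linarith
  have sq : ∀ᵐ x, (P x - P (R x)) ^ 2 = (1 - t) * ψ x ^ 2 + t * ψ' x ^ 2 := by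
    filter_upwards [ae_two_ne, a.od, b.od] with x hx o1 o2
    rcases lt_or_gt_of_ne hx with h | h
    · rw [P0 x (fun h' => absurd h' (not_le.2 h)), zero_sub, neg_sq, Psq _ (mR x h), o1, o2, neg_sq,
        neg_sq]
    · rw [P0 _ (nR x h), sub_zero, Psq x h.le]
  have pD : ∀ᵐ x, (x ∈ Hp → ‖D P x‖ ^ 2 ≤ (1 - t) * ‖D ψ x‖ ^ 2 + t * ‖D ψ' x‖ ^ 2) ∧
      (x ∉ Hp → D P x = 0) := by
    filter_upwards [p2, (a.hψ.hl.half a.od).2, (b.hψ.hl.half b.od).2, p1.hl.D_level 0]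
      with x hx e1 e2 e3
    refine ⟨fun h => ?_, fun h => e3 (P0 x h)⟩
    rw [e1, e2, indicator_of_mem h, indicator_of_mem h] at hx
    exact hx
  have dΨ : ∀ᵐ x, ‖D (fun x => P x - P (R x)) x‖ ^ 2 ≤
      (1 - t) * ‖D ψ x‖ ^ 2 + t * ‖D ψ' x‖ ^ 2 := by
    filter_upwards [ae_two_ne, D_sub p1.hl pR.hl, p1.hl.refl.2, pD, U1_ae_R pD,
      a.od.D a.hψ.hl, b.od.D b.hψ.hl] with x hx e1 e2 q1 q2 o1 o2
    rw [e1, e2]
    rcases lt_or_gt_of_ne hx with h | h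
    · have q3 := q2.1 (mR x h)
      rw [o1, o2, norm_neg, norm_neg, norm_R, norm_R] at q3
      rw [q1.2 (fun h' => absurd h' (not_le.2 h)), zero_sub, norm_neg, norm_R]
      exact q3
    · rw [q2.2 (nR x h), U1_R_zero, sub_zero]
      exact q1.1 h.le
  refine ⟨fun x => √((1 - t) * φ x ^ 2 + t * φ' x ^ 2), fun x => P x - P (R x),
    ⟨k1, hΨ, ?_, ?_, ?_⟩, fun x => Real.sqrt_nonneg _, fun x hx => ?_, sq, ?_⟩
  · filter_upwards [a.ev, b.ev] with x e1 e2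
    rw [e1, e2]
  · refine Eventually.of_forall fun x => ?_
    show P (R x) - P (R (R x)) = -(P x - P (R x))
    rw [R_R]
    ring
  · filter_upwards [sq, a.sum, b.sum] with x e1 e2 e3
    rw [e1, Real.sq_sqrt (by positivity)]
    linear_combination (1 - t) * e2 + t * e3
  · show 0 ≤ P x - P (R x)
    have hx' : 0 ≤ x 2 := hx
    rcases hx'.eq_or_lt with h | h
    · rw [U1_R_fix h.symm, sub_self]
    · rw [P0 _ (nR x h), sub_zero]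
      exact Pnn x
  · have d1 := U1_dir_le k1 a.hφ b.hφ k2
    have d2 := U1_dir_le hΨ a.hψ b.hψ dΨ
    simp only [Kin]
    linarith

theorem U1_nsq {Ψ ψ ψ' : E → ℝ} (a : MemLp ψ 2 volume) (b : MemLp ψ' 2 volume) {s t : ℝ}
    (h : ∀ᵐ x, Ψ x ^ 2 = s * ψ x ^ 2 + t * ψ' x ^ 2) : nsq Ψ = s * nsq ψ + t * nsq ψ' := by
  rw [nsq, nsq, nsq, ← integral_const_mul, ← integral_const_mul,
    ← integral_add (a.integrable_sq.const_mul s) (b.integrable_sq.const_mul t)]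
  exact integral_congr_ae h

theorem U1_kin_nonneg (φ ψ : E → ℝ) : 0 ≤ Kin φ ψ := by
  have := S11_dir_nonneg φ
  have := S11_dir_nonneg ψ
  simp only [Kin]
  linarith

/-- an admissible pair of mass one between two admissible pairs -/
theorem U1_mid {r φ₁ ψ₁ φ₂ ψ₂ : E → ℝ} (a : Adm r φ₁ ψ₁) (b : Adm r φ₂ ψ₂) (h1 : nsq ψ₁ < 1)
    (h2 : 1 < nsq ψ₂) : ∃ φ ψ, Adm r φ ψ ∧ nsq ψ = 1 ∧
      (nsq ψ₂ - nsq ψ₁) * Kin φ ψ ≤ (nsq ψ₂ - 1) * Kin φ₁ ψ₁ + (1 - nsq ψ₁) * Kin φ₂ ψ₂ := by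
  have hd : 0 < nsq ψ₂ - nsq ψ₁ := by linarith
  obtain ⟨φ, ψ, c1, -, -, c2, c3⟩ := a.convex b (t := (1 - nsq ψ₁) / (nsq ψ₂ - nsq ψ₁))
    (div_nonneg (by linarith) hd.le) ((div_le_one hd).2 (by linarith))
  refine ⟨φ, ψ, c1, ?_, ?_⟩
  · rw [U1_nsq a.hψ.l2 b.hψ.l2 c2]
    field_simp
    ring
  · have := mul_le_mul_of_nonneg_left c3 hd.le
    refine this.trans (le_of_eq ?_)
    field_simp
    ring

/-- dominated a.e. convergence gives `L²` convergence -/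
theorem U1_dct {r u : E → ℝ} {w : ℕ → E → ℝ} (hr : MemLp r 2 volume)
    (hw : ∀ n, MemLp (w n) 2 volume) (hb : ∀ n, ∀ᵐ x, w n x ^ 2 ≤ r x ^ 2)
    (hl : ∀ᵐ x, Tendsto (fun n => w n x) atTop (𝓝 (u x))) :
    MemLp u 2 volume ∧ Tendsto (fun n => ∫ x, (u x - w n x) ^ 2) atTop (𝓝 0) ∧
      Tendsto (fun n => nsq (w n)) atTop (𝓝 (nsq u)) := by
  have m : AEStronglyMeasurable u volume :=
    aestronglyMeasurable_of_tendsto_ae atTop (fun n => (hw n).1) hl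
  have hb' : ∀ᵐ x, ∀ n, w n x ^ 2 ≤ r x ^ 2 := ae_all_iff.2 hb
  have ub : ∀ᵐ x, u x ^ 2 ≤ r x ^ 2 := by
    filter_upwards [hb', hl] with x h1 h2
    exact le_of_tendsto' (h2.pow 2) h1
  have hu : MemLp u 2 volume := by
    refine hr.of_le m ?_
    filter_upwards [ub] with x hx
    rw [Real.norm_eq_abs, Real.norm_eq_abs]
    exact sq_le_sq.1 hx
  refine ⟨hu, ?_, ?_⟩
  · have := tendsto_integral_of_dominated_convergence (μ := (volume : Measure E))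
      (F := fun n x => (u x - w n x) ^ 2) (f := fun _ => (0 : ℝ)) (fun x => 4 * r x ^ 2)
      (fun n => (m.sub (hw n).1).pow 2) (hr.integrable_sq.const_mul 4) (fun n => ?_) ?_
    · simpa using this
    · filter_upwards [hb n, ub] with x h1 h2
      rw [Real.norm_eq_abs, abs_of_nonneg (sq_nonneg _)]
      nlinarith [sq_nonneg (u x + w n x)]
    · filter_upwards [hl] with x hx
      have := ((tendsto_const_nhds (x := u x)).sub hx).pow 2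
      simpa using this
  · refine tendsto_integral_of_dominated_convergence (μ := (volume : Measure E))
      (F := fun n x => w n x ^ 2) (f := fun x => u x ^ 2) (fun x => r x ^ 2)
      (fun n => (hw n).1.pow 2) hr.integrable_sq (fun n => ?_) ?_
    · filter_upwards [hb n] with x h1
      rw [Real.norm_eq_abs, abs_of_nonneg (sq_nonneg _)]
      exact h1
    · filter_upwards [hl] with x hx
      exact hx.pow 2

theorem U1_lsc {u w : E → ℝ} (hu : H1 u) (hw : H1 w) :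
    2 * (∫ x, ⟪D w x, D u x⟫) - dir u ≤ dir w := by
  have h1 := S11_dir_nonneg fun x => 1 * w x + (-1) * u x
  rw [S11_dir_lc hw hu] at h1
  linarith

theorem U1_inner_self (u : E → ℝ) : ∫ x, ⟪D u x, D u x⟫ = dir u := by
  simp only [dir, real_inner_self_eq_norm_sq]

/-- the limit of an a.e. convergent minimising sequence -/
theorem U1_limit {r Φ Ψ : E → ℝ} {φ ψ : ℕ → E → ℝ} {k : ℝ} {e : ℕ → ℝ} (hr : MemLp r 2 volume)
    (ha : ∀ n, Adm r (φ n) (ψ n)) (hn : ∀ n, nsq (ψ n) = 1) (hk : ∀ n, Kin (φ n) (ψ n) ≤ k + e n)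
    (he1 : ∀ n, e n ≤ 1) (he : Tendsto e atTop (𝓝 0))
    (l1 : ∀ᵐ x, Tendsto (fun n => φ n x) atTop (𝓝 (Φ x)))
    (l2 : ∀ᵐ x, Tendsto (fun n => ψ n x) atTop (𝓝 (Ψ x))) :
    Adm r Φ Ψ ∧ nsq Ψ = 1 ∧ Kin Φ Ψ ≤ k := by
  obtain ⟨m1, c1, -⟩ := U1_dct hr (fun n => (ha n).hφ.l2) (fun n => by
    filter_upwards [(ha n).sum] with x hx
    nlinarith [sq_nonneg (ψ n x)]) l1
  obtain ⟨m2, c2, n2⟩ := U1_dct hr (fun n => (ha n).hψ.l2) (fun n => by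
    filter_upwards [(ha n).sum] with x hx
    nlinarith [sq_nonneg (φ n x)]) l2
  have b : ∀ n, dir (φ n) ≤ 2 * (k + 1) ∧ dir (ψ n) ≤ 2 * (k + 1) := fun n => by
    have h1 := hk n
    have h2 := he1 n
    have := S11_dir_nonneg (φ n)
    have := S11_dir_nonneg (ψ n)
    simp only [Kin] at h1
    constructor <;> linarith
  obtain ⟨H1, -, w1⟩ := h1_of_limit m1 (fun n => (ha n).hφ) c1 fun n => (b n).1
  obtain ⟨H2, -, w2⟩ := h1_of_limit m2 (fun n => (ha n).hψ) c2 fun n => (b n).2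
  refine ⟨⟨H1, H2, ?_, ?_, ?_⟩, ?_, ?_⟩
  · filter_upwards [l1, U1_ae_R l1, ae_all_iff.2 fun n => (ha n).ev] with x t1 t2 h
    simp only [h] at t2
    exact tendsto_nhds_unique t2 t1
  · filter_upwards [l2, U1_ae_R l2, ae_all_iff.2 fun n => (ha n).od] with x t1 t2 h
    simp only [h] at t2
    exact tendsto_nhds_unique t2 t1.neg
  · filter_upwards [l1, l2, ae_all_iff.2 fun n => (ha n).sum] with x t1 t2 h
    have t3 := (t1.pow 2).add (t2.pow 2)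
    simp only [h] at t3
    exact tendsto_nhds_unique t3 tendsto_const_nhds
  · simp only [hn] at n2
    exact tendsto_nhds_unique n2 tendsto_const_nhds
  · have t1 := w1 _ H1.dl2
    have t2 := w2 _ H2.dl2
    rw [U1_inner_self] at t1 t2
    have t3 := ((t1.const_mul 2).sub_const (dir Φ)).add ((t2.const_mul 2).sub_const (dir Ψ))
    have t4 := (he.const_add k).const_mul 2
    have := le_of_tendsto_of_tendsto' t3 t4 fun n => by
      have h1 := U1_lsc H1 (ha n).hφ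
      have h2 := U1_lsc H2 (ha n).hψ
      have h3 := hk n
      simp only [Kin] at h3
      linarith
    simp only [Kin]
    linarith

theorem U1_mem {r φ ψ : E → ℝ} (hr : MemLp r 2 volume) (h0 : ∀ᵐ x, 0 < r x) (a : Adm r φ ψ) :
    MemLp (fun x => ψ x ^ 2 / r x) 2 volume ∧ ∀ᵐ x, ‖ψ x ^ 2 / r x‖ ≤ ‖r x‖ := by
  have hb : ∀ᵐ x, ‖ψ x ^ 2 / r x‖ ≤ ‖r x‖ := by
    filter_upwards [h0, a.sum] with x h1 h2
    rw [Real.norm_eq_abs, Real.norm_eq_abs, abs_of_pos h1, abs_of_nonneg (by positivity),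
      div_le_iff₀ h1]
    nlinarith [sq_nonneg (φ x)]
  exact ⟨hr.of_le ((a.hψ.l2.1.aemeasurable.pow_const 2).div hr.1.aemeasurable).aestronglyMeasurable
    hb, hb⟩

/-- existence of a constrained minimiser -/
theorem U1_min {r φ₀ ψ₀ : E → ℝ} (hr : MemLp r 2 volume) (h0 : ∀ᵐ x, 0 < r x)
    (a : Adm r φ₀ ψ₀) (h1 : nsq ψ₀ = 1) :
    ∃ φ ψ, Adm r φ ψ ∧ nsq ψ = 1 ∧ ∀ φ' ψ', Adm r φ' ψ' → nsq ψ' = 1 → Kin φ ψ ≤ Kin φ' ψ' := by
  set T : Set ℝ := {k | ∃ φ ψ, Adm r φ ψ ∧ nsq ψ = 1 ∧ Kin φ ψ = k} with hT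
  have Tne : T.Nonempty := ⟨_, φ₀, ψ₀, a, h1, rfl⟩
  have Tb : BddBelow T := ⟨0, by
    rintro _ ⟨φ, ψ, -, -, rfl⟩
    exact U1_kin_nonneg φ ψ⟩
  set S : ℕ → Set (Lp ℝ 2 (volume : Measure E)) := fun n => {h | ∃ φ ψ, Adm r φ ψ ∧ nsq ψ = 1 ∧
    Kin φ ψ ≤ sInf T + 1 / ((n : ℝ) + 1) ∧ ∀ᵐ x, h x = ψ x ^ 2 / r x} with hS
  have Sc : ∀ n, Convex ℝ (S n) := by
    rintro n h ⟨φ, ψ, a1, a2, a3, a4⟩ h' ⟨φ', ψ', b1, b2, b3, b4⟩ s t hs ht hst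
    obtain rfl : s = 1 - t := by linarith
    obtain ⟨Φ, Ψ, c1, -, -, c2, c3⟩ := a1.convex b1 ht (by linarith)
    refine ⟨Φ, Ψ, c1, ?_, ?_, ?_⟩
    · rw [U1_nsq a1.hψ.l2 b1.hψ.l2 c2, a2, b2]
      ring
    · have e1 := mul_le_mul_of_nonneg_left a3 hs
      have e2 := mul_le_mul_of_nonneg_left b3 ht
      linarith
    · filter_upwards [Lp.coeFn_add ((1 - t) • h) (t • h'), Lp.coeFn_smul (1 - t) h,
        Lp.coeFn_smul t h', a4, b4, c2] with x e1 e2 e3 e4 e5 e6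
      rw [e1, Pi.add_apply, e2, e3, Pi.smul_apply, Pi.smul_apply, e4, e5, e6, smul_eq_mul,
        smul_eq_mul]
      ring
  have Sne : ∀ n, (S n).Nonempty := fun n => by
    have hp : (0 : ℝ) < 1 / ((n : ℝ) + 1) := by positivity
    obtain ⟨_, ⟨φ, ψ, a1, a2, rfl⟩, hlt⟩ := exists_lt_of_csInf_lt Tne (lt_add_of_pos_right (sInf T) hp)
    exact ⟨(U1_mem hr h0 a1).1.toLp _, φ, ψ, a1, a2, hlt.le, (U1_mem hr h0 a1).1.coeFn_toLp⟩
  have Sm : Antitone S := by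
    rintro m n hmn h ⟨φ, ψ, a1, a2, a3, a4⟩
    refine ⟨φ, ψ, a1, a2, a3.trans ?_, a4⟩
    have : (m : ℝ) ≤ n := Nat.cast_le.2 hmn
    gcongr
  have Sb : ∀ n, ∀ h ∈ S n, ‖h‖ ≤ ‖hr.toLp r‖ := by
    rintro n h ⟨φ, ψ, a1, -, -, a4⟩
    refine Lp.norm_le_norm_of_ae_le ?_
    filter_upwards [a4, (U1_mem hr h0 a1).2, hr.coeFn_toLp] with x e1 e2 e3
    rw [e1, e3]
    exact e2
  obtain ⟨s, hs, hc⟩ := exists_cauchy_of_convex Sc Sne Sm Sb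
  obtain ⟨g, hg⟩ := cauchySeq_tendsto_of_complete hc
  obtain ⟨ns, hns, hae⟩ := (tendstoInMeasure_of_tendsto_Lp hg).exists_seq_tendsto_ae
  have hex : ∀ n, ∃ φ ψ, Adm r φ ψ ∧ nsq ψ = 1 ∧ Kin φ ψ ≤ sInf T + 1 / ((ns n : ℝ) + 1) ∧
      (∀ᵐ x, φ x = √(r x ^ 2 - r x * s (ns n) x)) ∧
      ∀ᵐ x, ψ x = Real.sign (x 2) * √(r x * s (ns n) x) := fun n => by
    obtain ⟨φ, ψ, a1, a2, a3, a4⟩ := hs (ns n)
    obtain ⟨Φ, Ψ, c1, c2, c3, c4, c5⟩ := a1.convex a1 le_rfl zero_le_one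
    have q : ∀ᵐ x, Ψ x ^ 2 = r x * s (ns n) x := by
      filter_upwards [c4, a4, h0] with x e1 e2 e3
      rw [e1, e2]
      field_simp
      ring
    refine ⟨Φ, Ψ, c1, ?_, ?_, ?_, ?_⟩
    · rw [U1_nsq a1.hψ.l2 a1.hψ.l2 c4, a2]
      ring
    · linarith
    · filter_upwards [q, c1.sum] with x e1 e2
      rw [← e1, ← e2, add_sub_cancel_right, Real.sqrt_sq (c2 x)]
    · filter_upwards [q, c1.od, ae_two_ne] with x e1 e2 hx
      rw [← e1]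
      rcases lt_or_gt_of_ne hx with h | h
      · have h2 : 0 ≤ Ψ (R x) := c3 _ (by
          show 0 ≤ R x 2
          rw [R_two]
          linarith)
        rw [e2] at h2
        rw [Real.sign_of_neg h, ← neg_sq, Real.sqrt_sq h2]
        ring
      · rw [Real.sign_of_pos h, Real.sqrt_sq (c3 x h.le), one_mul]
  choose φ ψ a1 a2 a3 a4 a5 using hex
  have he : Tendsto (fun n => 1 / ((ns n : ℝ) + 1)) atTop (𝓝 0) :=
    (tendsto_one_div_add_atTop_nhds_zero_nat (𝕜 := ℝ)).comp hns.tendsto_atTop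
  obtain ⟨k1, k2, k3⟩ := U1_limit (Φ := fun x => √(r x ^ 2 - r x * g x))
    (Ψ := fun x => Real.sign (x 2) * √(r x * g x)) hr a1 a2 a3 (fun n => by
      rw [div_le_one (by positivity)]
      have : (0 : ℝ) ≤ ns n := Nat.cast_nonneg _
      linarith) he (by
      filter_upwards [hae, ae_all_iff.2 a4] with x t h
      simp only [h]
      exact ((t.const_mul (r x)).const_sub (r x ^ 2)).sqrt) (by
      filter_upwards [hae, ae_all_iff.2 a5] with x t h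
      simp only [h]
      exact (t.const_mul (r x)).sqrt.const_mul _)
  exact ⟨_, _, k1, k2, fun φ' ψ' b1 b2 => k3.trans (csInf_le Tb ⟨φ', ψ', b1, b2, rfl⟩)⟩

/-- constrained minimiser and its Lagrange multiplier -/
theorem Adm.exists_min {r φ₁ ψ₁ φ₂ ψ₂ : E → ℝ} (hr : MemLp r 2 volume) (h0 : ∀ᵐ x, 0 < r x)
    (a : Adm r φ₁ ψ₁) (b : Adm r φ₂ ψ₂) (h1 : nsq ψ₁ < 1) (h2 : 1 < nsq ψ₂) :
    ∃ φ ψ, ∃ δ : ℝ, Adm r φ ψ ∧ (∀ x, 0 ≤ φ x) ∧ (∀ x ∈ Hp, 0 ≤ ψ x) ∧ nsq ψ = 1 ∧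
      ∀ φ' ψ', Adm r φ' ψ' → Kin φ ψ + δ * (nsq ψ' - 1) ≤ Kin φ' ψ' := by
  obtain ⟨φ₀, ψ₀, a0, n0, -⟩ := U1_mid a b h1 h2
  obtain ⟨φ, ψ, m1, m2, m3⟩ := U1_min hr h0 a0 n0
  set A : Set ℝ := {s | ∃ φ' ψ', Adm r φ' ψ' ∧ nsq ψ' < 1 ∧
    s = (Kin φ ψ - Kin φ' ψ') / (1 - nsq ψ')} with hA
  have Ane : A.Nonempty := ⟨_, φ₁, ψ₁, a, h1, rfl⟩
  have ub : ∀ φ' ψ', Adm r φ' ψ' → 1 < nsq ψ' →
      (Kin φ' ψ' - Kin φ ψ) / (nsq ψ' - 1) ∈ upperBounds A := by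
    rintro φ' ψ' b1 b2 _ ⟨φ'', ψ'', c1, c2, rfl⟩
    obtain ⟨Φ, Ψ, d1, d2, d3⟩ := U1_mid c1 b1 c2 b2
    have d4 := mul_le_mul_of_nonneg_left (m3 Φ Ψ d1 d2) (show 0 ≤ nsq ψ' - nsq ψ'' by linarith)
    rw [div_le_div_iff₀ (by linarith) (by linarith)]
    linarith
  have Ab : BddAbove A := ⟨_, ub φ₂ ψ₂ b h2⟩
  obtain ⟨Φ, Ψ, c1, c2, c3, c4, c5⟩ := m1.convex m1 le_rfl zero_le_one
  refine ⟨Φ, Ψ, sSup A, c1, c2, c3, ?_, fun φ' ψ' b1 => ?_⟩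
  · rw [U1_nsq m1.hψ.l2 m1.hψ.l2 c4, m2]
    ring
  · rcases lt_trichotomy (nsq ψ') 1 with h | h | h
    · have e := le_csSup Ab ⟨φ', ψ', b1, h, rfl⟩
      rw [div_le_iff₀ (by linarith)] at e
      linarith
    · have := m3 φ' ψ' b1 h
      rw [h]
      linarith
    · have e := csSup_le Ane (ub φ' ψ' b1 h)
      rw [le_div_iff₀ (by linarith)] at e
      linarith

end

end Crest.Agent.R335
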