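import Crest.Agent.R335.U3
import Crest.Agent.R335.F0b

set_option autoImplicit false

open MeasureTheory Set Filter Topology Metric
open scoped Gradient ContDiff RealInnerProductSpace ENNReal

namespace Crest.Agent.R335

noncomputable section

variable {o : OD} {m : MD} {c Λ R η0 η1 ε : ℝ} {η Dt Gt : E → ℝ}

theorem U11a_pow {t : ℝ} (h0 : 0 < t) (h1 : t ≤ 1) :
    t ^ (4 / 3 : ℝ) ≤ t ∧ t ^ (2 / 3 : ℝ) ≤ √t ∧ t ^ (4 / 3 : ℝ) ≤ √t ∧ t ^ (2 / 3 : ℝ) ≤ 1 := by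
  refine ⟨?_, ?_, ?_, Real.rpow_le_one h0.le h1 (by norm_num)⟩
  · simpa using Real.rpow_le_rpow_of_exponent_ge (y := 4 / 3) (z := 1) h0 h1 (by norm_num)
  · rw [Real.sqrt_eq_rpow]
    exact Real.rpow_le_rpow_of_exponent_ge h0 h1 (by norm_num)
  · rw [Real.sqrt_eq_rpow]
    exact Real.rpow_le_rpow_of_exponent_ge h0 h1 (by norm_num)

theorem U11a_hor_le (v : E) : ‖hor v‖ ≤ ‖v‖ := by
  have := norm_sq_hor v
  exact abs_le_of_sq_le_sq' (by nlinarith [sq_nonneg (v 2)]) (norm_nonneg _) |>.2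

theorem U11a_hor_lin (a b c : E) (s t : ℝ) :
    hor (a + (s • b + t • c)) = hor a + (s • hor b + t • hor c) := by
  simp only [hor, PiLp.add_apply, PiLp.smul_apply, smul_eq_mul]
  module

theorem U11a_sg (η : E → ℝ) (x : E) (h : 0 < η x) :
    sg η x ^ 2 = x 2 ^ 2 + η x ^ 2 ∧ |x 2| ≤ sg η x ∧ η x ≤ sg η x ∧ 0 < sg η x := by
  have h1 : η x ≤ sg η x := Real.le_sqrt_of_sq_le (by nlinarith [sq_nonneg (x 2)])
  exact ⟨Real.sq_sqrt (by positivity), Real.abs_le_sqrt (by nlinarith [sq_nonneg (η x)]), h1,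
    h.trans_le h1⟩

theorem U11a_sq {u : E → ℝ} (a : Bl u) :
    Bl (fun x => u x ^ 2) ∧ ∀ᵐ x, D (fun x => u x ^ 2) x = (2 * u x) • D u x := by
  have hβ : ContDiff ℝ 1 (fun t : ℝ => t ^ 2) := by fun_prop
  obtain ⟨p1, p2⟩ := a.comp hβ
  refine ⟨p1, p2.mono fun x hx => ?_⟩
  rw [hx]
  simp

theorem U11a_bl (hm : m.OK o c) : Bl m.f ∧ Bl m.r := by
  refine ⟨⟨hm.sf.h1.hl, Continuous.lb' hm.cf.1⟩, hm.h1.1.hl, Bd.lb ⟨c, ?_⟩⟩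
  filter_upwards [hm.bd] with x hx
  rw [abs_of_nonneg (hm.nn x).1]
  exact hx.1

/-- decomposition of the gradient of `r²` -/
theorem U11a_dec (hm : m.OK o c) (hG : Bl Gt) :
    Bl (fun x => m.f x ^ 2 + Gt x ^ 2) ∧ ∀ᵐ x,
      D (fun x => m.f x ^ 2 + Gt x ^ 2) x = (2 * m.f x) • D m.f x + (2 * Gt x) • D Gt x ∧
      D (fun x => m.r x ^ 2) x = D (fun x => m.r x ^ 2 - m.f x ^ 2 - Gt x ^ 2) x +
        ((2 * m.f x) • D m.f x + (2 * Gt x) • D Gt x) := by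
  obtain ⟨bf, br⟩ := U11a_bl hm
  obtain ⟨f1, f2⟩ := U11a_sq bf
  obtain ⟨g1, g2⟩ := U11a_sq hG
  obtain ⟨r1, -⟩ := U11a_sq br
  refine ⟨f1.add g1, ?_⟩
  filter_upwards [f2, g2, D_add f1.hl g1.hl, D_sub (r1.sub f1).hl g1.hl, D_sub r1.hl f1.hl]
    with x e1 e2 e3 e4 e5
  refine ⟨by rw [e3, e1, e2], ?_⟩
  rw [e4, e5, e1, e2]
  abel

theorem U11a_eta (h : SD o m Λ R η0 η1 ε η Dt Gt) (h0 : η0 * (10 * Λ ^ 2) ≤ 1) {x : E}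
    (hx : x ∈ Sl R) : η x * (10 * Λ ^ 2) ≤ 1 ∧ η x ≤ 1 := by
  have h1 := h.Λ1
  have h2 := (h.η_bd x hx).1
  have h3 := (h.pos x).1
  have h4 : η x * (10 * Λ ^ 2) ≤ 1 := (mul_le_mul_of_nonneg_right h2 (by positivity)).trans h0
  refine ⟨h4, ?_⟩
  nlinarith [mul_le_mul_of_nonneg_left (one_le_pow₀ (n := 2) h1) h3.le]

theorem U11a_two {f G Λ η η43 Dt σ z r2 : ℝ} (hΛ : 1 ≤ Λ) (hη : 0 < η) (hD : 0 < Dt) (hG : 0 < G)
    (s1 : σ ^ 2 = z ^ 2 + η ^ 2) (f1 : |z| * Dt / Λ ≤ |f|) (f2 : |f| ≤ Λ * (|z| * Dt))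
    (g1 : η * Dt / Λ ≤ G) (g2 : G ≤ Λ * (η * Dt)) (w1 : η43 ≤ η) (t1 : η * (10 * Λ ^ 2) ≤ 1)
    (n1 : |r2 - f ^ 2 - G ^ 2| ≤ η43 * Dt ^ 2 * σ ^ 2) :
    (Dt * σ / Λ) ^ 2 ≤ f ^ 2 + G ^ 2 ∧ f ^ 2 + G ^ 2 ≤ (Λ * (Dt * σ)) ^ 2 ∧
      f ^ 2 + G ^ 2 ≤ 2 * r2 ∧ r2 ≤ 2 * (f ^ 2 + G ^ 2) := by
  have lo : (Dt * σ / Λ) ^ 2 ≤ f ^ 2 + G ^ 2 := by
    have u1 := pow_le_pow_left₀ (by positivity) f1 2
    have u2 := pow_le_pow_left₀ (by positivity) g1 2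
    rw [sq_abs] at u1
    refine le_trans (le_of_eq ?_) (add_le_add u1 u2)
    simp only [div_pow, mul_pow, s1, sq_abs]
    ring
  have hν : |r2 - f ^ 2 - G ^ 2| ≤ (f ^ 2 + G ^ 2) / 10 := by
    have u1 : Dt ^ 2 * σ ^ 2 ≤ Λ ^ 2 * (f ^ 2 + G ^ 2) := by
      rw [div_pow, div_le_iff₀ (by positivity), mul_pow] at lo
      linarith
    have u2 : η43 * (Dt ^ 2 * σ ^ 2) ≤ η * (Λ ^ 2 * (f ^ 2 + G ^ 2)) :=
      mul_le_mul w1 u1 (by positivity) hη.le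
    have u3 := mul_le_mul_of_nonneg_right t1 (show 0 ≤ f ^ 2 + G ^ 2 by positivity)
    linarith
  obtain ⟨v1, v2⟩ := abs_le.1 hν
  refine ⟨lo, ?_, by linarith [sq_nonneg f, sq_nonneg G], by linarith [sq_nonneg f, sq_nonneg G]⟩
  have u1 := pow_le_pow_left₀ (abs_nonneg _) f2 2
  have u2 := pow_le_pow_left₀ hG.le g2 2
  rw [sq_abs] at u1
  refine le_trans (add_le_add u1 u2) (le_of_eq ?_)
  simp only [mul_pow, s1, sq_abs]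
  ring

theorem U11a_horb {f G Λ η η43 η23 Dt σ z : ℝ} {Dν Df DG : E} (hΛ : 1 ≤ Λ) (hD : 0 < Dt)
    (hG : 0 < G) (s2 : |z| ≤ σ) (s3 : η ≤ σ) (s4 : 0 < σ) (f2 : |f| ≤ Λ * (|z| * Dt))
    (g2 : G ≤ Λ * (η * Dt)) (w2 : η23 ≤ √η) (w3 : η43 ≤ √η) (n2 : ‖Dν‖ ≤ η43 * Dt ^ 2 * σ)
    (d2 : ‖hor Df‖ ≤ Λ * (√|z| * Dt)) (g3 : ‖DG‖ ≤ η23 * Dt) :
    ‖hor (Dν + ((2 * f) • Df + (2 * G) • DG))‖ ≤ 6 * Λ ^ 2 * Dt ^ 2 * (σ * √σ) := by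
  rw [U11a_hor_lin]
  have r1 : √η ≤ √σ := Real.sqrt_le_sqrt s3
  have r2 : √|z| ≤ √σ := Real.sqrt_le_sqrt s2
  have r0 := Real.sqrt_nonneg σ
  have k1 : ‖hor Dν‖ ≤ √σ * Dt ^ 2 * σ := by
    refine (U11a_hor_le _).trans (n2.trans ?_)
    gcongr
    exact w3.trans r1
  have k2 : ‖(2 * f) • hor Df‖ ≤ 2 * (Λ * (σ * Dt)) * (Λ * (√σ * Dt)) := by
    rw [norm_smul, Real.norm_eq_abs, abs_mul, abs_two]
    gcongr
    · exact f2.trans (by gcongr)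
    · exact d2.trans (by gcongr)
  have k3 : ‖(2 * G) • hor DG‖ ≤ 2 * (Λ * (σ * Dt)) * (√σ * Dt) := by
    rw [norm_smul, Real.norm_eq_abs, abs_mul, abs_two, abs_of_pos hG]
    gcongr
    · exact g2.trans (by gcongr)
    · refine (U11a_hor_le _).trans (g3.trans ?_)
      gcongr
      exact w2.trans r1
  have k4 := norm_add_le (hor Dν) ((2 * f) • hor Df + (2 * G) • hor DG)
  have k5 := norm_add_le ((2 * f) • hor Df) ((2 * G) • hor DG)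
  have k6 : 0 ≤ Dt ^ 2 * (σ * √σ) := by positivity
  have k7 : 1 ≤ Λ ^ 2 := one_le_pow₀ hΛ
  have k8 : Λ ≤ Λ ^ 2 := by nlinarith
  linarith [mul_le_mul_of_nonneg_right k7 k6, mul_le_mul_of_nonneg_right k8 k6]

theorem U11a_jordan {f G : ℝ} (hf : 0 ≤ f) (hG : 0 < G) {a : ℝ} (ha : 0 < a)
    (h : a ^ 2 ≤ f ^ 2 + G ^ 2) : Real.pi / 2 - Real.arctan (f / G) ≤ 4 * (G / a) := by
  have h1 : 0 ≤ Real.arctan (f / G) := Real.arctan_nonneg.2 (by positivity)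
  have h2 := Real.arctan_lt_pi_div_two (f / G)
  have h3 := Real.mul_le_sin (x := Real.pi / 2 - Real.arctan (f / G)) (by linarith) (by linarith)
  rw [Real.sin_pi_div_two_sub, Real.cos_arctan] at h3
  have h4 : a / G ≤ √(1 + (f / G) ^ 2) := by
    refine Real.le_sqrt_of_sq_le ?_
    rw [div_pow, div_pow, div_le_iff₀ (by positivity), add_mul, div_mul_cancel₀ _ (by positivity)]
    linarith
  have h5 : 1 / √(1 + (f / G) ^ 2) ≤ G / a := by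
    rw [← one_div_div a G]
    exact one_div_le_one_div_of_le (by positivity) h4
  have h6 : (1 / 2 : ℝ) ≤ 2 / Real.pi := by
    rw [div_le_div_iff₀ two_pos Real.pi_pos]
    linarith [Real.pi_le_four]
  have h7 : 0 ≤ G / a := by positivity
  nlinarith [mul_le_mul_of_nonneg_right h6 (sub_nonneg.2 h2.le)]

/-- elementary consequences of `SD` -/
theorem SD.basic (hm : m.OK o c) (h : SD o m Λ R η0 η1 ε η Dt Gt) (h0 : η0 * (10 * Λ ^ 2) ≤ 1) :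
    Bl (TG m.f Gt) ∧ Od (fun x => Real.arctan (m.f x / Gt x)) ∧ Bl (fun x => m.r x ^ 2) ∧
    (∀ x, 0 < TG m.f Gt x ∧ TG m.f Gt x < Real.pi) ∧
    ∀ᵐ x, x ∈ Sl R → D (TG m.f Gt) x = (m.f x ^ 2 + Gt x ^ 2)⁻¹ • (m.f x • D Gt x - Gt x • D m.f x) ∧
      (Dt x * sg η x / Λ) ^ 2 ≤ m.f x ^ 2 + Gt x ^ 2 ∧ m.f x ^ 2 + Gt x ^ 2 ≤ (Λ * (Dt x * sg η x)) ^ 2 ∧
      m.f x ^ 2 + Gt x ^ 2 ≤ 2 * m.r x ^ 2 ∧ m.r x ^ 2 ≤ 2 * (m.f x ^ 2 + Gt x ^ 2) ∧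
      ‖hor (D (fun x => m.r x ^ 2) x)‖ ≤ 6 * Λ ^ 2 * Dt x ^ 2 * (sg η x * √(sg η x)) ∧
      (0 ≤ x 2 → TG m.f Gt x ≤ Real.pi / 2 ∧ TG m.f Gt x ≤ 4 * Λ ^ 2 * η x / sg η x) := by
  obtain ⟨bf, br⟩ := U11a_bl hm
  obtain ⟨bG, lG, eG, pG⟩ := h.Gt_r
  obtain ⟨q1, q2⟩ := bf.div bG lG
  obtain ⟨a1, a2⟩ := q1.comp (Real.contDiff_arctan (n := 1))
  have b0 : Bl fun _ : E => Real.pi / 2 := bl_c1 contDiff_const
  refine ⟨b0.sub a1, ?_, (U11a_sq br).1, fun x => ?_, ?_⟩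
  · filter_upwards [eG] with x hx
    rw [hx, hm.cf.2.2, neg_div, Real.arctan_neg]
  · have h1 := Real.arctan_lt_pi_div_two (m.f x / Gt x)
    have h2 := Real.neg_pi_div_two_lt_arctan (m.f x / Gt x)
    unfold TG
    constructor <;> linarith
  filter_upwards [q2, a2, D_sub b0.hl a1.hl, D_const (V := E) (Real.pi / 2), (U11a_dec hm bG).2,
    h.df, h.Gt_bd, h.ν_bd] with x e1 e2 e3 e4 e5 e6 e7 e8 hx
  obtain ⟨d1, d2, -⟩ := e6 hx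
  obtain ⟨g1, g2, g3, -⟩ := e7 hx
  obtain ⟨n1, n2⟩ := e8 hx
  obtain ⟨f1, f2, f3⟩ := h.f_bd x hx
  obtain ⟨pη, pD⟩ := h.pos x
  obtain ⟨s1, s2, s3, s4⟩ := U11a_sg η x pη
  obtain ⟨t1, t2⟩ := U11a_eta h h0 hx
  obtain ⟨w1, w2, w3, -⟩ := U11a_pow pη t2
  have hΛ := h.Λ1
  have hG := pG x
  obtain ⟨lo, up, v1, v2⟩ := U11a_two hΛ pη pD hG s1 f1 f2 g1 g2 w1 t1 n1
  refine ⟨?_, lo, up, v1, v2, ?_, fun hz0 => ⟨?_, ?_⟩⟩
  · have e0 : D (TG m.f Gt) x = D (fun _ : E => Real.pi / 2) x -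
        D (fun x => Real.arctan (m.f x / Gt x)) x := e3
    rw [e0, e4, e2, e1, Real.deriv_arctan, zero_sub, smul_smul, ← smul_neg, neg_sub]
    congr 1
    field_simp
    ring
  · rw [e5.2]
    exact U11a_horb hΛ pD hG s2 s3 s4 f2 g2 w2 w3 n2 d2 g3
  · have := Real.arctan_nonneg.2 (div_nonneg (f3 hz0) hG.le)
    unfold TG
    linarith
  · refine (U11a_jordan (f3 hz0) hG (by positivity) lo).trans ?_
    rw [div_div_eq_mul_div, ← mul_div_assoc, div_le_div_iff₀ (by positivity) s4]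
    have := mul_le_mul_of_nonneg_right g2 (show 0 ≤ Λ * sg η x by positivity)
    linarith

theorem U11a_int {a b c d e s : E → ℝ} (ia : Integrable a) (ib : Integrable b) (ic : Integrable c)
    (id : Integrable d) (ie : Integrable e) (is : Integrable s)
    (h : ∀ᵐ x, a x - b x + c x + d x - e x ≤ s x) (h1 : ∫ x, b x ≤ ∫ x, d x)
    (h2 : ∫ x, c x = ∫ x, e x) : ∫ x, a x ≤ ∫ x, s x := by
  have k := integral_mono_ae ((((ia.sub ib).add ic).add id).sub ie) is h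
  rw [integral_sub' (((ia.sub ib).add ic).add id) ie, integral_add' ((ia.sub ib).add ic) id,
    integral_add' (ia.sub ib) ic, integral_sub' ia ib] at k
  linarith

theorem U11a_dom {f G ν Λ η43 η23 Dt σ : ℝ} {Df DG Dν : E} (hΛ : 1 ≤ Λ) (hD : 0 < Dt) (hσ : 0 < σ)
    (hG : 0 < G) (hf : 0 ≤ f) (h43 : 0 ≤ η43) (h23 : η23 ≤ 1) (d1 : ‖Df‖ ≤ Λ * Dt)
    (g3 : ‖DG‖ ≤ η23 * Dt) (n1 : |ν| ≤ η43 * Dt ^ 2 * σ ^ 2)
    (n2 : ‖Dν‖ ≤ η43 * Dt ^ 2 * σ) (lo : (Dt * σ / Λ) ^ 2 ≤ f ^ 2 + G ^ 2) :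
    ‖Dν - (ν / (f ^ 2 + G ^ 2)) • ((2 * f) • Df + (2 * G) • DG)‖ ≤
      5 * Λ ^ 2 * (η43 * Dt ^ 2 * σ) := by
  set ρ := f ^ 2 + G ^ 2 with hρ
  have ρ0 : 0 < ρ := by positivity
  set s := √ρ with hs
  have s0 : 0 < s := Real.sqrt_pos.2 ρ0
  have s2 : s ^ 2 = ρ := Real.sq_sqrt ρ0.le
  have sf : f ≤ s := Real.le_sqrt_of_sq_le (by linarith [sq_nonneg G])
  have sG : G ≤ s := Real.le_sqrt_of_sq_le (by linarith [sq_nonneg f])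
  have sl : Dt * σ ≤ Λ * s := by
    have := Real.le_sqrt_of_sq_le lo
    rwa [div_le_iff₀' (by positivity)] at this
  have m1 : ‖(2 * f) • Df + (2 * G) • DG‖ ≤ 4 * (s * (Λ * Dt)) := by
    refine (norm_add_le _ _).trans ?_
    rw [norm_smul, norm_smul, Real.norm_of_nonneg (by positivity),
      Real.norm_of_nonneg (by positivity)]
    have u1 : f * ‖Df‖ ≤ s * (Λ * Dt) := mul_le_mul sf d1 (norm_nonneg _) s0.le
    have u2 : G * ‖DG‖ ≤ s * (Λ * Dt) :=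
      mul_le_mul sG (g3.trans (by gcongr; linarith)) (norm_nonneg _) s0.le
    linarith
  have m2 : |ν / ρ| ≤ η43 * Dt * σ * Λ / s := by
    rw [abs_div, abs_of_pos ρ0, div_le_div_iff₀ ρ0 s0, ← s2]
    have u1 := mul_le_mul_of_nonneg_right n1 s0.le
    have u2 := mul_le_mul_of_nonneg_left sl (show 0 ≤ η43 * Dt * σ * s by positivity)
    linarith
  refine (norm_sub_le _ _).trans ?_
  rw [norm_smul, Real.norm_eq_abs]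
  have u1 := mul_le_mul m2 m1 (norm_nonneg _) (by positivity)
  have u2 : η43 * Dt * σ * Λ / s * (4 * (s * (Λ * Dt))) = 4 * Λ ^ 2 * (η43 * Dt ^ 2 * σ) := by
    field_simp
  have u3 := mul_le_mul_of_nonneg_right (one_le_pow₀ (n := 2) hΛ)
    (show 0 ≤ η43 * Dt ^ 2 * σ by positivity)
  linarith

/-- the pointwise inequality behind `U11a` -/
theorem U11a_pt {f G r2 χ Λ η η43 η23 Dt σ z V e1 : ℝ} {Df DG Dν Dχ DT : E} (hΛ : 1 ≤ Λ)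
    (hη : 0 < η) (hD : 0 < Dt) (hσ : 0 < σ) (hz : |z| ≤ σ) (hG : 0 < G) (hf : 0 ≤ f) (hχ : 0 ≤ χ)
    (h43 : 0 ≤ η43) (h23 : η23 ≤ 1) (hr : 0 ≤ r2)
    (f2 : |f| ≤ Λ * (|z| * Dt)) (g2 : G ≤ Λ * (η * Dt)) (d1 : ‖Df‖ ≤ Λ * Dt)
    (g3 : ‖DG‖ ≤ η23 * Dt) (n1 : |r2 - f ^ 2 - G ^ 2| ≤ η43 * Dt ^ 2 * σ ^ 2)
    (n2 : ‖Dν‖ ≤ η43 * Dt ^ 2 * σ) (lo : (Dt * σ / Λ) ^ 2 ≤ f ^ 2 + G ^ 2)
    (up : r2 ≤ 2 * (f ^ 2 + G ^ 2)) (he : |e1| ≤ Dt * σ)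
    (hT : DT = (f ^ 2 + G ^ 2)⁻¹ • (f • DG - G • Df)) {om : ℝ} (hom : om = r2 / (f ^ 2 + G ^ 2))
    {Dom : E} (hDom : Dom = ((f ^ 2 + G ^ 2) ^ 2)⁻¹ • ((f ^ 2 + G ^ 2) •
      (Dν + ((2 * f) • Df + (2 * G) • DG)) - r2 • ((2 * f) • Df + (2 * G) • DG))) :
    1 / 2 * r2 * ⟪DT, Dχ⟫ - 1 / 2 * 1 * ⟪DG, (om * f) • Dχ + χ • (om • Df + f • Dom)⟫ +
      1 / 2 * ⟪Df, (om * G) • Dχ + χ • (om • DG + G • Dom)⟫ +
      (-(V * G) + Λ * (η * Dt)) * (om * f * χ) - (-(V * f) + e1) * (om * G * χ) ≤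
      (4 * Λ ^ 2 * (η * Dt ^ 2 * σ) + 3 * Λ ^ 2 * (η43 * Dt ^ 2 * σ) * ‖DT‖) * χ := by
  set ρ := f ^ 2 + G ^ 2 with hρ
  have ρ0 : 0 < ρ := by positivity
  have hW : f • DG - G • Df = ρ • DT := by rw [hT, smul_smul, mul_inv_cancel₀ ρ0.ne', one_smul]
  have hr2 : r2 = om * ρ := by rw [hom, div_mul_cancel₀ _ ρ0.ne']
  have om0 : 0 ≤ om := by rw [hom]; positivity
  have om2 : om ≤ 2 := by rw [hom, div_le_iff₀ ρ0]; exact up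
  have i1 : ∀ y : E, f * ⟪DG, y⟫ - G * ⟪Df, y⟫ = ρ * ⟪DT, y⟫ := fun y => by
    rw [← real_inner_smul_left, ← real_inner_smul_left, ← real_inner_smul_left, ← inner_sub_left,
      hW]
  have key : 1 / 2 * r2 * ⟪DT, Dχ⟫ - 1 / 2 * 1 * ⟪DG, (om * f) • Dχ + χ • (om • Df + f • Dom)⟫ +
      1 / 2 * ⟪Df, (om * G) • Dχ + χ • (om • DG + G • Dom)⟫ = -(1 / 2 * ⟪DT, ρ • Dom⟫ * χ) := by
    simp only [inner_add_right, real_inner_smul_right, real_inner_comm DG Df]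
    have j1 := i1 Dχ
    have j2 := i1 Dom
    rw [hr2]
    linear_combination (-(1 / 2) * om) * j1 - (1 / 2 * χ) * j2
  -- the gradient of the quotient
  have hρom : ρ • Dom = Dν - ((r2 - f ^ 2 - G ^ 2) / ρ) • ((2 * f) • Df + (2 * G) • DG) := by
    rw [hDom, smul_smul, smul_sub, smul_smul, smul_smul,
      show ρ * (ρ ^ 2)⁻¹ * ρ = 1 by field_simp, one_smul,
      show (r2 - f ^ 2 - G ^ 2) / ρ = ρ * (ρ ^ 2)⁻¹ * r2 - 1 by field_simp; rw [hρ]; ring, sub_smul,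
      one_smul]
    abel
  have m3 : ‖ρ • Dom‖ ≤ 5 * Λ ^ 2 * (η43 * Dt ^ 2 * σ) := by
    rw [hρom]
    exact U11a_dom hΛ hD hσ hG hf h43 h23 d1 g3 n1 n2 lo
  have m4 : -(1 / 2 * ⟪DT, ρ • Dom⟫) ≤ 3 * Λ ^ 2 * (η43 * Dt ^ 2 * σ) * ‖DT‖ := by
    have u1 := abs_real_inner_le_norm DT (ρ • Dom)
    have u2 := neg_abs_le ⟪DT, ρ • Dom⟫
    have u3 := mul_le_mul_of_nonneg_left m3 (norm_nonneg DT)
    have u4 : 0 ≤ Λ ^ 2 * (η43 * Dt ^ 2 * σ) * ‖DT‖ := by positivity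
    linarith
  have m5 : Λ * (η * Dt) * (om * f) ≤ Λ * (η * Dt) * (2 * (Λ * (σ * Dt))) := by
    gcongr
    exact (le_abs_self f).trans (f2.trans (by gcongr))
  have m6 : -(e1 * (om * G)) ≤ Dt * σ * (2 * (Λ * (η * Dt))) := by
    refine (neg_le_abs _).trans ?_
    rw [abs_mul, abs_of_nonneg (mul_nonneg om0 hG.le)]
    gcongr
  have m7 := mul_le_mul_of_nonneg_right (le_self_pow₀ hΛ two_ne_zero)
    (show 0 ≤ η * Dt ^ 2 * σ by positivity)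
  have m8 : -(1 / 2 * ⟪DT, ρ • Dom⟫) + Λ * (η * Dt) * (om * f) - e1 * (om * G) ≤
      4 * Λ ^ 2 * (η * Dt ^ 2 * σ) + 3 * Λ ^ 2 * (η43 * Dt ^ 2 * σ) * ‖DT‖ := by linarith
  rw [key]
  refine le_trans (le_of_eq ?_) (mul_le_mul_of_nonneg_right m8 hχ)
  ring

theorem U11a (hm : m.OK o c) (h : SD o m Λ R η0 η1 ε η Dt Gt) (h0 : η0 * (10 * Λ ^ 2) ≤ 1) :
    WSub (fun x => m.r x ^ 2) (Hp ∩ Sl R) (TG m.f Gt) fun x =>
      4 * Λ ^ 2 * (η x * Dt x ^ 2 * sg η x) +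
        3 * Λ ^ 2 * (η x ^ (4 / 3 : ℝ) * Dt x ^ 2 * sg η x) * ‖D (TG m.f Gt) x‖ := by
  obtain ⟨bT, -, br2, -, hb⟩ := SD.basic hm h h0
  obtain ⟨bf, br⟩ := U11a_bl hm
  obtain ⟨bG, lG, -, pG⟩ := h.Gt_r
  obtain ⟨bρ, hdec⟩ := U11a_dec hm bG
  have lρ : LP fun x => m.f x ^ 2 + Gt x ^ 2 := fun K hK => by
    obtain ⟨a, ha, ha'⟩ := lG K hK
    refine ⟨a ^ 2, by positivity, ha'.mono fun x hx hxK => ?_⟩
    have := pow_le_pow_left₀ ha.le (hx hxK) 2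
    linarith [sq_nonneg (m.f x)]
  obtain ⟨bom, dom⟩ := br2.div bρ lρ
  have cη : Continuous η := h.η_c.continuous
  have cD := h.Dt_c
  have cσ : Continuous (sg η) := by unfold sg; fun_prop
  have c43 : Continuous fun x => η x ^ (4 / 3 : ℝ) := cη.rpow_const fun _ => Or.inr (by norm_num)
  have li : ∀ K, IsCompact K → K ⊆ Hp ∩ Sl R → IntegrableOn (fun x =>
      4 * Λ ^ 2 * (η x * Dt x ^ 2 * sg η x) +
        3 * Λ ^ 2 * (η x ^ (4 / 3 : ℝ) * Dt x ^ 2 * sg η x) * ‖D (TG m.f Gt) x‖) K volume :=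
    fun K hK _ => (Continuous.continuousOn (by fun_prop)).integrableOn_compact hK |>.add
      (S12_cont_mul (by fun_prop) hK (S12_intOn hK (bT.hl.dl2 K hK).norm))
  refine ⟨bT.hl, li, fun χ hχ hχ0 => ?_⟩
  obtain ⟨K, hK, hKΩ, hz1, hz2⟩ := S12_supp hχ
  obtain ⟨b1, d1⟩ := bom.mul bf
  obtain ⟨b2, d2⟩ := bom.mul bG
  have t1 := hχ.mul b1
  have t2 := hχ.mul b2
  have t1' := t1.mono (inter_subset_right (s := Hp))
  have k1 := h.sub.le _ t1' (by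
    filter_upwards [hz1, hχ0] with x e1 e2
    by_cases hx : x ∈ K
    · exact mul_nonneg (mul_nonneg (by positivity) ((h.f_bd x (hKΩ hx).2).2.2 (hKΩ hx).1)) e2
    · simp [e1 hx])
  have k2 := hm.sf.eq _ t2.h1
  have i0 := S12_int_lhs br2.hl.aesm br2.lb bT.hl hχ
  have i1 := S12_int_lhs aestronglyMeasurable_const S12_lb_one bG.hl t1
  have i2 := (S12_int_vec' bf.hl.dl2 t2).const_mul (1 / 2)
  have i3 := S12_int_rhs h.sub.li t1'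
  have i4 := S12_mul hm.sf.l2 t2.h1.l2
  refine U11a_int i0 i1 i2 i3 i4 (S12_int_rhs li hχ) ?_ k1 k2
  focus
    filter_upwards [hz1, hz2, hχ0, hb, hdec, dom, d1, d2, (b1.mul hχ.bl).2, (b2.mul hχ.bl).2,
      h.df, h.Gt_bd, h.ν_bd, h.ef] with x e1 e2 e3 e4 e5 e6 e7 e8 e9 e10 e11 e12 e13 e14
    rw [e9, e10]
    by_cases hx : x ∈ K
    swap
    · simp [e1 hx, e2 hx]
    have hS := (hKΩ hx).2
    obtain ⟨pη, pD⟩ := h.pos x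
    obtain ⟨-, s2, -, s4⟩ := U11a_sg η x pη
    obtain ⟨u1, u2, -, -, u3, -⟩ := e4 hS
    rw [e5.1, e5.2] at e6
    have := U11a_pt (V := o.v x + m.I) (Dχ := D χ x) h.Λ1 pη pD s4 s2 (pG x)
      ((h.f_bd x hS).2.2 (hKΩ hx).1) e3 (by positivity)
      (U11a_pow pη (U11a_eta h h0 hS).2).2.2.2 (sq_nonneg (m.r x)) (h.f_bd x hS).2.1
      (e12 hS).2.1 (e11 hS).1 (e12 hS).2.2.1 (e13 hS).1 (e13 hS).2 u2 u3 (e14 hS) u1 rfl e6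
    rw [e7, e8]
    refine le_trans (le_of_eq ?_) this
    ring

end

end Crest.Agent.R335
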