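import Crest.Agent.R335.U11bAux1

set_option autoImplicit false

open MeasureTheory Set Filter Topology Metric
open scoped Gradient ContDiff RealInnerProductSpace ENNReal

namespace Crest.Agent.R335

noncomputable section

theorem U11b : ∃ C : ℝ, 0 < C ∧ ∀ {o : OD} {m : MD} {c Λ R η0 η1 ε : ℝ} {η Dt Gt : E → ℝ},
    m.OK o c → SD o m Λ R η0 η1 ε η Dt Gt → η0 * (10 * Λ ^ 2) ≤ 1 →
    Bl (fun x => TG m.f Gt x - √(η x * (TG m.f Gt x + η x))) ∧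
    WSub (fun x => m.r x ^ 2) (Hp ∩ Sl R) (fun x => TG m.f Gt x - √(η x * (TG m.f Gt x + η x)))
      fun x => C * Λ ^ 6 * (η x * Dt x ^ 2 * sg η x) :=
  ⟨400, by norm_num, fun hm h h0 => U11b_main hm h h0⟩

theorem U11c_ws {a k : E → ℝ} (ha : Hl a) (hk : ContDiff ℝ 2 k) :
    WSub a univ k fun x => -(1 / 2) * (a x * lap k x + ⟪D a x, ∇ k x⟫) := by
  have h1 : ContDiff ℝ 1 k := hk.of_le (by norm_num)
  have hX := F0a_grad_smooth hk
  refine ⟨(bl_c1 h1).hl, fun K hK _ => ?_, fun χ hχ _ => ?_⟩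
  · have i1 := S12_cont_mul (continuousOn_univ.1 (S12_lap_cont isOpen_univ hk.contDiffOn)) hK
      (S12_intOn hK (ha.l2 K hK))
    have i2 := S12_inner (ha.dl2 K hK) (S12_cont_memLp hX.continuous hK)
    refine Integrable.const_mul (Integrable.add ?_ i2) _
    exact i1.congr (ae_of_all _ fun x => mul_comm _ _)
  · have e1 : ∫ x, (1 / 2) * a x * ⟪D k x, D χ x⟫ = (1 / 2) * ∫ x, a x * ⟪∇ k x, D χ x⟫ := by
      rw [← integral_const_mul]
      refine integral_congr_ae ?_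
      filter_upwards [D_c1 h1] with x hx
      rw [hx, mul_assoc]
    rw [e1, S12_ibp hX ha hχ, ← neg_mul_eq_mul_neg, neg_mul_eq_neg_mul, ← integral_const_mul]
    refine le_of_eq (integral_congr_ae (ae_of_all _ fun x => ?_))
    exact (mul_assoc _ _ _).symm

theorem U11c_in (v : E) : ⟪v, ez⟫ = v 2 := by
  unfold ez
  rw [EuclideanSpace.inner_single_right]
  simp

theorem U11c_hor (v w : E) (h : w 2 = 0) : ⟪v, w⟫ = ⟪hor v, w⟫ := by
  unfold hor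
  rw [inner_sub_left, real_inner_smul_left, real_inner_comm w ez, U11c_in, h, mul_zero, sub_zero]

theorem U11c_lat {η : E → ℝ} (h : Differentiable ℝ η) (hl : ∀ x, η (hor x) = η x) (x : E) :
    ∇ η x 2 = 0 := by
  have h1 : HasDerivAt (fun t : ℝ => x + t • ez) ez 0 := by
    simpa using ((hasDerivAt_id (0 : ℝ)).smul_const ez).const_add x
  have h2 := (F0a_fd (h x)).comp_hasDerivAt_of_eq 0 h1 (by simp)
  have h3 : (η ∘ fun t : ℝ => x + t • ez) = fun _ => η x := by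
    funext t
    have e : hor (x + t • ez) = hor x := by
      unfold hor
      simp only [PiLp.add_apply, PiLp.smul_apply, S07.ez_two, smul_eq_mul]
      module
    show η (x + t • ez) = η x
    rw [← hl, e, hl]
  rw [h3] at h2
  have h4 := h2.unique (hasDerivAt_const _ _)
  rwa [innerSL_apply_apply, U11c_in] at h4

theorem U11c_sg {η : E → ℝ} (h : ContDiff ℝ 2 η) (hp : ∀ x, 0 < η x) :
    ContDiff ℝ 2 (sg η) ∧ ∀ x, 0 < sg η x ∧ sg η x ^ 2 = x 2 ^ 2 + η x ^ 2 ∧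
      sg η x • ∇ (sg η) x = x 2 • ez + η x • ∇ η x ∧
      sg η x * lap (sg η) x + ‖∇ (sg η) x‖ ^ 2 = 1 + η x * lap η x + ‖∇ η x‖ ^ 2 := by
  have h0 : ∀ x : E, 0 < x 2 ^ 2 + η x ^ 2 := fun x => by
    have := hp x
    positivity
  have h1 : ContDiff ℝ 2 (sg η) := ((F0a_z_smooth.pow 2).add (h.pow 2)).sqrt fun x => (h0 x).ne'
  have h2 : ∀ x, sg η x ^ 2 = x 2 ^ 2 + η x ^ 2 := fun x => Real.sq_sqrt (h0 x).le
  have h3 : (fun x => sg η x * sg η x) = fun x : E => 1 * (x 2 * x 2) + 1 * (η x * η x) := by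
    funext x
    linarith [h2 x]
  have d1 := h1.differentiable (by norm_num)
  have d2 := h.differentiable (by norm_num)
  have d3 := F0a_z_smooth.differentiable (by norm_num)
  refine ⟨h1, fun x => ⟨Real.sqrt_pos.2 (h0 x), h2 x, ?_, ?_⟩⟩
  · have e := F0a_grad_mul (d1 x) (d1 x)
    rw [h3, F0a_grad_lin ((d3 x).fun_mul (d3 x)) ((d2 x).fun_mul (d2 x)), F0a_grad_mul (d3 x) (d3 x),
      F0a_grad_mul (d2 x) (d2 x), coord_two.2] at e
    linear_combination (norm := module) (-(1 / 2 : ℝ)) • e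
  · have e := F0a_lap_mul h1 h1 x
    rw [h3, F0a_lap_lin (F0a_z_smooth.mul F0a_z_smooth) (h.mul h), F0a_lap_mul h h,
      F0a_lap_mul F0a_z_smooth F0a_z_smooth, coord_two.2, F0a_lap_z, real_inner_self_eq_norm_sq,
      real_inner_self_eq_norm_sq, real_inner_self_eq_norm_sq, f0b_norm_ez] at e
    linarith

theorem U11c_alg {a z e s P Le Ls A w ℓ Λ T N : ℝ} (hs : 0 < s) (he : 0 < e) (hz : 0 ≤ z)
    (h2 : s ^ 2 = z ^ 2 + e ^ 2) (hP : 0 ≤ P) (hN : s ^ 2 * N = z ^ 2 + e ^ 2 * P)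
    (hL : s * Ls + N = 1 + e * Le + P) (hΛ : 1 ≤ Λ) (hℓ : ℓ * (100 * Λ ^ 6) ≤ 1) (hzl : z ≤ ℓ)
    (hel : e ≤ ℓ) (a1 : (T * s / Λ) ^ 2 ≤ 2 * a) (a2 : a ≤ 2 * (Λ * (T * s)) ^ 2)
    (hLe : |Le| ≤ Λ * e) (hw : |w| ≤ 6 * Λ ^ 2 * T ^ 2 * s * (Λ * e))
    (hA : 2 * (z * T / Λ * (T / Λ)) - 3 * Λ * ℓ * T ^ 2 * s ≤ A) :
    e * T ^ 2 * s / (8 * Λ ^ 2) ≤ a * (e * Ls + 2 * (e * P / s) + (s - 2 * ℓ) * Le) +
      (e * ((z * A + e * w) / s) + (s - 2 * ℓ) * w) := by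
  obtain ⟨u, rfl⟩ : ∃ u, e = u * s := ⟨e / s, by field_simp⟩
  obtain ⟨v, rfl⟩ : ∃ v, z = v * s := ⟨z / s, by field_simp⟩
  obtain ⟨i, hi⟩ : ∃ i, i = Λ⁻¹ := ⟨_, rfl⟩
  have L0 : 0 < Λ := by linarith
  have hi1 : i * Λ = 1 := by rw [hi]; field_simp
  have i0 : 0 < i := by rw [hi]; positivity
  have u0 : 0 < u := (mul_pos_iff_of_pos_right hs).1 he
  have v0 : 0 ≤ v := nonneg_of_mul_nonneg_left hz hs
  have s2 : 0 < s ^ 2 := by positivity
  have huv : u ^ 2 + v ^ 2 = 1 := mul_left_cancel₀ s2.ne' (by linarith)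
  have hN' : N = v ^ 2 + u ^ 2 * P := mul_left_cancel₀ s2.ne' (by linarith)
  have u1 : u ≤ 1 := (abs_le_of_sq_le_sq' (by linarith [sq_nonneg v]) zero_le_one).2
  have v1 : v ≤ 1 := (abs_le_of_sq_le_sq' (by linarith [sq_nonneg u]) zero_le_one).2
  have l0 : 0 < ℓ := by linarith
  have L6 : 1 ≤ Λ ^ 6 := one_le_pow₀ hΛ
  have l1 : ℓ ≤ 1 / 100 := by linarith [mul_le_mul_of_nonneg_left L6 l0.le]
  have sl : s ≤ 2 * ℓ := by
    have : s ≤ v * s + u * s :=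
      (abs_le_of_sq_le_sq' (by linarith [mul_nonneg hz he.le]) (by linarith)).2
    linarith
  have hh : |u * (u * s) + s - 2 * ℓ| ≤ 2 * ℓ := by
    rw [abs_le]
    constructor <;> linarith [mul_pos u0 he, mul_le_mul_of_nonneg_right u1 he.le]
  generalize hhh : u * (u * s) + s - 2 * ℓ = h at hh
  have a0 : 0 ≤ a := by linarith [sq_nonneg (T * s / Λ)]
  have e1 : u * s * Ls + 2 * (u * s * P / s) + (s - 2 * ℓ) * Le =
      u ^ 3 + h * Le + u * P * (v ^ 2 + 2) := by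
    rw [← hhh, mul_right_comm u s P, mul_div_cancel_right₀ _ hs.ne']
    linear_combination u * hL - u * hN' - (u * (1 + P)) * huv
  have e2 : u * s * ((v * s * A + u * s * w) / s) + (s - 2 * ℓ) * w = u * s * v * A + h * w := by
    rw [← hhh]
    field_simp
    ring
  have e3 : u * s * T ^ 2 * s / (8 * Λ ^ 2) = u * s * T ^ 2 * s * (i ^ 2 / 8) := by
    rw [hi]
    field_simp
  rw [e1, e2, e3]
  rw [div_eq_mul_inv, ← hi] at a1
  rw [div_eq_mul_inv, div_eq_mul_inv, ← hi] at hA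
  have M0 : 0 ≤ u * s * T ^ 2 * s := by positivity
  have b1 : u * s * T ^ 2 * s * (u ^ 2 * i ^ 2 / 2) ≤ a * u ^ 3 := by
    linarith [mul_le_mul_of_nonneg_right a1 (pow_pos u0 3).le]
  have b2 : -(u * s * T ^ 2 * s * (4 * Λ ^ 3 * ℓ)) ≤ a * (h * Le) := by
    have c1 : |h * Le| ≤ 2 * ℓ * (Λ * (u * s)) := by
      rw [abs_mul]
      exact mul_le_mul hh hLe (abs_nonneg _) (by positivity)
    have c2 := mul_le_mul_of_nonneg_left (neg_le_of_abs_le c1) a0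
    have c3 := mul_le_mul_of_nonneg_right a2 (show 0 ≤ 2 * ℓ * (Λ * (u * s)) by positivity)
    have c4 := mul_le_mul_of_nonneg_left (show s ≤ 1 by linarith)
      (show 0 ≤ u * s * T ^ 2 * s * (4 * Λ ^ 3 * ℓ) by positivity)
    linarith
  have b3 : -(u * s * T ^ 2 * s * (12 * Λ ^ 3 * ℓ)) ≤ h * w := by
    have c1 : |h * w| ≤ 2 * ℓ * (6 * Λ ^ 2 * T ^ 2 * s * (Λ * (u * s))) := by
      rw [abs_mul]
      exact mul_le_mul hh hw (abs_nonneg _) (by positivity)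
    linarith [neg_le_of_abs_le c1]
  have b4 : u * s * T ^ 2 * s * (2 * v ^ 2 * i ^ 2 - 3 * Λ ^ 3 * ℓ) ≤ u * s * v * A := by
    have c1 := mul_le_mul_of_nonneg_left hA (show 0 ≤ u * s * v by positivity)
    have c2 : v * Λ ≤ Λ ^ 3 :=
      (mul_le_of_le_one_left L0.le v1).trans (le_self_pow₀ hΛ (by norm_num))
    have c3 := mul_le_mul_of_nonneg_left c2 (show 0 ≤ u * s * T ^ 2 * s * (3 * ℓ) by positivity)
    linarith
  have b5 : 0 ≤ a * (u * P * (v ^ 2 + 2)) := by positivity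
  have b6 : 100 * (Λ ^ 3 * ℓ) ≤ i ^ 2 := by
    have c1 : Λ ^ 3 * ℓ = i ^ 2 * (ℓ * Λ ^ 5) := by
      linear_combination (-(Λ ^ 3 * ℓ * (i * Λ + 1))) * hi1
    have c2 : Λ ^ 5 ≤ Λ ^ 6 := pow_le_pow_right₀ hΛ (by norm_num)
    have c3 : 100 * (ℓ * Λ ^ 5) ≤ 1 := by linarith [mul_le_mul_of_nonneg_left c2 l0.le]
    linarith [mul_le_mul_of_nonneg_left c3 (sq_nonneg i)]
  have b7 : i ^ 2 / 8 ≤ u ^ 2 * i ^ 2 / 2 - 4 * Λ ^ 3 * ℓ - 12 * Λ ^ 3 * ℓ +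
      (2 * v ^ 2 * i ^ 2 - 3 * Λ ^ 3 * ℓ) := by
    have c1 : u ^ 2 * i ^ 2 + v ^ 2 * i ^ 2 = i ^ 2 := by linear_combination i ^ 2 * huv
    linarith [sq_nonneg (v * i), sq_nonneg i]
  linarith [mul_le_mul_of_nonneg_left b7 M0]

theorem U11c : ∃ C : ℝ, 10 ≤ C ∧ ∀ {o : OD} {m : MD} {c Λ R η0 η1 ε ℓ : ℝ} {η Dt Gt : E → ℝ},
    m.OK o c → SD o m Λ R η0 η1 ε η Dt Gt → 0 < ℓ → ℓ * (C * Λ ^ 6) ≤ 1 → η0 ≤ ℓ ^ 2 →
    WSub (fun x => m.r x ^ 2) (Hp ∩ Sl R ∩ {x | x 2 < ℓ}) (fun x => -(η x * (2 * ℓ - sg η x)))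
      fun x => -(η x * Dt x ^ 2 * sg η x / (16 * Λ ^ 2)) := by
  refine ⟨100, by norm_num, fun {o m c Λ R η0 η1 ε ℓ η Dt Gt} hm h l0 hl h0 => ?_⟩
  have hΛ := h.Λ1
  have L0 : 0 < Λ := by linarith
  have L6 : 1 ≤ Λ ^ 6 := one_le_pow₀ hΛ
  have l1 : ℓ ≤ 1 / 100 := by linarith [mul_le_mul_of_nonneg_left L6 l0.le]
  have lΛ : ℓ * Λ ^ 2 ≤ 1 / 100 := by
    linarith [mul_le_mul_of_nonneg_left (pow_le_pow_right₀ hΛ (show 2 ≤ 6 by norm_num)) l0.le]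
  have lΛ1 : ℓ ≤ 1 / Λ := by
    rw [le_div_iff₀ L0]
    linarith [mul_le_mul_of_nonneg_left (le_self_pow₀ hΛ two_ne_zero) l0.le]
  have l2 : ℓ ^ 2 ≤ ℓ := by linarith [mul_le_mul_of_nonneg_left l1 l0.le]
  obtain ⟨-, -, ba, -, hb⟩ := h.basic hm
    (by linarith [mul_le_mul_of_nonneg_right (h0.trans l2) (sq_nonneg Λ)])
  obtain ⟨cs, hs⟩ := U11c_sg h.η_c fun x => (h.pos x).1
  have d1 := cs.differentiable (by norm_num)
  have d2 := h.η_c.differentiable (by norm_num)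
  have ek : (fun x => -(η x * (2 * ℓ - sg η x))) =
      fun x => 1 * (η x * sg η x) + -(2 * ℓ) * η x := by
    funext x
    ring
  have bf : Bl m.f := ⟨hm.sf.h1.hl, Continuous.lb' hm.cf.1⟩
  have bf2 := bf.mul bf
  have bG2 := h.Gt_r.1.mul h.Gt_r.1
  simp only [← sq] at bf2 bG2
  rw [ek]
  refine (U11c_ws ba.hl ((contDiff_const.mul (h.η_c.mul cs)).add (contDiff_const.mul h.η_c))).mono
    (subset_univ _) (fun K hK _ => ?_) ?_
  · exact (((h.η_c.continuous.mul (h.Dt_c.pow 2)).mul cs.continuous).div_const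
      _).neg.continuousOn.integrableOn_compact hK
  filter_upwards [hb, h.df, h.Gt_bd, h.ν_bd, bf2.2, bG2.2, D_sub ba.hl bf2.1.hl,
    D_sub (ba.hl.sub bf2.1.hl) bG2.1.hl] with x h1 h2 h3 h4 h5 h6 h7 h8 hx
  obtain ⟨⟨z0, xs⟩, zl⟩ := hx
  replace z0 : 0 ≤ x 2 := z0
  replace zl : x 2 < ℓ := zl
  obtain ⟨-, a1, a2, a3, a4, a5, -⟩ := h1 xs
  obtain ⟨-, -, f3⟩ := h2 xs
  obtain ⟨-, g2, g3, -⟩ := h3 xs
  obtain ⟨-, n2⟩ := h4 xs
  obtain ⟨p1, p2, p3, -⟩ := h.η_bd x xs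
  obtain ⟨f1, -, f2⟩ := h.f_bd x xs
  obtain ⟨s0, s1, s2, s3⟩ := hs x
  obtain ⟨e0, t0⟩ := h.pos x
  have g0 := h.Gt_r.2.2.2 x
  have lt := U11c_lat d2 (fun x => (h.lat x).1) x
  rw [abs_of_nonneg z0] at f1 f3
  rw [abs_of_nonneg (f2 z0)] at f1
  replace f3 := f3 (zl.le.trans lΛ1)
  have el : η x ≤ ℓ ^ 2 := p1.trans h0
  have el1 : η x ≤ ℓ := el.trans l2
  have es : η x ≤ sg η x := (abs_le_of_sq_le_sq' (by linarith [sq_nonneg (x 2)]) s0.le).2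
  have s4 : sg η x ≤ 1 := by
    have : sg η x ≤ x 2 + η x :=
      (abs_le_of_sq_le_sq' (by linarith [mul_nonneg z0 e0.le]) (by linarith)).2
    linarith
  have r1 : η x ^ (2 / 3 : ℝ) ≤ ℓ := by
    calc η x ^ (2 / 3 : ℝ) ≤ η x ^ (1 / 2 : ℝ) :=
          Real.rpow_le_rpow_of_exponent_ge e0 (by linarith) (by norm_num)
      _ ≤ ℓ := by
          rw [← Real.sqrt_eq_rpow]
          exact Real.sqrt_le_iff.2 ⟨l0.le, el⟩
  have r2 : η x ^ (4 / 3 : ℝ) ≤ ℓ :=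
    (Real.rpow_le_rpow_of_exponent_ge e0 (by linarith) (by norm_num)).trans r1
  have eS : ∇ (sg η) x = (sg η x)⁻¹ • (x 2 • ez + η x • ∇ η x) := by
    rw [← s2, smul_smul, inv_mul_cancel₀ s0.ne', one_smul]
  have iS : ∀ v : E, ⟪v, ∇ (sg η) x⟫ = (x 2 * v 2 + η x * ⟪v, ∇ η x⟫) / sg η x := fun v => by
    rw [eS, real_inner_smul_right, inner_add_right, real_inner_smul_right, real_inner_smul_right,
      U11c_in, inv_mul_eq_div]
  have hN : sg η x ^ 2 * ‖∇ (sg η) x‖ ^ 2 = x 2 ^ 2 + η x ^ 2 * ‖∇ η x‖ ^ 2 := by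
    have e := congrArg (fun v : E => ‖v‖ ^ 2) s2
    simp only [norm_add_sq_real, norm_smul, mul_pow, Real.norm_eq_abs, sq_abs, f0b_norm_ez,
      real_inner_smul_left, real_inner_smul_right, real_inner_comm (∇ η x) ez, U11c_in, lt] at e
    linarith
  have hw : |⟪D (fun x => m.r x ^ 2) x, ∇ η x⟫| ≤
      6 * Λ ^ 2 * Dt x ^ 2 * sg η x * (Λ * η x) := by
    rw [U11c_hor _ _ lt]
    refine (abs_real_inner_le_norm _ _).trans (mul_le_mul (a5.trans ?_) p2 (norm_nonneg _)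
      (by positivity))
    exact mul_le_mul_of_nonneg_left (mul_le_of_le_one_right s0.le (Real.sqrt_le_one.2 s4))
      (by positivity)
  have hA : 2 * (x 2 * Dt x / Λ * (Dt x / Λ)) - 3 * Λ * ℓ * Dt x ^ 2 * sg η x ≤
      D (fun x => m.r x ^ 2) x 2 := by
    rw [h8, h7, h5, h6] at n2
    have c1 := (PiLp.norm_apply_le _ (2 : Fin 3)).trans n2
    have c2 := (PiLp.norm_apply_le _ (2 : Fin 3)).trans g3
    simp only [Real.norm_eq_abs, PiLp.sub_apply, PiLp.add_apply, PiLp.smul_apply, smul_eq_mul]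
      at c1 c2
    have c3 := mul_le_mul f1 f3 (by positivity) (f2 z0)
    have c4 : |Gt x * D Gt x 2| ≤ Λ * (sg η x * Dt x) * (ℓ * Dt x) := by
      rw [abs_mul, abs_of_pos g0]
      exact mul_le_mul (g2.trans (by gcongr)) (c2.trans (by gcongr)) (abs_nonneg _) (by positivity)
    have c5 : η x ^ (4 / 3 : ℝ) * Dt x ^ 2 * sg η x ≤ Λ * ℓ * Dt x ^ 2 * sg η x := by
      have : η x ^ (4 / 3 : ℝ) ≤ Λ * ℓ := r2.trans (le_mul_of_one_le_left l0.le hΛ)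
      gcongr
    linarith [neg_le_of_abs_le c1, neg_le_of_abs_le c4]
  have key := U11c_alg (a := m.r x ^ 2) s0 e0 z0 s1 (sq_nonneg _) hN s3 hΛ hl zl.le el1
    (a1.trans a3) (by linarith) p3 hw hA
  rw [F0a_lap_lin (h.η_c.mul cs) h.η_c, F0a_lap_mul h.η_c cs,
    F0a_grad_lin ((d2 x).fun_mul (d1 x)) (d2 x), F0a_grad_mul (d2 x) (d1 x)]
  simp only [inner_add_right, real_inner_smul_right, iS, lt, real_inner_self_eq_norm_sq,
    mul_zero, zero_add]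
  have e9 : η x * Dt x ^ 2 * sg η x / (8 * Λ ^ 2) =
      2 * (η x * Dt x ^ 2 * sg η x / (16 * Λ ^ 2)) := by
    field_simp
    norm_num
  linarith

end

end Crest.Agent.R335
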