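import Crest.Agent.R335.U11a

set_option autoImplicit false

open MeasureTheory Set Filter Topology Metric
open scoped Gradient ContDiff RealInnerProductSpace ENNReal

namespace Crest.Agent.R335

noncomputable section

/-- weak chain rule for `β(T, η)` with `T` a weak subsolution and `η` of class `C²` -/
theorem U11b_gen {w T β c b η S0 S : E → ℝ} {Ω : Set E} (hw : Bl w) (hβ : Hl β) (hc : Bl c)
    (hc0 : ∀ x, 0 ≤ c x) (hb : Bl b) (hη : ContDiff ℝ 2 η)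
    (hD : ∀ᵐ x, D β x = c x • D T x - b x • ∇ η x) (hsub : WSub w Ω T S0)
    (hS : ∀ K, IsCompact K → K ⊆ Ω → IntegrableOn S K volume)
    (hle : ∀ᵐ x, x ∈ Ω → S0 x * c x - (1 / 2) * (w x * ⟪D T x, D c x⟫) +
      (1 / 2) * (w x * b x * lap η x + ⟪w x • D b x + b x • D w x, ∇ η x⟫) ≤ S x) :
    WSub w Ω β S := by
  refine ⟨hβ, hS, fun χ hχ h0 => ?_⟩
  have hT := hsub.hl
  have hχ' := hχ.mul hc
  have h1 := hsub.le _ hχ' (h0.mono fun x hx => mul_nonneg (hc0 x) hx)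
  obtain ⟨hwb, hDwb⟩ := hw.mul hb
  have hg1 : ContDiff ℝ 1 (∇ η) := F0a_grad_smooth hη
  have h2 := ibp_mul_field isOpen_univ hg1.contDiffOn hwb (hχ.mono (subset_univ _))
  have hDc := (hc.mul hχ.bl).2
  have iA := S12_int_lhs hw.hl.aesm hw.lb hT hχ'
  have iF : Integrable fun x => (w x * ⟪D T x, D c x⟫) * χ x :=
    S12_int_rhs (fun K hK _ => S12_lb_mul hw.hl.aesm hw.lb hK
      (S12_inner (hT.dl2 K hK) (hc.hl.dl2 K hK))) hχ
  have iB : Integrable fun x => w x * b x * ⟪∇ η x, D χ x⟫ :=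
    S12_int_vec hwb.hl.aesm hwb.lb (fun K hK => S12_cont_memLp hg1.continuous hK) hχ
  have hlap : Continuous (lap η) :=
    continuousOn_univ.1 (S12_lap_cont isOpen_univ hη.contDiffOn)
  have iG : Integrable fun x =>
      (w x * b x * dvg (∇ η) x + ⟪D (fun x => w x * b x) x, ∇ η x⟫) * χ x :=
    S12_int_rhs (fun K hK _ => (S12_lb_mul hwb.hl.aesm hwb.lb hK
      (hlap.continuousOn.integrableOn_compact hK)).add
      (S12_inner (hwb.hl.dl2 K hK) (S12_cont_memLp hg1.continuous hK))) hχ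
  have iS0 := S12_int_rhs hsub.li hχ'
  have iS := S12_int_rhs hS hχ
  have e1 : ∫ x, (1 / 2) * w x * ⟪D β x, D χ x⟫ =
      ∫ x, (((1 / 2) * w x * ⟪D T x, D (fun x => c x * χ x) x⟫ -
        (1 / 2) * ((w x * ⟪D T x, D c x⟫) * χ x)) - (1 / 2) * (w x * b x * ⟪∇ η x, D χ x⟫)) := by
    refine integral_congr_ae ?_
    filter_upwards [hD, hDc] with x h3 h4
    rw [h3, h4]
    simp only [inner_sub_left, inner_add_right, real_inner_smul_left, real_inner_smul_right]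
    ring
  have j1 : Integrable fun x => (1 / 2) * w x * ⟪D T x, D (fun x => c x * χ x) x⟫ -
      (1 / 2) * ((w x * ⟪D T x, D c x⟫) * χ x) := iA.sub (iF.const_mul _)
  have j2 : Integrable fun x => S0 x * (c x * χ x) - (1 / 2) * ((w x * ⟪D T x, D c x⟫) * χ x) :=
    iS0.sub (iF.const_mul _)
  rw [e1, integral_sub j1 (iB.const_mul _),
    integral_sub iA (iF.const_mul _), integral_const_mul (1 / 2 : ℝ), integral_const_mul (1 / 2 : ℝ),
    h2]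
  have e2 : ∫ x, ((S0 x * (c x * χ x) - (1 / 2) * ((w x * ⟪D T x, D c x⟫) * χ x)) +
      (1 / 2) * ((w x * b x * dvg (∇ η) x + ⟪D (fun x => w x * b x) x, ∇ η x⟫) * χ x)) ≤
      ∫ x, S x * χ x := by
    refine integral_mono_ae (j2.add (iG.const_mul _)) iS ?_
    obtain ⟨K, -, hKΩ, hK0⟩ := hχ.cs
    filter_upwards [hle, hK0, h0, hDwb] with x h3 h4 h5 h6
    by_cases hx : x ∈ K
    · have := mul_le_mul_of_nonneg_right (h3 (hKΩ hx)) h5
      rw [h6]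
      unfold lap at this
      linarith
    · rw [h4 hx]
      simp
  rw [integral_add j2 (iG.const_mul _),
    integral_sub iS0 (iF.const_mul _), integral_const_mul (1 / 2 : ℝ),
    integral_const_mul (1 / 2 : ℝ)] at e2
  linarith

/-- a lateral function has a horizontal gradient -/
theorem U11b_lat {η : E → ℝ} (hη : ContDiff ℝ 2 η) (hl : ∀ x, η (hor x) = η x) (x v : E) :
    ⟪v, ∇ η x⟫ = ⟪hor v, ∇ η x⟫ := by
  have hd : DifferentiableAt ℝ η x := hη.differentiable (by norm_num) x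
  have h1 : HasDerivAt (fun t : ℝ => η (x + t • ez)) (fderiv ℝ η x ez) 0 := by
    have h2 : HasDerivAt (fun t : ℝ => x + t • ez) ez 0 := by
      simpa using ((hasDerivAt_id (0 : ℝ)).smul_const ez).const_add x
    have h3 : HasFDerivAt η (fderiv ℝ η x) (x + (0 : ℝ) • ez) := by simpa using hd.hasFDerivAt
    exact h3.comp_hasDerivAt (0 : ℝ) h2
  have h4 : (fun t : ℝ => η (x + t • ez)) = fun _ => η x := by
    funext t
    have : hor (x + t • ez) = hor x := by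
      have e : (x + t • ez) 2 = x 2 + t := by simp [ez]
      rw [hor, hor, e, add_smul]
      abel
    rw [← hl, this, hl]
  rw [h4] at h1
  have h5 : fderiv ℝ η x ez = 0 := h1.unique (hasDerivAt_const _ _)
  have h6 : ⟪ez, ∇ η x⟫ = 0 := by rw [real_inner_comm, s05_inner_grad, h5]
  rw [hor, inner_sub_left, real_inner_smul_left, h6]
  simp

/-- the pointwise identity: the Hessian of `β` is a negative square -/
theorem U11b_id {p η w : ℝ} (hp : 0 < p) (hη : 0 < η) (A g B : E) :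
    -((1 / 2) * (w * ⟪A, (4 * p ^ 3 * η)⁻¹ • (A - (p ^ 2 - 1) • g)⟫)) +
      (1 / 2) * ⟪w • (((p ^ 2 - 1) / (4 * p ^ 3 * η)) • (A - (p ^ 2 - 1) • g)) + B, g⟫ =
      -(w / (8 * p ^ 3 * η) * ‖A - (p ^ 2 - 1) • g‖ ^ 2) + (1 / 2) * ⟪B, g⟫ := by
  set W := A - (p ^ 2 - 1) • g with hW
  have e : A = W + (p ^ 2 - 1) • g := by rw [hW]; abel
  clear_value W
  subst e
  simp only [inner_add_left, real_inner_smul_left, real_inner_smul_right, real_inner_self_eq_norm_sq,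
    real_inner_comm W g]
  field_simp
  ring

/-- the numerical inequality -/
theorem U11b_num {Λ η ρ σ Dt w p T Z a gn lp hw ip : ℝ} (hΛ : 1 ≤ Λ) (hη : 0 < η) (hη1 : η ≤ 1)
    (hρ0 : 0 ≤ ρ) (hρ1 : ρ ≤ η) (hρ2 : ρ ^ 2 ≤ η ^ 2 * √η) (hσ1 : η ≤ σ) (hσ2 : σ ≤ 3 / 2)
    (hDt : 0 < Dt) (hw1 : (Dt * σ / Λ) ^ 2 ≤ 2 * w) (hw2 : w ≤ 2 * (Λ * (Dt * σ)) ^ 2)
    (hp1 : 1 ≤ p) (hp : p ^ 2 = T / η + 1) (hT2 : T ≤ 2) (hT3 : T ≤ 4 * Λ ^ 2 * η / σ)
    (ha0 : 0 ≤ a) (ha : a ≤ Z + (p ^ 2 - 1) * gn) (hgn0 : 0 ≤ gn) (hgn : gn ≤ Λ * η)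
    (hlp : |lp| ≤ Λ * η) (hhw : hw ≤ 6 * Λ ^ 2 * Dt ^ 2 * (σ * √σ)) (hip : ip ≤ hw * gn) :
    (4 * Λ ^ 2 * (η * Dt ^ 2 * σ) + 3 * Λ ^ 2 * (ρ * Dt ^ 2 * σ) * a) * (1 - 1 / 2 * p⁻¹) -
      w / (8 * p ^ 3 * η) * Z ^ 2 + (1 / 2) * (w * (1 / 2 * (p + p⁻¹)) * lp) +
      (1 / 2) * (1 / 2 * (p + p⁻¹) * ip) ≤ 400 * Λ ^ 6 * (η * Dt ^ 2 * σ) := by
  have hσ : 0 < σ := hη.trans_le hσ1
  have hΛ0 : 0 < Λ := by linarith
  have hp0 : 0 < p := by linarith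
  set M := η * Dt ^ 2 * σ with hM
  have hM0 : 0 < M := by positivity
  have hw0 : 0 < w := by
    have : 0 < (Dt * σ / Λ) ^ 2 := by positivity
    linarith
  have hpi0 : 0 < p⁻¹ := inv_pos.2 hp0
  have hpi1 : p⁻¹ ≤ 1 := inv_le_one_of_one_le₀ hp1
  have hL2 : Λ ^ 2 ≤ Λ ^ 6 := pow_le_pow_right₀ hΛ (by norm_num)
  have hL3 : Λ ^ 3 ≤ Λ ^ 6 := pow_le_pow_right₀ hΛ (by norm_num)
  have hL4 : Λ ^ 4 ≤ Λ ^ 6 := pow_le_pow_right₀ hΛ (by norm_num)
  -- first term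
  have hTη : (p ^ 2 - 1) * η = T := by rw [hp]; field_simp; ring
  have hp21 : 0 ≤ p ^ 2 - 1 := sub_nonneg.2 (one_le_pow₀ hp1)
  have hΛ2 : 1 ≤ Λ ^ 2 := one_le_pow₀ hΛ
  have ha2 : a ≤ Z + 2 * Λ := by
    have : (p ^ 2 - 1) * gn ≤ (p ^ 2 - 1) * (Λ * η) := mul_le_mul_of_nonneg_left hgn hp21
    have e : (p ^ 2 - 1) * (Λ * η) = Λ * T := by rw [← hTη]; ring
    have := mul_le_mul_of_nonneg_left hT2 hΛ0.le
    linarith
  set A := 3 * Λ ^ 2 * (ρ * Dt ^ 2 * σ) with hA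
  have hA0 : 0 ≤ A := by positivity
  have hA1 : A ≤ 3 * Λ ^ 2 * M := by
    rw [hA, hM]
    gcongr
  have t1 : (4 * Λ ^ 2 * M + A * a) * (1 - 1 / 2 * p⁻¹) ≤ 4 * Λ ^ 2 * M + 6 * Λ ^ 3 * M + A * Z := by
    have h1 : (4 * Λ ^ 2 * M + A * a) * (1 - 1 / 2 * p⁻¹) ≤ 4 * Λ ^ 2 * M + A * a :=
      mul_le_of_le_one_right (by positivity) (by linarith)
    have h2 : A * a ≤ A * (Z + 2 * Λ) := mul_le_mul_of_nonneg_left ha2 hA0
    have h3 : A * (2 * Λ) ≤ 3 * Λ ^ 2 * M * (2 * Λ) := mul_le_mul_of_nonneg_right hA1 (by positivity)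
    linarith
  -- absorption
  have hs0 : 0 < √η := Real.sqrt_pos.2 hη
  have hs2 : √η ^ 2 = η := Real.sq_sqrt hη.le
  have hps : p * √η ≤ 2 := by
    have : (p * √η) ^ 2 ≤ 2 ^ 2 := by
      rw [mul_pow, hs2]
      linarith
    exact le_of_sq_le_sq this (by positivity)
  set g := w / (8 * p ^ 3 * η) with hg
  have hg0 : 0 < g := by positivity
  have t2 : A * Z - g * Z ^ 2 ≤ 288 * Λ ^ 6 * M := by
    have key : A ^ 2 ≤ 4 * g * (288 * Λ ^ 6 * M) := by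
      have h1 : A ^ 2 ≤ 9 * Λ ^ 4 * Dt ^ 4 * σ ^ 2 * (η ^ 2 * √η) := by
        have : A ^ 2 = 9 * Λ ^ 4 * Dt ^ 4 * σ ^ 2 * ρ ^ 2 := by rw [hA]; ring
        rw [this]
        exact mul_le_mul_of_nonneg_left hρ2 (by positivity)
      have h2 : 4 * g * (288 * Λ ^ 6 * M) = 72 * Λ ^ 6 * Dt ^ 2 * σ * (2 * w) / p ^ 3 := by
        rw [hg, hM]
        field_simp
        ring
      have h3 : p ^ 3 * (η * √η) ≤ 8 := by
        have := pow_le_pow_left₀ (by positivity) hps 3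
        have e : (p * √η) ^ 3 = p ^ 3 * (√η ^ 2 * √η) := by ring
        rw [e, hs2] at this
        linarith
      rw [h2, le_div_iff₀ (by positivity)]
      have h4 : 72 * Λ ^ 6 * Dt ^ 2 * σ * (Dt * σ / Λ) ^ 2 ≤ 72 * Λ ^ 6 * Dt ^ 2 * σ * (2 * w) :=
        mul_le_mul_of_nonneg_left hw1 (by positivity)
      have h5 : 72 * Λ ^ 6 * Dt ^ 2 * σ * (Dt * σ / Λ) ^ 2 = 9 * Λ ^ 4 * Dt ^ 4 * σ ^ 2 * (σ * 8) := by
        field_simp
        ring
      calc A ^ 2 * p ^ 3 ≤ 9 * Λ ^ 4 * Dt ^ 4 * σ ^ 2 * (η ^ 2 * √η) * p ^ 3 :=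
            mul_le_mul_of_nonneg_right h1 (by positivity)
        _ = 9 * Λ ^ 4 * Dt ^ 4 * σ ^ 2 * (η * (p ^ 3 * (η * √η))) := by ring
        _ ≤ 9 * Λ ^ 4 * Dt ^ 4 * σ ^ 2 * (σ * 8) := by gcongr
        _ ≤ _ := by rw [← h5]; exact h4
    have h6 : 0 ≤ (2 * g * Z - A) ^ 2 := sq_nonneg _
    have h7 : 4 * g * (A * Z - g * Z ^ 2) ≤ 4 * g * (288 * Λ ^ 6 * M) := by linarith
    exact le_of_mul_le_mul_left h7 (by positivity)
  -- the coefficient of `∇η`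
  set b := 1 / 2 * (p + p⁻¹) with hb
  have hb0 : 0 < b := by positivity
  have hbp : b ≤ p := by rw [hb]; linarith
  have hr0 : 0 < √σ := Real.sqrt_pos.2 hσ
  have hr2 : √σ ^ 2 = σ := Real.sq_sqrt hσ.le
  have hr3 : √σ ≤ 3 / 2 := by
    have : √σ ^ 2 ≤ (3 / 2) ^ 2 := by rw [hr2]; linarith
    exact le_of_sq_le_sq this (by positivity)
  have hbs : b * √σ ≤ 3 * Λ := by
    have h1 : T * σ ≤ 4 * Λ ^ 2 * η := by rwa [le_div_iff₀ hσ] at hT3
    have h2 : (p ^ 2 - 1) * σ ≤ 4 * Λ ^ 2 := by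
      have : ((p ^ 2 - 1) * σ) * η ≤ (4 * Λ ^ 2) * η := by
        have e : ((p ^ 2 - 1) * σ) * η = T * σ := by rw [← hTη]; ring
        rw [e]
        exact h1
      exact le_of_mul_le_mul_right this hη
    have h3 : (p * √σ) ^ 2 ≤ (3 * Λ) ^ 2 := by
      rw [mul_pow, hr2]
      linarith
    have h4 : p * √σ ≤ 3 * Λ := le_of_sq_le_sq h3 (by positivity)
    exact (mul_le_mul_of_nonneg_right hbp hr0.le).trans h4
  have t3 : w * b * lp ≤ 9 * Λ ^ 4 * M := by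
    calc w * b * lp ≤ w * b * (Λ * η) :=
          mul_le_mul_of_nonneg_left ((le_abs_self _).trans hlp) (by positivity)
      _ ≤ 2 * (Λ * (Dt * σ)) ^ 2 * b * (Λ * η) := by gcongr
      _ = 2 * Λ ^ 3 * M * (b * √σ ^ 2) := by rw [hr2, hM]; ring
      _ = 2 * Λ ^ 3 * M * ((b * √σ) * √σ) := by ring
      _ ≤ 2 * Λ ^ 3 * M * ((3 * Λ) * (3 / 2)) := by gcongr
      _ = 9 * Λ ^ 4 * M := by ring
  have t4 : b * ip ≤ 18 * Λ ^ 4 * M := by
    calc b * ip ≤ b * (hw * gn) := mul_le_mul_of_nonneg_left hip hb0.le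
      _ ≤ b * (6 * Λ ^ 2 * Dt ^ 2 * (σ * √σ) * gn) := by gcongr
      _ ≤ b * (6 * Λ ^ 2 * Dt ^ 2 * (σ * √σ) * (Λ * η)) := by gcongr
      _ = 6 * Λ ^ 3 * M * (b * √σ) := by rw [hM]; ring
      _ ≤ 6 * Λ ^ 3 * M * (3 * Λ) := by gcongr
      _ = 18 * Λ ^ 4 * M := by ring
  have u2 := mul_le_mul_of_nonneg_right hL2 hM0.le
  have u3 := mul_le_mul_of_nonneg_right hL3 hM0.le
  have u4 := mul_le_mul_of_nonneg_right hL4 hM0.le
  have u6 : 0 ≤ Λ ^ 6 * M := by positivity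
  linarith

theorem U11b_main {o : OD} {m : MD} {c Λ R η0 η1 ε : ℝ} {η Dt Gt : E → ℝ}
    (hm : m.OK o c) (h : SD o m Λ R η0 η1 ε η Dt Gt) (h0 : η0 * (10 * Λ ^ 2) ≤ 1) :
    Bl (fun x => TG m.f Gt x - √(η x * (TG m.f Gt x + η x))) ∧
    WSub (fun x => m.r x ^ 2) (Hp ∩ Sl R) (fun x => TG m.f Gt x - √(η x * (TG m.f Gt x + η x)))
      fun x => 400 * Λ ^ 6 * (η x * Dt x ^ 2 * sg η x) := by
  obtain ⟨hT, -, hw, hT0, hae⟩ := h.basic hm h0
  have hsub := U11a hm h h0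
  set T := TG m.f Gt with hTdef
  have hη1 : ContDiff ℝ 1 η := h.η_c.of_le (by norm_num)
  have hηp : ∀ x, 0 < η x := fun x => (h.pos x).1
  have hηb : Bl η := bl_c1 hη1
  have hηD := D_c1 hη1
  obtain ⟨hu, hDu⟩ := hT.div hηb (Continuous.lp' hη1.continuous hηp)
  have h1b : Bl fun _ : E => (1 : ℝ) := bl_c1 contDiff_const
  have hv : Bl fun x => T x / η x + 1 := hu.add h1b
  have hDv := D_add hu.hl h1b.hl
  have hv1 : ∀ x, 1 ≤ T x / η x + 1 := fun x => by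
    have := div_pos (hT0 x).1 (hηp x)
    linarith
  obtain ⟨hp, hDp⟩ := hv.sqrt fun K _ => ⟨1, one_pos, ae_of_all _ fun x _ => hv1 x⟩
  set p : E → ℝ := fun x => √(T x / η x + 1) with hpdef
  have hp1 : ∀ x, 1 ≤ p x := fun x => Real.one_le_sqrt.2 (hv1 x)
  have hp2 : ∀ x, p x ^ 2 = T x / η x + 1 := fun x => Real.sq_sqrt (by linarith [hv1 x])
  obtain ⟨hs, hDs⟩ := hp.inv fun K _ => ⟨1, one_pos, ae_of_all _ fun x _ => hp1 x⟩
  have eβ : (fun x => T x - √(η x * (T x + η x))) = fun x => T x - η x * p x := by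
    funext x
    have : η x * (T x + η x) = η x ^ 2 * (T x / η x + 1) := by
      have := (hηp x).ne'
      field_simp
    rw [this, Real.sqrt_mul (sq_nonneg _), Real.sqrt_sq (hηp x).le]
  obtain ⟨hq, hDq⟩ := hηb.mul hp
  have hβ : Bl fun x => T x - η x * p x := hT.sub hq
  have hDβ := D_sub hT.hl hq.hl
  have hc : Bl fun x => 1 - 1 / 2 * (p x)⁻¹ := h1b.sub (hs.smul _)
  have hDc := D_sub h1b.hl (hs.smul (1 / 2)).hl
  have hDc' := D_smul (1 / 2) hs.hl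
  have hb : Bl fun x => 1 / 2 * (p x + (p x)⁻¹) := (hp.add hs).smul _
  have hDb := D_smul (1 / 2) (hp.add hs).hl
  have hDb' := D_add hp.hl hs.hl
  have hDp' : ∀ᵐ x, D p x = (2 * p x * η x)⁻¹ • (D T x - (p x ^ 2 - 1) • ∇ η x) := by
    filter_upwards [hDp, hDv, hDu, hηD, D_const (V := E) 1] with x a1 a2 a3 a4 a5
    have e1 : T x = (p x ^ 2 - 1) * η x := by
      have := (hηp x).ne'
      rw [hp2]
      field_simp
      ring
    have e2 := (hηp x).ne'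
    have e3 : p x ≠ 0 := by linarith [hp1 x]
    rw [a1, a2, a3, a4, a5, add_zero]
    change (2 * p x)⁻¹ • _ = _
    rw [e1]
    match_scalars <;> field_simp
  rw [eβ]
  have hsg : Continuous (sg η) := by
    have := hη1.continuous
    unfold sg
    fun_prop
  refine ⟨hβ, U11b_gen hw hβ.hl hc (fun x => ?_) hb h.η_c ?_ hsub (fun K hK _ => ?_) ?_⟩
  · have := inv_le_one_of_one_le₀ (hp1 x)
    linarith
  · filter_upwards [hDβ, hDq, hDp', hηD] with x a1 a2 a3 a4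
    have e2 := (hηp x).ne'
    have e3 : p x ≠ 0 := by linarith [hp1 x]
    rw [a1, a2, a3, a4]
    match_scalars
    · field_simp
    · field_simp
      ring
  · have h1 := hη1.continuous
    have h2 := h.Dt_c
    exact (by fun_prop : Continuous fun x =>
      400 * Λ ^ 6 * (η x * Dt x ^ 2 * sg η x)).continuousOn.integrableOn_compact hK
  · filter_upwards [hae, hDc, hDc', hDb, hDb', hDs, hDp', D_const (V := E) 1] with
      x a0 a1 a2 a3 a4 a5 a6 a7 hx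
    obtain ⟨-, b1, b2, b3, b4, b5, b6⟩ := a0 hx.2
    obtain ⟨b6, b7⟩ := b6 hx.1
    obtain ⟨c1, c2, c3, -⟩ := h.η_bd x hx.2
    have e1 := hηp x
    have e2 := e1.ne'
    have e0 : 0 < p x := by linarith [hp1 x]
    have e3 := e0.ne'
    have eDc : D (fun x => 1 - 1 / 2 * (p x)⁻¹) x =
        (4 * p x ^ 3 * η x)⁻¹ • (D T x - (p x ^ 2 - 1) • ∇ η x) := by
      rw [a1, a2, a5, a6, a7]
      match_scalars <;> field_simp <;> ring
    have eDb : D (fun x => 1 / 2 * (p x + (p x)⁻¹)) x =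
        ((p x ^ 2 - 1) / (4 * p x ^ 3 * η x)) • (D T x - (p x ^ 2 - 1) • ∇ η x) := by
      rw [a3, a4, a5, a6]
      match_scalars <;> field_simp <;> ring
    have hid := U11b_id (w := m.r x ^ 2) e0 e1 (D T x) (∇ η x)
      ((1 / 2 * (p x + (p x)⁻¹)) • D (fun x => m.r x ^ 2) x)
    rw [real_inner_smul_left, U11b_lat h.η_c (fun y => (h.lat y).1) x (D _ x)] at hid
    have hΛ := h.Λ1
    have hη01 : η x ≤ 1 / 10 := by
      have : η x * (10 * Λ ^ 2) ≤ 1 :=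
        (mul_le_mul_of_nonneg_right c1 (by positivity)).trans h0
      have h2 := mul_le_mul_of_nonneg_left (one_le_pow₀ hΛ : 1 ≤ Λ ^ 2) e1.le
      linarith
    have hz : x 2 ^ 2 ≤ 1 := by
      rw [← sq_abs]
      exact pow_le_one₀ (abs_nonneg _) hx.2.1.le
    have hnum := U11b_num (ρ := η x ^ (4 / 3 : ℝ)) (σ := sg η x) (Dt := Dt x) (w := m.r x ^ 2)
      (T := T x) (Z := ‖D T x - (p x ^ 2 - 1) • ∇ η x‖) (a := ‖D T x‖) (gn := ‖∇ η x‖)
      (lp := lap η x) (ip := ⟪hor (D (fun x => m.r x ^ 2) x), ∇ η x⟫) hΛ e1 (by linarith)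
      (by positivity) ?_ ?_ ?_ ?_ (h.pos x).2 (b1.trans b3) (by linarith) (hp1 x) (hp2 x)
      (by linarith [Real.pi_le_four]) b7 (norm_nonneg _) ?_ (norm_nonneg _) c2 c3 b5
      (real_inner_le_norm _ _)
    · rw [eDc, eDb]
      linarith
    · calc η x ^ (4 / 3 : ℝ) ≤ η x ^ (1 : ℝ) :=
            Real.rpow_le_rpow_of_exponent_ge e1 (by linarith) (by norm_num)
        _ = η x := Real.rpow_one _
    · calc (η x ^ (4 / 3 : ℝ)) ^ 2 = η x ^ (8 / 3 : ℝ) := by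
            rw [← Real.rpow_natCast, ← Real.rpow_mul e1.le]
            norm_num
        _ ≤ η x ^ ((2 : ℝ) + 1 / 2) :=
            Real.rpow_le_rpow_of_exponent_ge e1 (by linarith) (by norm_num)
        _ = η x ^ 2 * √(η x) := by
            rw [Real.rpow_add e1, Real.sqrt_eq_rpow, Real.rpow_two]
    · exact Real.le_sqrt_of_sq_le (le_add_of_nonneg_left (sq_nonneg _))
    · have : η x ^ 2 ≤ 1 := pow_le_one₀ e1.le (by linarith)
      exact Real.sqrt_le_iff.2 ⟨by norm_num, by linarith⟩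
    · have hp21 : 0 ≤ p x ^ 2 - 1 := sub_nonneg.2 (one_le_pow₀ (hp1 x))
      have := norm_add_le (D T x - (p x ^ 2 - 1) • ∇ η x) ((p x ^ 2 - 1) • ∇ η x)
      rwa [sub_add_cancel, norm_smul, Real.norm_of_nonneg hp21] at this

end

end Crest.Agent.R335
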