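import Crest.Agent.R335.U11a

set_option autoImplicit false

open MeasureTheory Set Filter Topology Metric
open scoped Gradient ContDiff RealInnerProductSpace ENNReal

namespace Crest.Agent.R335

noncomputable section

namespace U12a

theorem int_sq {a χ : E → ℝ} {Ω : Set E} (ha : AEStronglyMeasurable a volume) (hb : LB a)
    (h : TF Ω χ) : Integrable fun x => a x * χ x ^ 2 := by
  obtain ⟨K, hK, -, h0⟩ := h.cs
  refine (S12_lb_mul ha hb hK h.h1.l2.integrable_sq.integrableOn).integrable_of_ae_notMem_eq_zero ?_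
  filter_upwards [h0] with x h0 hx
  rw [h0 hx]
  ring

theorem int_D {a χ : E → ℝ} {Ω : Set E} (ha : AEStronglyMeasurable a volume) (hb : LB a)
    (h : TF Ω χ) : Integrable fun x => a x * ‖D χ x‖ ^ 2 := by
  have := S12_int_vec ha hb h.h1.hl.dl2 h
  simpa only [real_inner_self_eq_norm_sq] using this

theorem lb_sq {a : E → ℝ} (hb : LB a) : LB fun x => a x ^ 2 := by
  simpa only [sq] using S12_lb_mul_lb hb hb

theorem hor_line (x : E) (t : ℝ) : hor (x + t • ez) = hor x := by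
  unfold hor
  simp only [PiLp.add_apply, PiLp.smul_apply, S07.ez_two, smul_eq_mul, mul_one]
  module

theorem contDiff_hor : ContDiff ℝ 1 hor := by
  unfold hor
  exact contDiff_id.sub (S07.contDiff_two.smul contDiff_const)

/-- vertical integration by parts with a lateral `C¹` weight -/
theorem vert_c1 {g χ : E → ℝ} (hg : ContDiff ℝ 1 g) (h : TF univ χ) :
    ∫ x, g (hor x) * (χ x + x 2 * ⟪ez, D χ x⟫) = 0 := by
  have hgh : ContDiff ℝ 1 fun x => g (hor x) := hg.comp contDiff_hor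
  have ha : ContDiff ℝ 1 fun x : E => g (hor x) * x 2 := hgh.mul S07.contDiff_two
  have e := ibp_mul_field (X := fun _ : E => ez) isOpen_univ contDiffOn_const (bl_c1 ha) h
  have hd : ∀ x : E, dvg (fun _ : E => ez) x = 0 := fun x => by simp [dvg]
  have hz : ∀ x : E, ⟪∇ (fun x : E => g (hor x) * x 2) x, ez⟫ = g (hor x) := fun x => by
    rw [s05_inner_grad, ← (ha.differentiable one_ne_zero x).lineDeriv_eq_fderiv]
    refine HasLineDerivAt.lineDeriv ?_
    unfold HasLineDerivAt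
    simp only [hor_line, PiLp.add_apply, PiLp.smul_apply, S07.ez_two, smul_eq_mul, mul_one]
    simpa using (((hasDerivAt_id (0 : ℝ)).const_add (x 2)).const_mul (g (hor x)))
  have e2 : ∫ x, (g (hor x) * x 2 * dvg (fun _ : E => ez) x +
      ⟪D (fun x : E => g (hor x) * x 2) x, ez⟫) * χ x = ∫ x, g (hor x) * χ x := by
    refine integral_congr_ae ?_
    filter_upwards [D_c1 ha] with x hx
    rw [hd, hx, hz, mul_zero, zero_add]
  rw [e2] at e
  have i1 : Integrable fun x : E => g (hor x) * x 2 * ⟪ez, D χ x⟫ :=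
    S12_int_vec (g := fun _ => ez) ha.continuous.aestronglyMeasurable (Continuous.lb' ha.continuous)
      (fun K hK => S12_cont_memLp continuous_const hK) h
  have i2 : Integrable fun x : E => g (hor x) * χ x :=
    S12_int_rhs (fun K hK _ => hgh.continuous.continuousOn.integrableOn_compact hK) h
  have e3 : ∫ x, g (hor x) * (χ x + x 2 * ⟪ez, D χ x⟫) =
      (∫ x, g (hor x) * χ x) + ∫ x, g (hor x) * x 2 * ⟪ez, D χ x⟫ := by
    rw [← integral_add i2 i1]
    refine integral_congr_ae (Eventually.of_forall fun x => ?_)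
    beta_reduce
    ring
  rw [e3, e, add_neg_cancel]

/-- vertical integration by parts with a lateral continuous weight -/
theorem vert_c0 {a χ : E → ℝ} (ha : Continuous a) (hl : ∀ x, a (hor x) = a x) (h : TF univ χ) :
    ∫ x, a x * (χ x + x 2 * ⟪ez, D χ x⟫) = 0 := by
  have key : ∀ g : E → ℝ, Continuous g → Integrable fun x : E => g x * (χ x + x 2 * ⟪ez, D χ x⟫) := by
    intro g hg
    have hc : Continuous fun x : E => g x * x 2 := hg.mul S07.cont_two
    have i1 : Integrable fun x : E => g x * x 2 * ⟪ez, D χ x⟫ :=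
      S12_int_vec (g := fun _ => ez) hc.aestronglyMeasurable (Continuous.lb' hc)
        (fun K hK => S12_cont_memLp continuous_const hK) h
    have i2 : Integrable fun x : E => g x * χ x :=
      S12_int_rhs (fun K hK _ => hg.continuousOn.integrableOn_compact hK) h
    refine (i2.add i1).congr (Eventually.of_forall fun x => ?_)
    simp only [Pi.add_apply]
    ring
  have i0 : Integrable fun x : E => χ x + x 2 * ⟪ez, D χ x⟫ := by
    simpa only [one_mul] using key (fun _ => 1) continuous_const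
  set M := ∫ x : E, |χ x + x 2 * ⟪ez, D χ x⟫| with hM
  have hM0 : 0 ≤ M := integral_nonneg fun x => abs_nonneg _
  refine abs_nonpos_iff.1 (le_of_forall_pos_le_add fun ε hε => ?_)
  have hε' : 0 < ε / (M + 1) := by positivity
  obtain ⟨g, g1, g2, -⟩ := ha.exists_contDiff_approx 1 (ε := fun _ => ε / (M + 1))
    continuous_const (fun _ => hε')
  have g1' : ContDiff ℝ 1 g := by exact_mod_cast g1
  have hgh : Continuous fun x => g (hor x) := (g1'.comp contDiff_hor).continuous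
  have e1 := vert_c1 g1' h
  have e2 : ∫ x, a x * (χ x + x 2 * ⟪ez, D χ x⟫) =
      ∫ x, (a x - g (hor x)) * (χ x + x 2 * ⟪ez, D χ x⟫) := by
    simp only [sub_mul]
    rw [integral_sub (key a ha) (key _ hgh), e1, sub_zero]
  rw [e2, zero_add]
  calc |∫ x, (a x - g (hor x)) * (χ x + x 2 * ⟪ez, D χ x⟫)|
      ≤ ∫ x, ε / (M + 1) * |χ x + x 2 * ⟪ez, D χ x⟫| := by
        rw [← Real.norm_eq_abs]
        refine norm_integral_le_of_norm_le (i0.abs.const_mul _) (Eventually.of_forall fun x => ?_)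
        rw [norm_mul]
        refine mul_le_mul_of_nonneg_right ?_ (abs_nonneg _)
        have := g2 (hor x)
        rw [hl, Real.dist_eq, abs_sub_comm] at this
        exact this.le
    _ = ε / (M + 1) * M := integral_const_mul _ _
    _ ≤ ε := by
        rw [div_mul_eq_mul_div, div_le_iff₀ (by positivity)]
        nlinarith

end U12a

/-- Hoffmann-Ostenhof Hardy inequality -/
theorem ho_hardy {r U t : E → ℝ} {Ω : Set E} (hr : Bl r) (h0 : ∀ x, 0 ≤ r x)
    (h : Sub univ r fun x => -(U x * r x)) (hU : ∀ᵐ x, x ∈ Ω → 1 / 4 ≤ U x) (ht : TF Ω t) :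
    ∫ x, r x ^ 2 * t x ^ 2 ≤ 2 * ∫ x, r x ^ 2 * ‖D t x‖ ^ 2 := by
  have ht' : TF univ t := ht.mono (subset_univ _)
  have e := WSub.energy aestronglyMeasurable_const S12_lb_one h hr.lb
    (Eventually.of_forall fun x _ => h0 x) ht'
  have h4 : 0 ≤ ∫ x, (1 / 2) * 1 * ‖D (fun x => t x * r x) x‖ ^ 2 :=
    integral_nonneg fun x => by positivity
  have i1 : Integrable fun x => r x ^ 2 * t x ^ 2 :=
    U12a.int_sq (hr.hl.aesm.pow 2) (U12a.lb_sq hr.lb) ht
  have i2 : Integrable fun x => -(U x * r x) * r x * t x ^ 2 := by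
    have := S12_int_rhs h.li (ht'.mul (hr.mul ht.bl).1)
    refine this.congr (Eventually.of_forall fun x => ?_)
    beta_reduce
    ring
  have h5 : ∫ x, -(U x * r x) * r x * t x ^ 2 ≤ ∫ x, -(1 / 4) * (r x ^ 2 * t x ^ 2) := by
    refine integral_mono_ae i2 (i1.const_mul _) ?_
    obtain ⟨K, hK, hKΩ, hz⟩ := ht.cs
    filter_upwards [hz, hU] with x hz hU
    by_cases hx : x ∈ K
    · have := mul_le_mul_of_nonneg_right (hU (hKΩ hx))
        (mul_nonneg (sq_nonneg (r x)) (sq_nonneg (t x)))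
      nlinarith
    · rw [hz hx]
      simp
  have h6 : ∫ x, (1 / 2) * 1 * r x ^ 2 * ‖D t x‖ ^ 2 = (1 / 2) * ∫ x, r x ^ 2 * ‖D t x‖ ^ 2 := by
    rw [← integral_const_mul]
    refine integral_congr_ae (Eventually.of_forall fun x => ?_)
    beta_reduce
    ring
  rw [integral_const_mul] at h5
  rw [h6] at e
  linarith
theorem vert_hardy {b w : E → ℝ} (hb : Continuous b) (hl : ∀ x, b (hor x) = b x) (hw : TF univ w) :
    ∫ x, b x ^ 2 * w x ^ 2 ≤ 4 * ∫ x, x 2 ^ 2 * b x ^ 2 * ‖D w x‖ ^ 2 := by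
  have hb2 : Continuous fun x => b x ^ 2 := hb.pow 2
  have e := U12a.vert_c0 hb2 (fun x => by rw [hl]) (hw.mul hw.bl)
  have i1 : Integrable fun x => b x ^ 2 * w x ^ 2 :=
    U12a.int_sq hb2.aestronglyMeasurable (Continuous.lb' hb2) hw
  have hc : Continuous fun x : E => x 2 ^ 2 * b x ^ 2 := (S07.cont_two.pow 2).mul hb2
  have i2 : Integrable fun x : E => x 2 ^ 2 * b x ^ 2 * ‖D w x‖ ^ 2 :=
    U12a.int_D hc.aestronglyMeasurable (Continuous.lb' hc) hw
  have hc3 : Continuous fun x : E => b x ^ 2 * x 2 := hb2.mul S07.cont_two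
  have i3 : Integrable fun x : E => b x ^ 2 * x 2 * ⟪ez, D (fun x => w x * w x) x⟫ :=
    S12_int_vec (g := fun _ => ez) hc3.aestronglyMeasurable (Continuous.lb' hc3)
      (fun K hK => S12_cont_memLp continuous_const hK) (hw.mul hw.bl)
  have i4 : Integrable fun x : E => b x ^ 2 * (w x * w x + x 2 * ⟪ez, D (fun x => w x * w x) x⟫) := by
    refine (i1.add i3).congr (Eventually.of_forall fun x => ?_)
    simp only [Pi.add_apply]
    ring
  have h1 : ∫ x, ((1 / 2) * (b x ^ 2 * w x ^ 2) - 2 * (x 2 ^ 2 * b x ^ 2 * ‖D w x‖ ^ 2)) ≤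
      ∫ x, b x ^ 2 * (w x * w x + x 2 * ⟪ez, D (fun x => w x * w x) x⟫) := by
    refine integral_mono_ae ((i1.const_mul _).sub (i2.const_mul _)) i4 ?_
    filter_upwards [(hw.bl.mul hw.bl).2] with x hx
    rw [hx, inner_add_right, real_inner_smul_right]
    have h2 : ⟪ez, D w x⟫ ^ 2 ≤ ‖D w x‖ ^ 2 := by
      have := abs_real_inner_le_norm ez (D w x)
      rw [S07.norm_ez, one_mul] at this
      rw [← sq_abs]
      exact pow_le_pow_left₀ (abs_nonneg _) this 2
    have h3 := mul_le_mul_of_nonneg_left h2 (sq_nonneg (x 2))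
    have h4 : (1 / 2) * w x ^ 2 - 2 * (x 2 ^ 2 * ‖D w x‖ ^ 2) ≤
        w x * w x + x 2 * (w x * ⟪ez, D w x⟫ + w x * ⟪ez, D w x⟫) := by
      nlinarith [sq_nonneg (w x + 2 * (x 2 * ⟪ez, D w x⟫))]
    have := mul_le_mul_of_nonneg_left h4 (sq_nonneg (b x))
    linarith
  rw [integral_sub (i1.const_mul _) (i2.const_mul _), integral_const_mul, integral_const_mul,
    e] at h1
  linarith
/-- Caccioppoli inequality for `Gt` -/
theorem SD.cacc {o : OD} {m : MD} {Λ R η0 η1 ε : ℝ} {η Dt Gt w : E → ℝ}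
    (h : SD o m Λ R η0 η1 ε η Dt Gt) (hw : TF (Sl R) w) :
    ∫ x, w x ^ 2 * ‖D Gt x‖ ^ 2 ≤
      4 * Λ ^ 2 * ((∫ x, (η x * Dt x) ^ 2 * w x ^ 2) + ∫ x, (η x * Dt x) ^ 2 * ‖D w x‖ ^ 2) := by
  obtain ⟨hG, -, -, hG0⟩ := h.Gt_r
  have e := WSub.energy aestronglyMeasurable_const S12_lb_one h.sub hG.lb
    (Eventually.of_forall fun x _ => (hG0 x).le) hw
  have hc : Continuous fun x => (η x * Dt x) ^ 2 := (h.η_c.continuous.mul h.Dt_c).pow 2
  have i1 : Integrable fun x => (η x * Dt x) ^ 2 * w x ^ 2 :=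
    U12a.int_sq hc.aestronglyMeasurable (Continuous.lb' hc) hw
  have i2 : Integrable fun x => (η x * Dt x) ^ 2 * ‖D w x‖ ^ 2 :=
    U12a.int_D hc.aestronglyMeasurable (Continuous.lb' hc) hw
  have i3 : Integrable fun x => Gt x ^ 2 * ‖D w x‖ ^ 2 :=
    U12a.int_D (hG.hl.aesm.pow 2) (U12a.lb_sq hG.lb) hw
  have htf : TF (Sl R) fun x => w x * Gt x := by
    simpa only [mul_comm] using hw.mul hG
  have i4 : Integrable fun x => ‖D (fun x => w x * Gt x) x‖ ^ 2 := htf.h1.dl2.norm.integrable_sq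
  have i5 : Integrable fun x => (-((o.v x + m.I) * Gt x) + Λ * (η x * Dt x)) * Gt x * w x ^ 2 := by
    have := S12_int_rhs h.sub.li (hw.mul (hG.mul hw.bl).1)
    refine this.congr (Eventually.of_forall fun x => ?_)
    beta_reduce
    ring
  obtain ⟨K, hK, hKΩ, hz, hz'⟩ := S12_supp hw
  have h1 : ∫ x, (-((o.v x + m.I) * Gt x) + Λ * (η x * Dt x)) * Gt x * w x ^ 2 ≤
      ∫ x, Λ ^ 2 * ((η x * Dt x) ^ 2 * w x ^ 2) := by
    refine integral_mono_ae i5 (i1.const_mul _) ?_
    filter_upwards [hz] with x hz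
    by_cases hx : x ∈ K
    · have hR : R ≤ ‖x‖ := (hKΩ hx).2.le.trans (F0d.norm_hor_le x)
      have a1 := mul_le_mul_of_nonneg_right (h.pot x hR).1 (sq_nonneg (Gt x))
      have a2 : (-((o.v x + m.I) * Gt x) + Λ * (η x * Dt x)) * Gt x ≤ Λ ^ 2 * (η x * Dt x) ^ 2 := by
        nlinarith [sq_nonneg (Gt x / 2 - Λ * (η x * Dt x))]
      have := mul_le_mul_of_nonneg_right a2 (sq_nonneg (w x))
      linarith
    · rw [hz hx]
      simp
  have h2 : ∫ x, Gt x ^ 2 * ‖D w x‖ ^ 2 ≤ ∫ x, Λ ^ 2 * ((η x * Dt x) ^ 2 * ‖D w x‖ ^ 2) := by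
    refine integral_mono_ae i3 (i2.const_mul _) ?_
    filter_upwards [hz', h.Gt_bd] with x hz hb
    by_cases hx : x ∈ K
    · have a1 := pow_le_pow_left₀ (hG0 x).le (hb (hKΩ hx)).2.1 2
      have := mul_le_mul_of_nonneg_right a1 (sq_nonneg ‖D w x‖)
      nlinarith
    · rw [hz hx]
      simp
  have h3 : ∫ x, w x ^ 2 * ‖D Gt x‖ ^ 2 ≤
      ∫ x, (2 * ‖D (fun x => w x * Gt x) x‖ ^ 2 + 2 * (Gt x ^ 2 * ‖D w x‖ ^ 2)) := by
    refine integral_mono_of_nonneg (Eventually.of_forall fun x => by positivity)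
      ((i4.const_mul _).add (i3.const_mul _)) ?_
    filter_upwards [(hw.bl.mul hG).2] with x hx
    have a1 : w x • D Gt x = D (fun x => w x * Gt x) x - Gt x • D w x := by
      rw [hx, add_sub_cancel_right]
    have a2 : |w x| * ‖D Gt x‖ ≤ ‖D (fun x => w x * Gt x) x‖ + |Gt x| * ‖D w x‖ := by
      rw [← Real.norm_eq_abs, ← Real.norm_eq_abs, ← norm_smul, ← norm_smul, a1]
      exact norm_sub_le _ _
    have a3 := pow_le_pow_left₀ (by positivity) a2 2
    rw [mul_pow, sq_abs] at a3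
    nlinarith [sq_nonneg (‖D (fun x => w x * Gt x) x‖ - |Gt x| * ‖D w x‖), sq_abs (Gt x)]
  have h4 : ∫ x, (1 / 2) * 1 * ‖D (fun x => w x * Gt x) x‖ ^ 2 =
      (1 / 2) * ∫ x, ‖D (fun x => w x * Gt x) x‖ ^ 2 := by
    rw [← integral_const_mul]
    refine integral_congr_ae (Eventually.of_forall fun x => ?_)
    beta_reduce
    ring
  have h5 : ∫ x, (1 / 2) * 1 * Gt x ^ 2 * ‖D w x‖ ^ 2 = (1 / 2) * ∫ x, Gt x ^ 2 * ‖D w x‖ ^ 2 := by
    rw [← integral_const_mul]
    refine integral_congr_ae (Eventually.of_forall fun x => ?_)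
    beta_reduce
    ring
  rw [integral_add (i4.const_mul _) (i3.const_mul _), integral_const_mul, integral_const_mul] at h3
  rw [integral_const_mul] at h1 h2
  rw [h4, h5] at e
  linarith

end

end Crest.Agent.R335
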