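import Crest.Agent.R335.U11b
import Crest.Agent.R335.U12a

set_option autoImplicit false

open MeasureTheory Set Filter Topology Metric
open scoped Gradient ContDiff RealInnerProductSpace ENNReal

namespace Crest.Agent.R335

noncomputable section

namespace U11d

theorem wcongr {w p q S : E → ℝ} {Ω : Set E} (a : WSub w Ω p S) (hq : Hl q)
    (h : ∀ᵐ x, x ∈ Ω → D q x = D p x) : WSub w Ω q S := by
  refine ⟨hq, a.li, fun χ hχ h0 => le_trans (le_of_eq ?_) (a.le χ hχ h0)⟩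
  obtain ⟨K, hK, hKΩ, -, hz⟩ := S12_supp hχ
  refine integral_congr_ae ?_
  filter_upwards [hz, h] with x hz he
  by_cases hx : x ∈ K
  · rw [he (hKΩ hx)]
  · rw [hz hx, inner_zero_right, inner_zero_right]

/-- weighted maximum principle -/
theorem wmax {r U q φ : E → ℝ} {Ω F : Set E} {M : ℝ} (hr : Bl r) (hr2 : MemLp r 2 volume)
    (h0 : ∀ x, 0 ≤ r x) (h : Sub univ r fun x => -(U x * r x)) (hU : ∀ᵐ x, x ∈ Ω → 1 / 4 ≤ U x)
    (a : WSub (fun x => r x ^ 2) Ω q fun _ => 0) (hq : LB q) (hq0 : ∀ x, 0 ≤ q x)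
    (hφ : Bl φ) (hF : IsClosed F) (hFΩ : F ⊆ Ω) (hφ0 : ∀ x, x ∉ F → φ x = 0)
    (hM : ∀ x, |φ x * q x| ≤ M) (hD : ∀ᵐ x, q x ≠ 0 → D φ x = 0) :
    ∀ᵐ x, r x * (φ x * q x) = 0 := by
  have ho := fun n : ℕ => exists_cutoff (0 : E) (r := (n : ℝ)) (s := (n : ℝ) + 1) n.cast_nonneg
    n.cast_add_one_pos
  choose o o1 o2 o3 o4 o5 o6 o7 using ho
  simp only [sub_zero] at o4
  have ho1 : ∀ n, ContDiff ℝ 1 (o n) := fun n => (o1 n).of_le (by simp)
  have hto : ∀ n, TF univ (o n) := fun n => Tst.tf ⟨ho1 n, o2 n⟩ (subset_univ _)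
  have htf : ∀ n, TF Ω fun x => φ x * o n x := fun n =>
    (S12_tf_mul (hto n) hφ hF (Eventually.of_forall hφ0)).mono fun x hx => hFΩ hx.1
  have hqb : Bl q := ⟨a.hl, hq⟩
  have ir : Integrable fun x => r x ^ 2 := hr2.integrable_sq
  have hen : ∀ n : ℕ, ∫ x, r x ^ 2 * (φ x * o n x * q x) ^ 2 ≤
      2 * ((M * (4 / ((n : ℝ) + 1))) ^ 2 * ∫ x, r x ^ 2) := fun n => by
    have h3 := WSub.energy (hr.hl.aesm.pow 2) (U12a.lb_sq hr.lb) a hq
      (Eventually.of_forall fun x _ => hq0 x) (htf n)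
    have ht : TF Ω fun x => φ x * o n x * q x := by
      simpa only [mul_comm (q _)] using (htf n).mul hqb
    have h4 := ho_hardy hr h0 h hU ht
    have h5 : ∫ x, (1 / 2) * r x ^ 2 * ‖D (fun x => φ x * o n x * q x) x‖ ^ 2 =
        (1 / 2) * ∫ x, r x ^ 2 * ‖D (fun x => φ x * o n x * q x) x‖ ^ 2 := by
      rw [← integral_const_mul]
      refine integral_congr_ae (Eventually.of_forall fun x => ?_)
      beta_reduce
      ring
    have h6 : ∫ x, (1 / 2) * r x ^ 2 * q x ^ 2 * ‖D (fun x => φ x * o n x) x‖ ^ 2 ≤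
        (1 / 2) * ((M * (4 / ((n : ℝ) + 1))) ^ 2 * ∫ x, r x ^ 2) := by
      rw [← integral_const_mul, ← integral_const_mul]
      refine integral_mono_of_nonneg (Eventually.of_forall fun x => by positivity)
        ((ir.const_mul _).const_mul _) ?_
      filter_upwards [(hφ.mul (hto n).bl).2, D_c1 (ho1 n), hD] with x e1 e2 hx
      by_cases hp0 : q x = 0
      · rw [hp0]
        simp only [ne_eq, OfNat.ofNat_ne_zero, not_false_eq_true, zero_pow, mul_zero, zero_mul]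
        positivity
      · have hn : |q x| * ‖D (fun x => φ x * o n x) x‖ ≤ M * (4 / ((n : ℝ) + 1)) := by
          rw [e1, e2, hx hp0, smul_zero, add_zero, norm_smul, Real.norm_eq_abs, ← mul_assoc,
            ← abs_mul, mul_comm (q x)]
          exact mul_le_mul (hM x) (o6 n x) (norm_nonneg _) ((abs_nonneg _).trans (hM x))
        have h7 := pow_le_pow_left₀ (by positivity) hn 2
        rw [mul_pow, sq_abs] at h7
        have := mul_le_mul_of_nonneg_left h7 (sq_nonneg (r x))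
        linarith
    simp only [Pi.pow_apply, zero_mul, integral_zero, zero_add] at h3
    rw [h5] at h3
    linarith
  have hm : AEStronglyMeasurable (fun x => r x ^ 2 * (φ x * q x) ^ 2) volume :=
    (hr.hl.aesm.pow 2).mul ((hφ.hl.aesm.mul a.hl.aesm).pow 2)
  have i0 : Integrable fun x => r x ^ 2 * (φ x * q x) ^ 2 := by
    refine (ir.const_mul (M ^ 2)).mono' hm (Eventually.of_forall fun x => ?_)
    rw [Real.norm_of_nonneg (by positivity), mul_comm]
    refine mul_le_mul_of_nonneg_right ?_ (sq_nonneg _)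
    rw [← sq_abs]
    exact pow_le_pow_left₀ (abs_nonneg _) (hM x) 2
  have t1 : Tendsto (fun n : ℕ => ∫ x, r x ^ 2 * (φ x * o n x * q x) ^ 2) atTop
      (𝓝 (∫ x, r x ^ 2 * (φ x * q x) ^ 2)) := by
    refine tendsto_integral_of_dominated_convergence _ (fun n => (hr.hl.aesm.pow 2).mul
      (((hφ.hl.aesm.mul (o1 n).continuous.aestronglyMeasurable).mul a.hl.aesm).pow 2)) i0
      (fun n => Eventually.of_forall fun x => ?_) (Eventually.of_forall fun x => ?_)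
    · rw [Real.norm_of_nonneg (by positivity)]
      refine mul_le_mul_of_nonneg_left ?_ (sq_nonneg _)
      have h1 : o n x ^ 2 ≤ 1 := pow_le_one₀ (o3 n x).1 (o3 n x).2
      have := mul_le_mul_of_nonneg_left h1 (sq_nonneg (φ x * q x))
      nlinarith
    · refine tendsto_const_nhds.congr' ?_
      filter_upwards [tendsto_natCast_atTop_atTop.eventually_ge_atTop ‖x‖] with n hn
      rw [o4 n x hn, mul_one]
  have t2 : Tendsto (fun n : ℕ => 2 * ((M * (4 / ((n : ℝ) + 1))) ^ 2 * ∫ x, r x ^ 2)) atTop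
      (𝓝 (2 * ((M * 0) ^ 2 * ∫ x, r x ^ 2))) := by
    refine ((((tendsto_const_div_atTop_nhds_zero_nat (4 : ℝ)).comp
      (tendsto_add_atTop_nat 1)).congr fun n => ?_).const_mul M).pow 2 |>.mul_const _ |>.const_mul _
    simp
  have h1 := le_of_tendsto_of_tendsto' t1 t2 hen
  have h2 : ∫ x, r x ^ 2 * (φ x * q x) ^ 2 = 0 :=
    le_antisymm (by simpa using h1) (integral_nonneg fun x => by positivity)
  rw [integral_eq_zero_iff_of_nonneg (fun x => by positivity) i0] at h2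
  filter_upwards [h2] with x hx
  have : (r x * (φ x * q x)) ^ 2 = 0 := by rw [mul_pow]; exact hx
  exact pow_eq_zero_iff two_ne_zero |>.1 this

theorem cont_hor : Continuous hor := U12a.contDiff_hor.continuous

/-- a Lipschitz cutoff adapted to the thin slab -/
theorem exists_phi (R : ℝ) {ℓ : ℝ} (hℓ : 0 < ℓ) (hℓ1 : ℓ ≤ 1) : ∃ φ : E → ℝ, Bl φ ∧
    (∀ x, 0 ≤ φ x ∧ φ x ≤ 1) ∧
    (∀ x : E, x ∉ {x : E | |x 2| ≤ 3 * ℓ / 4 ∧ R + 1 / 4 ≤ ‖hor x‖} → φ x = 0) ∧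
    (∀ x : E, |x 2| ≤ ℓ / 2 → R + 1 / 2 ≤ ‖hor x‖ → φ x ≠ 0) ∧
    ∀ᵐ x : E, D φ x ≠ 0 → (|x 2| < ℓ ∧ R < ‖hor x‖) ∧ (ℓ / 2 < |x 2| ∨ ‖hor x‖ ≤ R + 1) := by
  have l1 : LocallyLipschitz fun x : E => 3 * ℓ / 4 - |x 2| := by
    have a1 : LocallyLipschitz fun t : ℝ => 3 * ℓ / 4 - t :=
      (contDiff_const.sub contDiff_id : ContDiff ℝ 1 _).locallyLipschitz
    exact a1.comp (lipschitzWith_one_norm.locallyLipschitz.comp
      (S07.contDiff_two (n := 1)).locallyLipschitz)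
  have l2 : LocallyLipschitz fun x : E => ‖hor x‖ - (R + 1 / 4) := by
    have a1 : LocallyLipschitz fun t : ℝ => t - (R + 1 / 4) :=
      (contDiff_id.sub contDiff_const : ContDiff ℝ 1 _).locallyLipschitz
    exact a1.comp (lipschitzWith_one_norm.locallyLipschitz.comp U12a.contDiff_hor.locallyLipschitz)
  have hb := (bl_lip (((l1.min l2).min_const (ℓ / 4)).max_const 0)).1
  refine ⟨_, hb, fun x => ⟨le_max_right _ _, max_le ((min_le_right _ _).trans (by linarith))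
    zero_le_one⟩, fun x hx => max_eq_right ((min_le_left _ _).trans ?_), fun x h1 h2 => ?_, ?_⟩
  · simp only [mem_ofPred_eq, not_and_or, not_le] at hx
    rcases hx with hx | hx
    · exact (min_le_left _ _).trans (by linarith)
    · exact (min_le_right _ _).trans (by linarith)
  · refine ne_of_gt (lt_max_of_lt_left (lt_min (lt_min ?_ ?_) ?_)) <;> linarith
  · filter_upwards [hb.hl.D_level 0, hb.hl.D_level (ℓ / 4)] with x h1 h2 hD
    have a1 : ¬ min (min (3 * ℓ / 4 - |x 2|) (‖hor x‖ - (R + 1 / 4))) (ℓ / 4) ≤ 0 :=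
      fun h => hD (h1 (max_eq_right h))
    have a2 : ¬ ℓ / 4 ≤ min (3 * ℓ / 4 - |x 2|) (‖hor x‖ - (R + 1 / 4)) := fun h =>
      hD (h2 (by rw [min_eq_right h, max_eq_left (by linarith)]))
    rw [not_le, lt_min_iff, lt_min_iff] at a1
    rw [not_le, min_lt_iff] at a2
    refine ⟨⟨by linarith [a1.1.1], by linarith [a1.1.2]⟩, ?_⟩
    rcases a2 with a2 | a2
    · left; linarith
    · right; linarith

theorem sg_bd (η : E → ℝ) (x : E) (h : 0 < η x) :
    |x 2| ≤ sg η x ∧ 0 < sg η x ∧ sg η x ≤ |x 2| + η x := by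
  refine ⟨Real.abs_le_sqrt (by nlinarith), Real.sqrt_pos.2 (by positivity), ?_⟩
  refine Real.sqrt_le_iff.2 ⟨by positivity, ?_⟩
  nlinarith [sq_abs (x 2), abs_nonneg (x 2)]

theorem core {o : OD} {m : MD} {c Λ R η0 η1 ε δ ℓ a C : ℝ} {u η Dt Gt : E → ℝ}
    (hm : m.OK o c) (hu : Ang m.r u δ) (hδ0 : 0 ≤ δ) (hδ1 : δ ≤ 1)
    (h : SD o m Λ R η0 η1 ε η Dt Gt) (h0 : η0 * (10 * Λ ^ 2) ≤ 1) (hℓ : 0 < ℓ) (hℓ1 : ℓ ≤ 1 / 2)
    (hη : η0 ≤ ℓ ^ 2) (ha1 : 16 * Λ ^ 2 ≤ a * ℓ ^ 2)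
    (ha2 : 16 * Λ ^ 2 * (C * Λ ^ 6 + 8 * Λ ^ 4) ≤ a)
    (hβ : Bl (fun x => TG m.f Gt x - √(η x * (TG m.f Gt x + η x))))
    (hb : WSub (fun x => m.r x ^ 2) (Hp ∩ Sl R)
      (fun x => TG m.f Gt x - √(η x * (TG m.f Gt x + η x)))
      fun x => C * Λ ^ 6 * (η x * Dt x ^ 2 * sg η x))
    (hc : WSub (fun x => m.r x ^ 2) (Hp ∩ Sl R ∩ {x | x 2 < ℓ})
      (fun x => -(η x * (2 * ℓ - sg η x))) fun x => -(η x * Dt x ^ 2 * sg η x / (16 * Λ ^ 2)))
    (hlat : ∀ᵐ x, x ∈ Sl R → 0 ≤ x 2 → ‖hor x‖ ≤ R + 1 →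
      u x ≤ Real.arctan (m.f x / Gt x) + η x) :
    ∀ᵐ x : E, 0 ≤ x 2 → x 2 ≤ ℓ / 2 → R + 1 ≤ ‖hor x‖ →
      TG m.f Gt x - √(η x * (TG m.f Gt x + η x)) - a * (η x * (2 * ℓ - sg η x)) ≤
        Real.pi / 2 - u x := by
  obtain ⟨bT, oθ, br2, hT, hae⟩ := SD.basic hm h h0
  have hΛ : 0 < Λ := one_pos.trans_le h.Λ1
  have ha0 : 0 ≤ a := by
    by_contra hn
    push Not at hn
    nlinarith [mul_pos (neg_pos.2 hn) (pow_pos hℓ 2), pow_pos hΛ 2]
  have hr : Bl m.r := ⟨hu.hr.hl, hu.bd.lb⟩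
  have hub : Bl u := ⟨hu.hu, fun K _ => ⟨_, Eventually.of_forall fun x _ => hu.bu x⟩⟩
  have hw := br2.hl.aesm
  have hw1 := br2.lb
  -- the equation of `u`
  have hS3 : Integrable fun x => δ * m.r x ^ 2 * Real.sin (u x) * Real.cos (u x) := by
    have a1 : AEStronglyMeasurable (fun x => Real.sin (u x) * Real.cos (u x)) volume :=
      (Real.continuous_sin.comp_aestronglyMeasurable hu.hu.aesm).mul
        (Real.continuous_cos.comp_aestronglyMeasurable hu.hu.aesm)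
    have := (hu.hr.l2.integrable_sq.const_mul δ).mul_bdd (c := 1) a1
      (Eventually.of_forall fun x => by
        rw [norm_mul]
        exact mul_le_one₀ (Real.abs_sin_le_one _) (norm_nonneg _) (Real.abs_cos_le_one _))
    simpa only [mul_assoc] using this
  have hd : WSub (fun x => m.r x ^ 2) (Hp ∩ Sl R ∩ {x | x 2 < ℓ}) u
      fun x => δ * m.r x ^ 2 * Real.sin (u x) * Real.cos (u x) :=
    ⟨hu.hu, fun K _ _ => hS3.integrableOn, fun χ hχ _ => (hu.el χ (hχ.mono (subset_univ _))).le⟩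
  have hb' := hb.mono (Ω' := Hp ∩ Sl R ∩ {x | x 2 < ℓ}) inter_subset_left
    (fun K hK hKΩ => hb.li K hK (hKΩ.trans inter_subset_left))
    (Eventually.of_forall fun x _ => le_rfl)
  have hP := WSub.add hw hw1 (WSub.add hw hw1 hb' (hc.smul ha0)) hd
  -- the comparison function
  have hθ : Bl fun x => Real.arctan (m.f x / Gt x) := by
    have := (bl_c1 (V := E) (φ := fun _ => Real.pi / 2) contDiff_const).sub bT
    refine this.congr (Eventually.of_forall fun x => ?_)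
    simp [TG]
  have hodd : Od fun x => u x - Real.arctan (m.f x / Gt x) := by
    filter_upwards [hu.od, oθ] with x h1 h2
    rw [h1, h2]
    ring
  have hck : Continuous fun x => -(η x * (2 * ℓ - sg η x)) := by
    have := h.η_c.continuous
    unfold sg
    fun_prop
  have hk : Bl fun x => -(η x * (2 * ℓ - sg η x)) := ⟨hc.hl, Continuous.lb' hck⟩
  set p : E → ℝ := fun x => Hp.indicator (fun x => u x - Real.arctan (m.f x / Gt x)) x +
    ((TG m.f Gt x - √(η x * (TG m.f Gt x + η x))) - TG m.f Gt x) +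
      a * -(η x * (2 * ℓ - sg η x)) with hp
  have hpb : Bl p := (((hub.sub hθ).half hodd).add (hβ.sub bT)).add (hk.smul a)
  have hp1 : ∀ x : E, 0 ≤ x 2 → p x = TG m.f Gt x - √(η x * (TG m.f Gt x + η x)) +
      a * -(η x * (2 * ℓ - sg η x)) + u x - Real.pi / 2 := fun x hx => by
    simp only [hp]
    rw [indicator_of_mem (show x ∈ Hp from hx)]
    simp only [TG]
    ring
  set Ω : Set E := {x : E | |x 2| < ℓ ∧ R < ‖hor x‖} with hΩ
  have hΩS : Ω ⊆ Sl R := fun x hx => ⟨by linarith [hx.1], hx.2⟩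
  have hσ : ∀ x ∈ Ω, sg η x ≤ 3 * ℓ / 2 := fun x hx => by
    have a1 := (sg_bd η x (h.pos x).1).2.2
    have a2 := (h.η_bd x (hΩS hx)).1
    nlinarith [hx.1]
  have hkn : ∀ x ∈ Ω, 0 ≤ a * (η x * (2 * ℓ - sg η x)) := fun x hx =>
    mul_nonneg ha0 (mul_nonneg (h.pos x).1.le (by linarith [hσ x hx]))
  have hp2 : ∀ x ∈ Ω, x 2 < 0 → p x ≤ 0 := fun x hx hz => by
    simp only [hp]
    rw [indicator_of_notMem (show x ∉ Hp from not_le.2 hz)]
    linarith [hkn x hx, Real.sqrt_nonneg (η x * (TG m.f Gt x + η x))]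
  have hp3 : ∀ x ∈ Ω, p x ≤ Real.pi := fun x hx => by
    rcases lt_or_ge (x 2) 0 with hz | hz
    · exact (hp2 x hx hz).trans Real.pi_pos.le
    · rw [hp1 x hz]
      linarith [hkn x hx, Real.sqrt_nonneg (η x * (TG m.f Gt x + η x)), (hT x).2,
        (abs_le.1 (hu.bu x)).2]
  have hP' := wcongr hP hpb.hl (by
    filter_upwards [D_eq_of_eq hpb.hl (s03_shift hP.hl (Real.pi / 2)).1,
      (s03_shift hP.hl (Real.pi / 2)).2] with x h1 h2 hx
    rw [h1 (hp1 x hx.1.1), h2])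
  have hΩo : IsOpen {x : E | x ∈ Ω ∧ x 2 < 0} :=
    ((isOpen_lt S07.cont_two.abs continuous_const).inter
      (isOpen_lt continuous_const cont_hor.norm)).inter (isOpen_lt S07.cont_two continuous_const)
  have hsub : {x : E | x ∈ Ω ∧ x 2 < 0}ᶜ ∩ Ω ⊆ Hp ∩ Sl R ∩ {x | x 2 < ℓ} := fun x hx =>
    ⟨⟨not_lt.1 fun hz => hx.1 ⟨hx.2, hz⟩, hΩS hx.2⟩, (le_abs_self _).trans_lt hx.2.1⟩
  have hK := WSub.kato hw hw1 (Eventually.of_forall fun x => sq_nonneg _)
    (hP'.mono hsub (fun K hK hKΩ => hP'.li K hK (hKΩ.trans hsub))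
      (Eventually.of_forall fun x _ => le_rfl)) hΩo.isClosed_compl
    (Eventually.of_forall fun x hx => by
      rw [notMem_compl_iff] at hx
      exact hp2 x hx.1 hx.2)
  have hK' : WSub (fun x => m.r x ^ 2) Ω (fun x => max (p x) 0) fun _ => 0 := by
    refine hK.mono Subset.rfl (fun K _ _ => integrableOn_zero) ?_
    filter_upwards [hae] with x hx hxΩ
    split_ifs with hpos
    · have hz : 0 ≤ x 2 := not_lt.1 fun hz => not_le.2 hpos (hp2 x hxΩ hz)
      obtain ⟨-, -, b2, -, b4, -, b6⟩ := hx (hΩS hxΩ)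
      have b7 := (b6 hz).2
      obtain ⟨-, s2, -⟩ := sg_bd η x (h.pos x).1
      have u1 := hu.u_nn x hz
      have u2 := (abs_le.1 (hu.bu x)).2
      have c1 : Real.cos (u x) ≤ 4 * Λ ^ 2 * η x / sg η x := by
        rw [← Real.sin_pi_div_two_sub]
        refine (Real.sin_le (by linarith)).trans ?_
        rw [hp1 x hz] at hpos
        linarith [hkn x hxΩ, Real.sqrt_nonneg (η x * (TG m.f Gt x + η x))]
      have c0 : 0 ≤ Real.cos (u x) := Real.cos_nonneg_of_neg_pi_div_two_le_of_le (by linarith) u2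
      have c2 : δ * m.r x ^ 2 * Real.sin (u x) ≤ 2 * (Λ * (Dt x * sg η x)) ^ 2 := by
        have d1 : δ * Real.sin (u x) ≤ 1 := by
          nlinarith [Real.sin_le_one (u x)]
        have := mul_le_mul_of_nonneg_right d1 (sq_nonneg (m.r x))
        nlinarith
      have c3 : δ * m.r x ^ 2 * Real.sin (u x) * Real.cos (u x) ≤
          8 * Λ ^ 4 * (η x * Dt x ^ 2 * sg η x) := by
        refine (mul_le_mul c2 c1 c0 (by positivity)).trans (le_of_eq ?_)
        field_simp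
        ring
      have hW : 0 ≤ η x * Dt x ^ 2 * sg η x := by
        have := (h.pos x).1
        positivity
      have c4 : (C * Λ ^ 6 + 8 * Λ ^ 4) * (η x * Dt x ^ 2 * sg η x) ≤
          a * (η x * Dt x ^ 2 * sg η x / (16 * Λ ^ 2)) := by
        rw [← mul_div_assoc, le_div_iff₀ (by positivity)]
        have := mul_le_mul_of_nonneg_right ha2 hW
        linarith
      linarith
    · exact le_rfl
  obtain ⟨φ, f1, f2, f3, f4, f5⟩ := exists_phi R hℓ (by linarith)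
  have hFΩ : {x : E | |x 2| ≤ 3 * ℓ / 4 ∧ R + 1 / 4 ≤ ‖hor x‖} ⊆ Ω := fun x hx =>
    ⟨by linarith [hx.1], by linarith [hx.2]⟩
  have hfin := wmax (M := Real.pi) hr hu.hr.l2 hu.nn hm.ho (Eventually.of_forall fun x hx =>
      (h.pot x (hx.2.le.trans (F0d.norm_hor_le x))).1) hK' hpb.pos.lb (fun x => le_max_right _ _) f1
    ((isClosed_le S07.cont_two.abs continuous_const).inter
      (isClosed_le continuous_const cont_hor.norm)) hFΩ f3 (fun x => by
      by_cases hx : x ∈ {x : E | |x 2| ≤ 3 * ℓ / 4 ∧ R + 1 / 4 ≤ ‖hor x‖}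
      · rw [abs_of_nonneg (mul_nonneg (f2 x).1 (le_max_right _ _))]
        exact (mul_le_of_le_one_left (le_max_right _ _) (f2 x).2).trans
          (max_le (hp3 x (hFΩ hx)) Real.pi_pos.le)
      · rw [f3 x hx, zero_mul, abs_zero]
        exact Real.pi_pos.le) (by
      filter_upwards [f5, hae, hlat] with x h1 h2 h3 hq
      by_contra hD
      obtain ⟨hxΩ, hor⟩ := h1 hD
      refine hq (max_eq_right ?_)
      rcases lt_or_ge (x 2) 0 with hz | hz
      · exact hp2 x hxΩ hz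
      rw [hp1 x hz]
      have hη0 := (h.pos x).1
      rcases hor with hor | hor
      · have b7 := ((h2 (hΩS hxΩ)).2.2.2.2.2.2 hz).2
        obtain ⟨s1, s2, -⟩ := sg_bd η x hη0
        have c1 : 4 * Λ ^ 2 * η x / sg η x ≤ a * (η x * (2 * ℓ - sg η x)) := by
          rw [div_le_iff₀ s2]
          have d1 : ℓ / 2 * (ℓ / 2) ≤ (2 * ℓ - sg η x) * sg η x :=
            mul_le_mul (by linarith [hσ x hxΩ]) (by linarith) (by linarith)
              (by linarith [hσ x hxΩ])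
          have d2 := mul_le_mul_of_nonneg_left d1 (mul_nonneg ha0 hη0.le)
          have d3 := mul_le_mul_of_nonneg_right ha1 hη0.le
          nlinarith
        linarith [Real.sqrt_nonneg (η x * (TG m.f Gt x + η x)), (abs_le.1 (hu.bu x)).2]
      · have c1 := h3 (hΩS hxΩ) hz hor
        have c2 : η x ≤ √(η x * (TG m.f Gt x + η x)) :=
          Real.le_sqrt_of_sq_le (by nlinarith [mul_pos hη0 (hT x).1])
        have c3 : TG m.f Gt x = Real.pi / 2 - Real.arctan (m.f x / Gt x) := rfl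
        linarith [hkn x hxΩ])
  filter_upwards [hfin, S12_lp_pos hu.lp] with x h1 h2 hz1 hz2 hz3
  have a1 : max (p x) 0 = 0 :=
    (mul_eq_zero.1 ((mul_eq_zero.1 h1).resolve_left h2.ne')).resolve_left
      (f4 x (by rwa [abs_of_nonneg hz1]) (by linarith))
  have a2 : p x ≤ 0 := (le_max_left _ _).trans a1.le
  rw [hp1 x hz1] at a2
  linarith

/-- the pointwise conclusion -/
theorem point {f G r u η Dt σ Λ a ℓ κ : ℝ} (hG : 0 < G) (hr : 0 ≤ r) (hη : 0 < η) (hD : 0 < Dt)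
    (hσ : 0 < σ) (hΛ : 0 < Λ) (ha : 0 ≤ a) (h1 : f ^ 2 + G ^ 2 ≤ 2 * r ^ 2)
    (h2 : f ^ 2 + G ^ 2 ≤ (Λ * (Dt * σ)) ^ 2) (h3 : η * Dt / Λ ≤ G) (hκ : Λ ^ 2 * σ ≤ κ)
    (k1 : κ ≤ 1 / 32) (k2 : 2 * a * ℓ * κ ≤ 1 / 4) (hℓ : 0 ≤ ℓ) (hu : 0 ≤ u)
    (h4 : Real.pi / 2 - Real.arctan (f / G) - √(η * (Real.pi / 2 - Real.arctan (f / G) + η)) -
      a * (η * (2 * ℓ - σ)) ≤ Real.pi / 2 - u) : G / 3 ≤ r * Real.cos u := by
  set T := Real.pi / 2 - Real.arctan (f / G) with hT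
  have T0 : 0 < T := sub_pos.2 (Real.arctan_lt_pi_div_two _)
  have s0 : 0 < Real.sin T := by
    rw [hT, Real.sin_pi_div_two_sub]
    exact Real.cos_arctan_pos _
  have s1 : Real.sin T ^ 2 * (f ^ 2 + G ^ 2) = G ^ 2 := by
    rw [hT, Real.sin_pi_div_two_sub, Real.cos_sq_arctan]
    field_simp
    ring
  have s2 : G ≤ Real.sin T * (Λ * (Dt * σ)) := by
    refine (pow_le_pow_iff_left₀ hG.le (by positivity) two_ne_zero).1 ?_
    rw [← s1, mul_pow]
    exact mul_le_mul_of_nonneg_left h2 (sq_nonneg _)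
  have s3 : η ≤ κ * T := by
    have a1 : η * Dt ≤ Real.sin T * (Λ * (Dt * σ)) * Λ := (div_le_iff₀ hΛ).1 (h3.trans s2)
    have a2 : η ≤ Real.sin T * (Λ ^ 2 * σ) := by
      refine le_of_mul_le_mul_right ?_ hD
      linarith
    rw [mul_comm]
    exact a2.trans (mul_le_mul (Real.sin_le T0.le) hκ (by positivity) T0.le)
  have s4 : η ≤ T / 32 := by nlinarith
  have s5 : √(η * (T + η)) ≤ T / 4 := by
    refine Real.sqrt_le_iff.2 ⟨by positivity, ?_⟩
    nlinarith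
  have s6 : a * (η * (2 * ℓ - σ)) ≤ T / 4 := by
    have a1 : a * (η * (2 * ℓ - σ)) ≤ 2 * a * ℓ * η := by
      nlinarith [mul_nonneg ha (mul_pos hη hσ).le]
    have a2 : 2 * a * ℓ * η ≤ 2 * a * ℓ * (κ * T) := mul_le_mul_of_nonneg_left s3 (by positivity)
    nlinarith
  have s7 : Real.sin (T / 2) ≤ Real.cos u := by
    rw [← Real.sin_pi_div_two_sub]
    exact Real.sin_le_sin_of_le_of_le_pi_div_two (by linarith [Real.pi_pos]) (by linarith)
      (by linarith)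
  have s8 : Real.sin T ≤ 2 * Real.sin (T / 2) := by
    have a1 : Real.sin T = 2 * Real.sin (T / 2) * Real.cos (T / 2) := by
      rw [← Real.sin_two_mul]
      congr 1
      ring
    have a2 : 0 ≤ Real.sin (T / 2) := Real.sin_nonneg_of_nonneg_of_le_pi (by linarith)
      (by linarith [Real.neg_pi_div_two_lt_arctan (f / G), Real.pi_pos])
    nlinarith [Real.cos_le_one (T / 2)]
  have s9 : 2 / 3 * G ≤ r * Real.sin T := by
    refine (pow_le_pow_iff_left₀ (by positivity) (by positivity) two_ne_zero).1 ?_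
    have := mul_le_mul_of_nonneg_left h1 (sq_nonneg (Real.sin T))
    nlinarith [sq_nonneg G]
  have := mul_le_mul_of_nonneg_left (s8.trans (mul_le_mul_of_nonneg_left s7 zero_le_two)) hr
  linarith

end U11d

theorem U11 : ∃ (N : ℕ) (A : ℝ), ∀ {o : OD} {m : MD} {c Λ R η1 ε δ : ℝ} {u η Dt Gt : E → ℝ},
    m.OK o c → Ang m.r u δ → A ≤ Λ → 0 ≤ δ → δ ≤ 1 → SD o m Λ R (1 / Λ ^ N) η1 ε η Dt Gt →
    (∀ᵐ x, x ∈ Sl R → 0 ≤ x 2 → ‖hor x‖ ≤ R + 1 → u x ≤ Real.arctan (m.f x / Gt x) + η x) →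
    Slab m.r u (fun x => η x * Dt x) (Λ ^ N) R := by
  obtain ⟨C, C0, hb⟩ := U11b
  obtain ⟨C', C1, hc⟩ := U11c
  refine ⟨20, C + C' + 256, ?_⟩
  intro o m c Λ R η1 ε δ u η Dt Gt hm hu hA hδ0 hδ1 h hlat
  have hΛ : 0 < Λ := by linarith
  have hΛ1 : 1 ≤ Λ := h.Λ1
  have pw : ∀ n : ℕ, n ≠ 0 → Λ ≤ Λ ^ n := fun n hn => le_self_pow₀ hΛ1 hn
  have h0 : 1 / Λ ^ 20 * (10 * Λ ^ 2) ≤ 1 := by
    rw [show 1 / Λ ^ 20 * (10 * Λ ^ 2) = 10 / Λ ^ 18 by field_simp, div_le_one (by positivity)]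
    linarith [pw 18 (by norm_num)]
  have hℓ : 0 < 1 / Λ ^ 7 := by positivity
  have hη : 1 / Λ ^ 20 ≤ (1 / Λ ^ 7) ^ 2 := by
    rw [div_pow, one_pow, ← pow_mul]
    exact one_div_le_one_div_of_le (by positivity) (pow_le_pow_right₀ hΛ1 (by norm_num))
  have hℓ2 : 1 / Λ ^ 7 * (C' * Λ ^ 6) ≤ 1 := by
    rw [show 1 / Λ ^ 7 * (C' * Λ ^ 6) = C' / Λ by field_simp, div_le_one hΛ]
    linarith
  have hℓ1 : 1 / Λ ^ 7 ≤ 1 / 2 :=
    one_div_le_one_div_of_le two_pos (by linarith [pw 7 (by norm_num)])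
  have key := U11d.core (a := 16 * Λ ^ 16) hm hu hδ0 hδ1 h h0 hℓ hℓ1 hη
    (le_of_eq (by field_simp)) (by
      have a1 : Λ ^ 4 ≤ Λ ^ 6 := pow_le_pow_right₀ hΛ1 (by norm_num)
      have a2 : Λ ^ 7 ≤ Λ ^ 14 := pow_le_pow_right₀ hΛ1 (by norm_num)
      have a3 : (C + 8) * Λ ^ 6 ≤ Λ * Λ ^ 6 :=
        mul_le_mul_of_nonneg_right (by linarith) (by positivity)
      have a4 : C * Λ ^ 6 + 8 * Λ ^ 4 ≤ Λ ^ 14 := by nlinarith
      calc 16 * Λ ^ 2 * (C * Λ ^ 6 + 8 * Λ ^ 4) ≤ 16 * Λ ^ 2 * Λ ^ 14 :=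
            mul_le_mul_of_nonneg_left a4 (by positivity)
        _ = 16 * Λ ^ 16 := by ring)
    (hb hm h h0).1 (hb hm h h0).2 (hc hm h hℓ hℓ2 hη) hlat
  have hz : 1 / Λ ^ 20 ≤ 1 / Λ ^ 7 / 2 := by nlinarith
  have half : ∀ᵐ x : E, 0 ≤ x 2 → |x 2| < 1 / Λ ^ 20 → R + 1 ≤ ‖hor x‖ →
      η x * Dt x / Λ ^ 20 ≤ m.r x * Real.cos (u x) := by
    filter_upwards [key, (SD.basic hm h h0).2.2.2.2, h.Gt_bd] with x h1 h2 h3 z1 z2 z3
    have hx : x ∈ Sl R := ⟨by linarith, by linarith⟩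
    obtain ⟨-, -, b2, b3, -⟩ := h2 hx
    obtain ⟨-, s2, s3⟩ := U11d.sg_bd η x (h.pos x).1
    have s4 : sg η x ≤ 2 / Λ ^ 20 := by
      have := (h.η_bd x hx).1
      rw [show 2 / Λ ^ 20 = 1 / Λ ^ 20 + 1 / Λ ^ 20 by ring]
      linarith
    have hp := U11d.point (κ := 2 / Λ ^ 18) (h.Gt_r.2.2.2 x) (hu.nn x) (h.pos x).1 (h.pos x).2 s2 hΛ
      (by positivity) b3 b2 (h3 hx).1
      ((mul_le_mul_of_nonneg_left s4 (by positivity)).trans (le_of_eq (by field_simp)))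
      (by
        rw [div_le_div_iff₀ (by positivity) (by positivity)]
        linarith [pw 18 (by norm_num)])
      (by
        rw [show 2 * (16 * Λ ^ 16) * (1 / Λ ^ 7) * (2 / Λ ^ 18) = 64 / Λ ^ 9 by field_simp; ring,
          div_le_div_iff₀ (by positivity) (by positivity)]
        linarith [pw 9 (by norm_num)])
      hℓ.le (hu.u_nn x z1) (h1 z1 (by linarith [le_abs_self (x 2)]) z3)
    have a1 : η x * Dt x / Λ ^ 20 ≤ η x * Dt x / Λ / 3 := by
      rw [div_div]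
      refine div_le_div_of_nonneg_left (mul_pos (h.pos x).1 (h.pos x).2).le (by positivity) ?_
      have := mul_le_mul_of_nonneg_left (show 3 ≤ Λ ^ 19 by linarith [pw 19 (by norm_num)]) hΛ.le
      linarith [pow_succ' Λ 19]
    linarith [(h3 hx).1]
  filter_upwards [half, mp_R.quasiMeasurePreserving.ae half, hu.evr, hu.od] with x h1 h2 e1 e2 z1 z2
  rcases le_total 0 (x 2) with hz | hz
  · exact h1 hz z1 z2
  · have a1 : η (Crest.Agent.R335.R x) = η x := by rw [← (h.lat _).1, hor_R, (h.lat _).1]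
    have a2 : Dt (Crest.Agent.R335.R x) = Dt x := by rw [← (h.lat _).2, hor_R, (h.lat _).2]
    have := h2 (by rw [R_two]; linarith) (by rwa [R_two, abs_neg]) (by rwa [hor_R])
    rwa [a1, a2, e1, e2, Real.cos_neg] at this

end

end Crest.Agent.R335
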