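import Crest.Agent.R335.U12b

set_option autoImplicit false

open MeasureTheory Set Filter Topology Metric
open scoped Gradient ContDiff RealInnerProductSpace ENNReal

namespace Crest.Agent.R335

noncomputable section

namespace U12c2A

theorem c1 {s : ℝ} {j : ℝ → ℝ} (hj : ZC s j) : ContDiff ℝ 1 fun x : E => j (x 2) :=
  (hj.sm.of_le (by exact_mod_cast le_top)).comp (by fun_prop)

theorem grad_le {s : ℝ} {j : ℝ → ℝ} (hj : ZC s j) (x : E) :
    ‖∇ (fun x : E => j (x 2)) x‖ ≤ |deriv j (x 2)| := by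
  have hd : HasDerivAt j (deriv j (x 2)) (x 2) :=
    ((hj.sm.differentiable (by simp)) (x 2)).hasDerivAt
  have h1 : HasFDerivAt (fun x : E => x 2) (EuclideanSpace.proj (𝕜 := ℝ) (2 : Fin 3)) x :=
    (EuclideanSpace.proj (𝕜 := ℝ) (2 : Fin 3) : E →L[ℝ] ℝ).hasFDerivAt
  have h2 := hd.comp_hasFDerivAt x h1
  have h3 : fderiv ℝ (fun x : E => j (x 2)) x = _ := h2.fderiv
  rw [s05_norm_grad, h3]
  refine ContinuousLinearMap.opNorm_le_bound _ (abs_nonneg _) fun v => ?_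
  simp only [smul_apply, smul_eq_mul, Real.norm_eq_abs, abs_mul]
  refine mul_le_mul_of_nonneg_left ?_ (abs_nonneg _)
  simpa using PiLp.norm_apply_le v 2

theorem deriv_zero {s : ℝ} {j : ℝ → ℝ} (hj : ZC s j) {t : ℝ} (ht : 2 * s < |t|) : deriv j t = 0 := by
  have : j =ᶠ[𝓝 t] fun _ => 0 := by
    filter_upwards [(isOpen_lt continuous_const continuous_abs).mem_nhds ht] with t ht
    exact hj.zero t (le_of_lt ht)
  rw [this.deriv_eq, deriv_const]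

theorem int_dir {a t : E → ℝ} {Ω : Set E} (ha : AEStronglyMeasurable a volume) (hb : LB a)
    (ht : TF Ω t) : Integrable fun x => a x * ‖D t x‖ ^ 2 := by
  have := S12_int_vec ha hb ht.h1.hl.dl2 ht
  simpa only [real_inner_self_eq_norm_sq] using this

/-- a locally integrable function times the square of a test function -/
theorem int_sq {a t : E → ℝ} {Ω : Set E} (ha : ∀ K, IsCompact K → IntegrableOn a K volume)
    (ht : TF Ω t) : Integrable fun x => t x ^ 2 * a x := by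
  have h2 : TF Ω fun x => t x * t x := ht.mul ht.bl
  have := S12_int_rhs (fun K hK _ => ha K hK) h2
  simpa only [sq, mul_comm] using this

theorem mem_sl {R : ℝ} {x : E} (h1 : R + 3 < ‖x‖) (h2 : |x 2| ≤ 1 / 2) : x ∈ Sl R := by
  refine ⟨by linarith, ?_⟩
  have h4 := norm_sq_hor x
  have h5 : ‖x‖ ≤ ‖hor x‖ + |x 2| := by
    refine abs_le_of_sq_le_sq' ?_ (by positivity) |>.2
    rw [h4, add_sq, sq_abs]
    nlinarith [mul_nonneg (norm_nonneg (hor x)) (abs_nonneg (x 2))]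
  linarith

variable {o : OD} {m : MD} {c Λ Λ' R η0 η1 ε : ℝ} {η Dt Gt : E → ℝ}

theorem bl_r (hm : m.OK o c) : Bl m.r := by
  refine ⟨hm.h1.1.hl, Bd.lb ⟨c, ?_⟩⟩
  filter_upwards [hm.bd] with x hx
  rw [abs_of_nonneg (hm.nn x).1]
  exact hx.1

theorem int_rw (hm : m.OK o c) {w : E → ℝ} {Ω : Set E} (hw : TF Ω w) :
    Integrable fun x => m.r x ^ 2 * w x ^ 2 := by
  have := int_sq (a := fun x => m.r x ^ 2) (fun K _ => hm.h1.1.l2.integrable_sq.integrableOn) hw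
  simpa only [mul_comm] using this

/-- `Dt · σ ≤ √2 Λ r` in squared form -/
theorem sg_le (hm : m.OK o c) (h : SD o m Λ R η0 η1 ε η Dt Gt) (h0 : η0 * (10 * Λ ^ 2) ≤ 1) :
    ∀ᵐ x, x ∈ Sl R → (Dt x * sg η x) ^ 2 ≤ 2 * Λ ^ 2 * m.r x ^ 2 ∧ m.f x ^ 2 ≤ 2 * m.r x ^ 2 := by
  obtain ⟨-, -, -, -, hb⟩ := SD.basic hm h h0
  have hΛ : 0 < Λ := by linarith [h.Λ1]
  filter_upwards [hb] with x hx hs
  obtain ⟨-, a, -, b, -⟩ := hx hs
  refine ⟨?_, by nlinarith [sq_nonneg (Gt x)]⟩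
  rw [div_pow, div_le_iff₀ (by positivity)] at a
  nlinarith [mul_le_mul_of_nonneg_right b (sq_nonneg Λ)]

/-- the vertical Hardy inequality on the slab -/
theorem vert (hm : m.OK o c) (h : SD o m Λ R η0 η1 ε η Dt Gt) (h0 : η0 * (10 * Λ ^ 2) ≤ 1)
    (hΛ : Λ ≤ Λ') {k : ℝ → ℝ} (hk : ZC (1 / (4 * Λ')) k) {w : E → ℝ}
    (hw : TF {x | R + 3 < ‖x‖} w) :
    ∫ x, Dt x ^ 2 * (k (x 2) * w x) ^ 2 ≤ 8208 * Λ' ^ 4 * ∫ x, m.r x ^ 2 * ‖D w x‖ ^ 2 := by
  have hΛ1 : 1 ≤ Λ := h.Λ1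
  have hΛ' : 1 ≤ Λ' := hΛ1.trans hΛ
  have hr := bl_r hm
  have hr2 : Bl fun x => m.r x ^ 2 := by simpa only [sq] using (hr.mul hr).1
  have hH := ho_hardy hr (fun x => (hm.nn x).1) hm.ho (Ω := {x | R + 3 < ‖x‖})
    (Eventually.of_forall fun x hx => (h.pot x (by have : R + 3 < ‖x‖ := hx; linarith)).1) hw
  have hkw : TF {x | R + 3 < ‖x‖} fun x => k (x 2) * w x := hw.mul (bl_c1 (c1 hk))
  have hV := vert_hardy h.Dt_c (fun x => (h.lat x).2) (hkw.mono (subset_univ _))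
  have iZ := int_dir hr2.hl.aesm hr2.lb hw
  have iW := int_rw hm hw
  obtain ⟨K, -, hK, hK0, hK1⟩ := S12_supp hw
  have h2s : 2 * (1 / (4 * Λ')) = 1 / (2 * Λ') := by field_simp; norm_num
  have key : ∫ x, x 2 ^ 2 * Dt x ^ 2 * ‖D (fun x => k (x 2) * w x) x‖ ^ 2 ≤
      ∫ x, (4 * Λ' ^ 2 * (m.r x ^ 2 * ‖D w x‖ ^ 2) + 1024 * Λ' ^ 4 * (m.r x ^ 2 * w x ^ 2)) := by
    refine integral_mono_of_nonneg (Eventually.of_forall fun x => by positivity)
      ((iZ.const_mul _).add (iW.const_mul _)) ?_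
    filter_upwards [D_mul_c1 hw.h1.hl (c1 hk), hK0, hK1, sg_le hm h h0] with x e1 e2 e3 e4
    have R0 : 0 ≤ 4 * Λ' ^ 2 * (m.r x ^ 2 * ‖D w x‖ ^ 2) + 1024 * Λ' ^ 4 * (m.r x ^ 2 * w x ^ 2) := by
      positivity
    by_cases a1 : x ∈ K
    swap
    · rw [e1, e2 a1, e3 a1]; simp
    by_cases a2 : |x 2| ≤ 1 / (2 * Λ')
    swap
    · have b1 : 2 * (1 / (4 * Λ')) < |x 2| := by rw [h2s]; exact not_le.1 a2
      have b2 := grad_le hk x
      rw [deriv_zero hk b1, abs_zero] at b2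
      rw [e1, hk.zero _ b1.le, norm_le_zero_iff.1 b2]
      simpa using R0
    have h3 : 1 / (2 * Λ') ≤ 1 / 2 := one_div_le_one_div_of_le (by norm_num) (by linarith)
    obtain ⟨b1, -⟩ := e4 (mem_sl (hK a1) (a2.trans h3))
    have b2 : x 2 ^ 2 * Dt x ^ 2 ≤ 2 * Λ' ^ 2 * m.r x ^ 2 := by
      have c1 : (Dt x * sg η x) ^ 2 = Dt x ^ 2 * (x 2 ^ 2 + η x ^ 2) := by
        rw [mul_pow, sg, Real.sq_sqrt (by positivity)]
      have c2 : Λ ^ 2 ≤ Λ' ^ 2 := pow_le_pow_left₀ (by linarith) hΛ 2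
      nlinarith [mul_nonneg (sq_nonneg (Dt x)) (sq_nonneg (η x)),
        mul_le_mul_of_nonneg_right c2 (sq_nonneg (m.r x))]
    have b3 : ‖D (fun x => k (x 2) * w x) x‖ ≤ ‖D w x‖ + |w x| * (16 * Λ') := by
      rw [e1]
      refine (norm_add_le _ _).trans (add_le_add ?_ ?_)
      · rw [norm_smul, Real.norm_eq_abs, abs_of_nonneg (hk.bd _).1]
        exact mul_le_of_le_one_left (norm_nonneg _) (hk.bd _).2
      · rw [norm_smul, Real.norm_eq_abs]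
        refine mul_le_mul_of_nonneg_left ((grad_le hk x).trans ((hk.der _).trans (le_of_eq ?_)))
          (abs_nonneg _)
        field_simp; norm_num
    have b4 : ‖D (fun x => k (x 2) * w x) x‖ ^ 2 ≤ 2 * ‖D w x‖ ^ 2 + 512 * Λ' ^ 2 * w x ^ 2 := by
      have := pow_le_pow_left₀ (norm_nonneg _) b3 2
      rw [← sq_abs (w x)]
      nlinarith [sq_nonneg (‖D w x‖ - |w x| * (16 * Λ'))]
    calc x 2 ^ 2 * Dt x ^ 2 * ‖D (fun x => k (x 2) * w x) x‖ ^ 2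
        ≤ (2 * Λ' ^ 2 * m.r x ^ 2) * (2 * ‖D w x‖ ^ 2 + 512 * Λ' ^ 2 * w x ^ 2) :=
          mul_le_mul b2 b4 (by positivity) (by positivity)
      _ = _ := by ring
  rw [integral_add (iZ.const_mul _) (iW.const_mul _), integral_const_mul, integral_const_mul] at key
  set Z := ∫ x, m.r x ^ 2 * ‖D w x‖ ^ 2 with hZ
  have Z0 : 0 ≤ Z := integral_nonneg fun x => by positivity
  have p1 : Λ' ^ 2 * Z ≤ Λ' ^ 4 * Z :=
    mul_le_mul_of_nonneg_right (pow_le_pow_right₀ hΛ' (by norm_num)) Z0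
  have p2 := mul_le_mul_of_nonneg_left hH (by positivity : 0 ≤ Λ' ^ 4)
  nlinarith

theorem pt1 {A r w y b G J Λ L g : ℝ} (hA : |A| ≤ 3 * Λ * r) (hr : 0 ≤ r) (hJ0 : 0 ≤ J) (hJ : J ≤ 1)
    (hG0 : 0 ≤ G) (hG : G ≤ Λ * b) (hΛ : 1 ≤ Λ) (hL : Λ ≤ L) :
    2 * (A * (J * (G * (w * y)))) ≤
      (1 / 16) * (r ^ 2 * w ^ 2) + 144 * L ^ 10 * (y ^ 2 * (g ^ 2 + b ^ 2)) := by
  have h1 : |A * (J * (G * (w * y)))| ≤ (3 * Λ * r) * (1 * ((Λ * b) * (|w| * |y|))) := by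
    rw [abs_mul, abs_mul, abs_mul, abs_mul, abs_of_nonneg hJ0, abs_of_nonneg hG0]
    have : 0 ≤ 3 * Λ * r := by positivity
    gcongr
  have h2 : Λ ^ 4 ≤ L ^ 10 :=
    (pow_le_pow_left₀ (by linarith) hL 4).trans (pow_le_pow_right₀ (by linarith) (by norm_num))
  have h3 : Λ ^ 4 * (y ^ 2 * b ^ 2) ≤ L ^ 10 * (y ^ 2 * (g ^ 2 + b ^ 2)) :=
    mul_le_mul h2 (by nlinarith [mul_nonneg (sq_nonneg y) (sq_nonneg g)]) (by positivity)
      (by positivity)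
  have h4 := le_abs_self (A * (J * (G * (w * y))))
  rw [← sq_abs w, ← sq_abs y] at *
  nlinarith [sq_nonneg (r * |w| / 4 - 12 * Λ ^ 2 * b * |y|)]

theorem pt2 {P w y b g Dt Λ L : ℝ} (hP : |P| ≤ Λ * Dt * (g + 32 * Λ * L * b)) (hDt : 0 ≤ Dt)
    (hg : 0 ≤ g) (hb : 0 ≤ b) (hΛ : 1 ≤ Λ) (hL : Λ ≤ L) :
    -(w * y * P) ≤ 1 / (65664 * L ^ 4) * (Dt ^ 2 * w ^ 2) +
      33619968 * L ^ 10 * (y ^ 2 * (g ^ 2 + b ^ 2)) := by
  have hL1 : 1 ≤ L := hΛ.trans hL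
  have hL0 : 0 < L := by linarith
  have h1 : |w * y * P| ≤ |w| * |y| * (L * Dt * (g + 32 * L ^ 2 * b)) := by
    rw [abs_mul, abs_mul]
    refine mul_le_mul_of_nonneg_left (hP.trans ?_) (by positivity)
    have : 32 * Λ * L * b ≤ 32 * L ^ 2 * b := by
      rw [sq, ← mul_assoc]; gcongr
    gcongr
  set V := (g + 32 * L ^ 2 * b) * |y| with hV
  have h2 : V ^ 2 ≤ 2048 * L ^ 4 * (y ^ 2 * (g ^ 2 + b ^ 2)) := by
    rw [hV, mul_pow, sq_abs]
    have h3 : (g + 32 * L ^ 2 * b) ^ 2 ≤ 2048 * L ^ 4 * (g ^ 2 + b ^ 2) := by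
      have h4 : g ^ 2 ≤ L ^ 4 * g ^ 2 := le_mul_of_one_le_left (sq_nonneg _) (one_le_pow₀ hL1)
      nlinarith [sq_nonneg (g - 32 * L ^ 2 * b), sq_nonneg g]
    nlinarith [mul_le_mul_of_nonneg_right h3 (sq_nonneg y)]
  have h5 : (Dt * |w|) * (L * V) ≤ 1 / (65664 * L ^ 4) * (Dt * |w|) ^ 2 + 16416 * L ^ 4 * (L * V) ^ 2 := by
    have e : 1 / (65664 * L ^ 4) * (Dt * |w|) ^ 2 + 16416 * L ^ 4 * (L * V) ^ 2 - (Dt * |w|) * (L * V) =
        1 / (65664 * L ^ 4) * (Dt * |w| - 32832 * L ^ 4 * (L * V)) ^ 2 := by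
      field_simp; ring
    have : 0 ≤ 1 / (65664 * L ^ 4) * (Dt * |w| - 32832 * L ^ 4 * (L * V)) ^ 2 := by positivity
    linarith
  have h6 : 16416 * L ^ 4 * (L * V) ^ 2 ≤ 33619968 * L ^ 10 * (y ^ 2 * (g ^ 2 + b ^ 2)) := by
    have := mul_le_mul_of_nonneg_left h2 (by positivity : 0 ≤ 16416 * L ^ 6)
    calc 16416 * L ^ 4 * (L * V) ^ 2 = 16416 * L ^ 6 * V ^ 2 := by ring
      _ ≤ _ := this
      _ = _ := by ring
  have h7 : |w| * |y| * (L * Dt * (g + 32 * L ^ 2 * b)) = (Dt * |w|) * (L * V) := by rw [hV]; ring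
  have h8 : (Dt * |w|) ^ 2 = Dt ^ 2 * w ^ 2 := by rw [mul_pow, sq_abs]
  rw [h8] at h5
  linarith [neg_abs_le (w * y * P)]

theorem main (hm : m.OK o c) (h : SD o m Λ R η0 η1 ε η Dt Gt) (h0 : η0 * (10 * Λ ^ 2) ≤ 1)
    (hΛ : Λ ≤ Λ') {j : ℝ → ℝ} (hj : ZC (1 / (8 * Λ')) j) {w y : E → ℝ}
    (hw : TF {x | R + 3 < ‖x‖} w) (hy : TF {x | R + 3 < ‖x‖} y) :
    ∫ x, j (x 2) * Gt x * ⟪D m.f x, D (fun x => w x * y x) x⟫ ≤
      (1 / 4) * (∫ x, m.r x ^ 2 * ‖D w x‖ ^ 2) + 10 ^ 8 * Λ' ^ 10 *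
        ∫ x in {x : E | |x 2| ≤ 1 / (4 * Λ')}, y x ^ 2 * (‖D Gt x‖ ^ 2 + (η x * Dt x) ^ 2) := by
  have hΛ1 : 1 ≤ Λ := h.Λ1
  have hΛ' : 1 ≤ Λ' := hΛ1.trans hΛ
  obtain ⟨k, hk⟩ := exists_ZC (by positivity : 0 < 1 / (4 * Λ'))
  have hV := vert hm h h0 hΛ hk hw
  have hr := bl_r hm
  have hH := ho_hardy hr (fun x => (hm.nn x).1) hm.ho (Ω := {x | R + 3 < ‖x‖})
    (Eventually.of_forall fun x hx => (h.pot x (by have : R + 3 < ‖x‖ := hx; linarith)).1) hw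
  have hχ : TF {x | R + 3 < ‖x‖} fun x => w x * y x := hy.mul hw.bl
  have hGχ : TF {x | R + 3 < ‖x‖} fun x => Gt x * (w x * y x) := hχ.mul h.Gt_r.1
  have hφ : TF {x | R + 3 < ‖x‖} fun x => j (x 2) * (Gt x * (w x * y x)) := hGχ.mul (bl_c1 (c1 hj))
  have hkw : TF {x | R + 3 < ‖x‖} fun x => k (x 2) * w x := hw.mul (bl_c1 (c1 hk))
  have hjG : Bl fun x => j (x 2) * Gt x := ((bl_c1 (c1 hj)).mul h.Gt_r.1).1
  set Sb : Set E := {x : E | |x 2| ≤ 1 / (4 * Λ')} with hSb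
  have mS : MeasurableSet Sb := measurableSet_le (by fun_prop) measurable_const
  set F : E → ℝ := fun x => y x ^ 2 * (‖D Gt x‖ ^ 2 + (η x * Dt x) ^ 2) with hF
  have iF : Integrable F := by
    refine int_sq (a := fun x => ‖D Gt x‖ ^ 2 + (η x * Dt x) ^ 2) (fun K hK => ?_) hy
    refine Integrable.add ?_ ?_
    · exact (memLp_two_iff_integrable_sq_norm (h.Gt_r.1.hl.dl2 K hK).1).1 (h.Gt_r.1.hl.dl2 K hK)
    · exact ((h.η_c.continuous.mul h.Dt_c).pow 2).continuousOn.integrableOn_compact hK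
  have iS : Integrable (Sb.indicator F) := iF.indicator mS
  have eS : ∫ x, Sb.indicator F x = ∫ x in Sb, F x := integral_indicator mS
  have F0 : ∀ x, 0 ≤ Sb.indicator F x := fun x =>
    indicator_nonneg (fun x _ => by simp only [hF]; positivity) x
  have iW := int_rw hm hw
  have iK : Integrable fun x => Dt x ^ 2 * (k (x 2) * w x) ^ 2 := by
    have := int_sq (a := fun x => Dt x ^ 2)
      (fun K hK => (h.Dt_c.pow 2).continuousOn.integrableOn_compact hK) hkw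
    simpa only [mul_comm] using this
  have i1 := S12_int_vec hjG.hl.aesm hjG.lb hm.sf.h1.hl.dl2 hχ
  have i2 := S12_int_vec' hm.sf.h1.hl.dl2 hφ
  have i3 := S12_mul hm.sf.l2 hφ.h1.l2
  have eq1 := hm.sf.eq _ hφ.h1
  rw [integral_const_mul] at eq1
  obtain ⟨K, -, hK, hK0, hK1⟩ := S12_supp hχ
  have h2s : 2 * (1 / (8 * Λ')) = 1 / (4 * Λ') := by field_simp; norm_num
  have h4 : 1 / (4 * Λ') ≤ 1 / 2 := one_div_le_one_div_of_le (by norm_num) (by linarith)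
  have key1 : ∀ᵐ x, 2 * ((-((o.v x + m.I + m.l * m.w x) * m.f x) + m.ef x) *
        (j (x 2) * (Gt x * (w x * y x)))) ≤
      (1 / 16) * (m.r x ^ 2 * w x ^ 2) + 144 * Λ' ^ 10 * Sb.indicator F x := by
    filter_upwards [hK0, sg_le hm h h0, h.ef, h.Gt_bd] with x e1 e2 e3 e4
    have R0 : 0 ≤ (1 / 16) * (m.r x ^ 2 * w x ^ 2) + 144 * Λ' ^ 10 * Sb.indicator F x := by
      have := F0 x
      positivity
    by_cases a1 : x ∈ K
    swap
    · rw [e1 a1]; simpa using R0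
    by_cases a2 : x ∈ Sb
    swap
    · have b1 : 2 * (1 / (8 * Λ')) ≤ |x 2| := by rw [h2s]; exact (not_le.1 a2).le
      rw [hj.zero _ b1]; simpa using R0
    have hx : R + 3 < ‖x‖ := hK a1
    have hs : x ∈ Sl R := mem_sl hx (le_trans a2 h4)
    obtain ⟨b1, b2⟩ := e2 hs
    have rn := (hm.nn x).1
    obtain ⟨p1, p2⟩ := h.pot x (by linarith)
    have c1 : Dt x * sg η x ≤ 3 / 2 * Λ * m.r x :=
      (abs_le_of_sq_le_sq' (by nlinarith [mul_nonneg (sq_nonneg Λ) (sq_nonneg (m.r x))])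
        (by positivity)).2
    have c2 : |m.f x| ≤ 3 / 2 * m.r x :=
      abs_le_of_sq_le_sq (by nlinarith [sq_nonneg (m.r x)]) (by positivity)
    have c3 : |-((o.v x + m.I + m.l * m.w x) * m.f x) + m.ef x| ≤ 3 * Λ * m.r x := by
      have d1 : -((o.v x + m.I + m.l * m.w x) * m.f x) + m.ef x =
          (-(m.l * m.w x * m.f x) + m.ef x) - (o.v x + m.I) * m.f x := by ring
      rw [d1]
      refine (abs_sub _ _).trans ?_
      have d2 : |(o.v x + m.I) * m.f x| ≤ |m.f x| := by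
        rw [abs_mul, abs_of_nonneg (by linarith : 0 ≤ o.v x + m.I)]
        exact mul_le_of_le_one_left (abs_nonneg _) p2
      nlinarith [e3 hs, mul_le_mul_of_nonneg_right hΛ1 rn]
    rw [indicator_of_mem a2]
    exact pt1 c3 rn (hj.bd _).1 (hj.bd _).2 (h.Gt_r.2.2.2 x).le (e4 hs).2.1 hΛ1 hΛ
  have key2 : ∀ᵐ x, j (x 2) * Gt x * ⟪D m.f x, D (fun x => w x * y x) x⟫ ≤
      ⟪D m.f x, D (fun x => j (x 2) * (Gt x * (w x * y x))) x⟫ +
        (1 / (65664 * Λ' ^ 4) * (Dt x ^ 2 * (k (x 2) * w x) ^ 2) +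
          33619968 * Λ' ^ 10 * Sb.indicator F x) := by
    filter_upwards [hK0, D_mul_c1 hGχ.h1.hl (c1 hj), (h.Gt_r.1.mul hχ.bl).2, h.df, h.Gt_bd]
      with x e1 e2 e3 e4 e5
    have R0 : 0 ≤ 1 / (65664 * Λ' ^ 4) * (Dt x ^ 2 * (k (x 2) * w x) ^ 2) +
          33619968 * Λ' ^ 10 * Sb.indicator F x := by
      have := F0 x
      positivity
    have e6 : ⟪D m.f x, D (fun x => j (x 2) * (Gt x * (w x * y x))) x⟫ =
        j (x 2) * Gt x * ⟪D m.f x, D (fun x => w x * y x) x⟫ +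
          w x * y x * ⟪D m.f x, j (x 2) • D Gt x + Gt x • ∇ (fun x : E => j (x 2)) x⟫ := by
      rw [e2, e3]
      simp only [inner_add_right, real_inner_smul_right]
      ring
    rw [e6]
    suffices -(w x * y x * ⟪D m.f x, j (x 2) • D Gt x + Gt x • ∇ (fun x : E => j (x 2)) x⟫) ≤
        1 / (65664 * Λ' ^ 4) * (Dt x ^ 2 * (k (x 2) * w x) ^ 2) +
          33619968 * Λ' ^ 10 * Sb.indicator F x by linarith
    by_cases a1 : x ∈ K
    swap
    · rw [e1 a1]; simpa using R0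
    by_cases a2 : x ∈ Sb
    swap
    · have b1 : 2 * (1 / (8 * Λ')) < |x 2| := by rw [h2s]; exact not_le.1 a2
      have b2 := grad_le hj x
      rw [deriv_zero hj b1, abs_zero] at b2
      rw [hj.zero _ b1.le, norm_le_zero_iff.1 b2]
      simpa using R0
    have hx : R + 3 < ‖x‖ := hK a1
    have hs : x ∈ Sl R := mem_sl hx (le_trans a2 h4)
    have G0 := (h.Gt_r.2.2.2 x).le
    have b0 : 0 ≤ η x * Dt x := (mul_pos (h.pos x).1 (h.pos x).2).le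
    have c1 : ‖j (x 2) • D Gt x + Gt x • ∇ (fun x : E => j (x 2)) x‖ ≤
        ‖D Gt x‖ + 32 * Λ * Λ' * (η x * Dt x) := by
      refine (norm_add_le _ _).trans (add_le_add ?_ ?_)
      · rw [norm_smul, Real.norm_eq_abs, abs_of_nonneg (hj.bd _).1]
        exact mul_le_of_le_one_left (norm_nonneg _) (hj.bd _).2
      · rw [norm_smul, Real.norm_eq_abs, abs_of_nonneg G0]
        have d1 : ‖∇ (fun x : E => j (x 2)) x‖ ≤ 32 * Λ' := by
          refine (grad_le hj x).trans ((hj.der _).trans (le_of_eq ?_))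
          field_simp; norm_num
        calc Gt x * ‖∇ (fun x : E => j (x 2)) x‖ ≤ (Λ * (η x * Dt x)) * (32 * Λ') :=
              mul_le_mul (e5 hs).2.1 d1 (norm_nonneg _) (by positivity)
          _ = _ := by ring
    have c2 := (abs_real_inner_le_norm (D m.f x)
      (j (x 2) • D Gt x + Gt x • ∇ (fun x : E => j (x 2)) x)).trans
      (mul_le_mul (e4 hs).1 c1 (norm_nonneg _) (mul_nonneg (by linarith) (h.pos x).2.le))
    rw [indicator_of_mem a2, hk.one _ a2, one_mul]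
    exact pt2 c2 (h.pos x).2.le (norm_nonneg _) b0 hΛ1 hΛ
  have j1 : Integrable fun x => 1 / (65664 * Λ' ^ 4) * (Dt x ^ 2 * (k (x 2) * w x) ^ 2) +
      33619968 * Λ' ^ 10 * Sb.indicator F x := (iK.const_mul _).add (iS.const_mul _)
  have k1 := integral_mono_ae (i3.const_mul 2) ((iW.const_mul (1 / 16)).add
    (iS.const_mul (144 * Λ' ^ 10))) key1
  have k2 := integral_mono_ae i1 (i2.add j1) key2
  simp only [Pi.add_apply] at k1 k2
  rw [integral_add (iW.const_mul _) (iS.const_mul _), integral_const_mul, integral_const_mul,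
    integral_const_mul, eS] at k1
  rw [integral_add i2 j1, integral_add (iK.const_mul _) (iS.const_mul _), integral_const_mul,
    integral_const_mul, eS] at k2
  set Z := ∫ x, m.r x ^ 2 * ‖D w x‖ ^ 2 with hZ
  set S := ∫ x in Sb, F x with hS'
  have S0 : 0 ≤ S := by rw [← eS]; exact integral_nonneg F0
  have p1 : 1 / (65664 * Λ' ^ 4) * ∫ x, Dt x ^ 2 * (k (x 2) * w x) ^ 2 ≤ (1 / 8) * Z := by
    refine (mul_le_mul_of_nonneg_left hV (by positivity)).trans (le_of_eq ?_)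
    field_simp; ring
  have p2 : 0 ≤ Λ' ^ 10 * S := by positivity
  nlinarith

end U12c2A

end

end Crest.Agent.R335
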