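import Crest.Agent.R335.U12b
import Crest.Agent.R335.U12cAux2

set_option autoImplicit false

open MeasureTheory Set Filter Topology Metric
open scoped Gradient ContDiff RealInnerProductSpace ENNReal

namespace Crest.Agent.R335

noncomputable section

variable {o : OD} {m : MD} {c Λ Λ' R η0 η1 ε : ℝ} {η Dt Gt : E → ℝ}

theorem U12c1_ang {r f G : ℝ} (hG : 0 < G) (hr : 0 ≤ r) (h2 : r ^ 2 ≤ 2 * (f ^ 2 + G ^ 2))
    (hT : Real.pi / 2 - Real.arctan (f / G) ≤ Real.pi / 2) :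
    r * (Real.pi / 2 - Real.arctan (f / G)) ≤ 3 * G := by
  have h0 : 0 ≤ Real.pi / 2 - Real.arctan (f / G) := by linarith [Real.arctan_lt_pi_div_two (f / G)]
  have h1 := Real.mul_le_sin h0 hT
  rw [Real.sin_pi_div_two_sub] at h1
  have hc := Real.cos_arctan_pos (f / G)
  have h3 : Real.cos (Real.arctan (f / G)) ^ 2 * (f ^ 2 + G ^ 2) = G ^ 2 := by
    rw [Real.cos_sq_arctan]
    field_simp
    ring
  have h4 : r * Real.cos (Real.arctan (f / G)) ≤ 3 / 2 * G := by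
    refine abs_le_of_sq_le_sq' ?_ (by positivity) |>.2
    nlinarith [mul_le_mul_of_nonneg_right h2 (sq_nonneg (Real.cos (Real.arctan (f / G)))),
      sq_nonneg G]
  have h5 : Real.pi / 2 - Real.arctan (f / G) ≤ 2 * Real.cos (Real.arctan (f / G)) := by
    have h6 : 1 / 2 ≤ 2 / Real.pi := by
      rw [le_div_iff₀ Real.pi_pos]
      linarith [Real.pi_le_four]
    nlinarith [mul_le_mul_of_nonneg_right h6 h0]
  nlinarith [mul_le_mul_of_nonneg_left h5 hr]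

/-- the part of the cross term that is estimated pointwise -/
theorem U12c1 (hm : m.OK o c) (h : SD o m Λ R η0 η1 ε η Dt Gt) (h0 : η0 * (10 * Λ ^ 2) ≤ 1)
    (hΛ : Λ ≤ Λ') {j : ℝ → ℝ} (hj : ZC (1 / (8 * Λ')) j) :
    ∀ᵐ x, x ∈ Hp → x ∈ Sl R → m.r x * TG m.f Gt x ≤ 3 * Λ * (η x * Dt x) ∧
      ‖m.r x ^ 2 • (j (x 2) • D (TG m.f Gt) x + (TG m.f Gt x * deriv j (x 2)) • ez) +
          (j (x 2) * Gt x) • D m.f x‖ ≤
        m.r x * (3 * ‖D Gt x‖ + 100 * Λ' ^ 5 * (η x * Dt x)) := by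
  obtain ⟨-, -, -, hT, hb⟩ := SD.basic hm h h0
  have hΛ1 := h.Λ1
  have hΛ0 : 0 < Λ := by linarith
  filter_upwards [hb, h.df, h.Gt_bd, h.ν_bd, hm.pyth] with x e1 e2 e3 e4 e5 hx hs
  obtain ⟨a1, a2, -, a4, a5, -, a7⟩ := e1 hs
  obtain ⟨b1, -, -⟩ := e2 hs
  obtain ⟨-, c2, -, -⟩ := e3 hs
  obtain ⟨d1, -⟩ := e4 hs
  obtain ⟨-, p2, -⟩ := e5
  obtain ⟨hη, hD⟩ := h.pos x
  have hG := h.Gt_r.2.2.2 x
  have hr := (hm.nn x).1
  have hT0 := (hT x).1
  have k1 : m.r x * TG m.f Gt x ≤ 3 * Λ * (η x * Dt x) := by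
    have := U12c1_ang hG hr a5 (a7 hx).1
    change m.r x * TG m.f Gt x ≤ _ at this
    linarith
  refine ⟨k1, ?_⟩
  obtain ⟨j0, j1⟩ := hj.bd (x 2)
  have jd : |deriv j (x 2)| ≤ 32 * Λ' := by
    refine (hj.der _).trans (le_of_eq ?_)
    field_simp
    ring
  clear hb e1 e2 e3 e4 a7 hT
  set r := m.r x
  set f := m.f x
  set G := Gt x
  set T := TG m.f Gt x
  set b := η x * Dt x with hb
  have b0 : 0 < b := mul_pos hη hD
  have hρ : 0 < f ^ 2 + G ^ 2 := by positivity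
  set t := (r ^ 2 - f ^ 2 - G ^ 2) / (f ^ 2 + G ^ 2) with ht
  have e : r ^ 2 • (j (x 2) • D (TG m.f Gt) x + (T * deriv j (x 2)) • ez) + (j (x 2) * G) • D m.f x =
      (j (x 2) * ((1 + t) * f)) • D Gt x - (j (x 2) * (t * G)) • D m.f x +
        (r ^ 2 * T * deriv j (x 2)) • ez := by
    have e0 : r ^ 2 * (f ^ 2 + G ^ 2)⁻¹ = 1 + t := by
      rw [ht]
      field_simp
      ring
    rw [a1, ← e0, show t = r ^ 2 * (f ^ 2 + G ^ 2)⁻¹ - 1 by linarith]
    module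
  have t1 : |1 + t| ≤ 2 := by
    have e0 : 1 + t = r ^ 2 / (f ^ 2 + G ^ 2) := by
      rw [ht]
      field_simp
      ring
    rw [e0, abs_of_nonneg (by positivity), div_le_iff₀ hρ]
    exact a5
  have f1 : |f| ≤ r := abs_le_of_sq_le_sq (by linarith [sq_nonneg (m.g x)]) hr
  have σ0 : η x ≤ sg η x := Real.le_sqrt_of_sq_le (by linarith [sq_nonneg (x 2)])
  have η1 : η x ≤ 1 := by
    have h1 := (h.η_bd x hs).1
    have h2 : η0 * 1 ≤ η0 * (10 * Λ ^ 2) :=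
      mul_le_mul_of_nonneg_left (by linarith [one_le_pow₀ (n := 2) hΛ1]) (by linarith)
    linarith
  have η2 : η x ^ (4 / 3 : ℝ) ≤ η x := Real.rpow_le_self_of_le_one hη.le η1 (by norm_num)
  have η3 : 0 ≤ η x ^ (4 / 3 : ℝ) := Real.rpow_nonneg hη.le _
  rw [div_pow, div_le_iff₀ (by positivity)] at a2
  have t2 : |t| ≤ η x * Λ ^ 2 := by
    rw [ht, abs_div, abs_of_pos hρ, div_le_iff₀ hρ]
    refine d1.trans ?_
    calc η x ^ (4 / 3 : ℝ) * Dt x ^ 2 * sg η x ^ 2 = η x ^ (4 / 3 : ℝ) * (Dt x * sg η x) ^ 2 := by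
          ring
      _ ≤ η x * ((f ^ 2 + G ^ 2) * Λ ^ 2) := mul_le_mul η2 a2 (sq_nonneg _) hη.le
      _ = _ := by ring
  have b1' : b ≤ 2 * Λ * r := by
    have h1 : b ≤ Dt x * sg η x := by
      rw [hb, mul_comm]
      exact mul_le_mul_of_nonneg_left σ0 hD.le
    refine h1.trans (abs_le_of_sq_le_sq' ?_ (by positivity)).2
    linarith [mul_le_mul_of_nonneg_right a4 (sq_nonneg Λ), mul_nonneg (sq_nonneg r) (sq_nonneg Λ)]
  have n1 : ‖(j (x 2) * ((1 + t) * f)) • D Gt x‖ ≤ 2 * r * ‖D Gt x‖ := by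
    rw [norm_smul, Real.norm_eq_abs, abs_mul, abs_mul, abs_of_nonneg j0]
    refine mul_le_mul_of_nonneg_right ?_ (norm_nonneg _)
    refine (mul_le_of_le_one_left (by positivity) j1).trans ?_
    exact mul_le_mul t1 f1 (abs_nonneg _) (by norm_num)
  have L1 : Λ ^ 5 ≤ Λ' ^ 5 := pow_le_pow_left₀ hΛ0.le hΛ 5
  have L2 : Λ * Λ' ≤ Λ' ^ 5 := by
    have h1 : 1 ≤ Λ' := hΛ1.trans hΛ
    calc Λ * Λ' ≤ Λ' * Λ' := mul_le_mul_of_nonneg_right hΛ (by linarith)
      _ = Λ' ^ 2 := by ring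
      _ ≤ Λ' ^ 5 := pow_le_pow_right₀ h1 (by norm_num)
  have rb : 0 ≤ r * b := mul_nonneg hr b0.le
  have n2 : ‖(j (x 2) * (t * G)) • D m.f x‖ ≤ 2 * Λ' ^ 5 * (r * b) := by
    rw [norm_smul, Real.norm_eq_abs, abs_mul, abs_mul, abs_of_nonneg j0, abs_of_pos hG]
    calc j (x 2) * (|t| * G) * ‖D m.f x‖ ≤ 1 * (η x * Λ ^ 2 * (Λ * b)) * (Λ * Dt x) := by
          gcongr
      _ = Λ ^ 4 * b * b := by rw [hb]; ring
      _ ≤ Λ ^ 4 * b * (2 * Λ * r) := by gcongr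
      _ = 2 * Λ ^ 5 * (r * b) := by ring
      _ ≤ _ := by gcongr
  have n3 : ‖(r ^ 2 * T * deriv j (x 2)) • ez‖ ≤ 96 * Λ' ^ 5 * (r * b) := by
    rw [norm_smul, S07.norm_ez, mul_one, Real.norm_eq_abs, abs_mul,
      abs_of_nonneg (by positivity : 0 ≤ r ^ 2 * T)]
    calc r ^ 2 * T * |deriv j (x 2)| = r * (r * T) * |deriv j (x 2)| := by ring
      _ ≤ r * (3 * Λ * b) * (32 * Λ') := by gcongr
      _ = 96 * (Λ * Λ') * (r * b) := by ring
      _ ≤ _ := by gcongr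
  rw [e]
  refine ((norm_add_le _ _).trans (add_le_add_left (norm_sub_le _ _) _)).trans ?_
  have q1 : 0 ≤ r * ‖D Gt x‖ := by positivity
  have q2 : 0 ≤ Λ' ^ 5 * (r * b) := mul_nonneg ((by positivity : 0 ≤ Λ ^ 5).trans L1) rb
  linarith

/-- the part of the cross term that uses the equation of `f` -/
theorem U12c2 (hm : m.OK o c) (h : SD o m Λ R η0 η1 ε η Dt Gt) (h0 : η0 * (10 * Λ ^ 2) ≤ 1)
    (hΛ : Λ ≤ Λ') {j : ℝ → ℝ} (hj : ZC (1 / (8 * Λ')) j) {w y : E → ℝ}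
    (hw : TF {x | R + 3 < ‖x‖} w) (hy : TF {x | R + 3 < ‖x‖} y) :
    ∫ x, j (x 2) * Gt x * ⟪D m.f x, D (fun x => w x * y x) x⟫ ≤
      (1 / 4) * (∫ x, m.r x ^ 2 * ‖D w x‖ ^ 2) + 10 ^ 8 * Λ' ^ 10 *
        ∫ x in {x : E | |x 2| ≤ 1 / (4 * Λ')}, y x ^ 2 * (‖D Gt x‖ ^ 2 + (η x * Dt x) ^ 2) :=
  U12c2A.main hm h h0 hΛ hj hw hy

theorem U12c3_grad {j : ℝ → ℝ} (hj : Differentiable ℝ j) (x : E) :
    ∇ (fun x : E => j (x 2)) x = deriv j (x 2) • ez := by
  have h1 : HasFDerivAt (fun x : E => x 2) (innerSL ℝ ez) x := by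
    have := (innerSL ℝ ez).hasFDerivAt (x := x)
    convert this using 1
    funext v
    simp [S07.inner_ez]
  have h2 := (hj (x 2)).hasDerivAt.comp_hasFDerivAt x h1
  refine HasGradientAt.gradient ?_
  rw [hasGradientAt_iff_hasFDerivAt]
  have e : (InnerProductSpace.toDual ℝ E) (deriv j (x 2) • ez) = deriv j (x 2) • innerSL ℝ ez := by
    ext v
    simp
  rw [e]
  exact h2

theorem U12c3_hor {x : E} {ρ : ℝ} (h : ρ < ‖x‖) : ρ - |x 2| < ‖hor x‖ := by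
  have h4 := norm_sq_hor x
  have h5 : ‖x‖ ≤ ‖hor x‖ + |x 2| := by
    refine abs_le_of_sq_le_sq' ?_ (by positivity) |>.2
    rw [h4, add_sq, sq_abs]
    nlinarith [mul_nonneg (norm_nonneg (hor x)) (abs_nonneg (x 2))]
  linarith

theorem U12c3_int1 {g t : E → ℝ} {Ω : Set E} (hg : ∀ K, IsCompact K → IntegrableOn g K volume)
    (ht : TF Ω t) : Integrable fun x => g x * t x ^ 2 := by
  simpa only [sq] using S12_int_rhs (fun K hK _ => hg K hK) (ht.mul ht.bl)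

theorem U12c3_int2 {a t : E → ℝ} {Ω : Set E} (ha : AEStronglyMeasurable a volume) (hb : LB a)
    (ht : TF Ω t) : Integrable fun x => a x * ‖D t x‖ ^ 2 := by
  simpa only [real_inner_self_eq_norm_sq] using S12_int_vec ha hb ht.h1.hl.dl2 ht

/-- slab quantities are controlled by the energy -/
theorem U12c3 {u : E → ℝ} {δ : ℝ} (hA : Ang m.r u δ) (h : SD o m Λ R η0 η1 ε η Dt Gt) (hΛ : Λ ≤ Λ')
    (hS : Slab m.r u (fun x => η x * Dt x) Λ' R) {y : E → ℝ} (hy : TF {x | R + 3 < ‖x‖} y) :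
    IntegrableOn (fun x => y x ^ 2 * (‖D Gt x‖ ^ 2 + (η x * Dt x) ^ 2)) {x : E | |x 2| ≤ 1 / (4 * Λ')} ∧
    ∫ x in {x : E | |x 2| ≤ 1 / (4 * Λ')}, y x ^ 2 * (‖D Gt x‖ ^ 2 + (η x * Dt x) ^ 2) ≤
      10 ^ 4 * Λ' ^ 7 * ∫ x, (m.r x * Real.cos (u x)) ^ 2 * ‖D y x‖ ^ 2 := by
  have hΛ1 := h.Λ1
  have hΛ' : 1 ≤ Λ' := hΛ1.trans hΛ
  have hΛ0 : 0 < Λ' := by linarith
  have hs : 0 < 1 / (4 * Λ') := by positivity
  obtain ⟨j, hj⟩ := exists_ZC hs
  have hjc : ContDiff ℝ 1 fun x : E => j (x 2) :=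
    (hj.sm.of_le (by exact_mod_cast le_top)).comp (by fun_prop)
  have hjd : Differentiable ℝ j := hj.sm.differentiable (by simp)
  have cb : Continuous fun x => (η x * Dt x) ^ 2 := (h.η_c.continuous.mul h.Dt_c).pow 2
  have lb : ∀ K, IsCompact K → IntegrableOn (fun x => (η x * Dt x) ^ 2) K volume := fun K hK =>
    cb.continuousOn.integrableOn_compact hK
  have lG : ∀ K, IsCompact K → IntegrableOn (fun x => ‖D Gt x‖ ^ 2) K volume := fun K hK =>
    (memLp_two_iff_integrable_sq_norm (h.Gt_r.1.hl.dl2 K hK).1).1 (h.Gt_r.1.hl.dl2 K hK)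
  have hφb : Bl fun x => m.r x * Real.cos (u x) := by
    refine ⟨hA.hφ.hl, fun K hK => ?_⟩
    obtain ⟨M, hM⟩ := hA.bd
    refine ⟨M, ?_⟩
    filter_upwards [hM] with x hx _
    rw [abs_mul]
    exact (mul_le_of_le_one_right (abs_nonneg _) (Real.abs_cos_le_one _)).trans hx
  have hφ2 : Bl fun x => (m.r x * Real.cos (u x)) ^ 2 := by
    simpa only [sq] using (hφb.mul hφb).1
  obtain ⟨K, hKc, hK, hK0, hK1⟩ := S12_supp hy
  have l1 : 1 / Λ' ≤ 1 := by
    rw [div_le_one hΛ0]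
    exact hΛ'
  have l2 : 2 * (1 / (4 * Λ')) = 1 / Λ' / 2 := by
    field_simp
    ring
  have l3 : 0 < 1 / Λ' := by positivity
  have hw0 : TF {x | R + 3 < ‖x‖} fun x => j (x 2) * y x := hy.mul (bl_c1 hjc)
  have hw : TF (Sl R) fun x => j (x 2) * y x := by
    refine ⟨hw0.h1, hw0.bd, K ∩ {x | |x 2| ≤ 1 / 2},
      hKc.inter_right (isClosed_le (by fun_prop) continuous_const), fun x hx => ?_, ?_⟩
    · have a1 : |x 2| ≤ 1 / 2 := hx.2
      have a2 := U12c3_hor (hK hx.1)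
      exact ⟨by linarith, by linarith⟩
    · filter_upwards [hK0] with x e hx
      by_cases a1 : x ∈ K
      · have a2 : 1 / 2 < |x 2| := not_le.1 fun a2 => hx ⟨a1, a2⟩
        rw [hj.zero _ (by linarith), zero_mul]
      · rw [e a1, mul_zero]
  set S1 : Set E := {x : E | |x 2| < 1 / Λ'} with hS1
  set Sb : Set E := {x : E | |x 2| ≤ 1 / (4 * Λ')} with hSb
  have m1 : MeasurableSet S1 := measurableSet_lt (by fun_prop) measurable_const
  have mb : MeasurableSet Sb := measurableSet_le (by fun_prop) measurable_const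
  have iY := U12c3_int2 hφ2.hl.aesm hφ2.lb hy
  have iA := U12c3_int2 cb.aestronglyMeasurable (Continuous.lb' cb) hy
  have iB := U12c3_int1 lb hy
  have iG := U12c3_int1 lG hy
  have iA' := U12c3_int2 cb.aestronglyMeasurable (Continuous.lb' cb) hw
  have iB' := U12c3_int1 lb hw
  have iG' := U12c3_int1 lG hw
  set Y := ∫ x, (m.r x * Real.cos (u x)) ^ 2 * ‖D y x‖ ^ 2 with hY
  set A := ∫ x in S1, (η x * Dt x) ^ 2 * ‖D y x‖ ^ 2 with hA'
  set B := ∫ x in S1, (η x * Dt x) ^ 2 * y x ^ 2 with hB'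
  have Y0 : 0 ≤ Y := integral_nonneg fun x => by positivity
  have A0 : 0 ≤ A := integral_nonneg fun x => by positivity
  have B0 : 0 ≤ B := integral_nonneg fun x => by positivity
  have k1 : A ≤ Λ' ^ 2 * Y := by
    rw [hA', hY, ← integral_indicator m1, ← integral_const_mul]
    refine integral_mono_ae (iA.indicator m1) (iY.const_mul _) ?_
    filter_upwards [hS, hK1] with x e1 e2
    by_cases a1 : x ∈ S1
    swap
    · rw [indicator_of_notMem a1]
      positivity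
    rw [indicator_of_mem a1]
    by_cases a2 : x ∈ K
    swap
    · rw [e2 a2]
      simp
    have a3 := U12c3_hor (hK a2)
    have a4 : |x 2| < 1 / Λ' := a1
    have a5 := e1 a4 (by linarith)
    rw [div_le_iff₀ hΛ0] at a5
    have a6 := pow_le_pow_left₀ (mul_pos (h.pos x).1 (h.pos x).2).le a5 2
    rw [← mul_assoc]
    refine mul_le_mul_of_nonneg_right (a6.trans (le_of_eq ?_)) (sq_nonneg _)
    ring
  have k2 : B ≤ Λ' * A := by
    have := h.hardy (1 / Λ') l3 l1 y (hy.mono fun x (hx : R + 3 < ‖x‖) => (by linarith : R + 2 < ‖x‖))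
    simp only [mul_pow (η _ * Dt _)] at this
    exact this.trans (mul_le_mul_of_nonneg_right hΛ A0)
  have k3 : ∫ x, (η x * Dt x) ^ 2 * (j (x 2) * y x) ^ 2 ≤ B := by
    rw [hB', ← integral_indicator m1]
    refine integral_mono iB' (iB.indicator m1) fun x => ?_
    by_cases a1 : x ∈ S1
    · rw [indicator_of_mem a1, mul_pow (j _)]
      exact mul_le_mul_of_nonneg_left (mul_le_of_le_one_left (sq_nonneg _)
        (pow_le_one₀ (hj.bd _).1 (hj.bd _).2)) (sq_nonneg _)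
    · have a2 : 1 / Λ' ≤ |x 2| := not_lt.1 a1
      simp only [indicator_of_notMem a1]
      rw [hj.zero _ (by linarith)]
      simp
  have k4 : ∫ x, (η x * Dt x) ^ 2 * ‖D (fun x => j (x 2) * y x) x‖ ^ 2 ≤
      2 * A + 512 * Λ' ^ 2 * B := by
    rw [hA', hB', ← integral_indicator m1, ← integral_indicator m1, ← integral_const_mul,
      ← integral_const_mul, ← integral_add ((iA.indicator m1).const_mul _)
        ((iB.indicator m1).const_mul _)]
    refine integral_mono_ae iA' (((iA.indicator m1).const_mul _).add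
      ((iB.indicator m1).const_mul _)) ?_
    filter_upwards [D_mul_c1 hy.h1.hl hjc] with x e1
    rw [e1, U12c3_grad hjd]
    by_cases a1 : x ∈ S1
    · rw [indicator_of_mem a1, indicator_of_mem a1]
      have a2 : |deriv j (x 2)| ≤ 16 * Λ' := by
        refine (hj.der _).trans (le_of_eq ?_)
        field_simp
        ring
      have a3 : ‖j (x 2) • D y x + y x • deriv j (x 2) • ez‖ ≤ ‖D y x‖ + |y x| * (16 * Λ') := by
        refine (norm_add_le _ _).trans (add_le_add ?_ ?_)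
        · rw [norm_smul, Real.norm_eq_abs, abs_of_nonneg (hj.bd _).1]
          exact mul_le_of_le_one_left (norm_nonneg _) (hj.bd _).2
        · rw [norm_smul, norm_smul, S07.norm_ez, mul_one, Real.norm_eq_abs, Real.norm_eq_abs]
          exact mul_le_mul_of_nonneg_left a2 (abs_nonneg _)
      have a4 : ‖j (x 2) • D y x + y x • deriv j (x 2) • ez‖ ^ 2 ≤
          2 * ‖D y x‖ ^ 2 + 512 * Λ' ^ 2 * y x ^ 2 := by
        refine (pow_le_pow_left₀ (norm_nonneg _) a3 2).trans ?_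
        rw [← sq_abs (y x)]
        nlinarith [sq_nonneg (‖D y x‖ - |y x| * (16 * Λ'))]
      have a5 := mul_le_mul_of_nonneg_left a4 (sq_nonneg (η x * Dt x))
      linarith
    · have a2 : 1 / Λ' ≤ |x 2| := not_lt.1 a1
      have b1 : 2 * (1 / (4 * Λ')) < |x 2| := by linarith
      have b2 : deriv j (x 2) = 0 := by
        have : j =ᶠ[𝓝 (x 2)] fun _ => 0 := by
          filter_upwards [(isOpen_lt continuous_const continuous_abs).mem_nhds b1] with t ht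
          exact hj.zero t (le_of_lt ht)
        rw [this.deriv_eq, deriv_const]
      rw [indicator_of_notMem a1, indicator_of_notMem a1, b2, hj.zero _ b1.le]
      simp
  have k5 := h.cacc hw
  have k6 : ∫ x in Sb, ‖D Gt x‖ ^ 2 * y x ^ 2 ≤ ∫ x, (j (x 2) * y x) ^ 2 * ‖D Gt x‖ ^ 2 := by
    rw [← integral_indicator mb]
    refine integral_mono (iG.indicator mb) (by simpa only [mul_comm] using iG') fun x => ?_
    by_cases a1 : x ∈ Sb
    · simp only [indicator_of_mem a1]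
      rw [hj.one _ a1, one_mul, mul_comm]
    · simp only [indicator_of_notMem a1]
      positivity
  have k7 : ∫ x in Sb, (η x * Dt x) ^ 2 * y x ^ 2 ≤ B := by
    refine setIntegral_mono_set iB.integrableOn (Eventually.of_forall fun x => by positivity)
      (LE.le.eventuallyLE fun x (hx : |x 2| ≤ 1 / (4 * Λ')) => ?_)
    show |x 2| < 1 / Λ'
    linarith
  have e : (fun x => y x ^ 2 * (‖D Gt x‖ ^ 2 + (η x * Dt x) ^ 2)) =
      fun x => ‖D Gt x‖ ^ 2 * y x ^ 2 + (η x * Dt x) ^ 2 * y x ^ 2 := by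
    funext x
    ring
  rw [e]
  refine ⟨(iG.add iB).integrableOn, ?_⟩
  rw [integral_add iG.integrableOn iB.integrableOn]
  have p1 : Λ ^ 2 ≤ Λ' ^ 2 := pow_le_pow_left₀ (by linarith) hΛ 2
  have p2 : B ≤ Λ' ^ 3 * Y := by
    refine k2.trans ((mul_le_mul_of_nonneg_left k1 hΛ0.le).trans (le_of_eq ?_))
    ring
  have q : ∀ n : ℕ, n ≤ 5 → Λ' ^ n * Y ≤ Λ' ^ 5 * Y := fun n hn =>
    mul_le_mul_of_nonneg_right (pow_le_pow_right₀ hΛ' hn) Y0
  have p3 : Λ' ^ 2 * B ≤ Λ' ^ 5 * Y := by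
    refine (mul_le_mul_of_nonneg_left p2 (sq_nonneg _)).trans (le_of_eq ?_)
    ring
  have p4 : (∫ x, (η x * Dt x) ^ 2 * (j (x 2) * y x) ^ 2) +
      ∫ x, (η x * Dt x) ^ 2 * ‖D (fun x => j (x 2) * y x) x‖ ^ 2 ≤ 515 * (Λ' ^ 5 * Y) := by
    linarith [q 3 (by norm_num), q 2 (by norm_num)]
  have p5 : 0 ≤ Λ' ^ 5 * Y := by positivity
  have p6 : ∫ x, (j (x 2) * y x) ^ 2 * ‖D Gt x‖ ^ 2 ≤ 2060 * (Λ' ^ 7 * Y) := by
    refine k5.trans ?_
    calc _ ≤ 4 * Λ ^ 2 * (515 * (Λ' ^ 5 * Y)) := mul_le_mul_of_nonneg_left p4 (by positivity)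
      _ ≤ 4 * Λ' ^ 2 * (515 * (Λ' ^ 5 * Y)) := by gcongr
      _ = _ := by ring
  have p7 : Λ' ^ 3 * Y ≤ Λ' ^ 7 * Y :=
    mul_le_mul_of_nonneg_right (pow_le_pow_right₀ hΛ' (by norm_num)) Y0
  have p8 : 0 ≤ Λ' ^ 7 * Y := by positivity
  rw [mul_assoc]
  linarith

end

end Crest.Agent.R335
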