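import Crest.Agent.R335.U11d
import Crest.Agent.R335.U12c

set_option autoImplicit false

open MeasureTheory Set Filter Topology Metric
open scoped Gradient ContDiff RealInnerProductSpace ENNReal

namespace Crest.Agent.R335

noncomputable section

theorem U12_int_dir {a t : E → ℝ} {Ω : Set E} (ha : AEStronglyMeasurable a volume) (hb : LB a)
    (ht : TF Ω t) : Integrable fun x => a x * ‖D t x‖ ^ 2 := by
  have := S12_int_vec ha hb ht.h1.hl.dl2 ht
  simpa only [real_inner_self_eq_norm_sq] using this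

theorem U12_int_sq {a t : E → ℝ} {Ω : Set E} (ha : MemLp a 2 volume) (ht : TF Ω t) :
    Integrable fun x => a x ^ 2 * t x ^ 2 := by
  obtain ⟨M, hM⟩ := ht.bd
  have h1 : Integrable fun x => t x ^ 2 * a x ^ 2 := by
    refine Integrable.bdd_mul (c := M ^ 2) ha.integrable_sq (ht.h1.hl.aesm.pow 2) ?_
    filter_upwards [hM] with x hx
    rw [Real.norm_eq_abs, abs_pow]
    exact pow_le_pow_left₀ (abs_nonneg _) hx 2
  simpa only [mul_comm] using h1

theorem U12_pt {r φ p y a b G B L : ℝ} (hp0 : 0 ≤ p) (hp : r * p ≤ 2 * φ) (hr : 0 ≤ r)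
    (ha : 0 ≤ a) (hb : 0 ≤ b) (hL : 1 ≤ L) :
    r * (3 * G + 100 * L ^ 5 * B) * (p * |y| * a + |y| * b) ≤
      (1 / 4) * (r ^ 2 * b ^ 2) + 30000 * L ^ 10 * (y ^ 2 * (G ^ 2 + B ^ 2)) + 2 * (φ ^ 2 * a ^ 2) := by
  set V := (3 * G + 100 * L ^ 5 * B) * |y| with hV
  have hL5 : 1 ≤ L ^ 5 := one_le_pow₀ hL
  have hL10 : L ^ 10 = (L ^ 5) ^ 2 := by ring
  have h1 : V ^ 2 ≤ 20000 * L ^ 10 * (y ^ 2 * (G ^ 2 + B ^ 2)) := by
    rw [hV, mul_pow, sq_abs, hL10]
    have h2 : (3 * G + 100 * L ^ 5 * B) ^ 2 ≤ 20000 * (L ^ 5) ^ 2 * (G ^ 2 + B ^ 2) := by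
      have h3 : G ^ 2 ≤ (L ^ 5) ^ 2 * G ^ 2 :=
        le_mul_of_one_le_left (sq_nonneg _) (one_le_pow₀ hL5)
      nlinarith [sq_nonneg (3 * G - 100 * L ^ 5 * B), sq_nonneg G]
    nlinarith [mul_le_mul_of_nonneg_right h2 (sq_nonneg y)]
  have h4 : (r * p) ^ 2 ≤ (2 * φ) ^ 2 := pow_le_pow_left₀ (mul_nonneg hr hp0) hp 2
  have h5 : (r * p * a) ^ 2 ≤ 4 * (φ ^ 2 * a ^ 2) := by
    nlinarith [mul_le_mul_of_nonneg_right h4 (sq_nonneg a)]
  have e : r * (3 * G + 100 * L ^ 5 * B) * (p * |y| * a + |y| * b) = V * (r * p * a) + V * (r * b) := by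
    rw [hV]; ring
  rw [e]
  nlinarith [sq_nonneg (V - r * p * a), sq_nonneg (V - r * b / 2)]

set_option maxHeartbeats 2000000 in
theorem U12 : ∃ (N : ℕ) (A : ℝ), ∀ {o : OD} {m : MD} {c Λ Λ' R η0 η1 ε δ : ℝ} {u η Dt Gt : E → ℝ},
    m.OK o c → Ang m.r u δ → A ≤ Λ → Λ ≤ Λ' → 0 ≤ δ → SD o m Λ R η0 η1 ε η Dt Gt →
    η0 * (10 * Λ ^ 2) ≤ 1 → Slab m.r u (fun x => η x * Dt x) Λ' R →
    ∀ y, TF {x | R + 3 < ‖x‖} y → Ev y → ∫ x, (m.r x * Real.cos (u x)) ^ 2 * y x ^ 2 ≤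
      Λ' ^ N * ∫ x, (m.r x * Real.cos (u x)) ^ 2 * ‖D y x‖ ^ 2 := by
  refine ⟨18, 10 ^ 14, ?_⟩
  intro o m c Λ Λ' R η0 η1 ε δ u η Dt Gt hm hA hAΛ hΛ hδ h h0 hS y hy he
  have hΛ1 : 1 ≤ Λ := h.Λ1
  have hΛ' : 1 ≤ Λ' := hΛ1.trans hΛ
  have hs : 0 < 1 / (8 * Λ') := by positivity
  obtain ⟨j, hj⟩ := exists_ZC hs
  obtain ⟨hT, hodd, hr2, hTp, -⟩ := SD.basic hm h h0
  obtain ⟨hp, hjT, hpt, hDj, hen⟩ := pU_basic hA hs hj hT hodd fun x => (hTp x).1
  set p := pU m.f Gt u j with hpd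
  have hw : TF {x | R + 3 < ‖x‖} fun x => p x * y x := hy.mul hp
  have hχ : TF {x | R + 3 < ‖x‖} fun x => p x * y x * y x := hy.mul hw.bl
  have hDχ := (hw.bl.mul hy.bl).2
  have hbr : Bl m.r := ⟨hA.hr.hl, hA.bd.lb⟩
  have hφb : Bl fun x => m.r x * Real.cos (u x) := by
    refine ⟨hA.hφ.hl, fun K hK => ?_⟩
    obtain ⟨M, hM⟩ := hA.bd
    refine ⟨M, ?_⟩
    filter_upwards [hM] with x hx _
    rw [abs_mul]
    exact (mul_le_of_le_one_right (abs_nonneg _) (Real.abs_cos_le_one _)).trans hx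
  have hφ2 : Bl fun x => (m.r x * Real.cos (u x)) ^ 2 := by
    simpa only [sq] using (hφb.mul hφb).1
  have hjb : Bl fun x : E => j (x 2) :=
    bl_c1 ((hj.sm.of_le (by exact_mod_cast le_top)).comp (by fun_prop))
  have hjG : Bl fun x => j (x 2) * Gt x := (hjb.mul h.Gt_r.1).1
  obtain ⟨iS, hS3⟩ := U12c3 hA h hΛ hS hy
  have hc2 := U12c2 hm h h0 hΛ hj hw hy
  have hE := hen y (hy.mono (subset_univ _)) hδ
  set Sb : Set E := {x : E | |x 2| ≤ 1 / (4 * Λ')} with hSb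
  have mS : MeasurableSet Sb := measurableSet_le (by fun_prop) measurable_const
  set F : E → ℝ := fun x => y x ^ 2 * (‖D Gt x‖ ^ 2 + (η x * Dt x) ^ 2) with hF
  have iS' : Integrable (Sb.indicator F) := (integrable_indicator_iff mS).2 iS
  have eS : ∫ x, Sb.indicator F x = ∫ x in Sb, F x := integral_indicator mS
  have F0 : ∀ x, 0 ≤ Sb.indicator F x := fun x =>
    indicator_nonneg (fun x _ => by simp only [hF]; positivity) x
  have iZ := U12_int_dir hr2.hl.aesm hr2.lb hw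
  have iY := U12_int_dir hφ2.hl.aesm hφ2.lb hy
  have i1 := S12_int_vec hr2.hl.aesm hr2.lb hjT.hl.dl2 hχ
  have i2 := S12_int_vec hjG.hl.aesm hjG.lb hm.sf.h1.hl.dl2 hχ
  obtain ⟨K, -, hK, hK0, -⟩ := S12_supp hy
  have h2s : 2 * (1 / (8 * Λ')) = 1 / (4 * Λ') := by field_simp; norm_num
  have hsl : ∀ x ∈ K, x ∈ Sb → x ∈ Sl R := fun x hx hb => by
    have h1 : R + 3 < ‖x‖ := hK hx
    have h2 : |x 2| ≤ 1 / (4 * Λ') := hb
    have h3 : 1 / (4 * Λ') ≤ 1 / 4 := one_div_le_one_div_of_le (by norm_num) (by linarith)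
    refine ⟨by linarith, ?_⟩
    have h4 := norm_sq_hor x
    have h5 : ‖x‖ ≤ ‖hor x‖ + |x 2| := by
      refine abs_le_of_sq_le_sq' ?_ (by positivity) |>.2
      rw [h4, add_sq, sq_abs]
      nlinarith [mul_nonneg (norm_nonneg (hor x)) (abs_nonneg (x 2))]
    linarith
  have key : ∀ᵐ x, -(m.r x ^ 2 * ⟪D (fun x => j (x 2) * TG m.f Gt x) x,
        D (fun x => p x * y x * y x) x⟫) ≤
      j (x 2) * Gt x * ⟪D m.f x, D (fun x => p x * y x * y x) x⟫ +
        ((1 / 4) * (m.r x ^ 2 * ‖D (fun x => p x * y x) x‖ ^ 2) +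
          30000 * Λ' ^ 10 * Sb.indicator F x +
          2 * ((m.r x * Real.cos (u x)) ^ 2 * ‖D y x‖ ^ 2)) := by
    filter_upwards [hDχ, hDj, U12c1 hm h h0 hΛ hj, hK0, hw.h1.hl.D_level 0] with x e1 e2 e3 e4 e5
    have R0 : 0 ≤ (1 / 4) * (m.r x ^ 2 * ‖D (fun x => p x * y x) x‖ ^ 2) +
          30000 * Λ' ^ 10 * Sb.indicator F x +
          2 * ((m.r x * Real.cos (u x)) ^ 2 * ‖D y x‖ ^ 2) := by
      have := F0 x
      positivity
    by_cases a1 : x ∈ K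
    swap
    · rw [e1, e4 a1]; simpa using R0
    by_cases a2 : x ∈ Hp
    swap
    · have z : p x * y x = 0 := by rw [(hpt x).2.2.1 a2, zero_mul]
      rw [e1, e5 z, z]; simpa [e5 z] using R0
    by_cases a3 : x ∈ Sb
    swap
    · have b1 : 2 * (1 / (8 * Λ')) < |x 2| := by rw [h2s]; exact not_le.1 a3
      have b2 : deriv j (x 2) = 0 := by
        have : j =ᶠ[𝓝 (x 2)] fun _ => 0 := by
          filter_upwards [(isOpen_lt continuous_const continuous_abs).mem_nhds b1] with t ht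
          exact hj.zero t (le_of_lt ht)
        rw [this.deriv_eq, deriv_const]
      rw [e2, b2, hj.zero _ b1.le]; simpa using R0
    obtain ⟨-, b3⟩ := e3 a2 (hsl x a1 a3)
    rw [← e2] at b3
    have b4 : ‖D (fun x => p x * y x * y x) x‖ ≤
        p x * |y x| * ‖D y x‖ + |y x| * ‖D (fun x => p x * y x) x‖ := by
      rw [e1]
      refine (norm_add_le _ _).trans (le_of_eq ?_)
      rw [norm_smul, norm_smul, Real.norm_eq_abs, Real.norm_eq_abs, abs_mul, abs_of_nonneg (hpt x).1]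
    have b5 := (abs_real_inner_le_norm (m.r x ^ 2 • D (fun x => j (x 2) * TG m.f Gt x) x +
      (j (x 2) * Gt x) • D m.f x) (D (fun x => p x * y x * y x) x)).trans
      (mul_le_mul b3 b4 (norm_nonneg _) ((norm_nonneg _).trans b3))
    rw [inner_add_left, real_inner_smul_left, real_inner_smul_left] at b5
    have b6 := U12_pt (G := ‖D Gt x‖) (B := η x * Dt x) (y := y x) (φ := m.r x * Real.cos (u x))
      (hpt x).1 (by nlinarith [mul_le_mul_of_nonneg_left (hpt x).2.1 (hA.nn x)]) (hA.nn x)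
      (norm_nonneg (D y x)) (norm_nonneg (D (fun x => p x * y x) x)) hΛ'
    rw [indicator_of_mem a3]
    simp only [hF]
    linarith [neg_abs_le (m.r x ^ 2 * ⟪D (fun x => j (x 2) * TG m.f Gt x) x,
      D (fun x => p x * y x * y x) x⟫ + j (x 2) * Gt x * ⟪D m.f x, D (fun x => p x * y x * y x) x⟫)]
  have j1 : Integrable fun x => (1 / 4) * (m.r x ^ 2 * ‖D (fun x => p x * y x) x‖ ^ 2) +
      30000 * Λ' ^ 10 * Sb.indicator F x := (iZ.const_mul (1 / 4)).add (iS'.const_mul _)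
  have j2 : Integrable fun x => (1 / 4) * (m.r x ^ 2 * ‖D (fun x => p x * y x) x‖ ^ 2) +
      30000 * Λ' ^ 10 * Sb.indicator F x +
      2 * ((m.r x * Real.cos (u x)) ^ 2 * ‖D y x‖ ^ 2) := j1.add (iY.const_mul 2)
  have k1 := integral_mono_ae i1.neg (i2.add j2) key
  simp only [Pi.neg_apply, Pi.add_apply] at k1
  rw [integral_neg, integral_add i2 j2, integral_add j1 (iY.const_mul 2),
    integral_add (iZ.const_mul (1 / 4)) (iS'.const_mul (30000 * Λ' ^ 10)), integral_const_mul,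
    integral_const_mul, integral_const_mul, eS] at k1
  have hH := ho_hardy hbr hA.nn hm.ho (Ω := {x | R + 3 < ‖x‖})
    (Eventually.of_forall fun x hx => (h.pot x (by have : R + 3 < ‖x‖ := hx; linarith)).1) hw
  have iX := U12_int_sq hA.hφ.l2 hy
  have iW := U12_int_sq hA.hr.l2 hw
  have hev : Ev fun x => (m.r x * Real.cos (u x)) ^ 2 * y x ^ 2 := by
    filter_upwards [hA.evr, hA.od, he] with x a b c
    simp only [a, b, c, Real.cos_neg]
  have mH : MeasurableSet Hp := measurableSet_le measurable_const (by fun_prop)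
  have k2 : ∫ x in Hp, (m.r x * Real.cos (u x)) ^ 2 * y x ^ 2 ≤
      2 * (∫ x, m.r x ^ 2 * (p x * y x) ^ 2) + 18 * Λ' ^ 2 * ∫ x in Sb, F x := by
    rw [← integral_indicator mH, ← eS, ← integral_const_mul, ← integral_const_mul,
      ← integral_add (iW.const_mul 2) (iS'.const_mul _)]
    refine integral_mono_ae (iX.indicator mH) ((iW.const_mul 2).add (iS'.const_mul _)) ?_
    filter_upwards [U12c1 hm h h0 hΛ hj, hK0] with x e3 e4
    have R0 : 0 ≤ 18 * Λ' ^ 2 * Sb.indicator F x := by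
      have := F0 x
      positivity
    have R1 : 0 ≤ 2 * (m.r x ^ 2 * (p x * y x) ^ 2) := by positivity
    by_cases a2 : x ∈ Hp
    swap
    · rw [indicator_of_notMem a2]; linarith
    rw [indicator_of_mem a2]
    by_cases a1 : x ∈ K
    swap
    · rw [e4 a1] at R1 ⊢; nlinarith
    have c0 : 0 ≤ Real.cos (u x) := by linarith [(hpt x).1, (hpt x).2.1]
    have c1 := (hpt x).2.2.2 a2
    have rn := hA.nn x
    by_cases a3 : x ∈ Sb
    swap
    · have b1 : 2 * (1 / (8 * Λ')) ≤ |x 2| := by rw [h2s]; exact (not_le.1 a3).le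
      rw [hj.zero _ b1, zero_mul, add_zero] at c1
      have c2 : (m.r x * Real.cos (u x)) ^ 2 ≤ (m.r x * p x) ^ 2 :=
        pow_le_pow_left₀ (mul_nonneg rn c0) (mul_le_mul_of_nonneg_left c1 rn) 2
      nlinarith [mul_le_mul_of_nonneg_right c2 (sq_nonneg (y x))]
    obtain ⟨b3, -⟩ := e3 a2 (hsl x a1 a3)
    have b0 : 0 ≤ η x * Dt x := (mul_pos (h.pos x).1 (h.pos x).2).le
    have c2 : m.r x * Real.cos (u x) ≤ m.r x * p x + 3 * Λ' * (η x * Dt x) := by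
      have d1 : j (x 2) * TG m.f Gt x ≤ TG m.f Gt x :=
        mul_le_of_le_one_left (hTp x).1.le (hj.bd _).2
      have d2 : 3 * Λ * (η x * Dt x) ≤ 3 * Λ' * (η x * Dt x) := by gcongr
      nlinarith [mul_le_mul_of_nonneg_left (c1.trans (add_le_add_right d1 _)) rn]
    have c3 : (m.r x * Real.cos (u x)) ^ 2 ≤
        2 * (m.r x * p x) ^ 2 + 18 * Λ' ^ 2 * (η x * Dt x) ^ 2 := by
      nlinarith [pow_le_pow_left₀ (mul_nonneg rn c0) c2 2,
        sq_nonneg (m.r x * p x - 3 * Λ' * (η x * Dt x))]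
    rw [indicator_of_mem a3]
    simp only [hF]
    nlinarith [mul_le_mul_of_nonneg_right c3 (sq_nonneg (y x)),
      mul_nonneg (mul_nonneg (sq_nonneg Λ') (sq_nonneg (y x))) (sq_nonneg ‖D Gt x‖)]
  rw [hev.integral iX]
  set Y := ∫ x, (m.r x * Real.cos (u x)) ^ 2 * ‖D y x‖ ^ 2 with hY
  have Y0 : 0 ≤ Y := integral_nonneg fun x => by positivity
  set S := ∫ x in Sb, F x with hS'
  have S0 : 0 ≤ S := by rw [← eS]; exact integral_nonneg F0
  have p1 : Λ' ^ 10 * S ≤ 10 ^ 4 * (Λ' ^ 17 * Y) := by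
    have := mul_le_mul_of_nonneg_left hS3 (by positivity : 0 ≤ Λ' ^ 10)
    calc _ ≤ _ := this
      _ = _ := by ring
  have p2 : Λ' ^ 2 * S ≤ Λ' ^ 10 * S :=
    mul_le_mul_of_nonneg_right (pow_le_pow_right₀ hΛ' (by norm_num)) S0
  have p3 : Y ≤ Λ' ^ 17 * Y := le_mul_of_one_le_left Y0 (one_le_pow₀ hΛ')
  have p4 : 10 ^ 14 * (Λ' ^ 17 * Y) ≤ Λ' ^ 18 * Y := by
    have := mul_le_mul_of_nonneg_right (hAΛ.trans hΛ) (by positivity : 0 ≤ Λ' ^ 17 * Y)
    calc _ ≤ _ := this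
      _ = _ := by ring
  have p5 : 0 ≤ Λ' ^ 17 * Y := by positivity
  nlinarith

end

end Crest.Agent.R335
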