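import Crest.Agent.R335.U12a

set_option autoImplicit false

open MeasureTheory Set Filter Topology Metric
open scoped Gradient ContDiff RealInnerProductSpace ENNReal

namespace Crest.Agent.R335

noncomputable section

/-- even cutoff in the vertical variable: `1` on `|t| ≤ s`, `0` on `|t| ≥ 2 s` -/
structure ZC (s : ℝ) (j : ℝ → ℝ) : Prop where
  sm : ContDiff ℝ ∞ j
  bd : ∀ t, 0 ≤ j t ∧ j t ≤ 1
  one : ∀ t, |t| ≤ s → j t = 1
  zero : ∀ t, 2 * s ≤ |t| → j t = 0
  der : ∀ t, |deriv j t| ≤ 4 / s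
  ev : ∀ t, j (-t) = j t

theorem exists_ZC {s : ℝ} (hs : 0 < s) : ∃ j, ZC s j := by
  obtain ⟨j, h1, -, h2, h3, h4, h5, h6⟩ := exists_cutoff (V := ℝ) 0 hs.le hs
  refine ⟨j, h1, h2, fun t ht => h3 t (by simpa using ht), fun t ht => h4 t ?_, fun t => ?_,
    fun t => h6 (LinearIsometryEquiv.neg ℝ) (by simp) t⟩
  · rw [sub_zero, Real.norm_eq_abs]
    linarith
  · have := h5 t
    rwa [gradient_eq_deriv', Real.norm_eq_abs] at this

/-- excess of the complementary angle over its model -/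
def pU (f Gt u : E → ℝ) (j : ℝ → ℝ) (x : E) : ℝ :=
  max (Hp.indicator (fun x => Real.pi / 2 - u x - j (x 2) * TG f Gt x) x) 0

theorem U12b_grad {j : ℝ → ℝ} (hj : ContDiff ℝ 1 j) (x : E) :
    ∇ (fun x : E => j (x 2)) x = deriv j (x 2) • ez := by
  have h1 : HasDerivAt j (deriv j (x 2)) (x 2) := (hj.differentiable one_ne_zero _).hasDerivAt
  have h2 := h1.comp_hasFDerivAt x (S07.hasGrad_two x).hasFDerivAt
  have h3 : HasGradientAt (fun x : E => j (x 2)) (deriv j (x 2) • ez) x := by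
    rw [hasGradientAt_iff_hasFDerivAt, map_smul]
    exact h2
  exact h3.gradient

theorem U12b_k {s : ℝ} {j : ℝ → ℝ} (hs : 0 < s) (hj : ZC s j) :
    ContDiff ℝ 1 fun t : ℝ => if 0 ≤ t then 1 - j t else 0 := by
  rw [contDiff_iff_contDiffAt]
  intro t
  have h1 : ContDiff ℝ 1 j := hj.sm.of_le (by exact_mod_cast le_top)
  by_cases ht : 0 < t
  · refine (contDiff_const.sub h1 (f := fun _ => (1 : ℝ))).contDiffAt.congr_of_eventuallyEq ?_
    filter_upwards [Ioi_mem_nhds ht] with t' ht'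
    rw [if_pos (le_of_lt ht')]
  · refine (contDiffAt_const (c := (0 : ℝ))).congr_of_eventuallyEq ?_
    filter_upwards [Iio_mem_nhds (lt_of_le_of_lt (not_lt.1 ht) hs)] with t' ht'
    split_ifs with h
    · rw [hj.one t' (by rw [abs_of_nonneg h]; exact le_of_lt ht'), sub_self]
    · rfl

theorem U12b_bl {r u f Gt : E → ℝ} {δ s : ℝ} {j : ℝ → ℝ} (hA : Ang r u δ) (hs : 0 < s) (hj : ZC s j)
    (hT : Bl (TG f Gt)) (ho : Od fun x => Real.arctan (f x / Gt x)) :
    Bl u ∧ Bl (fun x => j (x 2) * TG f Gt x) ∧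
      Bl (Hp.indicator fun x => Real.pi / 2 - u x - j (x 2) * TG f Gt x) := by
  have hu : Bl u := ⟨hA.hu, Bd.lb ⟨_, Eventually.of_forall hA.bu⟩⟩
  have h1 : ContDiff ℝ 1 j := hj.sm.of_le (by exact_mod_cast le_top)
  have hjz : Bl fun x : E => j (x 2) := bl_c1 (h1.comp S07.contDiff_two)
  have hc : Bl fun _ : E => Real.pi / 2 := bl_c1 contDiff_const
  have hθ : Bl fun x => Real.arctan (f x / Gt x) :=
    (hc.sub hT).congr (Eventually.of_forall fun x => by simp only [TG]; ring)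
  have hk : Bl fun x : E => if 0 ≤ x 2 then 1 - j (x 2) else 0 :=
    bl_c1 ((U12b_k hs hj).comp S07.contDiff_two)
  have hodd : Od fun x => j (x 2) * (Real.arctan (f x / Gt x) - u x) := by
    filter_upwards [ho, hA.od] with x h2 h3
    rw [h2, h3, R_two, hj.ev]
    ring
  refine ⟨hu, (hjz.mul hT).1, ?_⟩
  refine (((hjz.mul (hθ.sub hu)).1.half hodd).add (hk.mul (hc.sub hu)).1).congr
    (Eventually.of_forall fun x => ?_)
  by_cases hx : x ∈ Hp
  · have hx' : 0 ≤ x 2 := hx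
    rw [indicator_of_mem hx, indicator_of_mem hx, if_pos hx']
    simp only [TG]
    ring
  · have hx' : ¬ 0 ≤ x 2 := hx
    rw [indicator_of_notMem hx, indicator_of_notMem hx, if_neg hx']
    ring

theorem U12b_cos {t : ℝ} (h0 : 0 ≤ t) (h1 : t ≤ Real.pi / 2) :
    Real.pi / 2 - t ≤ 2 * Real.cos t ∧ Real.cos t ≤ Real.pi / 2 - t := by
  rw [← Real.sin_pi_div_two_sub]
  have h2 : 0 ≤ Real.pi / 2 - t := by linarith
  refine ⟨?_, Real.sin_le h2⟩
  have h3 := Real.mul_le_sin h2 (by linarith)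
  have h4 : (1 / 2 : ℝ) ≤ 2 / Real.pi := by
    rw [le_div_iff₀ Real.pi_pos]
    linarith [Real.pi_le_four]
  nlinarith

theorem U12b_alg (p y : ℝ) (P Y : E) :
    ‖p • Y + y • P‖ ^ 2 = ⟪P, (p * y) • Y + y • (p • Y + y • P)⟫ + p ^ 2 * ‖Y‖ ^ 2 := by
  rw [← real_inner_self_eq_norm_sq, ← real_inner_self_eq_norm_sq]
  simp only [inner_add_left, inner_add_right, real_inner_smul_left, real_inner_smul_right,
    real_inner_comm P Y]
  ring

theorem pU_basic {r u f Gt : E → ℝ} {δ s : ℝ} {j : ℝ → ℝ} (hA : Ang r u δ) (hs : 0 < s) (hj : ZC s j)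
    (hT : Bl (TG f Gt)) (ho : Od fun x => Real.arctan (f x / Gt x)) (h0 : ∀ x, 0 < TG f Gt x) :
    Bl (pU f Gt u j) ∧ Bl (fun x => j (x 2) * TG f Gt x) ∧
    (∀ x, 0 ≤ pU f Gt u j x ∧ pU f Gt u j x ≤ 2 * Real.cos (u x) ∧ (x ∉ Hp → pU f Gt u j x = 0) ∧
      (x ∈ Hp → Real.cos (u x) ≤ pU f Gt u j x + j (x 2) * TG f Gt x)) ∧
    (∀ᵐ x, D (fun x => j (x 2) * TG f Gt x) x =
      j (x 2) • D (TG f Gt) x + (TG f Gt x * deriv j (x 2)) • ez) ∧
    ∀ y, TF univ y → 0 ≤ δ → ∫ x, r x ^ 2 * ‖D (fun x => pU f Gt u j x * y x) x‖ ^ 2 ≤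
      -(∫ x, r x ^ 2 * ⟪D (fun x => j (x 2) * TG f Gt x) x, D (fun x => pU f Gt u j x * y x * y x) x⟫) +
        4 * ∫ x, (r x * Real.cos (u x)) ^ 2 * ‖D y x‖ ^ 2 := by
  obtain ⟨hu, hjT, hF⟩ := U12b_bl hA hs hj hT ho
  have h1 : ContDiff ℝ 1 j := hj.sm.of_le (by exact_mod_cast le_top)
  have hp : Bl (pU f Gt u j) := hF.pos
  have hpt : ∀ x, 0 ≤ pU f Gt u j x ∧ pU f Gt u j x ≤ 2 * Real.cos (u x) ∧
      (x ∉ Hp → pU f Gt u j x = 0) ∧
      (x ∈ Hp → Real.cos (u x) ≤ pU f Gt u j x + j (x 2) * TG f Gt x) := by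
    intro x
    have hb := abs_le.1 (hA.bu x)
    have hc : 0 ≤ Real.cos (u x) := Real.cos_nonneg_of_neg_pi_div_two_le_of_le hb.1 hb.2
    have hj0 : 0 ≤ j (x 2) * TG f Gt x := mul_nonneg (hj.bd _).1 (h0 x).le
    refine ⟨le_max_right _ _, ?_, fun hx => ?_, fun hx => ?_⟩
    · refine max_le ?_ (by linarith)
      by_cases hx : x ∈ Hp
      · rw [indicator_of_mem hx]
        linarith [(U12b_cos (hA.u_nn x hx) hb.2).1]
      · rw [indicator_of_notMem hx]
        linarith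
    · unfold pU
      rw [indicator_of_notMem hx, max_self]
    · have := le_max_left (Hp.indicator (fun x => Real.pi / 2 - u x - j (x 2) * TG f Gt x) x) 0
      rw [indicator_of_mem hx] at this
      unfold pU
      rw [indicator_of_mem hx]
      linarith [(U12b_cos (hA.u_nn x hx) hb.2).2]
  refine ⟨hp, hjT, hpt, ?_, fun y hy hδ => ?_⟩
  · filter_upwards [D_mul_c1 hT.hl (h1.comp S07.contDiff_two)] with x hx
    have e : ∇ (j ∘ fun x : E => x 2) x = deriv j (x 2) • ez := U12b_grad h1 x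
    rw [e, smul_smul] at hx
    exact hx
  have hc : Bl fun _ : E => Real.pi / 2 := bl_c1 contDiff_const
  have hq : Hl fun x => Real.pi / 2 - u x - j (x 2) * TG f Gt x := (hc.hl.sub hu.hl).sub hjT.hl
  have ha : TF univ fun x => pU f Gt u j x * y x := hy.mul hp
  have hχ : TF univ fun x => pU f Gt u j x * y x * y x := hy.mul ha.bl
  have hr : Bl r := ⟨hA.hr.hl, hA.bd.lb⟩
  have hr2 : Bl fun x => r x ^ 2 := (hr.mul hr).1.congr (Eventually.of_forall fun x => sq _)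
  have hφ : Bl fun x => r x * Real.cos (u x) := (U3a.key hr hA.hu).1
  have hφ2 : Bl fun x => (r x * Real.cos (u x)) ^ 2 :=
    (hφ.mul hφ).1.congr (Eventually.of_forall fun x => sq _)
  have i1 := S12_int_lhs hr2.hl.aesm hr2.lb hu.hl hχ
  have i2 := S12_int_vec hr2.hl.aesm hr2.lb hjT.hl.dl2 hχ
  have i3 : Integrable fun x => (r x * Real.cos (u x)) ^ 2 * ‖D y x‖ ^ 2 := by
    have := S12_int_vec hφ2.hl.aesm hφ2.lb hy.bl.hl.dl2 hy
    simpa only [real_inner_self_eq_norm_sq] using this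
  have hel : 0 ≤ ∫ x, (1 / 2) * r x ^ 2 *
      ⟪D u x, D (fun x => pU f Gt u j x * y x * y x) x⟫ := by
    rw [hA.el _ hχ]
    refine integral_nonneg fun x => ?_
    by_cases hx : x ∈ Hp
    · have hb := abs_le.1 (hA.bu x)
      have h2 : 0 ≤ Real.cos (u x) := Real.cos_nonneg_of_neg_pi_div_two_le_of_le hb.1 hb.2
      have h3 : 0 ≤ Real.sin (u x) :=
        Real.sin_nonneg_of_nonneg_of_le_pi (hA.u_nn x hx) (by linarith [Real.pi_pos])
      have h4 := (hpt x).1
      have h5 : 0 ≤ pU f Gt u j x * y x * y x := by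
        rw [mul_assoc]
        exact mul_nonneg h4 (mul_self_nonneg _)
      exact mul_nonneg (mul_nonneg (mul_nonneg (mul_nonneg hδ (sq_nonneg _)) h3) h2) h5
    · simp only [(hpt x).2.2.1 hx, zero_mul, mul_zero, Pi.zero_apply, le_refl]
  have key : ∫ x, r x ^ 2 * ‖D (fun x => pU f Gt u j x * y x) x‖ ^ 2 ≤
      ∫ x, ((-2) * ((1 / 2) * r x ^ 2 * ⟪D u x, D (fun x => pU f Gt u j x * y x * y x) x⟫) +
        (-1) * (r x ^ 2 * ⟪D (fun x => j (x 2) * TG f Gt x) x,
          D (fun x => pU f Gt u j x * y x * y x) x⟫) +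
        4 * ((r x * Real.cos (u x)) ^ 2 * ‖D y x‖ ^ 2)) := by
    refine integral_mono_of_nonneg (Eventually.of_forall fun x => by positivity)
      (((i1.const_mul _).add (i2.const_mul _)).add (i3.const_mul _)) ?_
    filter_upwards [(hp.mul hy.bl).2, (ha.bl.mul hy.bl).2, hF.hl.pos.2, D_eq_of_eq hF.hl hq,
      D_sub (hc.hl.sub hu.hl) hjT.hl, D_sub hc.hl hu.hl, D_const (V := E) (Real.pi / 2)]
      with x e1 e2 e3 e4 e5 e6 e7
    have e3' : D (pU f Gt u j) x =
        if 0 < Hp.indicator (fun x => Real.pi / 2 - u x - j (x 2) * TG f Gt x) x then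
          D (Hp.indicator fun x => Real.pi / 2 - u x - j (x 2) * TG f Gt x) x else 0 := e3
    have e8 : ⟪D (pU f Gt u j) x, D (fun x => pU f Gt u j x * y x * y x) x⟫ =
        -⟪D u x, D (fun x => pU f Gt u j x * y x * y x) x⟫ -
          ⟪D (fun x => j (x 2) * TG f Gt x) x, D (fun x => pU f Gt u j x * y x * y x) x⟫ := by
      split_ifs at e3' with h
      · have hx : x ∈ Hp := by
          by_contra hx
          rw [indicator_of_notMem hx] at h
          exact lt_irrefl _ h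
        rw [e3', e4 (indicator_of_mem hx _), e5, e6, e7, zero_sub, inner_sub_left, inner_neg_left]
      · have hp0 : pU f Gt u j x = 0 := max_eq_right (not_lt.1 h)
        rw [e2, e1, e3', hp0]
        simp
    have e9 := U12b_alg (pU f Gt u j x) (y x) (D (pU f Gt u j) x) (D y x)
    rw [← e1, ← e2, e8] at e9
    rw [e9]
    have h2 : pU f Gt u j x ^ 2 ≤ (2 * Real.cos (u x)) ^ 2 :=
      pow_le_pow_left₀ (hpt x).1 (hpt x).2.1 2
    have h3 := mul_le_mul_of_nonneg_right h2 (mul_nonneg (sq_nonneg (r x)) (sq_nonneg ‖D y x‖))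
    nlinarith
  rw [S11_int3 i1 i2 i3] at key
  linarith

end

end Crest.Agent.R335
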