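import Crest.Agent.R335.O1b
import Crest.Agent.R335.Defs6

set_option autoImplicit false

open MeasureTheory Set Filter Topology Metric
open scoped Gradient ContDiff RealInnerProductSpace ENNReal

namespace Crest.Agent.R335

noncomputable section

/-! auxiliary lemmas for `U4`: the excess energy -/

theorem u4_shift {d e : ℝ} {f φ : E → ℝ} (h : Sol f fun x => (e - vx d x) * f x) (hφ : H1 φ)
    (a : ℝ) : Q (vx d) (fun x => φ x - a * f x) - e * nsq (fun x => φ x - a * f x) =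
      Q (vx d) φ - e * nsq φ := by
  have e1 : (fun x => φ x - a * f x) = fun x => (-a) * f x + 1 * φ x := by
    funext x; ring
  rw [e1, S11_Q_lc h.h1 hφ (O_vx_op d h.h1).1 (O_vx_op d hφ).1, S11_nsq_lc h.h1.l2 hφ.l2,
    h.O_B hφ, h.O_Q]
  ring

theorem u4_Q_le (d : ℝ) (h : E → ℝ) : Q (vx d) h ≤ (1 / 2) * dir h := by
  unfold Q
  have : ∫ x, vx d x * h x ^ 2 ≤ 0 :=
    integral_nonpos fun x => mul_nonpos_of_nonpos_of_nonneg (O_vx_nonpos d x) (sq_nonneg _)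
  linarith

theorem u4_coer (d : ℝ) {h : E → ℝ} (hh : H1 h) : dir h ≤ 4 * Q (vx d) h + 65 * nsq h := by
  have := Q_lower (by norm_num : (0 : ℝ) ≤ 16) (O_vx_op' d) (by norm_num : (0 : ℝ) < 1 / 4) hh
  have h2 := (abs_le.1 this).1
  unfold Q
  norm_num at h2 ⊢
  linarith

theorem u4_nsq_sub {f φ : E → ℝ} (hf : MemLp f 2 volume) (hφ : MemLp φ 2 volume) (a : ℝ) :
    nsq (fun x => φ x - a * f x) = nsq φ - 2 * a * ip f φ + a ^ 2 * nsq f := by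
  have e1 : (fun x => φ x - a * f x) = fun x => (-a) * f x + 1 * φ x := by
    funext x; ring
  rw [e1, S11_nsq_lc hf hφ]
  ring

theorem u4_ip_odd {u ψ : E → ℝ} (hu : ∀ x, u (R x) = -u x) (hψ : Od ψ) (u0 : ∀ x ∈ Hp, 0 ≤ u x)
    (ψ0 : ∀ x ∈ Hp, 0 ≤ ψ x) : 0 ≤ ip u ψ := by
  refine integral_nonneg_of_ae ?_
  filter_upwards [hψ] with x hx
  by_cases h : x ∈ Hp
  · exact mul_nonneg (u0 x h) (ψ0 x h)
  · have h' : R x ∈ Hp := by
      simp only [Hp, mem_ofPred_eq, not_le] at h ⊢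
      rw [R_two]; linarith
    have := mul_nonneg (u0 _ h') (ψ0 _ h')
    rw [hu, hx] at this
    simpa using this

theorem u4_excess (o : OD) (ho : o.OK) : ∃ C : ℝ, 0 < C ∧ ∀ φ ψ, H1 φ → H1 ψ → Ev φ → Od ψ →
    0 ≤ Q o.v φ - o.eg * nsq φ ∧ 0 ≤ Q o.v ψ - o.eu * nsq ψ ∧
    Q o.v φ - o.eg * nsq φ ≤ C * (nsq (fun x => φ x - √2 * o.g0 x) + dir fun x => φ x - √2 * o.g0 x) ∧
    Q o.v ψ - o.eu * nsq ψ ≤ C * (nsq (fun x => ψ x - o.u0 x) + dir fun x => ψ x - o.u0 x) ∧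
    dir (fun x => φ x - √2 * o.g0 x) ≤
      C * (Q o.v φ - o.eg * nsq φ + nsq fun x => φ x - √2 * o.g0 x) ∧
    ((∀ x, 0 ≤ φ x) → nsq φ = 2 → nsq (fun x => φ x - √2 * o.g0 x) ≤ C * (Q o.v φ - o.eg * nsq φ)) ∧
    ((∀ x ∈ Hp, 0 ≤ ψ x) → nsq ψ = 1 →
      nsq (fun x => ψ x - o.u0 x) ≤ C * (Q o.v ψ - o.eu * nsq ψ)) := by
  obtain ⟨γ0, γ1⟩ := ho.γ0
  obtain ⟨en1, en2, en3⟩ := ho.en
  have hγ : 0 < 4 / o.γ := by positivity
  refine ⟨65 + 4 / o.γ, by positivity, fun φ ψ hφ hψ eφ oψ => ?_⟩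
  have eg0 : Ev o.g0 := Eventually.of_forall ho.evg
  have ou0 : Od o.u0 := Eventually.of_forall ho.odu
  have sg : Sol o.g0 fun x => (o.eg - vx o.d x) * o.g0 x := ho.sg
  have su : Sol o.u0 fun x => (o.eu - vx o.d x) * o.u0 x := ho.su
  have i1 : ip o.u0 φ = 0 := by rw [ip_comm]; exact O_ip_ev_od eφ ou0
  have i2 : ip o.g0 ψ = 0 := O_ip_ev_od eg0 oψ
  have g1 := ho.gap φ hφ
  have g2 := ho.gap ψ hψ
  rw [i1] at g1
  rw [i2] at g2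
  have c1 := S11_cs sg.h1.l2 hφ.l2
  have c2 := S11_cs su.h1.l2 hψ.l2
  rw [ho.ng, one_mul] at c1
  rw [ho.nu, one_mul] at c2
  have e3 : o.e3 = -(1 / 2) + o.γ := rfl
  have l1 : o.γ / 2 * (nsq φ - ip o.g0 φ ^ 2) ≤ Q o.v φ - o.eg * nsq φ := by
    have : o.γ / 2 * (nsq φ - ip o.g0 φ ^ 2) ≤ (o.e3 - o.eg) * (nsq φ - ip o.g0 φ ^ 2) :=
      mul_le_mul_of_nonneg_right (by linarith) (by linarith)
    nlinarith
  have l2 : o.γ / 2 * (nsq ψ - ip o.u0 ψ ^ 2) ≤ Q o.v ψ - o.eu * nsq ψ := by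
    have : o.γ / 2 * (nsq ψ - ip o.u0 ψ ^ 2) ≤ (o.e3 - o.eu) * (nsq ψ - ip o.u0 ψ ^ 2) :=
      mul_le_mul_of_nonneg_right (by linarith) (by linarith)
    nlinarith
  have p1 : 0 ≤ Q o.v φ - o.eg * nsq φ :=
    le_trans (mul_nonneg (by positivity) (by linarith)) l1
  have p2 : 0 ≤ Q o.v ψ - o.eu * nsq ψ :=
    le_trans (mul_nonneg (by positivity) (by linarith)) l2
  have s1 := u4_shift sg hφ (√2)
  have s2 := u4_shift su hψ 1
  simp only [one_mul] at s2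
  have hv : o.v = vx o.d := rfl
  rw [← hv] at s1 s2
  have q1 := u4_Q_le o.d fun x => φ x - √2 * o.g0 x
  have q2 := u4_Q_le o.d fun x => ψ x - o.u0 x
  rw [← hv] at q1 q2
  have n1 := S11_nsq_nonneg fun x => φ x - √2 * o.g0 x
  have n2 := S11_nsq_nonneg fun x => ψ x - o.u0 x
  have d1 := S11_dir_nonneg fun x => φ x - √2 * o.g0 x
  have d2 := S11_dir_nonneg fun x => ψ x - o.u0 x
  have k1 := u4_coer o.d (hφ.sub (sg.h1.smul (√2)))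
  rw [← hv] at k1
  refine ⟨p1, p2, ?_, ?_, ?_, fun h0 h2 => ?_, fun h0 h2 => ?_⟩
  · nlinarith [mul_nonneg hγ.le n1, mul_nonneg hγ.le d1]
  · nlinarith [mul_nonneg hγ.le n2, mul_nonneg hγ.le d2]
  · nlinarith [mul_nonneg hγ.le n1, mul_nonneg hγ.le p1]
  · have a0 : 0 ≤ ip o.g0 φ := integral_nonneg fun x => mul_nonneg (ho.g_nn x) (h0 x)
    have hn := u4_nsq_sub sg.h1.l2 hφ.l2 (√2)
    have r2 : √2 ^ 2 = (2 : ℝ) := Real.sq_sqrt (by norm_num)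
    have r0 : (0 : ℝ) ≤ √2 := Real.sqrt_nonneg _
    rw [ho.ng, h2, r2] at hn
    rw [h2] at l1 c1
    have a1 : ip o.g0 φ ≤ √2 := by
      apply Real.le_sqrt_of_sq_le c1
    have b1 : nsq (fun x => φ x - √2 * o.g0 x) ≤ 2 * (2 - ip o.g0 φ ^ 2) := by
      rw [hn]; nlinarith [mul_nonneg a0 (sub_nonneg.2 a1)]
    have b2 : 2 * (2 - ip o.g0 φ ^ 2) ≤ 4 / o.γ * (Q o.v φ - o.eg * 2) := by
      have := mul_le_mul_of_nonneg_left l1 hγ.le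
      have e : 4 / o.γ * (o.γ / 2 * (2 - ip o.g0 φ ^ 2)) = 2 * (2 - ip o.g0 φ ^ 2) := by
        field_simp; ring
      linarith
    rw [h2] at p1 ⊢
    nlinarith
  · have a0 : 0 ≤ ip o.u0 ψ := u4_ip_odd ho.odu oψ ho.u_nn h0
    have hn := u4_nsq_sub su.h1.l2 hψ.l2 1
    simp only [one_mul] at hn
    rw [ho.nu, h2] at hn
    rw [h2] at l2 c2
    have a1 : ip o.u0 ψ ≤ 1 := by nlinarith
    have b1 : nsq (fun x => ψ x - o.u0 x) ≤ 2 * (1 - ip o.u0 ψ ^ 2) := by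
      rw [hn]; nlinarith [mul_nonneg a0 (sub_nonneg.2 a1)]
    have b2 : 2 * (1 - ip o.u0 ψ ^ 2) ≤ 4 / o.γ * (Q o.v ψ - o.eu * 1) := by
      have := mul_le_mul_of_nonneg_left l2 hγ.le
      have e : 4 / o.γ * (o.γ / 2 * (1 - ip o.u0 ψ ^ 2)) = 2 * (1 - ip o.u0 ψ ^ 2) := by
        field_simp; ring
      linarith
    rw [h2] at p2 ⊢
    nlinarith

end

end Crest.Agent.R335
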