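import Crest.Agent.R335.U4Aux1

set_option autoImplicit false

open MeasureTheory Set Filter Topology Metric
open scoped Gradient ContDiff RealInnerProductSpace ENNReal

namespace Crest.Agent.R335

noncomputable section

/-! auxiliary lemmas for `U4`: rotated pairs -/

theorem u4_zeta : ∃ ζ : E → ℝ, Bl ζ ∧ Continuous ζ ∧ (∀ᵐ x, ‖D ζ x‖ ≤ 1) ∧ (∀ x, |ζ x| ≤ 1) ∧
    (∀ x, ζ (R x) = -ζ x) ∧ (∀ x, x 2 ≠ 0 → ζ x ≠ 0) ∧ ∀ x ∈ Hp, 0 ≤ ζ x := by
  have hl : ∀ x y : E, |max (-1) (min 1 (x 2)) - max (-1) (min 1 (y 2))| ≤ 1 * ‖x - y‖ := by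
    intro x y
    have h1 := O1_abs_two (x - y)
    have h2 : (x - y) 2 = x 2 - y 2 := rfl
    rw [h2] at h1
    have h3 := abs_le.1 h1
    rw [one_mul, abs_le]
    simp only [max_def, min_def]
    split_ifs <;> constructor <;> linarith [norm_nonneg (x - y), h3.1, h3.2]
  obtain ⟨b1, b2⟩ := lip_D_le' (u := fun x : E => max (-1) (min 1 (x 2))) zero_le_one hl
  refine ⟨_, b1, by fun_prop, b2, fun x => ?_, fun x => ?_, fun x hx => ?_, fun x hx => ?_⟩
  · rw [abs_le]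
    simp only [max_def, min_def]
    split_ifs <;> constructor <;> linarith
  · simp only [R_two, max_def, min_def]
    split_ifs <;> linarith
  · simp only [max_def, min_def]
    split_ifs <;> first | exact hx | norm_num
  · have : 0 ≤ x 2 := hx
    simp only [max_def, min_def]
    split_ifs <;> linarith

theorem u4_cos {ζ : E → ℝ} (hζ : Bl ζ) (s : ℝ) : Bl (fun x => Real.cos (s * ζ x)) ∧
    ∀ᵐ x, D (fun x => Real.cos (s * ζ x)) x = (-(s * Real.sin (s * ζ x))) • D ζ x := by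
  obtain ⟨h1, h2⟩ := hζ.comp (β := fun y => Real.cos (s * y)) (by fun_prop)
  refine ⟨h1, h2.mono fun x hx => ?_⟩
  rw [hx]
  congr 1
  have := ((hasDerivAt_id (ζ x)).const_mul s).cos
  simp only [id, mul_one] at this
  rw [this.deriv]
  ring

theorem u4_sin {ζ : E → ℝ} (hζ : Bl ζ) (s : ℝ) : Bl (fun x => Real.sin (s * ζ x)) ∧
    ∀ᵐ x, D (fun x => Real.sin (s * ζ x)) x = (s * Real.cos (s * ζ x)) • D ζ x := by
  obtain ⟨h1, h2⟩ := hζ.comp (β := fun y => Real.sin (s * y)) (by fun_prop)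
  refine ⟨h1, h2.mono fun x hx => ?_⟩
  rw [hx]
  congr 1
  have := ((hasDerivAt_id (ζ x)).const_mul s).sin
  simp only [id, mul_one] at this
  rw [this.deriv]
  ring

theorem u4_bd {ζ a k : E → ℝ} {s : ℝ} (hD : ∀ᵐ x, ‖D ζ x‖ ≤ 1) (hk : ∀ x, |k x| ≤ |s|)
    (h : ∀ᵐ x, D a x = k x • D ζ x) : Bd fun x => ‖D a x‖ := by
  refine ⟨|s|, ?_⟩
  filter_upwards [hD, h] with x h1 h2
  rw [h2, abs_norm, norm_smul, Real.norm_eq_abs]
  nlinarith [hk x, abs_nonneg (k x), norm_nonneg (D ζ x)]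

theorem u4_rot {ζ g f : E → ℝ} (hζ : Bl ζ) (hD : ∀ᵐ x, ‖D ζ x‖ ≤ 1) (hg : H1 g) (hf : H1 f)
    (s : ℝ) :
    H1 (fun x => Real.cos (s * ζ x) * g x - Real.sin (s * ζ x) * f x) ∧
    H1 (fun x => Real.sin (s * ζ x) * g x + Real.cos (s * ζ x) * f x) ∧
    (∀ᵐ x, D (fun x => Real.cos (s * ζ x) * g x - Real.sin (s * ζ x) * f x) x =
      Real.cos (s * ζ x) • D g x - Real.sin (s * ζ x) • D f x -
        (s * (Real.sin (s * ζ x) * g x + Real.cos (s * ζ x) * f x)) • D ζ x) ∧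
    (∀ᵐ x, D (fun x => Real.sin (s * ζ x) * g x + Real.cos (s * ζ x) * f x) x =
      Real.sin (s * ζ x) • D g x + Real.cos (s * ζ x) • D f x +
        (s * (Real.cos (s * ζ x) * g x - Real.sin (s * ζ x) * f x)) • D ζ x) := by
  obtain ⟨c1, c2⟩ := u4_cos hζ s
  obtain ⟨s1, s2⟩ := u4_sin hζ s
  have cb : Bd fun x => Real.cos (s * ζ x) := ⟨1, Eventually.of_forall fun x => Real.abs_cos_le_one _⟩
  have sb : Bd fun x => Real.sin (s * ζ x) := ⟨1, Eventually.of_forall fun x => Real.abs_sin_le_one _⟩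
  have cd := u4_bd (s := s) hD (fun x => by
    rw [abs_neg, abs_mul]
    exact mul_le_of_le_one_right (abs_nonneg _) (Real.abs_sin_le_one _)) c2
  have sd := u4_bd (s := s) hD (fun x => by
    rw [abs_mul]
    exact mul_le_of_le_one_right (abs_nonneg _) (Real.abs_cos_le_one _)) s2
  obtain ⟨a1, a2⟩ := hg.mul_lip c1.hl cb cd
  obtain ⟨b1, b2⟩ := hf.mul_lip s1.hl sb sd
  obtain ⟨e1, e2⟩ := hg.mul_lip s1.hl sb sd
  obtain ⟨f1, f2⟩ := hf.mul_lip c1.hl cb cd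
  refine ⟨a1.sub b1, e1.add f1, ?_, ?_⟩
  · filter_upwards [D_sub a1.hl b1.hl, a2, b2, c2, s2] with x h1 h2 h3 h4 h5
    rw [h1, h2, h3, h4, h5]
    module
  · filter_upwards [D_add e1.hl f1.hl, e2, f2, c2, s2] with x h1 h2 h3 h4 h5
    rw [h1, h2, h3, h4, h5]
    module

theorem u4_dist {F w g f p q : E → ℝ} {X : E → E} {σ : ℝ} (hF : H1 F) (hw : H1 w) (hg : H1 g)
    (hf : H1 f) (hp : ∀ x, |p x| ≤ σ) (hq : ∀ x, |q x| ≤ σ)
    (hX : ∀ᵐ x, ‖X x‖ ^ 2 ≤ σ ^ 2 * (g x ^ 2 + f x ^ 2))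
    (e1 : ∀ x, F x = w x + p x * g x + q x * f x)
    (e2 : ∀ᵐ x, D F x = D w x + p x • D g x + q x • D f x + X x) :
    nsq F + dir F ≤ 4 * (nsq w + dir w) + 8 * σ ^ 2 * (nsq g + nsq f + dir g + dir f) := by
  have iw := hw.l2.integrable_sq
  have ig := hg.l2.integrable_sq
  have iff := hf.l2.integrable_sq
  have jw := S11_int_normsq hw.dl2
  have jg := S11_int_normsq hg.dl2
  have jf := S11_int_normsq hf.dl2
  have n1 : nsq F ≤ 3 * nsq w + 3 * σ ^ 2 * nsq g + 3 * σ ^ 2 * nsq f := by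
    unfold nsq
    rw [← S11_int3 iw ig iff]
    refine integral_mono hF.l2.integrable_sq
      (((iw.const_mul _).add (ig.const_mul _)).add (iff.const_mul _)) fun x => ?_
    have a1 : p x ^ 2 ≤ σ ^ 2 := by rw [← sq_abs]; exact pow_le_pow_left₀ (abs_nonneg _) (hp x) 2
    have a2 : q x ^ 2 ≤ σ ^ 2 := by rw [← sq_abs]; exact pow_le_pow_left₀ (abs_nonneg _) (hq x) 2
    have b1 := mul_le_mul_of_nonneg_right a1 (sq_nonneg (g x))
    have b2 := mul_le_mul_of_nonneg_right a2 (sq_nonneg (f x))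
    simp only
    rw [e1]
    nlinarith [sq_nonneg (w x - p x * g x), sq_nonneg (w x - q x * f x),
      sq_nonneg (p x * g x - q x * f x)]
  have n2 : dir F ≤ (4 * dir w + 4 * σ ^ 2 * dir g + 4 * σ ^ 2 * dir f) +
      (0 * nsq w + 4 * σ ^ 2 * nsq g + 4 * σ ^ 2 * nsq f) := by
    unfold nsq dir
    have i1 : Integrable fun x => 4 * ‖D w x‖ ^ 2 + 4 * σ ^ 2 * ‖D g x‖ ^ 2 +
        4 * σ ^ 2 * ‖D f x‖ ^ 2 :=
      ((jw.const_mul 4).add (jg.const_mul (4 * σ ^ 2))).add (jf.const_mul (4 * σ ^ 2))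
    have i2 : Integrable fun x => 0 * w x ^ 2 + 4 * σ ^ 2 * g x ^ 2 + 4 * σ ^ 2 * f x ^ 2 :=
      ((iw.const_mul 0).add (ig.const_mul (4 * σ ^ 2))).add (iff.const_mul (4 * σ ^ 2))
    rw [← S11_int3 iw ig iff, ← S11_int3 jw jg jf, ← integral_add i1 i2]
    refine integral_mono_ae (S11_int_normsq hF.dl2) (i1.add i2) ?_
    filter_upwards [hX, e2] with x h1 h2
    have a0 : 0 ≤ σ := (abs_nonneg _).trans (hp x)
    have a1 : ‖p x • D g x‖ ≤ σ * ‖D g x‖ := by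
      rw [norm_smul, Real.norm_eq_abs]; exact mul_le_mul_of_nonneg_right (hp x) (norm_nonneg _)
    have a2 : ‖q x • D f x‖ ≤ σ * ‖D f x‖ := by
      rw [norm_smul, Real.norm_eq_abs]; exact mul_le_mul_of_nonneg_right (hq x) (norm_nonneg _)
    have a3 : ‖D F x‖ ≤ ‖D w x‖ + σ * ‖D g x‖ + σ * ‖D f x‖ + ‖X x‖ := by
      rw [h2]
      have t1 := norm_add_le (D w x + p x • D g x + q x • D f x) (X x)
      have t2 := norm_add_le (D w x + p x • D g x) (q x • D f x)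
      have t3 := norm_add_le (D w x) (p x • D g x)
      linarith
    have a4 := pow_le_pow_left₀ (norm_nonneg _) a3 2
    set A := ‖D w x‖
    set B := σ * ‖D g x‖ with hB
    set C := σ * ‖D f x‖ with hC
    set Y := ‖X x‖
    have b1 : 4 * σ ^ 2 * ‖D g x‖ ^ 2 = 4 * B ^ 2 := by rw [hB]; ring
    have b2 : 4 * σ ^ 2 * ‖D f x‖ ^ 2 = 4 * C ^ 2 := by rw [hC]; ring
    rw [b1, b2]
    nlinarith [sq_nonneg (A - B), sq_nonneg (A - C), sq_nonneg (A - Y), sq_nonneg (B - C),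
      sq_nonneg (B - Y), sq_nonneg (C - Y)]
  have z1 := S11_nsq_nonneg w
  have z2 := mul_nonneg (sq_nonneg σ) (S11_nsq_nonneg g)
  have z3 := mul_nonneg (sq_nonneg σ) (S11_nsq_nonneg f)
  have z4 := mul_nonneg (sq_nonneg σ) (S11_dir_nonneg g)
  have z5 := mul_nonneg (sq_nonneg σ) (S11_dir_nonneg f)
  nlinarith

theorem u4_trig {s z : ℝ} (hz : |z| ≤ 1) :
    |Real.sin (s * z)| ≤ |s| ∧ |Real.cos (s * z) - 1| ≤ |s| := by
  have h : |s * z| ≤ |s| := by
    rw [abs_mul]; exact mul_le_of_le_one_right (abs_nonneg _) hz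
  refine ⟨(Real.abs_sin_le_abs).trans h, ?_⟩
  have := Real.abs_cos_sub_cos_le (s * z) 0
  rw [Real.cos_zero, sub_zero] at this
  exact this.trans h

/-- distance of the rotated pair to a reference pair -/
theorem u4_rot_dist {ζ g f A B : E → ℝ} (hζ : Bl ζ) (hD : ∀ᵐ x, ‖D ζ x‖ ≤ 1) (h1 : ∀ x, |ζ x| ≤ 1)
    (hg : H1 g) (hf : H1 f) (hA : H1 A) (hB : H1 B) (s : ℝ) :
    nsq (fun x => (Real.cos (s * ζ x) * g x - Real.sin (s * ζ x) * f x) - A x) +
      dir (fun x => (Real.cos (s * ζ x) * g x - Real.sin (s * ζ x) * f x) - A x) ≤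
      4 * (nsq (fun x => g x - A x) + dir fun x => g x - A x) +
        8 * s ^ 2 * (nsq g + nsq f + dir g + dir f) ∧
    nsq (fun x => (Real.sin (s * ζ x) * g x + Real.cos (s * ζ x) * f x) - B x) +
      dir (fun x => (Real.sin (s * ζ x) * g x + Real.cos (s * ζ x) * f x) - B x) ≤
      4 * (nsq (fun x => f x - B x) + dir fun x => f x - B x) +
        8 * s ^ 2 * (nsq g + nsq f + dir g + dir f) := by
  obtain ⟨r1, r2, r3, r4⟩ := u4_rot hζ hD hg hf s
  have hX : ∀ (k : ℝ) (x : E), ‖D ζ x‖ ≤ 1 → k ^ 2 ≤ g x ^ 2 + f x ^ 2 →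
      ‖(s * k) • D ζ x‖ ^ 2 ≤ |s| ^ 2 * (g x ^ 2 + f x ^ 2) := by
    intro k x a b
    rw [norm_smul, mul_pow, Real.norm_eq_abs, sq_abs, sq_abs, mul_pow]
    have a' : ‖D ζ x‖ ^ 2 ≤ 1 := pow_le_one₀ (norm_nonneg _) a
    have := mul_le_mul b a' (sq_nonneg _) (by positivity)
    have := mul_le_mul_of_nonneg_left this (sq_nonneg s)
    nlinarith
  rw [← sq_abs s]
  constructor
  · refine u4_dist (p := fun x => Real.cos (s * ζ x) - 1) (q := fun x => -Real.sin (s * ζ x))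
      (X := fun x => -((s * (Real.sin (s * ζ x) * g x + Real.cos (s * ζ x) * f x)) • D ζ x))
      (r1.sub hA) (hg.sub hA) hg hf (fun x => (u4_trig (h1 x)).2)
      (fun x => by rw [abs_neg]; exact (u4_trig (h1 x)).1) ?_ (fun x => by ring) ?_
    · filter_upwards [hD] with x hx
      rw [norm_neg]
      refine hX _ x hx ?_
      nlinarith [Real.sin_sq_add_cos_sq (s * ζ x),
        sq_nonneg (Real.cos (s * ζ x) * g x - Real.sin (s * ζ x) * f x)]
    · filter_upwards [r3, D_sub r1.hl hA.hl, D_sub hg.hl hA.hl] with x a b c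
      rw [b, a, c]
      module
  · refine u4_dist (p := fun x => Real.sin (s * ζ x)) (q := fun x => Real.cos (s * ζ x) - 1)
      (X := fun x => (s * (Real.cos (s * ζ x) * g x - Real.sin (s * ζ x) * f x)) • D ζ x)
      (r2.sub hB) (hf.sub hB) hg hf (fun x => (u4_trig (h1 x)).1)
      (fun x => (u4_trig (h1 x)).2) ?_ (fun x => by ring) ?_
    · filter_upwards [hD] with x hx
      refine hX _ x hx ?_
      nlinarith [Real.sin_sq_add_cos_sq (s * ζ x),
        sq_nonneg (Real.sin (s * ζ x) * g x + Real.cos (s * ζ x) * f x)]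
    · filter_upwards [r4, D_sub r2.hl hB.hl, D_sub hf.hl hB.hl] with x a b c
      rw [b, a, c]
      module

theorem u4_rot_adm {ζ g f r : E → ℝ} (hζ : Bl ζ) (hD : ∀ᵐ x, ‖D ζ x‖ ≤ 1)
    (ho : ∀ x, ζ (R x) = -ζ x) (a : Adm r g f) (s : ℝ) :
    Adm r (fun x => Real.cos (s * ζ x) * g x - Real.sin (s * ζ x) * f x)
      (fun x => Real.sin (s * ζ x) * g x + Real.cos (s * ζ x) * f x) := by
  obtain ⟨r1, r2, -, -⟩ := u4_rot hζ hD a.hφ a.hψ s
  refine ⟨r1, r2, ?_, ?_, ?_⟩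
  · filter_upwards [a.ev, a.od] with x h1 h2
    rw [h1, h2, ho, mul_neg, Real.cos_neg, Real.sin_neg]
    ring
  · filter_upwards [a.ev, a.od] with x h1 h2
    rw [h1, h2, ho, mul_neg, Real.cos_neg, Real.sin_neg]
    ring
  · filter_upwards [a.sum] with x h
    rw [← h]
    linear_combination (g x ^ 2 + f x ^ 2) * Real.sin_sq_add_cos_sq (s * ζ x)

end

end Crest.Agent.R335
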