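import Crest.Agent.R335.U3
import Crest.Agent.R335.Y3

set_option autoImplicit false

open MeasureTheory Set Filter Topology Metric
open scoped Gradient ContDiff RealInnerProductSpace ENNReal

namespace Crest.Agent.R335

noncomputable section

theorem U8a_grad (c : E) (k : ℝ) (x : E) :
    ∇ (fun x : E => ‖x - c‖ ^ 2 - k) x = (2 : ℝ) • (x - c) := by
  have h1 := ((hasFDerivAt_id (𝕜 := ℝ) x).sub_const c).norm_sq.sub_const k
  refine ext_inner_right ℝ fun v => ?_
  rw [s05_inner_grad, show fderiv ℝ (fun x : E => ‖x - c‖ ^ 2 - k) x = _ from h1.fderiv,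
    real_inner_smul_left]
  simp [inner_sub_left]

theorem U8a_lap (c : E) (k : ℝ) (x : E) : lap (fun x : E => ‖x - c‖ ^ 2 - k) x = 6 := by
  have e : ∇ (fun x : E => ‖x - c‖ ^ 2 - k) = fun x => (2 : ℝ) • (x - c) :=
    funext (U8a_grad c k)
  have h2 := ((hasFDerivAt_id (𝕜 := ℝ) x).sub_const c).const_smul (2 : ℝ)
  change LinearMap.trace ℝ E (fderiv ℝ (∇ (fun x : E => ‖x - c‖ ^ 2 - k)) x : E →ₗ[ℝ] E) = 6
  rw [e, show fderiv ℝ (fun x : E => (2 : ℝ) • (x - c)) x = _ from h2.fderiv]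
  simp only [ContinuousLinearMap.toLinearMap_smul, map_smul, ContinuousLinearMap.coe_id,
    LinearMap.trace_id]
  simp
  norm_num

theorem U8a_l1 {F : Type*} [NormedAddCommGroup F] {f : E → F} {K : Set E} (hK : IsCompact K)
    (h : MemLp f 2 (volume.restrict K)) : IntegrableOn f K volume := by
  have : IsFiniteMeasure (volume.restrict K : Measure E) :=
    ⟨by rw [Measure.restrict_apply_univ]; exact hK.measure_lt_top⟩
  exact h.integrable one_le_two

/-- local sup bound with a barrier -/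
theorem U8a_loc (a B : ℝ) (ha : 0 < a) (hB : 0 ≤ B) (haB : 4 * a * B ≤ 1) : ∃ C : ℝ, 0 < C ∧
    ∀ (r u : E → ℝ) (x₀ : E) (k : ℝ), Bl r → LP r → Bl u →
      WSub (fun x => r x * r x) (ball x₀ (2 * a)) u (fun x => 2 * (r x * r x)) →
      (∀ᵐ x, x ∈ ball x₀ (2 * a) → ‖D r x‖ ≤ B * r x) →
      ∀ᵐ x, x ∈ ball x₀ a →
        u x - k - 4 * a ^ 2 ≤ C * √(∫ y in ball x₀ (2 * a), max (u y - k) 0 ^ 2) := by
  obtain ⟨C, hC, H⟩ := local_sup a B ha hB
  refine ⟨C, hC, fun r u x₀ k hr hp hu hs hD => ?_⟩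
  obtain ⟨hw, hDw⟩ := hr.mul hr
  have hpw : LP fun x => r x * r x := by
    intro K hK
    obtain ⟨c, hc, h⟩ := hp K hK
    refine ⟨c * c, mul_pos hc hc, ?_⟩
    filter_upwards [h] with x hx hxK
    exact mul_self_le_mul_self hc.le (hx hxK)
  have h1 := hs.unweight hw hpw
  set q : E → ℝ := fun x => ‖x - x₀‖ ^ 2 - (k + 4 * a ^ 2) with hq
  have hq2 : ContDiff ℝ 2 q := ((contDiff_id.sub contDiff_const).norm_sq ℝ).sub contDiff_const
  have hq1 : ContDiff ℝ 1 q := hq2.of_le (by norm_num)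
  have hqb := bl_c1 hq1
  have h2 := (sub_c2 hqb.hl (isOpen_ball (x := x₀) (ε := 2 * a)) hq2.contDiffOn).1
  have hone : LB fun _ : E => (1 : ℝ) := Continuous.lb' continuous_const
  have h3 := WSub.add aestronglyMeasurable_const hone h1 h2
  have hP := hu.add hqb
  have h4 := WSub.kato (C := univ) (Ω := ball x₀ (2 * a)) aestronglyMeasurable_const hone
    (.of_forall fun _ => zero_le_one) (by rw [univ_inter]; exact h3) isClosed_univ
    (.of_forall fun x hx => (hx (mem_univ x)).elim)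
  have hp' := hP.pos
  have h5 : Sub (ball x₀ (2 * a)) (fun x => max (u x + q x) 0)
      (fun x => B * max (u x + q x) 0 + B * ‖D (fun x => max (u x + q x) 0) x‖ + 0) := by
    refine h4.mono subset_rfl (fun K hK _ => ?_) ?_
    · exact (((U8a_l1 hK (hp'.hl.l2 K hK)).const_mul B).add
        ((U8a_l1 hK (hp'.hl.dl2 K hK)).norm.const_mul B)).add (integrable_zero _ _ _)
    · have hpos : ∀ᵐ x, 0 < r x := by
        have : ∀ n : ℕ, ∀ᵐ x : E, x ∈ closedBall (0 : E) n → 0 < r x := by
          intro n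
          obtain ⟨c, hc, h⟩ := hp _ (isCompact_closedBall (0 : E) n)
          filter_upwards [h] with x hx hxK using hc.trans_le (hx hxK)
        filter_upwards [ae_all_iff.2 this] with x hx
        obtain ⟨n, hn⟩ := exists_nat_ge ‖x‖
        exact hx n (mem_closedBall_zero_iff.2 hn)
      filter_upwards [hD, hDw, hpos, hP.hl.pos.2, D_add hu.hl hqb.hl, D_c1 hq1] with
        x b1 b2 b3 b4 b5 b6 hx
      have n1 : 0 ≤ B * max (u x + q x) 0 := mul_nonneg hB (le_max_right _ _)
      have n2 : 0 ≤ B * ‖D (fun x => max (u x + q x) 0) x‖ := mul_nonneg hB (norm_nonneg _)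
      split_ifs with h0
      · rw [b4, if_pos h0, b2, U8a_lap]
        have e1 : D u x = D (fun x => u x + q x) x - (2 : ℝ) • (x - x₀) := by
          rw [b5, b6, U8a_grad]; abel
        have e2 : ‖D u x‖ ≤ ‖D (fun x => u x + q x) x‖ + 4 * a := by
          rw [e1]
          refine (norm_sub_le _ _).trans ?_
          rw [norm_smul, Real.norm_two]
          have := mem_ball_iff_norm.1 hx
          linarith
        have e3 : ⟪r x • D r x + r x • D r x, D u x⟫ / (2 * (r x * r x)) ≤ B * ‖D u x‖ := by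
          rw [div_le_iff₀ (by positivity), inner_add_left, real_inner_smul_left]
          have f1 := real_inner_le_norm (D r x) (D u x)
          have f2 := mul_le_mul_of_nonneg_right (b1 hx) (norm_nonneg (D u x))
          have f3 := mul_le_mul_of_nonneg_left (f1.trans f2) b3.le
          linarith
        have e4 : 2 * (r x * r x) / (r x * r x) = 2 := by field_simp
        have e5 := mul_le_mul_of_nonneg_left e2 hB
        rw [e4]
        linarith
      · linarith
  have h6 := H _ x₀ 0 le_rfl (.of_forall fun x _ => le_max_right _ _) hp'.lb h5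
  have hfin : IsFiniteMeasure (volume.restrict (ball x₀ (2 * a)) : Measure E) :=
    ⟨by rw [Measure.restrict_apply_univ]; exact measure_ball_lt_top⟩
  have h7 : ∫ y in ball x₀ (2 * a), max (u y + q y) 0 ^ 2 ≤
      ∫ y in ball x₀ (2 * a), max (u y - k) 0 ^ 2 := by
    refine integral_mono_of_nonneg (.of_forall fun y => sq_nonneg _) ?_ ?_
    · have hb : Bl fun y => max (u y - k) 0 := (hu.sub (bl_c1 contDiff_const)).pos
      exact ((hb.hl.l2 _ (isCompact_closedBall x₀ (2 * a))).mono_measure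
        (Measure.restrict_mono ball_subset_closedBall le_rfl)).integrable_sq
    · filter_upwards [ae_restrict_mem measurableSet_ball] with y hy
      refine pow_le_pow_left₀ (le_max_right _ _) (max_le_max_right _ ?_) 2
      have e1 := mem_ball_iff_norm.1 hy
      have e2 : ‖y - x₀‖ ^ 2 ≤ (2 * a) ^ 2 := pow_le_pow_left₀ (norm_nonneg _) e1.le 2
      simp only [hq]
      linarith
  filter_upwards [h6] with x hx hxa
  have e1 := hx hxa
  have e2 := mul_le_mul_of_nonneg_left (Real.sqrt_le_sqrt h7) hC.le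
  have e3 : u x + q x ≤ max (u x + q x) 0 := le_max_left _ _
  have e4 : 0 ≤ ‖x - x₀‖ ^ 2 := sq_nonneg _
  simp only [hq] at e3
  rw [add_zero] at e1
  linarith

/-- angles are controlled by distances -/
theorem U8a_ang {r u A b : ℝ} (hr : 0 ≤ r) (hu : |u| ≤ Real.pi / 2) (hA : 0 < A) :
    A ^ 2 * (u - Real.arctan (b / A)) ^ 2 ≤
      16 * ((r * Real.cos u - A) ^ 2 + (r * Real.sin u - b) ^ 2) := by
  set θ := Real.arctan (b / A) with hθ
  set s := √(1 + (b / A) ^ 2) with hs
  have s1 : 1 ≤ s := Real.one_le_sqrt.2 (by nlinarith [sq_nonneg (b / A)])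
  have c1 : A * s * Real.cos θ = A := by rw [hθ, Real.cos_arctan, ← hs]; field_simp
  have c2 : A * s * Real.sin θ = b := by rw [hθ, Real.sin_arctan, ← hs]; field_simp
  set R := A * s with hR
  have hAR : A ≤ R := le_mul_of_one_le_right hA.le s1
  have hd : (r * Real.cos u - A) ^ 2 + (r * Real.sin u - b) ^ 2 =
      r ^ 2 + R ^ 2 - 2 * r * R * Real.cos |u - θ| := by
    rw [Real.cos_abs, Real.cos_sub, ← c1, ← c2]
    linear_combination r ^ 2 * Real.sin_sq_add_cos_sq u + R ^ 2 * Real.sin_sq_add_cos_sq θ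
  have t1 := Real.arctan_lt_pi_div_two (b / A)
  have t2 := Real.neg_pi_div_two_lt_arctan (b / A)
  have u1 := abs_le.1 hu
  have hφ : |u - θ| ≤ Real.pi := abs_le.2 ⟨by linarith, by linarith⟩
  have hπ : Real.pi ≤ 4 := Real.pi_le_four
  have hπ0 := Real.pi_pos
  rw [hd, ← sq_abs (u - θ)]
  set φ := |u - θ|
  have φ0 : 0 ≤ φ := abs_nonneg _
  have hA2 : A ^ 2 ≤ R ^ 2 := pow_le_pow_left₀ hA.le hAR 2
  refine (mul_le_mul_of_nonneg_right hA2 (sq_nonneg φ)).trans ?_
  rcases le_total φ (Real.pi / 2) with h | h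
  · have e1 : 2 / Real.pi * φ ≤ Real.sin φ := Real.mul_le_sin φ0 h
    have e2 : φ ≤ 2 * Real.sin φ := by
      have : 1 / 2 ≤ 2 / Real.pi := by rw [le_div_iff₀ hπ0]; linarith
      have := mul_le_mul_of_nonneg_right this φ0
      linarith
    have e3 : φ ^ 2 ≤ (2 * Real.sin φ) ^ 2 := pow_le_pow_left₀ φ0 e2 2
    have e4 := mul_le_mul_of_nonneg_left e3 (sq_nonneg R)
    have e5 : R ^ 2 * Real.sin φ ^ 2 = R ^ 2 - R ^ 2 * Real.cos φ ^ 2 := by
      linear_combination R ^ 2 * Real.sin_sq_add_cos_sq φ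
    have e6 := sq_nonneg (r - R * Real.cos φ)
    have e7 : 0 ≤ R ^ 2 * Real.sin φ ^ 2 := by positivity
    nlinarith
  · have e1 : Real.cos φ ≤ 0 := Real.cos_nonpos_of_pi_div_two_le_of_le h (by linarith)
    have e2 : φ ^ 2 ≤ 4 ^ 2 := pow_le_pow_left₀ φ0 (hφ.trans hπ) 2
    have e3 := mul_le_mul_of_nonneg_left e2 (sq_nonneg R)
    have e4 : 0 ≤ r * R * -Real.cos φ :=
      mul_nonneg (mul_nonneg hr (hA.le.trans hAR)) (neg_nonneg.2 e1)
    nlinarith [sq_nonneg r]

/-- the angle and its negative are subsolutions -/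
theorem U8a_sub {r u : E → ℝ} {δ σ : ℝ} (h : Ang r u δ) (hδ : |δ| ≤ 2) (hσ : |σ| ≤ 1) (Ω : Set E) :
    WSub (fun x => r x * r x) Ω (fun x => σ * u x) (fun x => 2 * (r x * r x)) := by
  have hrr : Integrable fun x => r x * r x := h.hr.l2.integrable_mul h.hr.l2
  refine ⟨h.hu.smul σ, fun K _ _ => (hrr.const_mul 2).integrableOn, fun χ hχ h0 => ?_⟩
  have e1 : ∫ x, 1 / 2 * (r x * r x) * ⟪D (fun x => σ * u x) x, D χ x⟫ =
      σ * ∫ x, 1 / 2 * r x ^ 2 * ⟪D u x, D χ x⟫ := by
    rw [← integral_const_mul]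
    refine integral_congr_ae ?_
    filter_upwards [D_smul σ h.hu] with x hx
    rw [hx, real_inner_smul_left]
    ring
  rw [e1, h.el χ (hχ.mono (subset_univ _)), ← integral_const_mul]
  obtain ⟨M, hM⟩ := hχ.bd
  refine Y3_int_le ?_ ?_ ?_
  · refine ((hrr.const_mul 2).mul_const M).mono' ((hrr.const_mul 2).1.mul hχ.h1.l2.1) ?_
    filter_upwards [hM] with x hx
    have : 0 ≤ 2 * (r x * r x) := by nlinarith [mul_self_nonneg (r x)]
    rw [Real.norm_eq_abs, abs_mul, abs_of_nonneg this]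
    exact mul_le_mul_of_nonneg_left hx this
  · filter_upwards [h0] with x hx
    exact mul_nonneg (by nlinarith [mul_self_nonneg (r x)]) hx
  · filter_upwards [h0] with x hx
    have e2 : σ * δ * (Real.sin (u x) * Real.cos (u x)) ≤ 2 := by
      refine (le_abs_self _).trans ?_
      rw [abs_mul, abs_mul, abs_mul]
      have a1 : |σ| * |δ| ≤ 1 * 2 := mul_le_mul hσ hδ (abs_nonneg _) zero_le_one
      have a2 : |Real.sin (u x)| * |Real.cos (u x)| ≤ 1 * 1 :=
        mul_le_mul (Real.abs_sin_le_one _) (Real.abs_cos_le_one _) (abs_nonneg _) zero_le_one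
      have a3 := mul_le_mul a1 a2 (by positivity) (by norm_num)
      linarith
    have e3 := mul_le_mul_of_nonneg_right e2 (mul_nonneg (mul_self_nonneg (r x)) hx)
    linarith

end

end Crest.Agent.R335
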