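import Crest.Agent.R335.Defs6
import Crest.Agent.R335.F7cAux1
import Crest.Agent.R335.F0b
import Crest.Agent.R335.S12
import Crest.Agent.R335.S09

set_option autoImplicit false

open MeasureTheory Set Filter Topology Metric
open scoped Gradient ContDiff RealInnerProductSpace ENNReal

namespace Crest.Agent.R335

noncomputable section

/-- weak maximum principle on a small ball -/
theorem U9_maxp {w p S : E → ℝ} {c : E} (hw : AEStronglyMeasurable w volume) (hw1 : LB w)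
    (hw0 : ∀ᵐ x, 0 < w x) (a : WSub w (ball c (1 / 4)) p S) (hp : LB p)
    (hS : ∀ᵐ x, x ∈ ball c (1 / 4) → S x ≤ 0)
    (h0 : ∀ᵐ x, 1 / 6 ≤ ‖x - c‖ → ‖x - c‖ < 1 / 4 → p x ≤ 0) :
    ∀ᵐ x, ‖x - c‖ < 1 / 4 → p x ≤ 0 := by
  obtain ⟨j, j1, -, j3, j4, j5, -, -⟩ :=
    exists_cutoff c (r := 1 / 5) (s := 1 / 30) (by norm_num) (by norm_num)
  have hj : Bl j := bl_c1 (j1.of_le (by exact_mod_cast le_top))
  have hpb : Bl p := ⟨a.hl, hp⟩
  have hq : Bl fun x => j x * p x := (hj.mul hpb).1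
  have hχ : Bl fun x => max (j x * p x) 0 := hq.pos
  have hz : ∀ᵐ x, x ∉ closedBall c (1 / 6) → max (j x * p x) 0 = 0 := by
    filter_upwards [h0] with x hx hK
    rw [mem_closedBall, dist_eq_norm, not_le] at hK
    apply max_eq_right
    by_cases h4 : ‖x - c‖ < 1 / 4
    · exact mul_nonpos_of_nonneg_of_nonpos (j3 x).1 (hx hK.le h4)
    · rw [j5 x (by linarith), zero_mul]
  have hcs : CS (fun x => max (j x * p x) 0) (ball c (1 / 4)) :=
    ⟨closedBall c (1 / 6), isCompact_closedBall _ _, closedBall_subset_ball (by norm_num), hz⟩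
  have htf := hχ.tf hcs
  have hle := a.le _ htf (Eventually.of_forall fun x => le_max_right _ _)
  have hrhs : ∫ x, S x * max (j x * p x) 0 ≤ 0 := by
    apply integral_nonpos_of_ae
    filter_upwards [hS, hz] with x h1 h2
    by_cases hx : x ∈ closedBall c (1 / 6)
    · exact mul_nonpos_of_nonpos_of_nonneg (h1 (closedBall_subset_ball (by norm_num) hx))
        (le_max_right _ _)
    · simp [h2 hx]
  have hD : ∀ᵐ x, x ∈ ball c (1 / 5) → D (fun x => j x * p x) x = D p x := by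
    refine D_eqOn hq.hl a.hl isOpen_ball (Eventually.of_forall fun x hx => ?_)
    rw [mem_ball, dist_eq_norm] at hx
    rw [j4 x hx.le, one_mul]
  have hE : ∀ᵐ x, (1 / 2) * w x * ⟪D p x, D (fun x => max (j x * p x) 0) x⟫ =
      (1 / 2) * w x * ‖D (fun x => max (j x * p x) 0) x‖ ^ 2 := by
    filter_upwards [hq.hl.pos.2, hD, hz] with x h1 h2 h3
    rw [h1]
    split_ifs with h
    · have hx : x ∈ closedBall c (1 / 6) := by
        by_contra hx
        have := h3 hx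
        rw [max_eq_left h.le] at this
        exact h.ne' this
      rw [h2 (closedBall_subset_ball (by norm_num) hx), real_inner_self_eq_norm_sq]
    · simp
  have hi := (S12_int_lhs hw hw1 a.hl htf).congr hE
  rw [integral_congr_ae hE] at hle
  have hnn : 0 ≤ᵐ[volume] fun x => (1 / 2) * w x * ‖D (fun x => max (j x * p x) 0) x‖ ^ 2 := by
    filter_upwards [hw0] with x hx
    positivity
  have hz2 := (integral_eq_zero_iff_of_nonneg_ae hnn hi).1
    (le_antisymm (hle.trans hrhs) (integral_nonneg_of_ae hnn))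
  have hdir : dir (fun x => max (j x * p x) 0) = 0 := by
    unfold dir
    apply integral_eq_zero_of_ae
    filter_upwards [hz2, hw0] with x h1 h2
    simp only [Pi.zero_apply] at h1 ⊢
    rcases mul_eq_zero.1 h1 with h | h
    · exact absurd h (by positivity)
    · exact h
  filter_upwards [htf.h1.eq_zero hdir, h0] with x h1 h2 h3
  by_cases h : 1 / 6 ≤ ‖x - c‖
  · exact h2 h h3
  · rw [j4 x (by linarith), one_mul] at h1
    exact (le_max_left _ _).trans h1.le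

theorem U9_far {d : ℝ} {x : E} (h : ‖x - d • ez‖ < 1 / 4) (hd : 4 ≤ d) :
    4 ≤ ‖x + d • ez‖ ∧ ‖x‖ ≤ d + 1 ∧ 1 ≤ x 2 := by
  have e1 : ‖d • ez‖ = d := by rw [norm_smul, f0b_norm_ez, mul_one, Real.norm_of_nonneg (by linarith)]
  have e2 : ‖(2 * d) • ez‖ = 2 * d := by
    rw [norm_smul, f0b_norm_ez, mul_one, Real.norm_of_nonneg (by linarith)]
  refine ⟨?_, ?_, ?_⟩
  · have : (2 * d) • ez = (x + d • ez) - (x - d • ez) := by module
    have h2 := norm_sub_le (x + d • ez) (x - d • ez)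
    rw [← this, e2] at h2
    linarith
  · have : x = (x - d • ez) + d • ez := by module
    have h2 := norm_add_le (x - d • ez) (d • ez)
    rw [← this, e1] at h2
    linarith
  · have h2 : |(x - d • ez) 2| ≤ ‖x - d • ez‖ := by
      simpa using PiLp.norm_apply_le (x - d • ez) 2
    have h3 : (x - d • ez) 2 = x 2 - d := by simp [ez]
    rw [h3] at h2
    have := (abs_le.1 h2).1
    linarith

/-- the barrier `(1 - 2ρ) / r` near a nucleus -/
theorem U9_bar {o : OD} {c : ℝ} {m : MD} (hm : m.OK o c) (hp : LP m.r) (hb : Bd m.r)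
    (hd : 4 ≤ o.d) (hI : 1 / 4 ≤ m.I) :
    WSub (fun x => m.r x ^ 2) (ball (o.d • ez) (1 / 4))
      (fun x => -((1 - 2 * ‖x - o.d • ez‖) / m.r x)) (fun x => -(4 * m.r x)) := by
  have hr : Bl m.r := ⟨hm.h1.1.hl, hb.lb⟩
  have hn := (norm_sub_bl (o.d • ez)).1
  have h1 : Bl fun _ : E => (1 : ℝ) := bl_c1 contDiff_const
  have hP : Bl fun x => 1 - 2 * ‖x - o.d • ez‖ := h1.sub (hn.smul 2)
  have hDP : ∀ᵐ x, D (fun x => 1 - 2 * ‖x - o.d • ez‖) x =
      (-2 : ℝ) • D (fun x => ‖x - o.d • ez‖) x := by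
    filter_upwards [D_sub h1.hl (hn.smul 2).hl, D_smul 2 hn.hl, D_const (V := E) 1] with x a b e
    rw [a, b, e, zero_sub, neg_smul]
  have hW := hP.div hr hp
  have hN := S12_D_neg hW.1.hl
  refine ⟨hN.1, fun K hK _ => ((S12_intOn hK (hr.hl.l2 K hK)).const_mul 4).neg, fun χ hχ h0 => ?_⟩
  have hχ' : TF univ χ := hχ.mono (subset_univ _)
  have t1 := hχ'.mul hr
  have t2 := hχ'.mul hP
  obtain ⟨K, -, hKs, hK0⟩ := hχ.cs
  have hin : ∀ᵐ x, χ x = 0 ∨ ‖x - o.d • ez‖ < 1 / 4 := by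
    filter_upwards [hK0] with x hx
    by_cases h : x ∈ K
    · right
      have := hKs h
      rwa [mem_ball, dist_eq_norm] at this
    · exact Or.inl (hx h)
  have n1 := norm_lap (o.d • ez) t1
  have n2 := hm.ho.le _ t2 (by
    filter_upwards [hin, h0] with x h1 h2
    rcases h1 with h | h
    · simp [h]
    · exact mul_nonneg (by linarith) h2)
  have i1 := S12_int_vec' hn.hl.dl2 t1
  have i2 := S12_int_lhs (w := fun _ => (1 : ℝ)) aestronglyMeasurable_const S12_lb_one hr.hl t2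
  have i3 := S12_int_rhs hm.ho.li t2
  have hE : ∀ᵐ x, (1 / 2) * m.r x ^ 2 *
      ⟪D (fun x => -((1 - 2 * ‖x - o.d • ez‖) / m.r x)) x, D χ x⟫ =
      ⟪D (fun x => ‖x - o.d • ez‖) x, D (fun x => m.r x * χ x) x⟫ +
        (1 / 2) * 1 * ⟪D m.r x, D (fun x => (1 - 2 * ‖x - o.d • ez‖) * χ x) x⟫ := by
    filter_upwards [hN.2, hW.2, hDP, (hr.mul hχ.bl).2, (hP.mul hχ.bl).2, S12_lp_pos hp]
      with x a1 a2 a3 a4 a5 a6
    rw [a1, a2, a4, a5, a3]
    simp only [inner_neg_left, inner_smul_left, inner_sub_left, inner_add_right, inner_smul_right,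
      conj_trivial]
    rw [real_inner_comm (D (fun x => ‖x - o.d • ez‖) x) (D m.r x)]
    field_simp
    ring
  rw [integral_congr_ae hE, integral_add i1 i2, n1.2]
  have i4 : Integrable fun x => -(4 * m.r x) * χ x :=
    S12_int_rhs (fun K hK _ => ((S12_intOn hK (hr.hl.l2 K hK)).const_mul 4).neg) hχ
  have key : ∫ x, (-((o.v x + m.I) * m.r x) * ((1 - 2 * ‖x - o.d • ez‖) * χ x) -
      2 * (m.r x * χ x / ‖x - o.d • ez‖)) ≤ ∫ x, -(4 * m.r x) * χ x := by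
    refine integral_mono_ae (i3.sub (n1.1.const_mul 2)) i4 ?_
    have hne : ∀ᵐ x : E, x ≠ o.d • ez := by
      simp [ae_iff]
    filter_upwards [hin, h0, hne] with x h1 h2 h3
    rcases h1 with h | h
    · simp [h]
    · have hρ : 0 < ‖x - o.d • ez‖ := norm_pos_iff.2 (sub_ne_zero.2 h3)
      have hf := (U9_far h hd).1
      have e1 : 1 / ‖x + o.d • ez‖ ≤ 1 / 4 := one_div_le_one_div_of_le (by norm_num) hf
      have e2 : 4 ≤ 1 / ‖x - o.d • ez‖ := by
        rw [le_div_iff₀ hρ]; linarith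
      have e3 : 0 ≤ m.r x * χ x := mul_nonneg (hm.nn x).1 h2
      have e4 : -(o.v x + m.I) ≤ 1 / ‖x - o.d • ez‖ := by
        simp only [OD.v, vx]; linarith
      have e5 : -(o.v x + m.I) * (1 - 2 * ‖x - o.d • ez‖) ≤ 1 / ‖x - o.d • ez‖ := by
        have := mul_le_mul_of_nonneg_right e4 (by linarith : 0 ≤ 1 - 2 * ‖x - o.d • ez‖)
        nlinarith
      have e6 := mul_le_mul_of_nonneg_right e5 e3
      have e7 := mul_le_mul_of_nonneg_right e2 e3
      have e8 : m.r x * χ x / ‖x - o.d • ez‖ = 1 / ‖x - o.d • ez‖ * (m.r x * χ x) := by ring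
      rw [e8]
      nlinarith
  rw [integral_sub i3 (n1.1.const_mul 2)] at key
  linarith

/-- the Euler-Lagrange equation of the angle as a subsolution property -/
theorem U9_el {r u : E → ℝ} {δ : ℝ} (h : Ang r u δ) (σ A : ℝ) (Ω : Set E) :
    WSub (fun x => r x ^ 2) Ω (fun x => σ * u x - A)
      (fun x => σ * (δ * r x ^ 2 * Real.sin (u x) * Real.cos (u x))) := by
  have hs := s03_shift (h.hu.smul σ) A
  refine ⟨hs.1, fun K hK _ => ?_, fun χ hχ _ => ?_⟩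
  · have i1 : IntegrableOn (fun x => r x ^ 2) K volume := (h.hr.hl.l2 K hK).integrable_sq
    refine Integrable.const_mul ?_ σ
    refine (i1.const_mul |δ|).mono' ?_ (Eventually.of_forall fun x => ?_)
    · have m1 := h.hr.hl.aesm
      have m2 := h.hu.aesm
      exact (((aestronglyMeasurable_const.mul (m1.pow 2)).mul
        (Real.continuous_sin.comp_aestronglyMeasurable m2)).mul
        (Real.continuous_cos.comp_aestronglyMeasurable m2)).restrict
    · rw [Real.norm_eq_abs, abs_mul, abs_mul, abs_mul, abs_of_nonneg (sq_nonneg (r x))]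
      have a1 := Real.abs_sin_le_one (u x)
      have a2 := Real.abs_cos_le_one (u x)
      have a3 : 0 ≤ |δ| * r x ^ 2 := by positivity
      calc |δ| * r x ^ 2 * |Real.sin (u x)| * |Real.cos (u x)| ≤ |δ| * r x ^ 2 * 1 * 1 := by gcongr
        _ = _ := by ring
  · have e := h.el χ (hχ.mono (subset_univ _))
    have hE : ∀ᵐ x, (1 / 2) * r x ^ 2 * ⟪D (fun x => σ * u x - A) x, D χ x⟫ =
        σ * ((1 / 2) * r x ^ 2 * ⟪D u x, D χ x⟫) := by
      filter_upwards [hs.2, D_smul σ h.hu] with x a b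
      rw [a, b, inner_smul_left, conj_trivial]; ring
    rw [integral_congr_ae hE, integral_const_mul, e, ← integral_const_mul]
    exact le_of_eq (integral_congr_ae (Eventually.of_forall fun x => by ring))

theorem U9_cos {g v : ℝ} (hg : 0 < g) : 0 < Real.cos (Real.arctan (v / (√2 * g))) ∧
    Real.cos (Real.arctan (v / (√2 * g))) ^ 2 * (2 * g ^ 2 + v ^ 2) = 2 * g ^ 2 := by
  refine ⟨Real.cos_arctan_pos _, ?_⟩
  rw [Real.cos_sq_arctan, div_pow, mul_pow, Real.sq_sqrt (by norm_num : (0 : ℝ) ≤ 2)]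
  field_simp

theorem U9_away {g v μ C η r f G w ε d : ℝ} (hμ : 0 < μ) (hg : μ ≤ g) (hgC : g ≤ C) (hv : |v| ≤ C)
    (hη : η ≤ μ / 4) (hf : |f - v| ≤ η) (hG : |G - √2 * g| ≤ η) (hr0 : 0 ≤ r)
    (hr : f ^ 2 + G ^ 2 ≤ r ^ 2) (hε : ε ≤ μ / (4 * C))
    (hw : |w - Real.arctan (v / (√2 * g))| ≤ ε) (hd : 2 ≤ d) : g / d ^ 3 ≤ r * Real.cos w := by
  have g0 : 0 < g := hμ.trans_le hg
  have C0 : 0 < C := g0.trans_le hgC
  obtain ⟨k0, k2⟩ := U9_cos (v := v) g0
  set k := Real.cos (Real.arctan (v / (√2 * g))) with hk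
  have hv2 : v ^ 2 ≤ C ^ 2 := by
    rw [← sq_abs]; exact pow_le_pow_left₀ (abs_nonneg _) hv 2
  have hk1 : μ / (2 * C) ≤ k := by
    rw [div_le_iff₀ (by positivity)]
    apply abs_le_of_sq_le_sq' _ (by positivity) |>.2
    have : g ^ 2 ≤ C ^ 2 := pow_le_pow_left₀ g0.le hgC 2
    have h2 : μ ^ 2 ≤ g ^ 2 := pow_le_pow_left₀ hμ.le hg 2
    have h3 : k ^ 2 * (2 * g ^ 2 + v ^ 2) ≤ k ^ 2 * (3 * C ^ 2) :=
      mul_le_mul_of_nonneg_left (by linarith) (sq_nonneg k)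
    nlinarith [sq_nonneg (k * C)]
  have hc : k / 2 ≤ Real.cos w := by
    have h1 := Real.abs_cos_sub_cos_le w (Real.arctan (v / (√2 * g)))
    have h2 := (abs_le.1 (h1.trans (hw.trans hε))).1
    have h3 : μ / (4 * C) = μ / (2 * C) / 2 := by field_simp; ring
    linarith
  have η0 : 0 ≤ η := (abs_nonneg _).trans hf
  have s2 : √2 ^ 2 = (2 : ℝ) := Real.sq_sqrt (by norm_num)
  have a1 : (f - v) ^ 2 ≤ η ^ 2 := by
    rw [← sq_abs]; exact pow_le_pow_left₀ (abs_nonneg _) hf 2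
  have a2 : (G - √2 * g) ^ 2 ≤ η ^ 2 := by
    rw [← sq_abs]; exact pow_le_pow_left₀ (abs_nonneg _) hG 2
  have a3 : η ^ 2 ≤ (g / 4) ^ 2 := pow_le_pow_left₀ η0 (by linarith) 2
  have b1 : v ^ 2 ≤ 2 * f ^ 2 + 2 * η ^ 2 := by nlinarith [sq_nonneg (2 * f - v)]
  have b2 : 2 * g ^ 2 ≤ 2 * G ^ 2 + 2 * η ^ 2 := by
    have : (√2 * g) ^ 2 = 2 * g ^ 2 := by rw [mul_pow, s2]
    nlinarith [sq_nonneg (2 * G - √2 * g)]
  have b3 : (2 * g ^ 2 + v ^ 2) / 4 ≤ r ^ 2 := by nlinarith [sq_nonneg v]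
  have b4 : g / 2 ≤ r * k := by
    apply abs_le_of_sq_le_sq' _ (by positivity) |>.2
    have := mul_le_mul_of_nonneg_left b3 (sq_nonneg k)
    nlinarith
  have b5 : g / d ^ 3 ≤ g / 4 := by
    apply div_le_div_of_nonneg_left g0.le (by norm_num)
    have : (2 : ℝ) ^ 3 ≤ d ^ 3 := pow_le_pow_left₀ (by norm_num) hd 3
    linarith
  have b6 := mul_le_mul_of_nonneg_left hc hr0
  linarith

theorem U9_theta {g v C : ℝ} (hC : 2 ≤ C) (hg : 1 / C ≤ g) (hv : |v| ≤ C) :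
    Real.arctan (v / (√2 * g)) ≤ Real.pi / 2 - 1 / C ^ 2 := by
  have C0 : 0 < C := by linarith
  have g0 : 0 < g := lt_of_lt_of_le (by positivity) hg
  obtain ⟨k0, k2⟩ := U9_cos (v := v) g0
  have h1 := Real.sin_le (sub_nonneg.2 (Real.arctan_lt_pi_div_two (v / (√2 * g))).le)
  rw [Real.sin_pi_div_two_sub] at h1
  set k := Real.cos (Real.arctan (v / (√2 * g))) with hk
  have hv2 : v ^ 2 ≤ C ^ 2 := by
    rw [← sq_abs]; exact pow_le_pow_left₀ (abs_nonneg _) hv 2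
  have hgC : 1 ≤ g * C := by rwa [div_le_iff₀ C0] at hg
  have hk1 : 1 / C ^ 2 ≤ k := by
    rw [div_le_iff₀ (by positivity)]
    apply abs_le_of_sq_le_sq' _ (by positivity) |>.2
    have e1 : 1 ≤ (g * C) ^ 2 := one_le_pow₀ hgC
    have e2 : v ^ 2 ≤ g ^ 2 * C ^ 4 := by
      have := mul_le_mul_of_nonneg_right e1 (sq_nonneg C)
      nlinarith
    have e3 : (4 : ℝ) ≤ C ^ 2 := by nlinarith
    have e4 : (16 : ℝ) ≤ C ^ 4 := by nlinarith
    have e5 : 2 * g ^ 2 + v ^ 2 ≤ 2 * g ^ 2 * C ^ 4 := by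
      have := mul_le_mul_of_nonneg_left e4 (sq_nonneg g)
      nlinarith [sq_nonneg g]
    have e6 := mul_le_mul_of_nonneg_left e5 (sq_nonneg k)
    have e7 : 2 * g ^ 2 * 1 ≤ 2 * g ^ 2 * (k * C ^ 2) ^ 2 := by nlinarith
    have := le_of_mul_le_mul_left e7 (by positivity)
    linarith
  linarith

/-- smallness of `c √λ` -/
theorem U9_small (o : OD) (c : ℝ) {η : ℝ} (hη : 0 < η) : Sm o c fun m => c * √m.l ≤ η := by
  have h1 : 0 < η / (|c| + 1) := by positivity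
  refine (Sm.le o c (a := (η / (|c| + 1)) ^ 2) (by positivity)).mono fun m _ h => ?_
  have h2 := F7cA_sqrt h1.le h
  have h3 : c * √m.l ≤ (|c| + 1) * √m.l :=
    mul_le_mul_of_nonneg_right ((le_abs_self c).trans (by linarith)) (Real.sqrt_nonneg _)
  have h4 : (|c| + 1) * √m.l ≤ (|c| + 1) * (η / (|c| + 1)) :=
    mul_le_mul_of_nonneg_left h2 (by positivity)
  rw [mul_div_cancel₀ _ (by positivity)] at h4
  linarith

/-- upper bound for the angle near the upper nucleus -/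
theorem U9_near {o : OD} {c δ μ : ℝ} {m : MD} {u : E → ℝ} (ho : o.OK) (hm : m.OK o c)
    (h : Ang m.r u δ) (hd : 8 ≤ o.d) (hI : 1 / 4 ≤ m.I) (hδ0 : 0 ≤ δ) (hδ1 : δ ≤ 2 * o.δ0)
    (hnum : o.δ0 * (3 * o.C0 ^ 4) ≤ 1) (hμ0 : 0 < μ) (hμ : ∀ x, ‖x‖ ≤ o.d + 1 → μ ≤ o.g0 x)
    (hη : c * √m.l ≤ μ / 4)
    (h8 : ∀ᵐ x, ‖x‖ ≤ o.d + 1 → 1 / 6 ≤ ‖x - o.d • ez‖ → 1 / 6 ≤ ‖x + o.d • ez‖ →
      |u x - o.θ0 x| ≤ 1 / (2 * o.C0 ^ 2)) :
    ∀ᵐ x, ‖x - o.d • ez‖ < 1 / 4 → o.g0 x / o.d ^ 3 ≤ m.r x * Real.cos (u x) := by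
  have hC := ho.C0.1
  have C0 : 0 < o.C0 := by linarith
  have hd4 : 4 ≤ o.d := by linarith
  have hr : Bl m.r := ⟨h.hr.hl, h.bd.lb⟩
  have s2 : √2 ^ 2 = (2 : ℝ) := Real.sq_sqrt (by norm_num)
  have s3 : (7 / 5 : ℝ) ≤ √2 := Real.le_sqrt_of_sq_le (by norm_num)
  have s4 : √2 ≤ (3 / 2 : ℝ) := Real.sqrt_le_iff.2 ⟨by norm_num, by norm_num⟩
  have hrb : ∀ᵐ x, ‖x - o.d • ez‖ < 1 / 4 → o.g0 x ≤ m.r x ∧ m.r x ≤ 3 * o.C0 := by
    filter_upwards [hm.pyth, hm.close.2.1] with x p1 p2 hx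
    have q1 := hμ x (U9_far hx hd4).2.1
    have q2 := abs_le.1 (hm.close.1 x).1
    have q3 := abs_le.1 p2.1
    have q4 := ho.bd x
    have q5 := abs_le.1 q4.2
    obtain ⟨n1, n2, n3, -, -⟩ := hm.nn x
    have g0 := ho.g_pos x
    have e1 : o.g0 x ≤ m.G x := by nlinarith
    have e2 : m.G x ≤ 2 * o.C0 := by nlinarith
    have e3 : m.n x ≤ o.C0 / 4 := by linarith [p2.2]
    have e4 : |m.f x| ≤ 3 / 2 * o.C0 := abs_le.2 ⟨by linarith, by linarith⟩
    constructor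
    · refine e1.trans (abs_le_of_sq_le_sq' ?_ n1).2
      nlinarith [sq_nonneg (m.f x), sq_nonneg (m.n x)]
    · refine (abs_le_of_sq_le_sq' ?_ (by positivity)).2
      have f1 : m.f x ^ 2 ≤ (3 / 2 * o.C0) ^ 2 := by
        rw [← sq_abs]; exact pow_le_pow_left₀ (abs_nonneg _) e4 2
      have f2 := pow_le_pow_left₀ n2 e2 2
      have f3 := pow_le_pow_left₀ n3 e3 2
      nlinarith
  have hα : 0 ≤ 3 * δ * o.C0 / 8 := by positivity
  have hw : Bl fun x => m.r x * m.r x := (hr.mul hr).1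
  have hw2 : Bl fun x => m.r x ^ 2 := hw.congr (Eventually.of_forall fun x => sq _)
  have hsub := WSub.add hw2.hl.aesm hw2.lb
    (U9_el h 1 (Real.pi / 2 - 1 / (2 * o.C0 ^ 2)) (ball (o.d • ez) (1 / 4)))
    ((U9_bar hm h.lp h.bd hd4 hI).smul hα)
  have hub : Bl u := ⟨h.hu, Bd.lb ⟨_, Eventually.of_forall h.bu⟩⟩
  have h1 : Bl fun _ : E => (1 : ℝ) := bl_c1 contDiff_const
  have hP : Bl fun x => 1 - 2 * ‖x - o.d • ez‖ := h1.sub ((norm_sub_bl (o.d • ez)).1.smul 2)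
  have hlb : LB fun x => (1 * u x - (Real.pi / 2 - 1 / (2 * o.C0 ^ 2))) +
      3 * δ * o.C0 / 8 * -((1 - 2 * ‖x - o.d • ez‖) / m.r x) := by
    have b1 := ((hub.smul 1).sub (bl_c1 (φ := fun _ => Real.pi / 2 - 1 / (2 * o.C0 ^ 2))
      contDiff_const)).add (((hP.div hr h.lp).1.smul (-1)).smul (3 * δ * o.C0 / 8))
    exact (b1.congr (Eventually.of_forall fun x => by ring)).lb
  have hpos := S12_lp_pos h.lp
  have hmax := U9_maxp hw2.hl.aesm hw2.lb (by filter_upwards [hpos] with x hx; positivity)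
    hsub hlb ?_ ?_
  · filter_upwards [hmax, hrb] with x p1 p2 hx
    obtain ⟨q1, q2⟩ := p2 hx
    have q3 := p1 hx
    have g0 := ho.g_pos x
    have r0 : 0 < m.r x := g0.trans_le q1
    have q4 := ho.near x (Or.inl (by linarith))
    have q5 : (1 - 2 * ‖x - o.d • ez‖) / m.r x ≤ o.C0 := by
      rw [div_le_iff₀ r0]
      rw [div_le_iff₀ C0] at q4
      nlinarith [norm_nonneg (x - o.d • ez)]
    have q6 : 3 * δ * o.C0 / 8 * o.C0 ≤ 1 / (4 * o.C0 ^ 2) := by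
      rw [le_div_iff₀ (by positivity)]
      have : δ * (3 * o.C0 ^ 4) ≤ 2 * o.δ0 * (3 * o.C0 ^ 4) :=
        mul_le_mul_of_nonneg_right hδ1 (by positivity)
      nlinarith
    have q7 := mul_le_mul_of_nonneg_left q5 hα
    have q8 : 1 / (2 * o.C0 ^ 2) = 2 * (1 / (4 * o.C0 ^ 2)) := by field_simp; ring
    have q9 : u x ≤ Real.pi / 2 - 1 / (4 * o.C0 ^ 2) := by linarith
    have u0 : 0 ≤ u x := h.u_nn x (by
      have := (U9_far hx hd4).2.2
      simp only [Hp, mem_ofPred_eq]; linarith)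
    have τ0 : 0 < 1 / (4 * o.C0 ^ 2) := by positivity
    have c1 : Real.cos (Real.pi / 2 - 1 / (4 * o.C0 ^ 2)) ≤ Real.cos (u x) :=
      Real.cos_le_cos_of_nonneg_of_le_pi u0 (by linarith [Real.pi_pos]) q9
    rw [Real.cos_pi_div_two_sub] at c1
    have c2 := Real.mul_le_sin τ0.le (by linarith)
    have c3 : 1 / 2 ≤ 2 / Real.pi := by
      rw [le_div_iff₀ Real.pi_pos]; linarith [Real.pi_le_four]
    have c4 : 1 / o.d ^ 3 ≤ 1 / 2 * (1 / (4 * o.C0 ^ 2)) := by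
      rw [one_div_mul_one_div]
      apply one_div_le_one_div_of_le (by positivity)
      have := pow_le_pow_left₀ C0.le ho.C0.2.2 2
      nlinarith [sq_nonneg o.d]
    have c5 := mul_le_mul_of_nonneg_right c3 τ0.le
    have c6 : 1 / o.d ^ 3 ≤ Real.cos (u x) := by linarith
    calc o.g0 x / o.d ^ 3 = o.g0 x * (1 / o.d ^ 3) := by ring
      _ ≤ m.r x * Real.cos (u x) := mul_le_mul q1 c6 (by positivity) r0.le
  · filter_upwards [hrb] with x p2 hx
    rw [mem_ball, dist_eq_norm] at hx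
    obtain ⟨q1, q2⟩ := p2 hx
    have r0 := (hm.nn x).1
    have e1 : Real.sin (u x) * Real.cos (u x) ≤ 1 / 2 := by
      nlinarith [Real.sin_sq_add_cos_sq (u x), sq_nonneg (Real.sin (u x) - Real.cos (u x))]
    have e2 : 0 ≤ δ * m.r x ^ 2 := by positivity
    have e3 := mul_le_mul_of_nonneg_left e1 e2
    have e4 := mul_le_mul_of_nonneg_left q2 (mul_nonneg hδ0 r0)
    nlinarith
  · filter_upwards [h8, hpos] with x p1 r0 h6 hx
    obtain ⟨f1, f2, -⟩ := U9_far hx hd4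
    have q1 := (abs_le.1 (p1 f2 h6 (by linarith))).2
    have q2 := U9_theta (by linarith : 2 ≤ o.C0) (ho.near x (Or.inl (by linarith))) (ho.bd x).2
    have q3 : 0 ≤ (1 - 2 * ‖x - o.d • ez‖) / m.r x := div_nonneg (by linarith) r0.le
    have q4 := mul_nonneg hα q3
    have q8 : 1 / o.C0 ^ 2 = 2 * (1 / (2 * o.C0 ^ 2)) := by field_simp
    simp only [OD.θ0] at q1
    linarith

theorem U9a_of (h8 : Lg fun o => ∀ c ρ ε : ℝ, 0 < ε → SmA o c fun _ u _ => ∀ᵐ x, ‖x‖ ≤ ρ →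
    1 / 6 ≤ ‖x - o.d • ez‖ → 1 / 6 ≤ ‖x + o.d • ez‖ → |u x - o.θ0 x| ≤ ε) :
    Lg fun o => ∀ c ρ : ℝ, SmA o c fun m u _ => ∀ᵐ x, ‖x‖ ≤ ρ →
    o.g0 x / o.d ^ 3 ≤ m.r x * Real.cos (u x) := by
  refine ((h8.and (num_good 4 3)).and (Lg.ge 8)).mono fun o ho ⟨⟨h8, hn⟩, hd⟩ c ρ => ?_
  have C0 : 0 < o.C0 := by linarith [ho.C0.1]
  obtain ⟨μ, μ0, hμ⟩ := F7cA_min ho.cg ho.g_pos (max ρ (o.d + 1))
  have hnum : o.δ0 * (3 * o.C0 ^ 4) ≤ 1 := by
    refine le_trans (mul_le_mul_of_nonneg_left ?_ ho.δ.1.le) hn.2.2.1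
    have := pow_le_pow_left₀ C0.le (ho.C0.2.2.trans hn.2.1) 4
    linarith
  refine ((((h8 c ρ (μ / (4 * o.C0)) (by positivity)).and
    (h8 c (o.d + 1) (1 / (2 * o.C0 ^ 2)) (by positivity))).and (SmA.le o c ho.δ.1)).and
    ((U9_small o c (η := μ / 4) (by positivity)).and
      (num_kappa o ho c 1 one_pos)).smA).mono fun m u δ hm _ ⟨⟨⟨a1, a2⟩, a3⟩, a4, a5⟩ => ?_
  have hI : 1 / 4 ≤ m.I := by nlinarith [a5.2.2.1, a5.2.2.2.2.1]
  have hδ := abs_le.1 a3.δb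
  have n1 := U9_near ho hm a3.ang hd hI (by linarith) (by linarith) hnum μ0
    (fun x hx => hμ x (hx.trans (le_max_right _ _))) a4 a2
  have n2 := mp_R.quasiMeasurePreserving.ae n1
  filter_upwards [n1, n2, a1, hm.pyth, hm.close.2.1, a3.ang.od, a3.ang.evr]
    with x p1 p2 p3 p4 p5 p6 p7 hx
  by_cases c1 : ‖x - o.d • ez‖ < 1 / 4
  · exact p1 c1
  by_cases c2 : ‖x + o.d • ez‖ < 1 / 4
  · rw [← f0b_R_add, norm_R, ho.evg, p6, p7, Real.cos_neg] at p2
    exact p2 c2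
  have q1 := p3 hx (by linarith) (by linarith)
  refine U9_away μ0 (hμ x (hx.trans (le_max_left _ _))) (ho.bd x).1 (ho.bd x).2 a4
    (hm.close.1 x).1 p5.1 (hm.nn x).1 ?_ le_rfl q1 (by linarith)
  nlinarith [p4.1, p4.2.1, sq_nonneg (m.n x)]

theorem U9b_of (h8 : Lg fun o => ∀ c ρ ε : ℝ, 0 < ε → SmA o c fun _ u _ => ∀ᵐ x, ‖x‖ ≤ ρ →
    1 / 6 ≤ ‖x - o.d • ez‖ → 1 / 6 ≤ ‖x + o.d • ez‖ → |u x - o.θ0 x| ≤ ε) :
    Lg fun o => ∀ c ρ s : ℝ, 0 < s → ∃ a : ℝ, 0 < a ∧ SmA o c fun _ u _ =>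
    ∀ᵐ x, ‖x‖ ≤ ρ → s ≤ x 2 → a ≤ u x := by
  refine (h8.and (Lg.ge 8)).mono fun o ho ⟨h8, hd⟩ c ρ s hs => ?_
  have C0 : 0 < o.C0 := by linarith [ho.C0.1]
  have hd4 : 4 ≤ o.d := by linarith
  obtain ⟨c1, c10, hc1⟩ := ho.u_low (max ρ (o.d + 1))
  have t0 : 0 < min s 1 := lt_min hs one_pos
  have a0 : 0 < Real.arctan (c1 * min s 1 / (√2 * o.C0)) := Real.arctan_pos.2 (by positivity)
  set a := Real.arctan (c1 * min s 1 / (√2 * o.C0)) with ha
  have hθ : ∀ x, ‖x‖ ≤ max ρ (o.d + 1) → min s 1 ≤ x 2 → a ≤ o.θ0 x := fun x h1 h2 => by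
    have g0 := ho.g_pos x
    have e1 := hc1 x (by simp only [Hp, mem_ofPred_eq]; linarith) h1
    have e2 := mul_le_mul_of_nonneg_left h2 c10.le
    apply Real.arctan_strictMono.monotone
    apply div_le_div₀ (by nlinarith) (by linarith) (by positivity)
    exact mul_le_mul_of_nonneg_left (ho.bd x).1 (by positivity)
  refine ⟨a / 2, by positivity, ((h8 c (max ρ (o.d + 1)) (a / 2) (by positivity)).and
    (SmA.le o c ho.δ.1)).mono fun m u δ hm _ ⟨a1, a3⟩ => ?_⟩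
  have h := a3.ang
  have hδ := abs_le.1 a3.δb
  have hδ0 : 0 ≤ δ := by linarith
  have hr : Bl m.r := ⟨h.hr.hl, h.bd.lb⟩
  have hw : Bl fun x => m.r x * m.r x := (hr.mul hr).1
  have hw2 : Bl fun x => m.r x ^ 2 := hw.congr (Eventually.of_forall fun x => sq _)
  have hub : Bl u := ⟨h.hu, Bd.lb ⟨_, Eventually.of_forall h.bu⟩⟩
  have hlb : LB fun x => (-1 * u x - -(a / 2)) :=
    ((hub.smul (-1)).sub (bl_c1 (φ := fun _ => -(a / 2)) contDiff_const)).lb
  have hpos := S12_lp_pos h.lp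
  have hmax := U9_maxp hw2.hl.aesm hw2.lb (by filter_upwards [hpos] with x hx; positivity)
    (U9_el h (-1) (-(a / 2)) (ball (o.d • ez) (1 / 4))) hlb ?_ ?_
  · filter_upwards [hmax, a1] with x p1 p2 hx h2
    by_cases c1 : ‖x - o.d • ez‖ < 1 / 4
    · linarith [p1 c1]
    have c2 : 1 / 6 ≤ ‖x + o.d • ez‖ := by
      have h3 : |(x + o.d • ez) 2| ≤ ‖x + o.d • ez‖ := by
        simpa using PiLp.norm_apply_le (x + o.d • ez) 2
      have h4 : (x + o.d • ez) 2 = x 2 + o.d := by simp [ez]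
      rw [h4] at h3
      linarith [le_abs_self (x 2 + o.d)]
    have hx' := hx.trans (le_max_left ρ (o.d + 1))
    have q1 := (abs_le.1 (p2 hx' (by linarith) c2)).1
    have q2 := hθ x hx' ((min_le_left _ _).trans h2)
    linarith
  · refine Eventually.of_forall fun x hx => ?_
    rw [mem_ball, dist_eq_norm] at hx
    have u0 : 0 ≤ u x := h.u_nn x (by
      have := (U9_far hx hd4).2.2
      simp only [Hp, mem_ofPred_eq]; linarith)
    have u1 := abs_le.1 (h.bu x)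
    have e1 := Real.sin_nonneg_of_nonneg_of_le_pi u0 (by linarith [Real.pi_pos])
    have e2 := Real.cos_nonneg_of_neg_pi_div_two_le_of_le u1.1 u1.2
    have : 0 ≤ δ * m.r x ^ 2 * Real.sin (u x) * Real.cos (u x) := by positivity
    linarith
  · filter_upwards [a1] with x p2 h6 hx
    obtain ⟨f1, f2, f3⟩ := U9_far hx hd4
    have hx' := f2.trans (le_max_right ρ (o.d + 1))
    have q1 := (abs_le.1 (p2 hx' h6 (by linarith))).1
    have q2 := hθ x hx' ((min_le_right _ _).trans f3)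
    linarith

end

end Crest.Agent.R335
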