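import Crest.Agent.R335.U3
import Crest.Agent.R335.F7c
import Crest.Agent.R335.Y3
import Crest.Agent.R335.U8Aux9
import Crest.Agent.R335.U8Aux1

set_option autoImplicit false

open MeasureTheory Set Filter Topology Metric
open scoped Gradient ContDiff RealInnerProductSpace ENNReal

namespace Crest.Agent.R335

noncomputable section

theorem U8b_Dm {o : OD} {c : ℝ} {m : MD} (hm : m.OK o c) (hκ : 99 / 100 ≤ m.κ) (x : E) :
    m.Dm x ≤ jb x := by
  have j1 := (jb_facts x).1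
  have a1 : (2 - 2 * m.l) / m.κ - 2 ≤ 1 := by
    have : (2 - 2 * m.l) / m.κ ≤ 3 := by
      rw [div_le_iff₀ (by linarith)]
      linarith [hm.l0.1]
    linarith
  have a2 : jb x ^ ((2 - 2 * m.l) / m.κ - 2) ≤ jb x := by
    simpa using Real.rpow_le_rpow_of_exponent_le j1 a1
  have a3 : Real.exp (-(m.κ * jb x) + 0 / √(jb x)) ≤ 1 := by
    rw [zero_div, add_zero, Real.exp_le_one_iff, neg_nonpos]
    exact mul_nonneg (by linarith) (by linarith)
  change jb x ^ ((2 - 2 * m.l) / m.κ - 2) * Real.exp (-(m.κ * jb x) + 0 / √(jb x)) ≤ jb x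
  exact (mul_le_of_le_one_right (Real.rpow_nonneg (by linarith) _) a3).trans a2

theorem U8b_Dr {o : OD} {c Γ : ℝ} {m : MD} (hm : m.OK o c) (hκ : 99 / 100 ≤ m.κ) (hF : FD o m Γ)
    (ρ : ℝ) : ∀ᵐ x, x ∈ o.away → ‖x‖ ≤ ρ → ‖D m.r x‖ ≤ 2 * (Γ * (ρ + 1) ^ 2) := by
  have hh := hm.sf.h1.hyp hm.h1.2.2.2.1
  have e : ∀ᵐ x, m.r x = √(m.f x ^ 2 + m.g x ^ 2) := by
    filter_upwards [hm.pyth] with x hx
    rw [← hx.2.1, Real.sqrt_sq (hm.nn x).1]
  filter_upwards [D_congr e, hh.2.2, hF.df] with x b1 b2 b3 hx hρ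
  obtain ⟨c1, c2⟩ := b3 hx
  obtain ⟨j1, -, j2, -⟩ := jb_facts x
  have d1 := U8b_Dm hm hκ x
  have d0 : 0 < m.Dm x := (radb_facts _ _ _ x).1
  have z1 : |x 2| ≤ ‖x‖ := by simpa using PiLp.norm_apply_le x 2
  have hΓ : 0 ≤ Γ := by linarith [hF.Γ1]
  have n0 := norm_nonneg x
  have f1 : (1 + |x 2|) * m.Dm x ≤ (ρ + 1) ^ 2 := by
    rw [sq]
    exact mul_le_mul (by linarith) (by linarith) d0.le (by linarith)
  have f2 : m.Dm x / jb x ≤ (ρ + 1) ^ 2 := by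
    have : m.Dm x / jb x ≤ 1 := (div_le_one (by linarith)).2 d1
    nlinarith
  have g1 := c1.trans (mul_le_mul_of_nonneg_left f1 hΓ)
  rw [mul_div_assoc] at c2
  have g2 := c2.trans (mul_le_mul_of_nonneg_left f2 hΓ)
  rw [b1]
  have p0 : 0 ≤ Γ * (ρ + 1) ^ 2 := by positivity
  refine (abs_le_of_sq_le_sq' (b2.trans ?_) (by linarith)).2
  have g3 := pow_le_pow_left₀ (norm_nonneg _) g1 2
  have g4 := pow_le_pow_left₀ (norm_nonneg _) g2 2
  nlinarith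

theorem U8 : Lg fun o => ∀ c ρ ε : ℝ, 0 < ε → SmA o c fun _ u _ => ∀ᵐ x, ‖x‖ ≤ ρ →
    1 / 6 ≤ ‖x - o.d • ez‖ → 1 / 6 ≤ ‖x + o.d • ez‖ → |u x - o.θ0 x| ≤ ε := by
  refine F_FD.mono fun o ho hF c ρ ε hε => ?_
  obtain ⟨Γ, hΓ⟩ := hF c
  have hK : IsCompact (closedBall (0 : E) (|ρ| + 1)) := isCompact_closedBall _ _
  obtain ⟨x₁, -, hx₁⟩ := hK.exists_isMinOn ⟨0, mem_closedBall_self (by positivity)⟩
    ho.cg.continuousOn
  set g₁ := o.g0 x₁ with hg₁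
  have g0 : 0 < g₁ := ho.g_pos x₁
  have hg : ∀ x ∈ closedBall (0 : E) (|ρ| + 1), g₁ ≤ o.g0 x := fun x hx => hx₁ hx
  have s2 : (7 / 5 : ℝ) ≤ √2 := Real.le_sqrt_of_sq_le (by norm_num)
  have hθ : Continuous o.θ0 :=
    Real.continuous_arctan.comp (ho.cu.div (continuous_const.mul ho.cg) fun x =>
      (mul_pos (by linarith) (ho.g_pos x)).ne')
  obtain ⟨η, hη, hθη⟩ := Metric.uniformContinuousOn_iff.1
    (hK.uniformContinuousOn_of_continuous hθ.continuousOn) (ε / 4) (by positivity)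
  set B := 2 * (|Γ| * (|ρ| + 1 + 1) ^ 2) / g₁ + 1 with hB
  have B0 : 0 < B := by positivity
  obtain ⟨a, ha, a1, a2, a3, a4⟩ : ∃ a : ℝ, 0 < a ∧ a ≤ 1 / 200 ∧ a ≤ η / 2 ∧ a ≤ 1 / (4 * B) ∧
      a ≤ ε / 16 :=
    ⟨min (min (1 / 200) (η / 2)) (min (1 / (4 * B)) (ε / 16)), by positivity,
      (min_le_left _ _).trans (min_le_left _ _), (min_le_left _ _).trans (min_le_right _ _),
      (min_le_right _ _).trans (min_le_left _ _), (min_le_right _ _).trans (min_le_right _ _)⟩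
  have haB : 4 * a * B ≤ 1 := by
    rw [le_div_iff₀ (by positivity)] at a3
    linarith
  obtain ⟨C, hC, H⟩ := U8a_loc a B ha B0.le haB
  set ε' := min 1 ((g₁ * ε / (16 * C)) ^ 2) with hε'
  refine ⟨ε', by positivity, ((hΓ.and (num_kappa o ho c 1 one_pos)).and
    (Sm.le o c (a := (g₁ / (5 * (|c| + 1))) ^ 2) (by positivity))).mono ?_⟩
  rintro m hm ⟨⟨hFD, hκ⟩, hl⟩ u δ hu
  have hδ : |δ| ≤ 2 := by
    have e1 := abs_le.1 (hu.δb.trans (min_le_left _ _))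
    have e2 : o.δ0 ≤ 1 := ho.δ.2.trans (Real.exp_le_one_iff.2 (by linarith [ho.C0.1, ho.C0.2.2]))
    exact abs_le.2 ⟨by linarith [ho.δ.1], by linarith⟩
  have hc : c * √m.l ≤ g₁ / 5 := by
    have e1 : √m.l ≤ g₁ / (5 * (|c| + 1)) := Real.sqrt_le_iff.2 ⟨by positivity, hl⟩
    rw [le_div_iff₀ (by positivity)] at e1
    have e2 := mul_le_mul_of_nonneg_right (le_abs_self c) (Real.sqrt_nonneg m.l)
    linarith [Real.sqrt_nonneg m.l]
  have hr : ∀ᵐ x, x ∈ closedBall (0 : E) (|ρ| + 1) → g₁ ≤ m.r x := by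
    filter_upwards [hm.pyth, hm.close.2.1] with x b1 b2 hx
    have e1 : m.G x ≤ m.r x := by
      refine (abs_le_of_sq_le_sq' ?_ (hm.nn x).1).2
      rw [b1.2.1, b1.1]
      linarith [sq_nonneg (m.f x), sq_nonneg (m.n x)]
    have e2 := (abs_le.1 b2.1).1
    have e3 := hg x hx
    have e4 := mul_le_mul_of_nonneg_right s2 (ho.g_pos x).le
    linarith
  have hrb : Bl m.r := ⟨hu.ang.hr.hl, hu.ang.bd.lb⟩
  have hub : Bl u := ⟨hu.ang.hu, Bd.lb ⟨_, .of_forall hu.ang.bu⟩⟩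
  have i1 : Integrable fun x => (m.r x * Real.cos (u x) - √2 * o.g0 x) ^ 2 :=
    (hu.ang.hφ.l2.sub (ho.sg.h1.l2.const_mul _)).integrable_sq
  have i2 : Integrable fun x => (m.r x * Real.sin (u x) - o.u0 x) ^ 2 :=
    (hu.ang.hψ.l2.sub ho.su.h1.l2).integrable_sq
  -- the local statement
  have key : ∀ σ : ℝ, |σ| = 1 → ∀ x₀ : E, ‖x₀‖ ≤ ρ → 1 / 6 ≤ ‖x₀ - o.d • ez‖ →
      1 / 6 ≤ ‖x₀ + o.d • ez‖ → ∀ᵐ x, x ∈ ball x₀ a → σ * (u x - o.θ0 x) ≤ ε := by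
    intro σ hσ x₀ b1 b2 b3
    have hsub : ∀ x ∈ ball x₀ (2 * a), x ∈ closedBall (0 : E) (|ρ| + 1) ∧ x ∈ o.away ∧
        |σ * o.θ0 x - σ * o.θ0 x₀| ≤ ε / 4 := by
      intro x hx
      have e1 := mem_ball_iff_norm.1 hx
      have e2 : ‖x‖ ≤ ‖x₀‖ + ‖x - x₀‖ := norm_le_insert' _ _
      have e3 : ‖x₀ - o.d • ez‖ ≤ ‖x - o.d • ez‖ + ‖x - x₀‖ := by
        have : x₀ - o.d • ez = (x - o.d • ez) - (x - x₀) := by abel
        rw [this]; exact norm_sub_le _ _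
      have e4 : ‖x₀ + o.d • ez‖ ≤ ‖x + o.d • ez‖ + ‖x - x₀‖ := by
        have : x₀ + o.d • ez = (x + o.d • ez) - (x - x₀) := by abel
        rw [this]; exact norm_sub_le _ _
      have e5 := le_abs_self ρ
      have e6 : x ∈ closedBall (0 : E) (|ρ| + 1) := mem_closedBall_zero_iff.2 (by linarith)
      refine ⟨e6, ⟨by linarith, by linarith⟩, ?_⟩
      rw [← mul_sub, abs_mul, hσ, one_mul]
      exact (hθη x e6 x₀ (mem_closedBall_zero_iff.2 (by linarith))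
        (by rw [dist_eq_norm]; linarith)).le
    have h1 := H m.r (fun x => σ * u x) x₀ (σ * o.θ0 x₀ + ε / 4) hrb hu.ang.lp (hub.smul σ)
      (U8a_sub hu.ang hδ hσ.le _) (by
        filter_upwards [U8b_Dr hm hκ.2.2.1 hFD (|ρ| + 1), hr] with x c1 c2 hx
        obtain ⟨d1, d2, -⟩ := hsub x hx
        have e1 := c1 d2 (mem_closedBall_zero_iff.1 d1)
        have e2 := mul_le_mul_of_nonneg_left (c2 d1) B0.le
        have e3 : B * g₁ = 2 * (|Γ| * (|ρ| + 1 + 1) ^ 2) + g₁ := by rw [hB]; field_simp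
        have e4 := mul_le_mul_of_nonneg_right (le_abs_self Γ) (sq_nonneg (|ρ| + 1 + 1))
        linarith)
    have h2 : ∫ y in ball x₀ (2 * a), max (σ * u y - (σ * o.θ0 x₀ + ε / 4)) 0 ^ 2 ≤
        (ε / (4 * C)) ^ 2 := by
      have e1 : ∫ y in ball x₀ (2 * a), max (σ * u y - (σ * o.θ0 x₀ + ε / 4)) 0 ^ 2 ≤
          ∫ y in ball x₀ (2 * a), 16 / g₁ ^ 2 * ((m.r y * Real.cos (u y) - √2 * o.g0 y) ^ 2 +
            (m.r y * Real.sin (u y) - o.u0 y) ^ 2) := by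
        refine integral_mono_of_nonneg (.of_forall fun y => sq_nonneg _)
          ((i1.add i2).const_mul _).integrableOn ?_
        filter_upwards [ae_restrict_mem measurableSet_ball] with y hy
        obtain ⟨d1, -, d3⟩ := hsub y hy
        have f1 := U8a_ang (b := o.u0 y) (hm.nn y).1 (hu.ang.bu y)
          (mul_pos (by linarith : (0 : ℝ) < √2) (ho.g_pos y))
        have f2 : max (σ * u y - (σ * o.θ0 x₀ + ε / 4)) 0 ≤ |u y - o.θ0 y| := by
          refine max_le ?_ (abs_nonneg _)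
          have f3 : σ * (u y - o.θ0 y) ≤ |u y - o.θ0 y| := by
            refine (le_abs_self _).trans ?_
            rw [abs_mul, hσ, one_mul]
          linarith [(abs_le.1 d3).2]
        have f3 := pow_le_pow_left₀ (le_max_right _ _) f2 2
        rw [sq_abs] at f3
        have f4 : g₁ ≤ √2 * o.g0 y := by
          have := mul_le_mul_of_nonneg_right s2 (ho.g_pos y).le
          linarith [hg y d1]
        have f5 := mul_le_mul_of_nonneg_right (pow_le_pow_left₀ g0.le f4 2)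
          (sq_nonneg (u y - o.θ0 y))
        refine f3.trans ?_
        rw [div_mul_eq_mul_div, le_div_iff₀ (by positivity), mul_comm]
        exact f5.trans f1
      have e2 : ∫ y in ball x₀ (2 * a), 16 / g₁ ^ 2 * ((m.r y * Real.cos (u y) - √2 * o.g0 y) ^ 2 +
            (m.r y * Real.sin (u y) - o.u0 y) ^ 2) ≤
          ∫ y, 16 / g₁ ^ 2 * ((m.r y * Real.cos (u y) - √2 * o.g0 y) ^ 2 +
            (m.r y * Real.sin (u y) - o.u0 y) ^ 2) :=
        setIntegral_le_integral ((i1.add i2).const_mul _) (.of_forall fun y => by positivity)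
      rw [integral_const_mul (μ := volume), integral_add i1 i2] at e2
      have e3 := mul_le_mul_of_nonneg_left (hu.cl.trans (min_le_right _ _))
        (by positivity : 0 ≤ 16 / g₁ ^ 2)
      have e4 : 16 / g₁ ^ 2 * (g₁ * ε / (16 * C)) ^ 2 ≤ (ε / (4 * C)) ^ 2 := by
        apply le_of_eq
        field_simp
        norm_num
      exact e1.trans (e2.trans (e3.trans e4))
    have h3 : C * √(∫ y in ball x₀ (2 * a), max (σ * u y - (σ * o.θ0 x₀ + ε / 4)) 0 ^ 2) ≤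
        ε / 4 := by
      have e1 := mul_le_mul_of_nonneg_left
        (Real.sqrt_le_iff.2 ⟨by positivity, h2⟩) hC.le
      have e2 : C * (ε / (4 * C)) = ε / 4 := by field_simp
      linarith
    filter_upwards [h1] with x hx hxa
    have e1 := hx hxa
    obtain ⟨-, -, d3⟩ := hsub x (ball_subset_ball (by linarith) hxa)
    have e2 : a ^ 2 ≤ ε / 16 := by nlinarith
    linarith [(abs_le.1 d3).1]
  refine measure_null_of_locally_null _ fun x₀ hx₀ => ?_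
  have hx₀' : ¬(‖x₀‖ ≤ ρ → 1 / 6 ≤ ‖x₀ - o.d • ez‖ → 1 / 6 ≤ ‖x₀ + o.d • ez‖ →
      |u x₀ - o.θ0 x₀| ≤ ε) := hx₀
  push Not at hx₀'
  obtain ⟨b1, b2, b3, -⟩ := hx₀'
  refine ⟨_, inter_mem_nhdsWithin _ (ball_mem_nhds x₀ ha), ?_⟩
  have k := (key 1 abs_one x₀ b1 b2 b3).and (key (-1) (by simp) x₀ b1 b2 b3)
  refine measure_mono_null (fun x hx => ?_) (ae_iff.1 k)
  refine fun hk => hx.1 fun _ _ _ => ?_
  exact abs_le.2 ⟨by linarith [hk.2 hx.2], by linarith [hk.1 hx.2]⟩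
theorem U9a : Lg fun o => ∀ c ρ : ℝ, SmA o c fun m u _ => ∀ᵐ x, ‖x‖ ≤ ρ →
    o.g0 x / o.d ^ 3 ≤ m.r x * Real.cos (u x) := by
  exact U9a_of U8
theorem U9b : Lg fun o => ∀ c ρ s : ℝ, 0 < s → ∃ a : ℝ, 0 < a ∧ SmA o c fun _ u _ =>
    ∀ᵐ x, ‖x‖ ≤ ρ → s ≤ x 2 → a ≤ u x := by
  exact U9b_of U8

end

end Crest.Agent.R335
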